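import Vale.Agent.P347.Interface

/-!
P347, towards `γ_* = 0`: posteriors of a Gaussian prior under a convex tilt, the mean gradient,
coordinate tensors and the laws along the exact flow.
-/

namespace Vale.Agent.P347.Gamma0

open MeasureTheory ProbabilityTheory
open scoped RealInnerProductSpace

variable {d : ℕ}

/-- The posterior `∝ exp (-‖x-c‖²/2r - ε U x)`. -/
noncomputable def post (U : E d → ℝ) (ε r : ℝ) (c : E d) : Measure (E d) :=
  gibbs fun x => ‖x - c‖ ^ 2 / (2 * r) + ε * U x

/-- The posterior mean gradient `G_r`. -/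
noncomputable def G (U : E d → ℝ) (g : E d → E d) (ε r : ℝ) (c : E d) : E d :=
  ∫ x, g x ∂post U ε r c

/-- `-log P_r e^{-εU}`; its gradient is `ε G_r`. -/
noncomputable def nW (U : E d → ℝ) (ε r : ℝ) (c : E d) : ℝ :=
  -Real.log (∫ u, Real.exp (-(ε * U (c + Real.sqrt r • u))) ∂gam d)

/-- The potential of the law of `w = (y - c)/q` along the flow from `(τ, c)`. -/
noncomputable def psi (U : E d → ℝ) (ε τ : ℝ) (c : E d) (q : ℝ) (w : E d) : ℝ :=
  ‖w‖ ^ 2 / 2 + nW U ε (τ - q ^ 2) (c + q • w)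

/-- The velocity of the exact flow. -/
noncomputable def vel (U : E d → ℝ) (g : E d → E d) (ε τ : ℝ) (c : E d) (q : ℝ) (w : E d) : E d :=
  -(ε • G U g ε (τ - q ^ 2) (c + q • w))

/-- A standard basis vector. -/
noncomputable def bv (i : Fin d) : E d := EuclideanSpace.single i 1

/-- Coordinate tensors with `m` legs. -/
abbrev Tens (d m : ℕ) := (Fin m → Fin d) → ℝ

/-- The Hilbert-Schmidt norm of an array. -/
noncomputable def hs {ι : Type*} [Fintype ι] (T : ι → ℝ) : ℝ := Real.sqrt (∑ i, T i ^ 2)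

/-- Every flattening with both sides nonempty has operator norm at most `C`. -/
def FlatLe {m : ℕ} (C : ℝ) (T : Tens d m) : Prop :=
  ∀ S : Finset (Fin m), S.Nonempty → Sᶜ.Nonempty →
    ∀ (M : ({x // x ∈ S} → Fin d) → ℝ) (N : ({x // x ∈ Sᶜ} → Fin d) → ℝ),
      |∑ i : Fin m → Fin d, T i * M (fun x => i x) * N (fun x => i x)| ≤ C * hs M * hs N

/-- The `m`-th derivative of a vector function; leg `0` is the value. -/
noncomputable def derivT (m : ℕ) (f : E d → E d) (x : E d) : Tens d (m + 1) :=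
  fun i => iteratedFDeriv ℝ m f x (fun j => bv (i j.succ)) (i 0)

/-- The Laplacian of a vector function. -/
noncomputable def lap (f : E d → E d) (x : E d) : E d :=
  ∑ i, iteratedFDeriv ℝ 2 f x ![bv i, bv i]

/-- The divergence. -/
noncomputable def dvg (f : E d → E d) (x : E d) : ℝ := ∑ i, fderiv ℝ f x (bv i) i

/-- The adjoint `δ` of the gradient in `L² (gibbs Ψ)`. -/
noncomputable def delta (gΨ : E d → E d) (f : E d → E d) (x : E d) : ℝ :=
  ⟪gΨ x, f x⟫ - dvg f x

/-- `φ` is a test function for `W₁`. -/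
def Lip1 (φ : E d → ℝ) : Prop := LipschitzWith 1 φ

end Vale.Agent.P347.Gamma0
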