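import Vale.Agent.P347.Gamma0.ExpFam
import Vale.Agent.P347.Gamma0.Defs

/-!
P347, towards `γ* = 0`, piece A1: Appell polynomials of the family `∝ exp (⟪θ, x⟫ - s‖x‖²/2 - εU)`.
The `k`-th `θ`-derivative of an expectation is an expectation against the `k`-th polynomial, whose
`L²` norm is bounded by Poincaré, independently of the dimension.
-/

namespace Vale.Agent.P347.Gamma0

open MeasureTheory Filter Topology
open scoped RealInnerProductSpace ContDiff

variable {d : ℕ} {U : E d → ℝ} {g : E d → E d} {ε : ℝ}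

/-- A tensor of every order. -/
abbrev Coeffs (d : ℕ) := ∀ k, (Fin k → Fin d) → ℝ

/-- Fix the first index. -/
def shift (v : Fin d) (c : Coeffs d) : Coeffs d := fun k idx => c (k + 1) (Fin.cons v idx)

/-- The Appell polynomial with constant parts `c`. -/
noncomputable def app : Coeffs d → ∀ k, (Fin k → Fin d) → E d → ℝ
  | c, 0, idx, _ => c 0 idx
  | c, k + 1, idx, x =>
      x (idx 0) * app c k (Fin.tail idx) x + app (shift (idx 0) c) k (Fin.tail idx) x

lemma obs_app : ∀ (k : ℕ) (c : Coeffs d) (idx : Fin k → Fin d), Obs (app c k idx)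
  | 0, c, idx => Obs.const _
  | k + 1, c, idx => by
    have h := ((Obs.coord (idx 0)).mul (obs_app k c (Fin.tail idx))).add
      (obs_app k (shift (idx 0) c) (Fin.tail idx))
    exact h

lemma app_smul : ∀ (k : ℕ) (a : ℝ) (c : Coeffs d) (idx : Fin k → Fin d) (x : E d),
    app (a • c) k idx x = a * app c k idx x
  | 0, a, c, idx, x => by simp [app]
  | k + 1, a, c, idx, x => by
    simp only [app]
    rw [app_smul k, show shift (idx 0) (a • c) = a • shift (idx 0) c from rfl, app_smul k]
    ring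

/-! ### The `x`-gradient -/

lemma hasFDerivAt_app (u : Fin d) : ∀ (k : ℕ) (c : Coeffs d) (idx : Fin (k + 1) → Fin d) (x : E d),
    ∃ D : E d →L[ℝ] ℝ, HasFDerivAt (app c (k + 1) idx) D x ∧
      D (bv u) = ∑ i : Fin (k + 1), if idx i = u then app c k (i.removeNth idx) x else 0
  | 0, c, idx, x => by
    refine ⟨c 0 (Fin.tail idx) • (PiLp.proj 2 (fun _ : Fin d => ℝ) (idx 0)), ?_, ?_⟩
    · refine (((PiLp.proj 2 (fun _ : Fin d => ℝ) (idx 0)).hasFDerivAt.mul_const
        (c 0 (Fin.tail idx))).add_const (shift (idx 0) c 0 (Fin.tail idx))).congr_of_eventuallyEq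
        (Eventually.of_forall fun y => ?_)
      simp [app]
    · have e : (Fin.tail idx) = (0 : Fin 1).removeNth idx := funext fun j => j.elim0
      simp only [app, ContinuousLinearMap.smul_apply, bv, PiLp.proj_apply,
        smul_eq_mul]
      simp only [Fin.sum_univ_succ, Fin.sum_univ_zero, add_zero, ← e]
      by_cases h : idx 0 = u <;> simp [h, EuclideanSpace.single_apply]
  | k + 1, c, idx, x => by
    obtain ⟨D1, h1, e1⟩ := hasFDerivAt_app u k c (Fin.tail idx) x
    obtain ⟨D2, h2, e2⟩ := hasFDerivAt_app u k (shift (idx 0) c) (Fin.tail idx) x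
    set P : E d →L[ℝ] ℝ := PiLp.proj 2 (fun _ : Fin d => ℝ) (idx 0) with hP
    refine ⟨(x (idx 0) • D1 + app c (k + 1) (Fin.tail idx) x • P) + D2, ?_, ?_⟩
    · exact ((P.hasFDerivAt.mul h1).add h2).congr_of_eventuallyEq
        (Eventually.of_forall fun y => by simp [app, hP])
    · have hP1 : P (bv u) = if idx 0 = u then 1 else 0 := by
        simp [hP, bv, PiLp.proj_apply, Pi.single_apply]
      rw [Fin.sum_univ_succ (n := k + 1)]
      simp only [ContinuousLinearMap.add_apply, ContinuousLinearMap.smul_apply, smul_eq_mul, hP1,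
        e1, e2, Fin.removeNth_zero]
      have hs : ∀ j : Fin (k + 1),
          (if idx j.succ = u then app c (k + 1) (j.succ.removeNth idx) x else 0)
            = x (idx 0) * (if Fin.tail idx j = u then app c k (j.removeNth (Fin.tail idx)) x else 0)
              + (if Fin.tail idx j = u then
                  app (shift (idx 0) c) k (j.removeNth (Fin.tail idx)) x else 0) := by
        intro j
        have h0 : (j.succ.removeNth idx) 0 = idx 0 := by simp [Fin.removeNth]
        have ht : Fin.tail (j.succ.removeNth idx) = j.removeNth (Fin.tail idx) := funext fun l => by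
          simp [Fin.removeNth, Fin.tail]
        by_cases h : idx j.succ = u
        · simp only [if_pos h, if_pos (show Fin.tail idx j = u from h)]
          rw [app, h0, ht]
        · simp [if_neg h, if_neg (show ¬ Fin.tail idx j = u from h)]
      simp only [hs, Finset.sum_add_distrib, ← Finset.mul_sum]
      split_ifs <;> ring

/-- The pairing of the polynomials of order `k` with a tensor. -/
noncomputable def pairing (c : Coeffs d) (k : ℕ) (T : (Fin k → Fin d) → ℝ) (x : E d) : ℝ :=
  ∑ idx, T idx * app c k idx x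

/-- Put `u` in slot `i`. -/
def plug {k : ℕ} (T : (Fin (k + 1) → Fin d) → ℝ) (i : Fin (k + 1)) (u : Fin d) :
    (Fin k → Fin d) → ℝ :=
  fun idx => T (i.insertNth u idx)

lemma obs_pairing (c : Coeffs d) (k : ℕ) (T : (Fin k → Fin d) → ℝ) : Obs (pairing c k T) :=
  Obs.sum _ fun idx _ => (Obs.const _).mul (obs_app k c idx)

/-- The gradient of `pairing`. -/
noncomputable def pairingGrad (c : Coeffs d) (k : ℕ) (T : (Fin (k + 1) → Fin d) → ℝ) (x : E d) :
    E d :=
  WithLp.toLp 2 fun u => ∑ i, pairing c k (plug T i u) x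

lemma sum_slot {k : ℕ} (i : Fin (k + 1)) (u : Fin d) (F : (Fin (k + 1) → Fin d) → ℝ) :
    ∑ idx, (if idx i = u then F idx else 0) = ∑ idx' : Fin k → Fin d, F (i.insertNth u idx') := by
  rw [← Equiv.sum_comp (Fin.insertNthEquiv (fun _ => Fin d) i), Fintype.sum_prod_type]
  simp [Fin.insertNthEquiv]

lemma hasGradientAt_pairing (c : Coeffs d) (k : ℕ) (T : (Fin (k + 1) → Fin d) → ℝ) (x : E d) :
    HasGradientAt (pairing c (k + 1) T) (pairingGrad c k T x) x := by
  have hdiff : ∀ idx, DifferentiableAt ℝ (app c (k + 1) idx) x := by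
    intro idx
    rcases Nat.eq_zero_or_pos d with h | h
    · subst h; exact (idx 0).elim0
    · obtain ⟨D, hD, -⟩ := hasFDerivAt_app ⟨0, h⟩ k c idx x
      exact hD.differentiableAt
  rw [hasGradientAt_iff_hasFDerivAt]
  have hsum : HasFDerivAt (pairing c (k + 1) T)
      (∑ idx, T idx • fderiv ℝ (app c (k + 1) idx) x) x :=
    HasFDerivAt.fun_sum fun idx _ => (hdiff idx).hasFDerivAt.const_mul (T idx)
  refine hsum.congr_fderiv ?_
  refine ContinuousLinearMap.coe_inj.1 ((EuclideanSpace.basisFun (Fin d) ℝ).toBasis.ext fun u => ?_)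
  have hu : ∀ idx, fderiv ℝ (app c (k + 1) idx) x (bv u)
      = ∑ i : Fin (k + 1), if idx i = u then app c k (i.removeNth idx) x else 0 := by
    intro idx
    obtain ⟨D, hD, e⟩ := hasFDerivAt_app u k c idx x
    rw [hD.fderiv, e]
  simp only [OrthonormalBasis.coe_toBasis, EuclideanSpace.basisFun_apply, ContinuousLinearMap.coe_coe,
    InnerProductSpace.toDual_apply_apply, ContinuousLinearMap.coe_sum', Finset.sum_apply,
    ContinuousLinearMap.smul_apply, smul_eq_mul, EuclideanSpace.inner_single_right,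
    pairingGrad, conj_trivial, one_mul]
  change ∑ idx, T idx * fderiv ℝ (app c (k + 1) idx) x (bv u) = _
  simp only [hu, Finset.mul_sum, mul_ite, mul_zero]
  rw [Finset.sum_comm]
  refine Finset.sum_congr rfl fun i _ => ?_
  rw [sum_slot i u fun idx => T idx * app c k (i.removeNth idx) x]
  simp [pairing, plug, Fin.removeNth_insertNth]

/-! ### Differentiation in `θ` -/

/-- A smooth family of coefficients. -/
def SmoothCoeffs (c : E d → Coeffs d) : Prop :=
  ∀ k idx, ContDiff ℝ ∞ fun θ => c θ k idx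

/-- The directional derivative of a family of coefficients. -/
noncomputable def dCoeffs (v : E d) (c : E d → Coeffs d) (θ : E d) : Coeffs d :=
  fun k idx => fderiv ℝ (fun θ => c θ k idx) θ v

lemma numDeriv_apply_inl (U : E d → ℝ) (ε : ℝ) (φ : E d → ℝ) (p : E d × ℝ) (v : Fin d) :
    numDeriv U ε φ p (bv v, 0) = num U ε (fun x => φ x * x v) p := by
  simp [numDeriv, bv, PiLp.proj_apply, Pi.single_apply]

lemma hasFDerivAt_num_theta (hU : Pot U g) (hε : 0 ≤ ε) {s : ℝ} (hs : 0 < s) {φ : E d → ℝ}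
    (hφ : Obs φ) (θ : E d) :
    HasFDerivAt (fun θ => num U ε φ (θ, s))
      ((numDeriv U ε φ (θ, s)).comp (ContinuousLinearMap.inl ℝ (E d) ℝ)) θ :=
  HasFDerivAt.comp (g := num U ε φ) θ (hasFDerivAt_num hU hε hφ (p := (θ, s)) hs)
    (hasFDerivAt_prodMk_left θ s)

lemma num_app_succ (hU : Pot U g) (hε : 0 ≤ ε) {s : ℝ} (hs : 0 < s) {φ : E d → ℝ} (hφ : Obs φ)
    (θ : E d) (c : Coeffs d) (k : ℕ) (idx : Fin (k + 1) → Fin d) :
    num U ε (fun x => φ x * app c (k + 1) idx x) (θ, s)
      = num U ε (fun x => φ x * x (idx 0) * app c k (Fin.tail idx) x) (θ, s)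
        + num U ε (fun x => φ x * app (shift (idx 0) c) k (Fin.tail idx) x) (θ, s) := by
  simp only [num]
  rw [← integral_add (integrable_num hU hε (p := (θ, s)) hs
      ((hφ.mul (Obs.coord _)).mul (obs_app k c _)))
    (integrable_num hU hε (p := (θ, s)) hs (hφ.mul (obs_app k _ _)))]
  exact integral_congr_ae (ae_of_all _ fun x => by simp only [app]; ring)

lemma hasFDerivAt_num_app (hU : Pot U g) (hε : 0 ≤ ε) {s : ℝ} (hs : 0 < s) :
    ∀ (k : ℕ) {φ : E d → ℝ}, Obs φ → ∀ (c : E d → Coeffs d), SmoothCoeffs c →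
      ∀ (idx : Fin k → Fin d) (θ : E d), ∃ D : E d →L[ℝ] ℝ,
        HasFDerivAt (fun θ => num U ε (fun x => φ x * app (c θ) k idx x) (θ, s)) D θ ∧
        ∀ v, D (bv v) = num U ε (fun x => φ x * x v * app (c θ) k idx x) (θ, s)
          + num U ε (fun x => φ x * app (dCoeffs (bv v) c θ) k idx x) (θ, s)
  | 0, φ, hφ, c, hc, idx, θ => by
    have hconst : ∀ (ψ : E d → ℝ) (a : ℝ) (θ : E d),
        num U ε (fun x => ψ x * a) (θ, s) = a * num U ε ψ (θ, s) := by
      intro ψ a θ
      simp only [num, ← integral_const_mul]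
      exact integral_congr_ae (ae_of_all _ fun x => by ring)
    refine ⟨_, (((hc 0 idx).differentiable (by simp)) θ).hasFDerivAt.mul
      (hasFDerivAt_num_theta hU hε hs hφ θ) |>.congr_of_eventuallyEq
        (Eventually.of_forall fun θ' => by simp only [app]; exact hconst _ _ _), fun v => ?_⟩
    simp only [ContinuousLinearMap.add_apply, ContinuousLinearMap.smul_apply,
      ContinuousLinearMap.comp_apply, ContinuousLinearMap.inl_apply, numDeriv_apply_inl, smul_eq_mul,
      app, hconst, dCoeffs]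
    ring
  | k + 1, φ, hφ, c, hc, idx, θ => by
    have hc' : SmoothCoeffs fun θ => shift (idx 0) (c θ) := fun l j => hc (l + 1) _
    obtain ⟨D1, h1, e1⟩ := hasFDerivAt_num_app hU hε hs k (hφ.mul (Obs.coord (idx 0))) c hc
      (Fin.tail idx) θ
    obtain ⟨D2, h2, e2⟩ := hasFDerivAt_num_app hU hε hs k hφ _ hc' (Fin.tail idx) θ
    refine ⟨D1 + D2, (h1.add h2).congr_of_eventuallyEq
      (Eventually.of_forall fun θ' => num_app_succ hU hε hs hφ θ' _ k idx), fun v => ?_⟩
    rw [ContinuousLinearMap.add_apply, e1, e2, num_app_succ hU hε hs (hφ.mul (Obs.coord v)) θ,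
      num_app_succ hU hε hs hφ θ]
    have e3 : dCoeffs (bv v) (fun θ => shift (idx 0) (c θ)) θ
        = shift (idx 0) (dCoeffs (bv v) c θ) := rfl
    have e4 : (fun x => φ x * x (idx 0) * x v * app (c θ) k (Fin.tail idx) x)
        = fun x => φ x * x v * x (idx 0) * app (c θ) k (Fin.tail idx) x :=
      funext fun x => by ring
    rw [e3, e4]
    ring

/-- The constant parts of the Appell polynomials of the member `(θ, s)`. -/
noncomputable def invCoeffs (U : E d → ℝ) (ε s : ℝ) (θ : E d) : Coeffs d := fun k idx =>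
  iteratedFDeriv ℝ k (fun θ => (num U ε (fun _ => 1) (θ, s))⁻¹) θ (bv ∘ idx)

lemma contDiff_num_theta (hU : Pot U g) (hε : 0 ≤ ε) {s : ℝ} (hs : 0 < s) {φ : E d → ℝ}
    (hφ : Obs φ) : ContDiff ℝ ∞ fun θ => num U ε φ (θ, s) :=
  contDiff_iff_contDiffAt.2 fun θ =>
    ContDiffAt.comp (g := num U ε φ) θ ((contDiffOn_num hU hε hφ).contDiffAt
      (isOpen_params.mem_nhds (show (θ, s) ∈ params d from hs))) (contDiffAt_id.prodMk contDiffAt_const)

lemma contDiff_mean_theta (hU : Pot U g) (hε : 0 ≤ ε) {s : ℝ} (hs : 0 < s) {φ : E d → ℝ}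
    (hφ : Obs φ) : ContDiff ℝ ∞ fun θ => mean U ε φ (θ, s) :=
  contDiff_iff_contDiffAt.2 fun θ =>
    ContDiffAt.comp (g := mean U ε φ) θ ((contDiffOn_mean hU hε hφ).contDiffAt
      (isOpen_params.mem_nhds (show (θ, s) ∈ params d from hs))) (contDiffAt_id.prodMk contDiffAt_const)

lemma iterated_apply_succ {f : E d → ℝ} (hf : ContDiff ℝ ∞ f) {k : ℕ} (m : Fin (k + 1) → E d)
    (θ : E d) : iteratedFDeriv ℝ (k + 1) f θ m
      = fderiv ℝ (fun θ => iteratedFDeriv ℝ k f θ (Fin.tail m)) θ (m 0) := by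
  have hd : DifferentiableAt ℝ (iteratedFDeriv ℝ k f) θ :=
    (hf.differentiable_iteratedFDeriv (by exact_mod_cast ENat.coe_lt_top k)) θ
  rw [iteratedFDeriv_succ_apply_left]
  exact (fderiv_continuousMultilinear_apply_const_apply hd (Fin.tail m) (m 0)).symm

lemma smooth_invCoeffs (hU : Pot U g) (hε : 0 ≤ ε) {s : ℝ} (hs : 0 < s) :
    SmoothCoeffs (invCoeffs U ε s) := by
  intro k idx
  have h : ContDiff ℝ ∞ fun θ => (num U ε (fun _ => 1) (θ, s))⁻¹ :=
    (contDiff_num_theta hU hε hs Obs.one).inv fun θ => (num_one_pos hU hε (p := (θ, s)) hs).ne'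
  exact (ContinuousMultilinearMap.apply ℝ (fun _ : Fin k => E d) ℝ (bv ∘ idx)).contDiff.comp
    (h.iteratedFDeriv_right (m := ∞) (i := k) (by exact_mod_cast le_top))

/-- Derivatives of an expectation are expectations against the Appell polynomials. -/
theorem iteratedFDeriv_mean (hU : Pot U g) (hε : 0 ≤ ε) {s : ℝ} (hs : 0 < s) :
    ∀ (k : ℕ) {φ : E d → ℝ}, Obs φ → ∀ (idx : Fin k → Fin d) (θ : E d),
      iteratedFDeriv ℝ k (fun θ => mean U ε φ (θ, s)) θ (bv ∘ idx)
        = num U ε (fun x => φ x * app (invCoeffs U ε s θ) k idx x) (θ, s)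
  | 0, φ, hφ, idx, θ => by
    simp only [iteratedFDeriv_zero_apply, app, invCoeffs]
    unfold mean num
    rw [div_eq_mul_inv, ← integral_mul_const]
    exact integral_congr_ae (ae_of_all _ fun x => by ring)
  | k + 1, φ, hφ, idx, θ => by
    rw [iterated_apply_succ (contDiff_mean_theta hU hε hs hφ)]
    have e : (fun θ => iteratedFDeriv ℝ k (fun θ => mean U ε φ (θ, s)) θ
        (Fin.tail (bv ∘ idx))) = fun θ =>
          num U ε (fun x => φ x * app (invCoeffs U ε s θ) k (Fin.tail idx) x) (θ, s) :=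
      funext fun θ' => iteratedFDeriv_mean hU hε hs k hφ (Fin.tail idx) θ'
    obtain ⟨D, hD, hDv⟩ := hasFDerivAt_num_app hU hε hs k hφ _ (smooth_invCoeffs hU hε hs)
      (Fin.tail idx) θ
    rw [e, hD.fderiv, Function.comp_apply, hDv, num_app_succ hU hε hs hφ θ]
    have e2 : dCoeffs (bv (idx 0)) (invCoeffs U ε s) θ = shift (idx 0) (invCoeffs U ε s θ) := by
      funext l j
      simp only [dCoeffs, shift, invCoeffs]
      rw [iterated_apply_succ (f := fun θ => (num U ε (fun _ => 1) (θ, s))⁻¹)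
        ((contDiff_num_theta hU hε hs Obs.one).inv fun θ =>
          (num_one_pos hU hε (p := (θ, s)) hs).ne')]
      have e5 : Fin.tail (bv ∘ Fin.cons (idx 0) j) = bv ∘ j := funext fun i => by simp [Fin.tail]
      simp [e5]
    rw [e2]

/-! ### The normalised polynomials and their variance -/

/-- The normalised constant parts. -/
noncomputable def appCoeffs (U : E d → ℝ) (ε s : ℝ) (θ : E d) : Coeffs d :=
  num U ε (fun _ => 1) (θ, s) • invCoeffs U ε s θ

theorem iteratedFDeriv_mean' (hU : Pot U g) (hε : 0 ≤ ε) {s : ℝ} (hs : 0 < s) (k : ℕ)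
    {φ : E d → ℝ} (hφ : Obs φ) (idx : Fin k → Fin d) (θ : E d) :
    iteratedFDeriv ℝ k (fun θ => mean U ε φ (θ, s)) θ (bv ∘ idx)
      = ∫ x, φ x * app (appCoeffs U ε s θ) k idx x ∂gibbs (pot U ε (θ, s)) := by
  have hZ := (num_one_pos hU hε (p := (θ, s)) hs).ne'
  rw [iteratedFDeriv_mean hU hε hs k hφ, LogConcave.integral_gibbs (logConc hU hε (p := (θ, s)) hs)]
  simp only [appCoeffs, app_smul, num, mul_one] at hZ ⊢
  rw [eq_div_iff hZ, ← integral_mul_const]
  exact integral_congr_ae (ae_of_all _ fun x => by ring)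

lemma integral_app_eq_zero (hU : Pot U g) (hε : 0 ≤ ε) {s : ℝ} (hs : 0 < s) {k : ℕ}
    (idx : Fin (k + 1) → Fin d) (θ : E d) :
    ∫ x, app (appCoeffs U ε s θ) (k + 1) idx x ∂gibbs (pot U ε (θ, s)) = 0 := by
  have h := iteratedFDeriv_mean' hU hε hs (k + 1) Obs.one idx θ
  have e : (fun θ : E d => mean U ε (fun _ => 1) (θ, s)) = fun _ => (1 : ℝ) := funext fun θ' => by
    simp [mean, div_self (num_one_pos hU hε (p := (θ', s)) hs).ne']
  rw [e, iteratedFDeriv_succ_const] at h
  simpa using h.symm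

/-- Squared Hilbert-Schmidt norm. -/
noncomputable def hs2 {k : ℕ} (T : (Fin k → Fin d) → ℝ) : ℝ := ∑ idx, T idx ^ 2

lemma hs2_nonneg {k : ℕ} (T : (Fin k → Fin d) → ℝ) : 0 ≤ hs2 T :=
  Finset.sum_nonneg fun _ _ => sq_nonneg _

lemma sum_hs2_plug {k : ℕ} (T : (Fin (k + 1) → Fin d) → ℝ) (i : Fin (k + 1)) :
    ∑ u, hs2 (plug T i u) = hs2 T := by
  simp only [hs2, plug]
  rw [← Equiv.sum_comp (Fin.insertNthEquiv (fun _ => Fin d) i), Fintype.sum_prod_type]
  simp [Fin.insertNthEquiv]

/-- The normalised Appell polynomials are bounded in `L²`, independently of the dimension. -/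
theorem integral_pairing_sq_le (hU : Pot U g) (hε : 0 ≤ ε) {s : ℝ} (hs : 0 < s) (θ : E d) :
    ∀ (k : ℕ) (T : (Fin k → Fin d) → ℝ),
      ∫ x, pairing (appCoeffs U ε s θ) k T x ^ 2 ∂gibbs (pot U ε (θ, s))
        ≤ (k.factorial : ℝ) ^ 2 / s ^ k * hs2 T
  | 0, T => by
    have hW := logConc hU hε (p := (θ, s)) hs
    haveI := LogConcave.isProb hW
    have hZ := (num_one_pos hU hε (p := (θ, s)) hs).ne'
    simp [pairing, app, appCoeffs, invCoeffs, hs2, mul_inv_cancel₀ hZ]
  | k + 1, T => by
    have hW := logConc hU hε (p := (θ, s)) hs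
    haveI := LogConcave.isProb hW
    set c := appCoeffs U ε s θ with hc
    set μ := gibbs (pot U ε (θ, s)) with hμ
    have hob := obs_pairing c (k + 1) T
    have hgu : ∀ u, Obs fun x => pairingGrad c k T x u := fun u => by
      have h := Obs.sum Finset.univ fun i (_ : i ∈ (Finset.univ : Finset (Fin (k + 1)))) =>
        obs_pairing c k (plug T i u)
      simpa [pairingGrad] using h
    have hgc : Continuous (pairingGrad c k T) := by
      refine (PiLp.continuous_toLp 2 fun _ : Fin d => ℝ).comp (continuous_pi fun u => ?_)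
      exact continuous_finset_sum _ fun i _ => (obs_pairing c k (plug T i u)).cont
    have hnorm : LogConcave.Poly fun x => ‖pairingGrad c k T x‖ ^ 2 := by
      have h := (Obs.sum Finset.univ fun u (_ : u ∈ (Finset.univ : Finset (Fin d))) =>
        (hgu u).mul (hgu u)).poly
      refine h.mono fun x => ?_
      rw [EuclideanSpace.norm_sq_eq]
      simp [sq]
    obtain ⟨A, N, hA, hb⟩ := hnorm
    have hgrow : ∀ x, ‖pairingGrad c k T x‖ ≤ (A + 1) * (1 + ‖x‖) ^ N := by
      intro x
      have h1 := hb x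
      rw [abs_of_nonneg (sq_nonneg _)] at h1
      have h2 : (1:ℝ) ≤ (1 + ‖x‖) ^ N := one_le_pow₀ (le_add_of_nonneg_right (norm_nonneg x))
      nlinarith [sq_nonneg (‖pairingGrad c k T x‖ - 1)]
    have hP := poincare d (pot U ε (θ, s)) _ _ hW (pairing c (k + 1) T)
      (pairingGrad c k T) hgc (hasGradientAt_pairing c k T) _ _ hgrow
    have h0 : ∫ x, pairing c (k + 1) T x ∂μ = 0 := by
      simp only [pairing]
      rw [integral_finsetSum _ fun idx _ =>
        ((Obs.const _).mul (obs_app _ c idx)).poly.integrable hW ((Obs.const _).mul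
          (obs_app _ c idx)).cont]
      refine Finset.sum_eq_zero fun idx _ => ?_
      simp [integral_const_mul, c, μ, integral_app_eq_zero hU hε hs]
    simp only [cov', ← hμ, h0, ← sq] at hP
    rw [zero_pow two_ne_zero, sub_zero] at hP
    refine hP.trans ?_
    have hint : ∀ i u, Integrable (fun x => pairing c k (plug T i u) x ^ 2) μ := fun i u => by
      have h := (obs_pairing c k (plug T i u)).mul (obs_pairing c k (plug T i u))
      exact (h.poly.integrable hW h.cont).congr (ae_of_all _ fun x => by ring)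
    have hle : ∫ x, ‖pairingGrad c k T x‖ ^ 2 ∂μ
        ≤ ∫ x, ((k + 1 : ℕ) : ℝ) * ∑ u, ∑ i, pairing c k (plug T i u) x ^ 2 ∂μ := by
      refine integral_mono_of_nonneg (ae_of_all _ fun x => sq_nonneg _)
        ((integrable_finsetSum _ fun u _ => integrable_finsetSum _ fun i _ => hint i u).const_mul _)
        (ae_of_all _ fun x => ?_)
      simp only [EuclideanSpace.norm_sq_eq, Real.norm_eq_abs, sq_abs, pairingGrad]
      rw [Finset.mul_sum]
      refine Finset.sum_le_sum fun u _ => ?_
      simpa using sq_sum_le_card_mul_sum_sq (s := Finset.univ)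
        (f := fun i => pairing c k (plug T i u) x)
    rw [div_le_iff₀ hs]
    refine hle.trans ?_
    rw [integral_const_mul, integral_finsetSum _ fun u _ =>
      integrable_finsetSum _ fun i _ => hint i u]
    have hk : ∀ u, ∫ x, ∑ i, pairing c k (plug T i u) x ^ 2 ∂μ
        ≤ ∑ i, (k.factorial : ℝ) ^ 2 / s ^ k * hs2 (plug T i u) := fun u => by
      rw [integral_finsetSum _ fun i _ => hint i u]
      exact Finset.sum_le_sum fun i _ => integral_pairing_sq_le hU hε hs θ k (plug T i u)
    refine (mul_le_mul_of_nonneg_left (Finset.sum_le_sum fun u _ => hk u) (Nat.cast_nonneg _)).trans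
      (le_of_eq ?_)
    rw [Finset.sum_comm]
    simp only [← Finset.mul_sum, sum_hs2_plug, Finset.sum_const, Finset.card_univ, Fintype.card_fin,
      nsmul_eq_mul, Nat.factorial_succ, Nat.cast_mul, pow_succ]
    field_simp

/-- A1, general observable: `k ≥ 1` derivatives cost `s^(-k/2)` times the standard deviation. -/
theorem abs_iteratedFDeriv_mean_le (hU : Pot U g) (hε : 0 ≤ ε) {s : ℝ} (hs : 0 < s) {k : ℕ}
    {φ : E d → ℝ} (hφ : Obs φ) (T : (Fin (k + 1) → Fin d) → ℝ) (θ : E d) :
    |∑ idx, T idx * iteratedFDeriv ℝ (k + 1) (fun θ => mean U ε φ (θ, s)) θ (bv ∘ idx)|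
      ≤ (k + 1).factorial * Real.sqrt (cov' (gibbs (pot U ε (θ, s))) φ φ)
          * Real.sqrt (hs2 T / s ^ (k + 1)) := by
  have hW := logConc hU hε (p := (θ, s)) hs
  haveI := LogConcave.isProb hW
  set μ := gibbs (pot U ε (θ, s)) with hμ
  set c := appCoeffs U ε s θ with hc
  set m := ∫ x, φ x ∂μ with hm
  have hS := obs_pairing c (k + 1) T
  have hφm : Obs fun x => φ x - m := by simpa [sub_eq_add_neg] using hφ.add (Obs.const (-m))
  have hi : ∀ {ψ : E d → ℝ}, Obs ψ → Integrable ψ μ := fun h => h.poly.integrable hW h.cont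
  have e : ∑ idx, T idx * iteratedFDeriv ℝ (k + 1) (fun θ => mean U ε φ (θ, s)) θ (bv ∘ idx)
      = ∫ x, (φ x - m) * pairing c (k + 1) T x ∂μ := by
    have h1 : ∀ idx, Integrable (fun x => T idx * ((φ x - m) * app c (k + 1) idx x)) μ := fun idx =>
      (hi (hφm.mul (obs_app _ c idx))).const_mul _
    rw [integral_congr_ae (g := fun x => ∑ idx, T idx * ((φ x - m) * app c (k + 1) idx x))
      (ae_of_all _ fun x => by
        simp only [pairing, Finset.mul_sum]; exact Finset.sum_congr rfl fun _ _ => by ring),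
      integral_finsetSum _ fun idx _ => h1 idx]
    refine Finset.sum_congr rfl fun idx _ => ?_
    rw [integral_const_mul, iteratedFDeriv_mean' hU hε hs _ hφ]
    congr 1
    simp only [sub_mul, ← hμ, ← hc]
    rw [integral_sub (hi (hφ.mul (obs_app _ c idx))) ((hi (obs_app _ c idx)).const_mul m),
      integral_const_mul, hc, hμ, integral_app_eq_zero hU hε hs, mul_zero, sub_zero]
  have hv : ∫ x, (φ x - m) ^ 2 ∂μ = cov' μ φ φ := by
    have h2 : (fun x => (φ x - m) ^ 2) = fun x => φ x * φ x - (2 * m * φ x - m ^ 2) :=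
      funext fun x => by ring
    rw [h2, integral_sub (hi (hφ.mul hφ)) (((hi hφ).const_mul _).sub' (integrable_const _)),
      integral_sub ((hi hφ).const_mul _) (integrable_const _), integral_const_mul, integral_const,
      cov', ← hm]
    simp; ring
  have hcs := LogConcave.sq_integral_mul_le (μ := μ) (u := fun x => φ x - m)
    (v := pairing c (k + 1) T) ((hi (hφm.mul hφm)).congr (ae_of_all _ fun x => by ring))
    ((hi (hS.mul hS)).congr (ae_of_all _ fun x => by ring)) (hi (hφm.mul hS))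
  rw [hv] at hcs
  have hsq := integral_pairing_sq_le hU hε hs θ (k + 1) T
  have hv0 : 0 ≤ cov' μ φ φ := hv ▸ integral_nonneg fun x => sq_nonneg _
  rw [e]
  refine (Real.abs_le_sqrt (hcs.trans (mul_le_mul_of_nonneg_left hsq hv0))).trans (le_of_eq ?_)
  rw [Real.sqrt_mul hv0, div_mul_eq_mul_div, mul_div_assoc, Real.sqrt_mul (sq_nonneg _),
    Real.sqrt_sq (Nat.cast_nonneg _)]
  ring

end Vale.Agent.P347.Gamma0
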