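import Vale.Agent.P347.Gamma0.Expr

/-!
P347, towards `γ_* = 0`: the syntactic bounds of substituted expressions.
-/

namespace Vale.Agent.P347.Gamma0

namespace Expr

variable {ι κ : Type} {d : ℕ} (Gr : ℝ → E d → E d)

section subst

variable [Fintype ι] [DecidableEq ι]

lemma size_subst (σ : ι → Expr κ) (e : Expr ι) :
    size (subst σ e) = size e + ∑ i, coef i e * size (σ i) := by
  induction e with
  | var j => simp [subst, size, coef, ite_mul]
  | zero => simp [subst, size, coef]
  | add e₁ e₂ h₁ h₂ =>
    simp only [subst, size, coef, h₁, h₂, add_mul, Finset.sum_add_distrib]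
    ring
  | smul c e h => simp only [subst, size, coef, h, mul_add, Finset.mul_sum, mul_assoc]
  | gate r e _ => simp [subst, size, coef]

lemma lip_subst [DecidableEq κ] (σ : ι → Expr κ) (j : κ) (e : Expr ι) :
    lip j (subst σ e) = ∑ i, lip i e * lip j (σ i) := by
  induction e with
  | var k => simp [subst, lip, ite_mul]
  | zero => simp [subst, lip]
  | add e₁ e₂ h₁ h₂ => simp only [subst, lip, h₁, h₂, add_mul, Finset.sum_add_distrib]
  | smul c e h => simp only [subst, lip, h, Finset.mul_sum, mul_assoc]
  | gate r e h => simpa [subst, lip] using h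

omit [Fintype ι] in
lemma coef_nonneg (i : ι) (e : Expr ι) : 0 ≤ coef i e := by
  induction e <;> simp only [coef] <;> positivity

end subst

lemma gates_subst (σ : ι → Expr κ) (e : Expr ι) {p : ℝ × Expr κ} (h : p ∈ gates (subst σ e)) :
    (∃ q ∈ gates e, p = (q.1, subst σ q.2)) ∨ ∃ i, p ∈ gates (σ i) := by
  induction e with
  | var j => exact Or.inr ⟨j, h⟩
  | zero => simp [subst, gates] at h
  | add e₁ e₂ h₁ h₂ =>
    simp only [subst, gates, List.mem_append] at h ⊢
    rcases h with h | h
    · rcases h₁ h with ⟨q, hq, e⟩ | ⟨i, hi⟩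
      exacts [Or.inl ⟨q, Or.inl hq, e⟩, Or.inr ⟨i, hi⟩]
    · rcases h₂ h with ⟨q, hq, e⟩ | ⟨i, hi⟩
      exacts [Or.inl ⟨q, Or.inr hq, e⟩, Or.inr ⟨i, hi⟩]
  | smul c e h' =>
    simp only [subst, gates] at h ⊢
    exact h' h
  | gate r e h' =>
    simp only [subst, gates, List.mem_cons] at h ⊢
    rcases h with h | h
    · exact Or.inl ⟨(r, e), Or.inl rfl, h⟩
    · rcases h' h with ⟨q, hq, e⟩ | hr
      exacts [Or.inl ⟨q, Or.inr hq, e⟩, Or.inr hr]

lemma one_le_nodes (e : Expr ι) : 1 ≤ nodes e := by cases e <;> simp [nodes]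

lemma nodes_subst (σ : ι → Expr κ) {M : ℕ} (hM : ∀ i, nodes (σ i) ≤ M) (e : Expr ι) :
    nodes (subst σ e) ≤ nodes e * (M + 1) := by
  induction e with
  | var j => simp [subst, nodes]; linarith [hM j]
  | zero => simp [subst, nodes]
  | add e₁ e₂ h₁ h₂ => simp only [subst, nodes]; nlinarith
  | smul c e h => simp only [subst, nodes]; nlinarith
  | gate r e h => simp only [subst, nodes]; nlinarith

lemma nodes_gates (e : Expr ι) {p : ℝ × Expr ι} (h : p ∈ gates e) : nodes p.2 + 1 ≤ nodes e := by
  induction e with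
  | var j => simp [gates] at h
  | zero => simp [gates] at h
  | add e₁ e₂ h₁ h₂ =>
    simp only [gates, List.mem_append] at h
    simp only [nodes]
    rcases h with h | h
    · have := h₁ h; omega
    · have := h₂ h; omega
  | smul c e h' =>
    have := h' (by simpa [gates] using h)
    simp only [nodes]; omega
  | gate r e h' =>
    simp only [gates, List.mem_cons] at h
    simp only [nodes]
    rcases h with rfl | h
    · simp
    · have := h' h; omega

lemma length_tops (e : Expr ι) : (tops e).length ≤ nodes e := by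
  induction e with
  | var j => simp [tops]
  | zero => simp [tops]
  | add e₁ e₂ h₁ h₂ => simp only [tops, nodes, List.length_append]; omega
  | smul c e h => simp only [tops, nodes, List.length_map]; omega
  | gate r e _ => simp [tops, nodes]

lemma mem_tops (e : Expr ι) {p : ℝ × ℝ × Expr ι} (h : p ∈ tops e) : p.2 ∈ gates e := by
  induction e generalizing p with
  | var j => simp [tops] at h
  | zero => simp [tops] at h
  | add e₁ e₂ h₁ h₂ =>
    simp only [tops, List.mem_append] at h
    simp only [gates, List.mem_append]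
    exact h.imp h₁ h₂
  | smul c e h' =>
    simp only [tops, List.mem_map] at h
    obtain ⟨q, hq, rfl⟩ := h
    exact h' (p := q) hq
  | gate r e _ =>
    simp only [tops, List.mem_singleton] at h
    subst h
    simp [gates]

lemma size_eq_tops (e : Expr ι) :
    size e = ((tops e).map fun p => |p.1| * Real.sqrt p.2.1).sum := by
  induction e with
  | var j => simp [tops, size]
  | zero => simp [tops, size]
  | add e₁ e₂ h₁ h₂ => simp [tops, size, h₁, h₂]
  | smul c e h =>
    simp only [tops, size, List.map_map, h, ← List.sum_map_mul_left]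
    exact congrArg _ (List.map_congr_left fun p _ => by simp [Function.comp, abs_mul, mul_assoc])
  | gate r e _ => simp [tops, size]

lemma nodes_linPart (e : Expr ι) : nodes (linPart e) ≤ nodes e := by
  induction e <;> simp only [linPart, nodes] <;> omega

lemma val_linPart (G₁ G₂ : ℝ → E d → E d) (e : Expr ι) (x : ι → E d) :
    val G₁ (linPart e) x = val G₂ (linPart e) x := by
  induction e <;> simp [linPart, val, *]

lemma rad_nonneg (e : Expr ι) (x : ι → E d) : 0 ≤ rad Gr e x := by
  induction e with
  | var j => simp [rad]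
  | zero => simp [rad]
  | add e₁ e₂ h₁ _ => exact h₁.trans (le_max_left _ _)
  | smul c e h => exact h
  | gate r e _ => exact (norm_nonneg _).trans (le_max_left _ _)

lemma rad_le (e : Expr ι) (x : ι → E d) {R : ℝ} (hR : 0 ≤ R)
    (h : ∀ p ∈ gates e, ‖val Gr p.2 x‖ ≤ R) : rad Gr e x ≤ R := by
  induction e with
  | var j => exact hR
  | zero => exact hR
  | add e₁ e₂ h₁ h₂ =>
    exact max_le (h₁ fun p hp => h p (by simp [gates, hp]))
      (h₂ fun p hp => h p (by simp [gates, hp]))
  | smul c e h' => exact h' fun p hp => h p (by simpa [gates] using hp)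
  | gate r e h' =>
    exact max_le (h (r, e) (by simp [gates])) (h' fun p hp => h p (by simp [gates, hp]))

lemma le_rad (e : Expr ι) (x : ι → E d) {p : ℝ × Expr ι} (h : p ∈ gates e) :
    ‖val Gr p.2 x‖ ≤ rad Gr e x ∧ rad Gr p.2 x ≤ rad Gr e x := by
  induction e with
  | var j => simp [gates] at h
  | zero => simp [gates] at h
  | add e₁ e₂ h₁ h₂ =>
    simp only [gates, List.mem_append] at h
    rcases h with h | h
    · exact ⟨(h₁ h).1.trans (le_max_left _ _), (h₁ h).2.trans (le_max_left _ _)⟩
    · exact ⟨(h₂ h).1.trans (le_max_right _ _), (h₂ h).2.trans (le_max_right _ _)⟩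
  | smul c e h' => exact h' (by simpa [gates] using h)
  | gate r e h' =>
    simp only [gates, List.mem_cons] at h
    rcases h with rfl | h
    · exact ⟨le_max_left _ _, le_max_right _ _⟩
    · exact ⟨(h' h).1.trans (le_max_right _ _), (h' h).2.trans (le_max_right _ _)⟩

/-- Evaluating with the field in place of every gate. -/
lemma norm_val_field_sub (g : E d → E d) (hg : LipschitzWith 1 g) (e : Expr ι) (x : ι → E d)
    {lam : ℝ} (hlam : lam ≤ 1 / 2) (hgood : Good lam e)
    (hG : ∀ r, 0 < r → r ≤ 1 → ∀ c, ‖Gr r c - g c‖ ≤ Real.sqrt r * (Real.sqrt d + ‖c‖)) :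
    ‖val Gr e x - val (fun _ => g) e x‖ ≤ size e * (2 * (Real.sqrt d + rad Gr e x)) := by
  induction e with
  | var j => simp [val, size]
  | zero => simp [val, size]
  | add e₁ e₂ h₁ h₂ =>
    have a₁ := h₁ fun p hp => hgood p (by simp [gates, hp])
    have a₂ := h₂ fun p hp => hgood p (by simp [gates, hp])
    simp only [val, size, rad, add_sub_add_comm, add_mul]
    refine (norm_add_le _ _).trans (add_le_add (a₁.trans ?_) (a₂.trans ?_))
    · exact mul_le_mul_of_nonneg_left (by linarith [le_max_left (rad Gr e₁ x) (rad Gr e₂ x)])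
        (size_nonneg e₁)
    · exact mul_le_mul_of_nonneg_left (by linarith [le_max_right (rad Gr e₁ x) (rad Gr e₂ x)])
        (size_nonneg e₂)
  | smul c e h' =>
    have a := h' fun p hp => hgood p (by simpa [gates] using hp)
    simp only [val, size, rad, ← smul_sub, norm_smul, Real.norm_eq_abs, mul_assoc]
    exact mul_le_mul_of_nonneg_left a (abs_nonneg c)
  | gate r e h' =>
    obtain ⟨hr, hr1, hs⟩ := hgood (r, e) (by simp [gates])
    have a := h' fun p hp => hgood p (by simp [gates, hp])
    simp only [val, size, rad]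
    set Q := Real.sqrt d + max ‖val Gr e x‖ (rad Gr e x)
    have hQ : 0 ≤ Q := add_nonneg (Real.sqrt_nonneg _) ((norm_nonneg _).trans (le_max_left _ _))
    have b1 : ‖Gr r (val Gr e x) - g (val Gr e x)‖ ≤ Real.sqrt r * Q :=
      (hG r hr hr1 _).trans (mul_le_mul_of_nonneg_left
        (by linarith [le_max_left ‖val Gr e x‖ (rad Gr e x)]) (Real.sqrt_nonneg _))
    have b2 : ‖g (val Gr e x) - g (val (fun _ => g) e x)‖ ≤ Real.sqrt r * Q := by
      have b3 : size e * (2 * (Real.sqrt d + rad Gr e x)) ≤ lam * Real.sqrt r * (2 * Q) :=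
        mul_le_mul hs (by linarith [le_max_right ‖val Gr e x‖ (rad Gr e x)])
          (mul_nonneg two_pos.le (add_nonneg (Real.sqrt_nonneg _) (rad_nonneg Gr e x)))
          ((size_nonneg e).trans hs)
      calc _ ≤ ‖val Gr e x - val (fun _ => g) e x‖ := by simpa using hg.norm_sub_le _ _
        _ ≤ lam * Real.sqrt r * (2 * Q) := a.trans b3
        _ ≤ _ := by nlinarith [mul_nonneg (Real.sqrt_nonneg r) hQ]
    linarith [norm_sub_le_norm_sub_add_norm_sub (Gr r (val Gr e x)) (g (val Gr e x))
      (g (val (fun _ => g) e x))]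

end Expr

end Vale.Agent.P347.Gamma0
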