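import Vale.Agent.P347.Gamma0.PostDeriv

/-!
P347, towards `γ* = 0`, piece 1: the bridge identity between two posterior times, by Fubini and
the convolution of two Gaussians.
-/

namespace Vale.Agent.P347.Gamma0

open MeasureTheory Filter Topology
open scoped RealInnerProductSpace

variable {d : ℕ} {U : E d → ℝ} {g : E d → E d} {ε : ℝ}

/-- Integrals against a Gibbs law. -/
lemma integral_gibbs_of_integrable {W : E d → ℝ} (hW : Continuous W)
    (hi : Integrable fun x => Real.exp (-W x)) (f : E d → ℝ) :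
    ∫ x, f x ∂gibbs W = (∫ x, Real.exp (-W x) * f x) / ∫ x, Real.exp (-W x) := by
  rw [gibbs, integral_smul_measure,
    integral_withDensity_eq_integral_toReal_smul (f := fun x => ENNReal.ofReal (Real.exp (-W x)))
      hW.neg.rexp.measurable.ennreal_ofReal
      (ae_of_all _ fun x => ENNReal.ofReal_lt_top),
    ← ofReal_integral_eq_lintegral_ofReal hi (ae_of_all _ fun _ => (Real.exp_pos _).le),
    ENNReal.toReal_inv, ENNReal.toReal_ofReal (integral_nonneg fun _ => (Real.exp_pos _).le),
    smul_eq_mul, div_eq_inv_mul]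
  congr 1
  exact integral_congr_ae (ae_of_all _ fun x => by simp [ENNReal.toReal_ofReal (Real.exp_pos _).le])

/-- The joint density of `(x, y)`. -/
noncomputable def joint (U : E d → ℝ) (ε r s : ℝ) (c : E d) (x y : E d) : ℝ :=
  Real.exp (-(‖y - c‖ ^ 2 / (2 * s))) * Real.exp (-(‖x - y‖ ^ 2 / (2 * r) + ε * U x))

/-- The mass of the Gaussian bridge. -/
noncomputable def bridgeMass (d : ℕ) (r s : ℝ) : ℝ :=
  ∫ y : E d, Real.exp (-((r + s) / (2 * r * s)) * ‖y‖ ^ 2)

lemma bridgeMass_pos {r s : ℝ} (hr : 0 < r) (hs : 0 < s) : 0 < bridgeMass d r s := by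
  have hi := LogConcave.integrable_exp_norm_sq (d := d)
    (show 0 < (r + s) / (2 * r * s) by positivity)
  refine (integral_pos_iff_support_of_nonneg (fun x => (Real.exp_pos _).le) hi).2 ?_
  rw [show Function.support (fun y : E d => Real.exp (-((r + s) / (2 * r * s)) * ‖y‖ ^ 2)) = Set.univ
    from Set.eq_univ_of_forall fun x => (Real.exp_pos _).ne']
  exact isOpen_univ.measure_pos volume Set.univ_nonempty

lemma joint_eq {r s : ℝ} (hr : 0 < r) (hs : 0 < s) (c x y : E d) :
    joint U ε r s c x y = Real.exp (-(‖x - c‖ ^ 2 / (2 * (r + s)) + ε * U x))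
      * Real.exp (-((r + s) / (2 * r * s)) * ‖y - (r + s)⁻¹ • (r • c + s • x)‖ ^ 2) := by
  rw [joint, ← Real.exp_add, ← Real.exp_add]
  congr 1
  simp only [norm_sub_sq_real, inner_smul_right, inner_add_right, norm_smul, mul_pow,
    norm_add_sq_real, Real.norm_eq_abs, sq_abs, real_inner_smul_left, real_inner_comm y x,
    real_inner_comm c x]
  field_simp
  ring

variable (hU : Pot U g) (hε : 0 ≤ ε)
include hU hε

lemma integrable_post_dens {r : ℝ} (hr : 0 < r) (c : E d) :
    Integrable fun x => Real.exp (-(‖x - c‖ ^ 2 / (2 * r) + ε * U x)) := by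
  refine ((integrable_num hU hε (pp_pos hr c) Obs.one).mul_const
    (Real.exp (-(‖c‖ ^ 2 / (2 * r))))).congr (ae_of_all _ fun x => ?_)
  simp only []
  rw [post_pot_eq hr c x, mul_one, ← Real.exp_add]
  ring_nf

lemma integral_post {r : ℝ} (hr : 0 < r) (c : E d) (f : E d → ℝ) :
    ∫ x, f x ∂post U ε r c = (∫ x, Real.exp (-(‖x - c‖ ^ 2 / (2 * r) + ε * U x)) * f x)
      / ∫ x, Real.exp (-(‖x - c‖ ^ 2 / (2 * r) + ε * U x)) :=
  integral_gibbs_of_integrable (by have := hU.contDiff.continuous; fun_prop)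
    (integrable_post_dens hU hε hr c) f

variable {r s : ℝ} (hr : 0 < r) (hs : 0 < s) (c : E d)
include hr hs

omit hU hε in
lemma integral_joint_left (x : E d) :
    ∫ y, joint U ε r s c x y
      = bridgeMass d r s * Real.exp (-(‖x - c‖ ^ 2 / (2 * (r + s)) + ε * U x)) := by
  simp only [joint_eq hr hs c x, integral_const_mul, mul_comm (bridgeMass d r s)]
  congr 1
  exact integral_sub_right_eq_self (fun y : E d => Real.exp (-((r + s) / (2 * r * s)) * ‖y‖ ^ 2)) _

lemma integrable_joint : Integrable (fun p : E d × E d => joint U ε r s c p.1 p.2) := by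
  have hc : Continuous fun p : E d × E d => joint U ε r s c p.1 p.2 := by
    have := hU.contDiff.continuous
    unfold joint; fun_prop
  refine (integrable_prod_iff hc.aestronglyMeasurable).2 ⟨ae_of_all _ fun x => ?_, ?_⟩
  · simp only [joint_eq hr hs c x]
    exact (((LogConcave.integrable_exp_norm_sq (d := d)
      (show 0 < (r + s) / (2 * r * s) by positivity)).comp_sub_right _).const_mul _)
  · have e : ∀ x, ∫ y, ‖joint U ε r s c x y‖
        = bridgeMass d r s * Real.exp (-(‖x - c‖ ^ 2 / (2 * (r + s)) + ε * U x)) := fun x => by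
      rw [← integral_joint_left hr hs c x]
      exact integral_congr_ae (ae_of_all _ fun y =>
        Real.norm_of_nonneg (mul_nonneg (Real.exp_pos _).le (Real.exp_pos _).le))
    simp only [e]
    exact (integrable_post_dens hU hε (add_pos hr hs) c).const_mul _

/-- Fubini. -/
lemma bridge_integral {ψ : E d → ℝ} (hm : Measurable ψ) (hb : ∀ x, |ψ x| ≤ 1) :
    Integrable (fun y => Real.exp (-(‖y - c‖ ^ 2 / (2 * s)))
        * ∫ x, Real.exp (-(‖x - y‖ ^ 2 / (2 * r) + ε * U x)) * ψ x) ∧
      ∫ y, Real.exp (-(‖y - c‖ ^ 2 / (2 * s)))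
          * ∫ x, Real.exp (-(‖x - y‖ ^ 2 / (2 * r) + ε * U x)) * ψ x
        = bridgeMass d r s * ∫ x, Real.exp (-(‖x - c‖ ^ 2 / (2 * (r + s)) + ε * U x)) * ψ x := by
  have hi : Integrable (fun p : E d × E d => joint U ε r s c p.1 p.2 * ψ p.1) := by
    refine (integrable_joint hU hε hr hs c).mul_bdd (c := 1)
      (hm.comp measurable_fst).aestronglyMeasurable (ae_of_all _ fun p => ?_)
    simpa using hb p.1
  have e : (fun y => Real.exp (-(‖y - c‖ ^ 2 / (2 * s)))
        * ∫ x, Real.exp (-(‖x - y‖ ^ 2 / (2 * r) + ε * U x)) * ψ x)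
      = fun y => ∫ x, joint U ε r s c x y * ψ x := funext fun y => by
    simp only [joint, mul_assoc, integral_const_mul]
  rw [e]
  refine ⟨hi.integral_prod_right, ?_⟩
  rw [← integral_integral_swap hi]
  simp only [integral_mul_const, integral_joint_left hr hs c, mul_assoc, integral_const_mul]

omit hU hε hr hs in
theorem bridgeFact : BridgeFact := by
  intro d U g hU ε hε r τ hr hrτ c φ hφ hφ1
  set s := τ - r with hsdef
  have hs : 0 < s := sub_pos.2 hrτ
  set D : E d → ℝ := fun y => ∫ x, Real.exp (-(‖x - y‖ ^ 2 / (2 * r) + ε * U x)) with hD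
  set A : ℝ := Real.exp (-(((d : ℝ) / 2) * Real.log r + Real.log (gz d))) with hA
  set W : E d → ℝ := fun y => ‖y - c‖ ^ 2 / (2 * s) + nW U ε r y with hW
  have hAp : 0 < A := Real.exp_pos _
  have hDeq : ∀ y, D y = num U ε (fun _ => 1) (pp r y) * Real.exp (-(‖y‖ ^ 2 / (2 * r))) := fun y => by
    simp only [hD, num, ← integral_mul_const]
    refine integral_congr_ae (ae_of_all _ fun x => ?_)
    simp only []
    rw [post_pot_eq hr y x, mul_one, ← Real.exp_add]
    ring_nf
  have hDpos : ∀ y, 0 < D y := fun y => by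
    rw [hDeq]
    exact mul_pos (num_one_pos hU hε (pp_pos hr y)) (Real.exp_pos _)
  have hexp : ∀ y, Real.exp (-W y) = A * (Real.exp (-(‖y - c‖ ^ 2 / (2 * s))) * D y) := fun y => by
    simp only [hW, hA, hDeq, nW_eq hU hε hr, nWf]
    rw [show num U ε (fun _ => 1) (pp r y)
        = Real.exp (Real.log (num U ε (fun _ => 1) (pp r y))) from
      (Real.exp_log (num_one_pos hU hε (pp_pos hr y))).symm]
    rw [← Real.exp_add, ← Real.exp_add, ← Real.exp_add, Real.log_exp]
    congr 1
    ring
  have hcont : Continuous W := (by fun_prop : Continuous fun y : E d => ‖y - c‖ ^ 2 / (2 * s)).add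
    (continuous_iff_continuousAt.2 fun y => (hasGradientAt_nW hU hε hr y).continuousAt)
  obtain ⟨hi1, he1⟩ := bridge_integral hU hε hr hs c (ψ := fun _ => 1) measurable_const (by simp)
  obtain ⟨hiφ, heφ⟩ := bridge_integral hU hε hr hs c hφ hφ1
  simp only [mul_one] at hi1 he1
  have hint : Integrable fun y => Real.exp (-W y) := by
    simp only [hexp]
    exact hi1.const_mul A
  rw [integral_gibbs_of_integrable hcont hint, integral_post hU hε (hr.trans hrτ)]
  have hnum : (fun y => Real.exp (-W y) * ∫ x, φ x ∂post U ε r y)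
      = fun y => A * (Real.exp (-(‖y - c‖ ^ 2 / (2 * s)))
          * ∫ x, Real.exp (-(‖x - y‖ ^ 2 / (2 * r) + ε * U x)) * φ x) := funext fun y => by
    rw [hexp, integral_post hU hε hr]
    have h := (hDpos y).ne'
    simp only [hD] at h ⊢
    generalize ∫ x, Real.exp (-(‖x - y‖ ^ 2 / (2 * r) + ε * U x)) * φ x = N
    generalize hDe : ∫ x, Real.exp (-(‖x - y‖ ^ 2 / (2 * r) + ε * U x)) = D₀ at h
    field_simp
  rw [hnum]
  simp only [hexp, hD, integral_const_mul, he1, heφ, show r + s = τ by simp [hsdef]]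
  have h1 := bridgeMass_pos (d := d) hr hs
  field_simp

end Vale.Agent.P347.Gamma0
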