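import Vale.Agent.P347.Gamma0.Templates

/-!
P347, towards `γ_* = 0`: the compiled stage.  All formulas are expressions in the inputs with exact
gates: Picard iterates with quadrature of the exact flow, the Hamiltonian difference quotients for
`a_r(y) D`, the word extraction for `η` and the time iterates of the exact field.
-/

namespace Vale.Agent.P347.Gamma0

namespace Build

/-- Nodes in `(0, T]` with weights for the integrals up to every node and up to `T`. -/
structure Grid (M : ℕ) where
  q : Fin M → ℝ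
  W : Option (Fin M) → Fin M → ℝ

/-- The node or the end. -/
def Grid.at' {M : ℕ} (G : Grid M) (T : ℝ) : Option (Fin M) → ℝ
  | none => T
  | some i => G.q i

/-- Bounds on a grid of `[0, T]`. -/
structure GridOK {M : ℕ} (G : Grid M) (T A : ℝ) : Prop where
  pos : ∀ i, 0 < G.q i
  le : ∀ i, G.q i ≤ T
  sum : ∀ o, ∑ j, |G.W o j| ≤ A * T
  sum_div : ∀ o, ∑ j, |G.W o j| / G.q j ≤ A

/-- Nodes and weights of a rule of fixed degree on `[0, 1]`. -/
structure Rule (n : ℕ) where
  x : Fin n → ℝ
  W : Option (Fin n) → Fin n → ℝ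

/-- Values and weights extracting a Taylor coefficient. -/
structure Fd (n : ℕ) where
  x : Fin n → ℝ
  wt : Fin n → ℝ

/-- All the numerical data of a stage; `na` auxiliary vectors. -/
structure Data (na : ℕ) where
  M₁ : ℕ
  M₂ : ℕ
  nh : ℕ
  nr : ℕ
  nt : ℕ
  ε : ℝ
  τ : ℝ
  ρ : ℝ
  γ : ℝ
  θ : ℝ
  t : ℝ
  g₁ : Grid M₁
  g₂ : Grid M₂
  ham : Rule nh
  time : Rule nt
  fdθ : Fd nr
  fdt : ℕ → Fd nr
  iter : ℕ

variable {na : ℕ} {ι : Type} (P : Data na)

/-- The end of the flow of the field. -/
noncomputable def Data.q₁ : ℝ := Real.sqrt (P.τ - P.ρ * P.τ)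

/-- The end of the flow of the bridge. -/
noncomputable def Data.q₂ : ℝ := Real.sqrt (P.τ - P.ρ * P.τ / 2)

/-- The bridge coefficient. -/
noncomputable def Data.lam : ℝ := (P.τ - P.ρ * P.τ) / (P.τ - P.ρ * P.τ / 2)

/-- The bridge noise. -/
noncomputable def Data.s : ℝ := Real.sqrt (P.lam * (P.ρ * P.τ / 2))

/-- The scale at `q`. -/
noncomputable def Data.rs (q : ℝ) : ℝ := P.τ - q ^ 2

/-- The gate at the point `c + q w`. -/
noncomputable def gateAt (c : Expr ι) (q : ℝ) (w : Expr ι) : Expr ι :=
  .gate (P.rs q) (.add c (.smul q w))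

/-- Forward Picard iterates of the flow `w' = -ε G_r(c + q w)` from `R`. -/
noncomputable def fwd (c R : Expr ι) : ℕ → Option (Fin P.M₂) → Expr ι
  | 0, _ => R
  | p + 1, o => .add R (Expr.sum fun j =>
      .smul (-(P.ε * P.g₂.W o j)) (gateAt P c (P.g₂.q j) (fwd c R p (some j))))

/-- Backward Picard iterates from the point `w` at `q₁`. -/
noncomputable def bwd (c w : Expr ι) : ℕ → Fin P.M₁ → Expr ι
  | 0, _ => w
  | p + 1, i => .add w (Expr.sum fun j =>
      .smul (P.ε * (P.g₁.W none j - P.g₁.W (some i) j)) (gateAt P c (P.g₁.q j) (bwd c w p j)))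

/-- The time of a node of the Hamiltonian rule for the difference node `k`. -/
noncomputable def hamTime (k : Fin P.nr) (o : Option (Fin P.nh)) : ℝ :=
  P.θ * P.fdθ.x k * o.elim 1 P.ham.x

/-- Picard iterates of the Hamiltonian flow from `(w, D)`. -/
noncomputable def ham (c : Expr ι) (q : ℝ) (w D : Expr ι) (k : Fin P.nr) :
    ℕ → Option (Fin P.nh) → Expr ι
  | 0, o => .add (.smul (Real.cos (hamTime P k o)) w) (.smul (Real.sin (hamTime P k o)) D)
  | p + 1, o => .add (.add (.smul (Real.cos (hamTime P k o)) w) (.smul (Real.sin (hamTime P k o)) D))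
      (Expr.sum fun l => .smul
        (-(P.ε * q * (P.θ * P.fdθ.x k * P.ham.W o l) *
          Real.sin (hamTime P k o - hamTime P k (some l))))
        (gateAt P c q (ham c q w D k p (some l))))

/-- The compiled `a_r(c + q w) D`. -/
noncomputable def est (c : Expr ι) (q : ℝ) (w D : Expr ι) : Expr ι :=
  Expr.sum fun k => .smul (P.fdθ.wt k / (q * P.θ)) (gateAt P c q (ham P c q w D k P.iter none))

/-- The weight of the coupling between the levels `m` and `m + 1`. -/
noncomputable def phi (m : ℕ) (q : ℝ) : ℝ := if m = 0 then 1 else q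

/-- Picard iterates of the word system of size `n` at the parameter `s` from `init`. -/
noncomputable def sys (c : Expr ι) (wb : Fin P.M₁ → Expr ι) (n : ℕ) (s : ℝ) (init : ℕ → Expr ι) :
    ℕ → Option (Fin P.M₁) → ℕ → Expr ι
  | 0, _, m => init m
  | p + 1, o, m => .add (init m) (Expr.sum fun j => .add
      (if 1 ≤ m then .smul (s * P.g₁.W o j * phi (m - 1) (P.g₁.q j))
          (est P c (P.g₁.q j) (wb j) (sys c wb n s init p (some j) (m - 1))) else .zero)
      (if m < n then .smul (-(s * P.g₁.W o j * phi m (P.g₁.q j)))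
          (est P c (P.g₁.q j) (wb j) (sys c wb n s init p (some j) (m + 1))) else .zero))

/-- The initial vectors, the auxiliary ones with the sign `σ`. -/
def sysInit (aux : Fin na → Expr ι) (Z : Expr ι) (σ : ℝ) : ℕ → Expr ι
  | 0 => Z
  | m + 1 => if h : m < na then .smul σ (aux ⟨m, h⟩) else .zero

/-- The compiled `η` at the end of the flow from `(w, Z)`. -/
noncomputable def eta (c w Z : Expr ι) (aux : Fin na → Expr ι) : Expr ι :=
  .add
    (Expr.sum fun j => .smul (P.g₁.W none j)
      (est P c (P.g₁.q j) (bwd P c w P.iter j) Z))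
    (Expr.sum fun i : Fin (na - 1) => .smul ((-P.ε) ^ ((i : ℕ) + 1) / P.t ^ ((i : ℕ) + 2))
      (Expr.sum fun k => .smul ((P.fdt ((i : ℕ) + 2)).wt k / 2) (.add
        (sys P c (bwd P c w P.iter) ((i : ℕ) + 2) (P.t * (P.fdt ((i : ℕ) + 2)).x k)
          (sysInit aux Z 1) P.iter none ((i : ℕ) + 2))
        (sys P c (bwd P c w P.iter) ((i : ℕ) + 2) (P.t * (P.fdt ((i : ℕ) + 2)).x k)
          (sysInit aux Z (-1)) P.iter none ((i : ℕ) + 2)))))

/-- The point at `q₁` in the scaled variable, moved by `Δ`. -/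
noncomputable def wAt (Δ : Expr (OIn na)) : Expr (OIn na) :=
  .smul P.q₁⁻¹ (.add (.add (.var .pt) Δ) (.smul (-1) (.var .ctr)))

/-- Time iterates of the exact field: the shift and the noise at every node. -/
noncomputable def lift : ℕ → Option (Fin P.nt) → Expr (OIn na) × Expr (OIn na)
  | 0, _ => (.zero, .var .noi)
  | p + 1, o =>
    (Expr.sum fun j => .smul (-(P.q₁ * (Real.sqrt 2 * P.γ) * P.time.W o j))
        (eta P (.var .ctr) (wAt P (lift p (some j)).1) (lift p (some j)).2 fun k => .var (.aux k)),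
     .add (.var .noi) (Expr.sum fun j => .smul (Real.sqrt 2 * P.γ * P.time.W o j)
        (.add (.gate (P.ρ * P.τ) (.add (.var .pt) (lift p (some j)).1))
          (.smul (-1) (.gate P.τ (.var .ctr))))))

/-- The compiled stage. -/
noncomputable def stage : Stage na P.nt where
  mean := .add (.smul (1 - P.lam) (.var .ctr))
    (.smul P.lam (.add (.var .ctr) (.smul P.q₂ (fwd P (.var .ctr) (.var .seed) P.iter none))))
  s := P.s
  shift := fun j => (lift P P.iter (some j)).1
  w := fun j => P.time.W none j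

end Build

end Vale.Agent.P347.Gamma0
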