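import Vale.Agent.P347.Gamma0.Defs

/-!
P347, towards `γ_* = 0`: calculus lemmas used along exact flows.
-/

namespace Vale.Agent.P347.Gamma0

open MeasureTheory Set Filter
open scoped RealInnerProductSpace ContDiff Topology

/-- Partial derivatives of a map on a product. -/
lemma fderiv_partial {P Y X : Type*} [NormedAddCommGroup P] [NormedSpace ℝ P]
    [NormedAddCommGroup Y] [NormedSpace ℝ Y] [NormedAddCommGroup X] [NormedSpace ℝ X]
    {F : P × Y → X} {p : P} {y : Y} (hF : DifferentiableAt ℝ F (p, y)) (e : Y) :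
    fderiv ℝ (fun z => F (p, z)) y e = fderiv ℝ F (p, y) (0, e) := by
  have h : HasFDerivAt (fun z => F (p, z))
      ((fderiv ℝ F (p, y)).comp ((0 : Y →L[ℝ] P).prod (ContinuousLinearMap.id ℝ Y))) y :=
    hF.hasFDerivAt.comp y ((hasFDerivAt_const p y).prodMk (hasFDerivAt_id y))
  rw [h.fderiv]
  simp

/-- Integrals over a compact interval of a smooth family are smooth. -/
lemma contDiff_intervalIntegral {H : Type} [NormedAddCommGroup H] [NormedSpace ℝ H]
    [FiniteDimensional ℝ H] {I : Set ℝ} (hI : IsOpen I) {a b : ℝ} (hab : uIcc a b ⊆ I) :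
    ∀ (n : ℕ) {X : Type} [NormedAddCommGroup X] [NormedSpace ℝ X] [CompleteSpace X]
      (F : ℝ × H → X), ContDiffOn ℝ ∞ F (I ×ˢ univ) →
      ContDiff ℝ n (fun w => ∫ q in a..b, F (q, w)) := by
  have hopen : IsOpen (I ×ˢ (univ : Set H)) := hI.prod isOpen_univ
  have hcont : ∀ {X : Type} [NormedAddCommGroup X] [NormedSpace ℝ X] {F : ℝ × H → X},
      ContinuousOn F (I ×ˢ univ) → ∀ w, ContinuousOn (fun q => F (q, w)) (uIcc a b) :=
    fun hF w => hF.comp ((continuous_id.prodMk continuous_const).continuousOn)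
      fun q hq => ⟨hab hq, mem_univ _⟩
  intro n
  induction n with
  | zero =>
    intro X _ _ _ F hF
    refine contDiff_zero.2 (continuous_iff_continuousAt.2 fun w₀ => ?_)
    obtain ⟨M, hM⟩ := (isCompact_uIcc.prod (isCompact_closedBall w₀ 1)).exists_bound_of_continuousOn
      (hF.continuousOn.mono (prod_mono hab (subset_univ _)))
    refine intervalIntegral.continuousAt_of_dominated_interval (bound := fun _ => M) ?_ ?_
      intervalIntegrable_const ?_
    · exact Eventually.of_forall fun w => ((hcont hF.continuousOn w).mono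
        uIoc_subset_uIcc).aestronglyMeasurable measurableSet_uIoc
    · filter_upwards [Metric.closedBall_mem_nhds w₀ one_pos] with w hw
      exact ae_of_all _ fun q hq => hM (q, w) ⟨uIoc_subset_uIcc hq, hw⟩
    · refine ae_of_all _ fun q hq => ?_
      exact ((hF.contDiffAt (hopen.mem_nhds ⟨hab (uIoc_subset_uIcc hq), mem_univ w₀⟩)).continuousAt).comp
        (continuous_const.prodMk continuous_id).continuousAt
  | succ n ih =>
    intro X _ _ _ F hF
    set F' : ℝ × H → H →L[ℝ] X := fun p =>
      (fderiv ℝ F p).comp ((0 : H →L[ℝ] ℝ).prod (ContinuousLinearMap.id ℝ H))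
    have hF' : ContDiffOn ℝ ∞ F' (I ×ˢ univ) :=
      (hF.fderiv_of_isOpen hopen (by simp)).clm_comp contDiffOn_const
    have hd : ∀ w₀, HasFDerivAt (fun w => ∫ q in a..b, F (q, w))
        (∫ q in a..b, F' (q, w₀)) w₀ := by
      intro w₀
      obtain ⟨M, hM⟩ :=
        (isCompact_uIcc.prod (isCompact_closedBall w₀ 1)).exists_bound_of_continuousOn
          (hF'.continuousOn.mono (prod_mono hab (subset_univ _)))
      refine intervalIntegral.hasFDerivAt_integral_of_dominated_of_fderiv_le
        (F' := fun w q => F' (q, w)) (bound := fun _ => M) (Metric.closedBall_mem_nhds w₀ one_pos)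
        (Eventually.of_forall fun w => ((hcont hF.continuousOn w).mono
          uIoc_subset_uIcc).aestronglyMeasurable measurableSet_uIoc)
        (hcont hF.continuousOn w₀).intervalIntegrable
        (((hcont hF'.continuousOn w₀).mono uIoc_subset_uIcc).aestronglyMeasurable
          measurableSet_uIoc)
        (ae_of_all _ fun q hq w hw => hM (q, w) ⟨uIoc_subset_uIcc hq, hw⟩)
        intervalIntegrable_const (ae_of_all _ fun q hq w _ => ?_)
      exact (((hF.contDiffAt (hopen.mem_nhds ⟨hab (uIoc_subset_uIcc hq), mem_univ w⟩)).differentiableAt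
        (by simp)).hasFDerivAt).comp w ((hasFDerivAt_const q w).prodMk (hasFDerivAt_id w))
    push_cast
    refine contDiff_succ_iff_fderiv.2 ⟨fun w => (hd w).differentiableAt, by simp, ?_⟩
    rw [show fderiv ℝ (fun w => ∫ q in a..b, F (q, w)) = fun w => ∫ q in a..b, F' (q, w) from
      funext fun w => (hd w).fderiv]
    exact ih F' hF'

variable {d : ℕ}

/-- Integrals under a Gibbs law. -/
lemma integral_gibbs' {ψ : E d → ℝ} (hc : Continuous ψ) (f : E d → ℝ) :
    ∫ x, f x ∂gibbs ψ
      = ((∫⁻ x, ENNReal.ofReal (Real.exp (-ψ x)))⁻¹).toReal * ∫ x, Real.exp (-ψ x) * f x := by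
  have hm : Measurable fun x => ENNReal.ofReal (Real.exp (-ψ x)) :=
    hc.neg.rexp.measurable.ennreal_ofReal
  rw [gibbs, integral_smul_measure, integral_withDensity_eq_integral_toReal_smul
    hm (ae_of_all _ fun x => ENNReal.ofReal_lt_top),
    smul_eq_mul]
  congr 1
  exact integral_congr_ae (ae_of_all _ fun x => by simp [ENNReal.toReal_ofReal (Real.exp_pos _).le])

lemma inner_bv_right (i : Fin d) (x : E d) : ⟪x, bv i⟫ = x i := by
  simp [bv, PiLp.inner_apply, EuclideanSpace.single_apply]

/-- `δ` is the adjoint of the gradient against compactly supported functions. -/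
lemma integral_delta {ψ : E d → ℝ} {gψ : E d → E d} (hψ : ContDiff ℝ 1 ψ)
    (hg : ∀ x, HasGradientAt ψ (gψ x) x) {F : E d → E d} (hF : ContDiff ℝ 1 F)
    {χ : E d → ℝ} (hχ : ContDiff ℝ 1 χ) (hs : HasCompactSupport χ) :
    ∫ x, χ x * delta gψ F x ∂gibbs ψ = ∫ x, fderiv ℝ χ x (F x) ∂gibbs ψ := by
  rw [integral_gibbs' hψ.continuous, integral_gibbs' hψ.continuous]
  congr 1
  set f : E d → ℝ := fun x => Real.exp (-ψ x) * χ x with hf
  have hfc : ContDiff ℝ 1 f := hψ.neg.exp.mul hχ
  have hfs : HasCompactSupport f := hs.mul_left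
  have hFi : ∀ i, ContDiff ℝ 1 fun x => F x i := fun i => (contDiff_piLp 2).1 hF i
  have c1 : ∀ {u : E d → ℝ}, ContDiff ℝ 1 u → ∀ v, Continuous fun x => fderiv ℝ u x v :=
    fun hu v => (hu.continuous_fderiv one_ne_zero).clm_apply continuous_const
  have i1 : ∀ i, Integrable fun x => f x * fderiv ℝ (fun z => F z i) x (bv i) := fun i =>
    (hfc.continuous.mul (c1 (hFi i) _)).integrable_of_hasCompactSupport hfs.mul_right
  have i2 : ∀ i, Integrable fun x => fderiv ℝ f x (bv i) * F x i := fun i =>
    ((c1 hfc _).mul (hFi i).continuous).integrable_of_hasCompactSupport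
      ((hfs.fderiv_apply (𝕜 := ℝ) (bv i)).mul_right)
  have i3 : ∀ i, Integrable fun x => f x * F x i := fun i =>
    (hfc.continuous.mul (hFi i).continuous).integrable_of_hasCompactSupport hfs.mul_right
  have key : ∀ i, ∫ x, f x * fderiv ℝ (fun z => F z i) x (bv i)
      = -∫ x, fderiv ℝ f x (bv i) * F x i := fun i =>
    integral_mul_fderiv_eq_neg_fderiv_mul_of_integrable (i2 i) (i1 i) (i3 i)
      (fun x _ => hfc.differentiable one_ne_zero x) (fun x _ => (hFi i).differentiable one_ne_zero x)
  have e0 : ∀ x i, fderiv ℝ F x (bv i) i = fderiv ℝ (fun z => F z i) x (bv i) := fun x i =>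
    (congrArg (fun L : E d →L[ℝ] ℝ => L (bv i))
      (((EuclideanSpace.proj i : E d →L[ℝ] ℝ).hasFDerivAt.comp x
        (hF.differentiable one_ne_zero x).hasFDerivAt).fderiv)).symm
  have e1 : ∀ x, Real.exp (-ψ x) * (χ x * delta gψ F x) - Real.exp (-ψ x) * fderiv ℝ χ x (F x)
      = -∑ i, (f x * fderiv ℝ (fun z => F z i) x (bv i) + fderiv ℝ f x (bv i) * F x i) := by
    intro x
    have hfd := (((hg x).hasFDerivAt.neg).exp.mul (hχ.differentiable one_ne_zero x).hasFDerivAt)
    have e : ∑ i, fderiv ℝ f x (bv i) * F x i = fderiv ℝ f x (F x) := by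
      conv_rhs => rw [← (EuclideanSpace.basisFun (Fin d) ℝ).sum_repr (F x), map_sum]
      refine Finset.sum_congr rfl fun i _ => ?_
      simp [bv, EuclideanSpace.basisFun_apply, mul_comm]
    rw [Finset.sum_add_distrib, ← Finset.mul_sum, e]
    have hfx : fderiv ℝ f x (F x)
        = Real.exp (-ψ x) * fderiv ℝ χ x (F x) - χ x * (Real.exp (-ψ x) * ⟪gψ x, F x⟫) := by
      rw [show fderiv ℝ f x = _ from hfd.fderiv]
      simp
      ring
    rw [hfx, delta, dvg, Finset.sum_congr rfl fun i _ => e0 x i]
    simp only [hf]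
    ring
  have iR : Integrable fun x => Real.exp (-ψ x) * fderiv ℝ χ x (F x) :=
    (hψ.continuous.neg.rexp.mul ((hχ.continuous_fderiv one_ne_zero).clm_apply
      hF.continuous)).integrable_of_hasCompactSupport
      (HasCompactSupport.intro (hs.fderiv (𝕜 := ℝ)) fun x hx => by
        simp [image_eq_zero_of_notMem_tsupport hx])
  have iD : Integrable fun x => -∑ i, (f x * fderiv ℝ (fun z => F z i) x (bv i)
      + fderiv ℝ f x (bv i) * F x i) :=
    (integrable_finsetSum _ fun i _ => (i1 i).add (i2 i)).neg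
  have iL : Integrable fun x => Real.exp (-ψ x) * (χ x * delta gψ F x) :=
    (iD.add iR).congr (ae_of_all _ fun x => by
      simp only [Pi.add_apply]; linarith [e1 x])
  rw [← sub_eq_zero, ← integral_sub iL iR, integral_congr_ae (ae_of_all _ e1), integral_neg,
    integral_finsetSum _ fun i _ => (i1 i).fun_add (i2 i), neg_eq_zero]
  refine Finset.sum_eq_zero fun i _ => ?_
  rw [integral_add (i1 i) (i2 i), key i, neg_add_cancel]

/-- A continuous function orthogonal to all test functions in a Gibbs law vanishes. -/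
lemma eq_zero_of_integral_gibbs {ψ : E d → ℝ} (hψ : Continuous ψ)
    (hi : Integrable fun x => Real.exp (-ψ x)) {f : E d → ℝ} (hf : Continuous f)
    (h : ∀ χ : E d → ℝ, ContDiff ℝ ∞ χ → HasCompactSupport χ → ∫ x, χ x * f x ∂gibbs ψ = 0)
    (x : E d) : f x = 0 := by
  have hZ : ((∫⁻ x, ENNReal.ofReal (Real.exp (-ψ x)))⁻¹).toReal ≠ 0 := by
    rw [← ofReal_integral_eq_lintegral_ofReal hi (ae_of_all _ fun _ => (Real.exp_pos _).le)]
    have hp : 0 < ∫ x, Real.exp (-ψ x) := by
      refine (integral_pos_iff_support_of_nonneg (fun x => (Real.exp_pos _).le) hi).2 ?_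
      rw [show Function.support (fun x => Real.exp (-ψ x)) = univ from
        eq_univ_of_forall fun x => (Real.exp_pos _).ne']
      exact isOpen_univ.measure_pos volume univ_nonempty
    rw [ENNReal.toReal_inv, ENNReal.toReal_ofReal hp.le]
    exact inv_ne_zero hp.ne'
  have hc : Continuous fun x => Real.exp (-ψ x) * f x := hψ.neg.rexp.mul hf
  have hae := ae_eq_zero_of_integral_contDiff_smul_eq_zero (μ := (volume : Measure (E d)))
    hc.locallyIntegrable (fun χ h1 h2 => by
      have h3 := h χ h1 h2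
      rw [integral_gibbs' hψ] at h3
      refine ((mul_eq_zero.1 h3).resolve_left hZ).symm.trans ?_ |>.symm
      exact integral_congr_ae (ae_of_all _ fun y => by simp only [smul_eq_mul]; ring))
  have := congrFun ((hc.ae_eq_iff_eq volume continuous_const).1 hae) x
  simpa [(Real.exp_pos _).ne'] using this

end Vale.Agent.P347.Gamma0
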