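import Vale.Agent.P347.Gamma0.Expr

/-!
P347, towards `γ_* = 0`: what the analysis of one exact stage has to deliver to the recursion.
A stage replaces a gate `γ G_τ(c)` by residual gates at scale `ρ τ`, `ρ = ε^a`.
-/

namespace Vale.Agent.P347.Gamma0

open MeasureTheory ProbabilityTheory

variable {d : ℕ}

/-- The gradient attached to a scale, zero at scales which are not positive. -/
noncomputable def Gt (U : E d → ℝ) (g : E d → E d) (ε r : ℝ) (c : E d) : E d :=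
  if 0 < r then G U g ε r c else 0

/-- The law of the point at scale `r` of the chain from `(τ, c)`. -/
noncomputable def lawY (U : E d → ℝ) (ε τ r : ℝ) (c : E d) : Measure (E d) :=
  gibbs fun y => ‖y - c‖ ^ 2 / (2 * (τ - r)) + nW U ε r y

/-- The inputs of the bridge mean. -/
inductive MIn : Type
  | ctr
  | seed
deriving DecidableEq

instance : Fintype MIn where
  elems := {.ctr, .seed}
  complete := fun x => by cases x <;> simp

/-- The inputs of the output of a stage: centre, numeric point, noise, auxiliary vectors. -/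
inductive OIn (n : ℕ) : Type
  | ctr
  | pt
  | noi
  | aux (i : Fin n)
deriving DecidableEq

instance {n : ℕ} : Fintype (OIn n) where
  elems := {.ctr, .pt, .noi} ∪ Finset.univ.image OIn.aux
  complete := fun x => by cases x <;> simp

/-- One stage. -/
structure Stage (n N : ℕ) where
  mean : Expr MIn
  s : ℝ
  shift : Fin N → Expr (OIn n)
  w : Fin N → ℝ

/-- The values of the inputs of the output. -/
def oPoint {n : ℕ} (c y z : E d) (u : Fin n → E d) : OIn n → E d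
  | .ctr => c
  | .pt => y
  | .noi => z
  | .aux i => u i

/-- The values of the inputs of the bridge mean. -/
def mPoint (c R : E d) : MIn → E d
  | .ctr => c
  | .seed => R

/-- The mean of the output in noise units, from the inputs. -/
noncomputable def outMean {n N : ℕ} (Gr : ℝ → E d → E d) (S : Stage n N) (γ r : ℝ)
    (x : OIn n → E d) : E d :=
  (Real.sqrt 2)⁻¹ • x .noi + γ • ∑ i, S.w i • Gr r (x .pt + (S.shift i).val Gr x)

/-- The syntactic bounds of a stage: `amp` is the amplification, `L = |γ| √τ`. -/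
structure StageShape {n N : ℕ} (S : Stage n N) (ε amp L τ ρ w₀ : ℝ) : Prop where
  s_lo : Real.sqrt (ρ * τ) / 4 ≤ S.s
  s_hi : S.s ≤ Real.sqrt τ
  w_sum : ∑ i, |S.w i| ≤ w₀
  mean_coef : Expr.coef MIn.ctr S.mean ≤ 2
  mean_size : S.mean.size ≤ amp * ε * Real.sqrt τ
  mean_lip : ∀ i, Expr.lip i S.mean ≤ 2
  mean_offset : S.mean.offset ≤ 2
  mean_gates : ∀ p ∈ S.mean.gates, ρ * τ / 8 ≤ p.1 ∧ p.1 ≤ τ ∧
    p.2.size ≤ amp * ε * Real.sqrt p.1 ∧ Expr.coef MIn.ctr p.2 ≤ amp ∧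
    (∀ i, Expr.lip i p.2 ≤ amp) ∧ p.2.offset ≤ amp
  shift_coef : ∀ j, Expr.coef OIn.ctr (S.shift j) = 0
  shift_size : ∀ j, (S.shift j).size ≤ amp * L * Real.sqrt (ρ * τ)
  shift_lip : ∀ j i, Expr.lip i (S.shift j) ≤ amp * L
  shift_offset : ∀ j, (S.shift j).offset ≤ amp * L
  shift_gates : ∀ j, ∀ p ∈ (S.shift j).gates, ρ * τ / 8 ≤ p.1 ∧ p.1 ≤ τ ∧
    p.2.size ≤ amp * (Real.sqrt ε + L) * Real.sqrt p.1 ∧ Expr.coef OIn.ctr p.2 ≤ amp ∧
    (∀ i, Expr.lip i p.2 ≤ amp) ∧ p.2.offset ≤ amp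

/-- The accuracy of a stage, for every potential and centre, against `1`-Lipschitz tests. -/
structure StageAccurate {n N : ℕ} (d : ℕ) (S : Stage n N) (ε γ τ ρ err : ℝ) : Prop where
  mean_acc : ∀ U g, Pot U g → g 0 = 0 → ∀ c : E d, ∀ φ : E d → ℝ, Lip1 φ →
    |(∫ R, sm (S.s ^ 2) φ (S.mean.val (Gt U g ε) (mPoint c R)) ∂gam d)
        - ∫ y, φ y ∂lawY U ε τ (ρ * τ) c| ≤ Real.sqrt τ * err * (Real.sqrt d + ‖c‖)
  moment : ∀ U g, Pot U g → g 0 = 0 → ∀ c : E d,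
    Integrable (fun y => ‖y‖) (lawY U ε τ (ρ * τ) c) ∧
    ∫ y, ‖y‖ ∂lawY U ε τ (ρ * τ) c ≤ 2 * (Real.sqrt d + ‖c‖)
  out_acc : ∀ U g, Pot U g → g 0 = 0 → ∀ c : E d, ∀ φ : E d → ℝ, Lip1 φ →
    |(∫ y, (∫ z, (∫ u, sm (1 / 2) φ
          (outMean (Gt U g ε) S γ (ρ * τ) (oPoint c y z u)) ∂Measure.pi fun _ : Fin n => gam d)
            ∂gam d) ∂lawY U ε τ (ρ * τ) c)
        - sm 1 φ (γ • G U g ε τ c)| ≤ |γ| * Real.sqrt τ * err * (Real.sqrt d + ‖c‖)

/-- Stages of any order exist, with amplification `ε^{-C a}` and `d^δ` nodes. -/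
def Templates : Prop :=
  ∀ K : ℕ, ∀ ι : ℝ, 0 < ι → ι ≤ 1 / 10 → ∃ C n : ℕ, ∃ w₀ : ℝ, 1 ≤ w₀ ∧ ∀ a : ℝ, 0 < a → a * C ≤ 1 / 8 →
    ∀ δ : ℝ, 0 < δ → ∀ᶠ d : ℕ in Filter.atTop,
      let ε : ℝ := (d : ℝ) ^ (-ι)
      ∀ τ γ : ℝ, 0 < τ → τ ≤ 1 → |γ| * Real.sqrt τ ≤ Real.sqrt (Real.sqrt ε) →
        ∃ (N : ℕ) (S : Stage n N), ((N : ℝ) ≤ (d : ℝ) ^ δ) ∧
          ((S.mean.nodes : ℝ) ≤ (d : ℝ) ^ δ) ∧ (∀ j, ((S.shift j).nodes : ℝ) ≤ (d : ℝ) ^ δ) ∧
          StageShape S ε (ε ^ (-(a * C))) (|γ| * Real.sqrt τ) τ (ε ^ a) w₀ ∧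
          StageAccurate d S ε γ τ (ε ^ a) (ε ^ K)

end Vale.Agent.P347.Gamma0
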