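import Vale.Agent.P347.Gamma0.Sample
import Vale.Agent.P347.Gamma0.Bounds
import Vale.Agent.P347.Gamma0.Templates

/-!
P347, towards `γ_* = 0`: scaling, fresh randomness and sums of draws; a draw from the mean value
of an expression out of draws of its top gates.
-/

namespace Vale.Agent.P347.Gamma0

open MeasureTheory ProbabilityTheory

variable {d : ℕ} {ι : Type} [Fintype ι]

local instance (m : ℕ) : IsProbabilityMeasure (gam m) := by unfold gam; infer_instance

lemma lip1_scale {φ : E d → ℝ} (hφ : Lip1 φ) {c : ℝ} (hc : c ≠ 0) :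
    Lip1 fun u => |c|⁻¹ * φ (c • u) := by
  refine LipschitzWith.of_dist_le_mul fun a b => ?_
  rw [Real.dist_eq, ← mul_sub, abs_mul, abs_inv, abs_abs, NNReal.coe_one, one_mul,
    inv_mul_le_iff₀ (abs_pos.2 hc)]
  have h := hφ.dist_le_mul (c • a) (c • b)
  rw [NNReal.coe_one, one_mul, Real.dist_eq, dist_eq_norm, ← smul_sub, norm_smul,
    Real.norm_eq_abs] at h
  rwa [dist_eq_norm]

lemma sm_neg_comp (v : ℝ) (φ : E d → ℝ) (a : E d) :
    sm v (fun u => φ (-u)) a = sm v φ (-a) := by
  have hN : (gam d).map (fun w : E d => -w) = gam d := by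
    have h := stdGaussian_map (E := E d) (LinearIsometryEquiv.neg ℝ)
    simpa [gam] using h
  have hm : MeasurableEmbedding fun w : E d => -w := (MeasurableEquiv.neg (E d)).measurableEmbedding
  simp only [sm]
  conv_rhs => rw [← hN]
  rw [hm.integral_map]
  refine integral_congr_ae (ae_of_all _ fun w => ?_)
  simp only [neg_add, smul_neg]

lemma sm_comp_smul {v : ℝ} (c : ℝ) (φ : E d → ℝ) (a : E d) :
    sm v (fun u => φ (c • u)) a = sm (c ^ 2 * v) φ (c • a) := by
  have h : ∀ c : ℝ, 0 ≤ c → ∀ φ : E d → ℝ, ∀ a,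
      sm v (fun u => φ (c • u)) a = sm (c ^ 2 * v) φ (c • a) := fun c hc φ a => by
    simp only [sm, smul_add, smul_smul, Real.sqrt_mul (sq_nonneg c), Real.sqrt_sq hc]
  rcases le_total 0 c with hc | hc
  · exact h c hc φ a
  · have h1 := h (-c) (neg_nonneg.2 hc) (fun u => φ (-u)) a
    simp only [neg_smul, neg_neg, neg_sq] at h1
    rw [h1, sm_neg_comp, neg_neg]

namespace Draws

variable {cost : ℕ}

lemma smul {v : ℝ} {m : Dep d ι (E d)} {B : Dep d ι ℝ} (h : Draws d cost (gT v m) B) (c : ℝ) :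
    Draws d cost (gT (c ^ 2 * v) fun U g x => c • m U g x) fun U g x => |c| * B U g x := by
  obtain ⟨Ω, _, μ, _, F, hG, hF, h⟩ := h
  refine ⟨Ω, inferInstance, μ, inferInstance, fun g p => c • F g p, hG,
    hF.postcomp (φ := fun u : E d => c • u) (by fun_prop), fun U g hU hg x => ?_⟩
  obtain ⟨hi, hb⟩ := h U g hU hg x
  refine ⟨by simpa only [norm_smul] using hi.const_mul ‖c‖, fun φ hφ => ?_⟩
  rcases eq_or_ne c 0 with rfl | hc
  · simp [gT, sm]
  · have h2 := hb _ (lip1_scale hφ hc)
    simp only [gT] at h2 ⊢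
    rw [← sm_comp_smul c φ (m U g x)]
    rw [show sm v (fun u => |c|⁻¹ * φ (c • u)) (m U g x)
      = |c|⁻¹ * sm v (fun u => φ (c • u)) (m U g x) from integral_const_mul _ _,
      integral_const_mul, ← mul_sub, abs_mul, abs_inv, abs_abs,
      inv_mul_le_iff₀ (abs_pos.2 hc)] at h2
    exact h2

/-- Fresh randomness turned into inputs. -/
lemma fresh {κ : Type} [Fintype κ] {T : Dep d κ ((E d → ℝ) → ℝ)} {B : Dep d κ ℝ}
    (h : Draws d cost T B) {W : Type} [MeasurableSpace W] (ν : Measure W) [IsProbabilityMeasure ν]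
    (hν : AlgoRun.Gen ν) {f : W × (ι → E d) → (κ → E d)} (hf : Measurable f)
    (hT : ∀ U g, Pot U g → g 0 = 0 → ∀ x φ, Lip1 φ →
      Integrable (fun w => T U g (f (w, x)) φ) ν)
    (hB : ∀ U g, Pot U g → g 0 = 0 → ∀ x, Integrable (fun w => B U g (f (w, x))) ν) :
    Draws d cost (fun U g x φ => ∫ w, T U g (f (w, x)) φ ∂ν)
      fun U g x => ∫ w, B U g (f (w, x)) ∂ν := by
  obtain ⟨Ω, _, μ, _, F, hG, hF, h⟩ := h
  refine ⟨W × Ω, inferInstance, ν.prod μ, inferInstance,
    fun g p => F g (p.1.2, f (p.1.1, p.2)), AlgoRun.gen_prod hν hG,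
    hF.precomp (φ := fun p : (W × Ω) × (ι → E d) => (p.1.2, f (p.1.1, p.2)))
      ((measurable_snd.comp measurable_fst).prodMk
        (hf.comp ((measurable_fst.comp measurable_fst).prodMk measurable_snd))),
    fun U g hU hg x => ?_⟩
  have hm : Measurable fun p : W × Ω => F g (p.2, f (p.1, x)) :=
    (hF.measurable hU.lip.continuous).comp
      (measurable_snd.prodMk (hf.comp (measurable_fst.prodMk measurable_const)))
  have iN : Integrable (fun p : W × Ω => ‖F g (p.2, f (p.1, x))‖) (ν.prod μ) :=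
    integrable_norm_pair (X := fun p : W × Ω => F g (p.2, f (p.1, x))) hm
      (fun a => (h U g hU hg (f (a, x))).1)
      ((hB U g hU hg x).add (hT U g hU hg x _ Lip1.norm))
      fun a => by
        have := (abs_le.1 ((h U g hU hg (f (a, x))).2 _ Lip1.norm)).2
        simp only [Pi.add_apply]
        linarith
  refine ⟨iN, fun φ hφ => ?_⟩
  have hI := integrable_lip hφ hm iN
  rw [integral_prod _ hI, ← integral_sub hI.integral_prod_left (hT U g hU hg x φ hφ)]
  exact abs_integral_le_integral_abs.trans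
    (integral_mono (hI.integral_prod_left.sub (hT U g hU hg x φ hφ)).abs (hB U g hU hg x)
      fun a => (h U g hU hg (f (a, x))).2 φ hφ)

lemma zero : Draws (ι := ι) d 1 (gT 0 fun _ _ _ => (0 : E d)) fun _ _ _ => 0 :=
  ((Draws.const (d := d) (e := (Expr.zero : Expr ι)) 0).mono le_rfl fun U g _ _ x φ _ => by
    simp [gT, sm, Expr.val])

/-- Sums of independent draws. -/
lemma sumList {α : Type} {v : ℝ} (hv : 0 ≤ v) (m : α → Dep d ι (E d)) (B : α → Dep d ι ℝ) :
    ∀ l : List α, (∀ a ∈ l, Draws d cost (gT v (m a)) (B a)) →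
      Draws d (l.length * cost + 1)
        (gT (l.length * v) fun U g x => (l.map fun a => m a U g x).sum)
        fun U g x => (l.map fun a => B a U g x).sum
  | [], _ => by simpa using Draws.zero (d := d) (ι := ι)
  | a :: l, h => by
    have h1 := h a (by simp)
    have h2 := sumList hv m B l fun b hb => h b (by simp [hb])
    refine ((h1.add hv (mul_nonneg (Nat.cast_nonneg _) hv) h2).mono ?_ ?_)
    · simp only [List.length_cons]; rw [Nat.succ_mul]; omega
    · intro U g _ _ x φ _
      simp only [List.map_cons, List.sum_cons, List.length_cons, gT, Nat.cast_add, Nat.cast_one]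
      rw [show ((l.length : ℝ) + 1) * v = v + (l.length : ℝ) * v by ring]
      simp

/-- A draw from the value of an expression, out of draws of its top gates. -/
lemma expr {ε : ℝ} (e : Expr ι) {s Lmax : ℝ} (hs : 0 < s) (Bp : Dep d ι ℝ)
    (hL : e.size * Real.sqrt e.nodes / s ≤ Lmax)
    (hgate : ∀ p ∈ e.tops, ∀ γ : ℝ, |γ| * Real.sqrt p.2.1 ≤ Lmax →
      Draws d cost (gT 1 fun U g x => γ • Gt U g ε p.2.1 (p.2.2.val (Gt U g ε) x))
        fun U g x => |γ| * Real.sqrt p.2.1 * Bp U g x) :
    Draws d (e.nodes * cost + e.nodes + 1)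
      (gT (s ^ 2) fun U g x => e.val (Gt U g ε) x) fun U g x => e.size * Bp U g x := by
  rcases eq_or_ne e.tops [] with he | he
  · refine (Draws.const (d := d) (e := e.linPart) s).mono ?_ ?_
    · have := e.nodes_linPart; omega
    · intro U g _ _ x φ _
      simp only [gT, Expr.size_eq_tops e, he, List.map_nil, List.sum_nil, zero_mul, zero_add]
      rw [Expr.val_tops _ e x, he]
      simp [Expr.val_linPart (fun _ => g) (Gt U g ε) e x]
  set l := e.tops with hl
  have hN : (0 : ℝ) < l.length := by exact_mod_cast List.length_pos_iff.2 he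
  set sN : ℝ := s / Real.sqrt l.length with hsN
  have hsN0 : 0 < sN := div_pos hs (Real.sqrt_pos.2 hN)
  have hvar : (l.length : ℝ) * (sN ^ 2 * 1) = s ^ 2 := by
    rw [hsN, div_pow, Real.sq_sqrt hN.le]; field_simp
  have hone : ∀ p ∈ l, Draws d cost
      (gT (sN ^ 2 * 1) fun U g x => p.1 • Gt U g ε p.2.1 (p.2.2.val (Gt U g ε) x))
      fun U g x => |p.1| * Real.sqrt p.2.1 * Bp U g x := fun p hp => by
    have hle : |p.1 / sN| * Real.sqrt p.2.1 ≤ Lmax := by
      refine le_trans ?_ hL
      have h1 : |p.1| * Real.sqrt p.2.1 ≤ e.size := by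
        rw [Expr.size_eq_tops e]
        refine List.single_le_sum ?_ _ (List.mem_map.2 ⟨p, hp, rfl⟩)
        intro y hy
        obtain ⟨q, -, rfl⟩ := List.mem_map.1 hy
        positivity
      have h2 : Real.sqrt l.length ≤ Real.sqrt e.nodes :=
        Real.sqrt_le_sqrt (by exact_mod_cast e.length_tops)
      rw [abs_div, abs_of_pos hsN0, hsN, div_div_eq_mul_div, div_mul_eq_mul_div,
        mul_right_comm]
      exact div_le_div_of_nonneg_right (mul_le_mul h1 h2 (Real.sqrt_nonneg _) e.size_nonneg) hs.le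
    refine ((hgate p hp _ hle).smul sN).mono le_rfl fun U g _ _ x φ _ => ?_
    simp only [gT, smul_smul, mul_div_cancel₀ p.1 hsN0.ne', sub_self, abs_zero, add_zero]
    have h3 : |sN| * |p.1 / sN| = |p.1| := by rw [← abs_mul, mul_div_cancel₀ _ hsN0.ne']
    exact le_of_eq (by rw [← mul_assoc, ← mul_assoc, h3])
  have hsum := Draws.sumList (d := d) (ι := ι) (v := sN ^ 2 * 1) (by positivity)
    (fun p : ℝ × ℝ × Expr ι => fun U g x => p.1 • Gt U g ε p.2.1 (p.2.2.val (Gt U g ε) x))
    (fun p => fun U g x => |p.1| * Real.sqrt p.2.1 * Bp U g x) l hone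
  have hlin : Draws d e.linPart.nodes (gT 0 fun U g x => e.linPart.val (Gt U g ε) x)
      fun _ _ _ => 0 :=
    (Draws.const (d := d) (e := e.linPart) 0).mono le_rfl fun U g _ _ x φ _ => by
      simp [gT, Expr.val_linPart (fun _ => g) (Gt U g ε) e.linPart x,
        Expr.val_linPart (fun _ => g) (Gt U g ε) e x]
  refine (hlin.add le_rfl (by positivity) hsum).mono ?_ fun U g _ _ x φ _ => ?_
  · have := e.nodes_linPart
    have h2 : l.length * cost ≤ e.nodes * cost := Nat.mul_le_mul_right _ e.length_tops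
    omega
  · simp only [gT, zero_add, hvar]
    rw [← Expr.val_tops (Gt U g ε) e x]
    simp [Expr.size_eq_tops e, ← List.sum_map_mul_right, hl]

end Draws

end Vale.Agent.P347.Gamma0
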