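import Vale.Agent.P347.Gamma0.Defs

/-!
P347, towards `γ_* = 0`: the statements of the analytic pieces, as propositions.
-/

namespace Vale.Agent.P347.Gamma0

open MeasureTheory ProbabilityTheory
open scoped RealInnerProductSpace ContDiff

/-- Piece 1: the posterior. -/
def PostFacts : Prop :=
  ∀ d : ℕ, ∀ U : E d → ℝ, ∀ g : E d → E d, Pot U g → g 0 = 0 → ∀ ε : ℝ, 0 ≤ ε → ε ≤ 1 →
    ContDiffOn ℝ ∞ (fun p : ℝ × E d => G U g ε p.1 p.2) (Set.Ioi 0 ×ˢ Set.univ) ∧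
    ContDiffOn ℝ ∞ (fun p : ℝ × E d => nW U ε p.1 p.2) (Set.Ioi 0 ×ˢ Set.univ) ∧
    ∀ r : ℝ, 0 < r → ∀ c : E d,
      IsProbabilityMeasure (post U ε r c) ∧
      HasGradientAt (nW U ε r) (ε • G U g ε r c) c ∧
      HasDerivAt (fun s => nW U ε s c)
        (ε / 2 * dvg (G U g ε r) c - ε ^ 2 / 2 * ‖G U g ε r c‖ ^ 2) r ∧
      HasDerivAt (fun s => G U g ε s c)
        ((1 / 2 : ℝ) • lap (G U g ε r) c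
          - ε • fderiv ℝ (G U g ε r) c (G U g ε r c)) r ∧
      (∀ v u : E d, ⟪fderiv ℝ (G U g ε r) c v, u⟫ = ⟪fderiv ℝ (G U g ε r) c u, v⟫) ∧
      (∀ v : E d, 0 ≤ ⟪fderiv ℝ (G U g ε r) c v, v⟫ ∧
        ⟪fderiv ℝ (G U g ε r) c v, v⟫ ≤ ‖v‖ ^ 2) ∧
      ‖G U g ε r c‖ ≤ ‖c‖ + Real.sqrt (r * d) ∧
      ‖G U g ε r c - g c‖ ≤ Real.sqrt (r * d) + r * ε * ‖g c‖

/-- Piece 1: the bridge identity. -/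
def BridgeFact : Prop :=
  ∀ d : ℕ, ∀ U : E d → ℝ, ∀ g : E d → E d, Pot U g → ∀ ε : ℝ, 0 ≤ ε →
    ∀ r τ : ℝ, 0 < r → r < τ → ∀ c : E d, ∀ φ : E d → ℝ, Measurable φ → (∀ x, |φ x| ≤ 1) →
      ∫ x, φ x ∂post U ε τ c
        = ∫ y, (∫ x, φ x ∂post U ε r y) ∂gibbs (fun y => ‖y - c‖ ^ 2 / (2 * (τ - r)) + nW U ε r y)

/-- Piece 1: all flattenings of all derivatives of `G_r` are bounded without dimension. -/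
def TameFact : Prop :=
  ∀ m : ℕ, 1 ≤ m → ∃ C : ℝ, 0 ≤ C ∧
    ∀ d : ℕ, ∀ U : E d → ℝ, ∀ g : E d → E d, Pot U g → ∀ ε : ℝ, 0 ≤ ε → ε ≤ 1 →
      ∀ r : ℝ, 0 < r → r ≤ 1 → ∀ c : E d,
        FlatLe (C / Real.sqrt r ^ (m - 1)) (derivT m (G U g ε r) c)

/-- `Φ` is the flow of `v` on the time interval `I`. -/
structure IsFlow {N : ℕ} (v : ℝ → E N → E N) (I : Set ℝ) (Φ : ℝ → ℝ → E N → E N) : Prop where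
  refl : ∀ s ∈ I, ∀ x, Φ s s x = x
  deriv : ∀ s ∈ I, ∀ t ∈ I, ∀ x, HasDerivAt (fun u => Φ s u x) (v t (Φ s t x)) t
  trans : ∀ r ∈ I, ∀ s ∈ I, ∀ t ∈ I, ∀ x, Φ s t (Φ r s x) = Φ r t x
  smooth : ∀ s ∈ I, ∀ t ∈ I, ContDiff ℝ ∞ (Φ s t)
  cont : ContinuousOn (fun p : ℝ × ℝ × E N => Φ p.1 p.2.1 p.2.2) (I ×ˢ I ×ˢ Set.univ)
  cont_fderiv : ContinuousOn (fun p : ℝ × ℝ × E N => fderiv ℝ (Φ p.1 p.2.1) p.2.2)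
    (I ×ˢ I ×ˢ Set.univ)
  variational : ∀ s ∈ I, ∀ t ∈ I, ∀ x h,
    HasDerivAt (fun u => fderiv ℝ (Φ s u) x h)
      (fderiv ℝ (v t) (Φ s t x) (fderiv ℝ (Φ s t) x h)) t

/-- Piece 2: global flows. -/
def FlowExists : Prop :=
  ∀ N : ℕ, ∀ a b : ℝ, a < b → ∀ v : ℝ → E N → E N,
    ContDiffOn ℝ ∞ (fun p : ℝ × E N => v p.1 p.2) (Set.Ioo a b ×ˢ Set.univ) →
    (∀ a' b', a < a' → b' < b → ∃ C : ℝ, ∀ t ∈ Set.Icc a' b', ∀ x, ‖v t x‖ ≤ C * (1 + ‖x‖)) →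
      ∃ Φ : ℝ → ℝ → E N → E N, IsFlow v (Set.Ioo a b) Φ

/-- Piece 2: transport of Gibbs laws from the continuity equation. -/
def LawTransport : Prop :=
  ∀ N : ℕ, ∀ a b : ℝ, a < b → ∀ v : ℝ → E N → E N, ∀ Φ, IsFlow v (Set.Ioo a b) Φ →
    ContDiffOn ℝ ∞ (fun p : ℝ × E N => v p.1 p.2) (Set.Ioo a b ×ˢ Set.univ) →
    (∀ a' b', a < a' → b' < b → ∃ C : ℝ, ∀ t ∈ Set.Icc a' b', ∀ x, ‖v t x‖ ≤ C * (1 + ‖x‖)) →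
    ∀ Ψ : ℝ → E N → ℝ,
      ContDiffOn ℝ ∞ (fun p : ℝ × E N => Ψ p.1 p.2) (Set.Ioo a b ×ˢ Set.univ) →
      (∀ t ∈ Set.Ioo a b, Integrable fun x => Real.exp (-Ψ t x)) →
      (∀ t ∈ Set.Ioo a b, ∀ x,
        deriv (fun u => Ψ u x) t + fderiv ℝ (Ψ t) x (v t x) = dvg (v t) x) →
      ∀ s ∈ Set.Ioo a b, ∀ t ∈ Set.Ioo a b, (gibbs (Ψ s)).map (Φ s t) = gibbs (Ψ t)

/-- Piece 3: integration matrices of any order on one interval. -/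
def IntMatrix : Prop :=
  ∀ n : ℕ, 1 ≤ n → ∃ C : ℝ, 0 ≤ C ∧ ∃ (x : Fin n → ℝ) (w : Option (Fin n) → Fin n → ℝ),
    (∀ i, x i ∈ Set.Icc (0 : ℝ) 1) ∧ (∀ o, ∑ j, |w o j| ≤ C) ∧
    ∀ (Ω : Type) [MeasurableSpace Ω] (μ : Measure Ω) [IsProbabilityMeasure μ] (d : ℕ)
      (f : ℝ → Ω → E d) (s h M : ℝ), 0 ≤ h → 0 ≤ M →
      (∀ z, ∀ t ∈ Set.Icc s (s + h), ContDiffAt ℝ n (fun u => f u z) t) → Measurable (fun p : ℝ × Ω => f p.1 p.2) →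
      (∀ t ∈ Set.Icc s (s + h), ∫⁻ z, ‖iteratedDeriv n (fun u => f u z) t‖ₑ ^ 2 ∂μ
        ≤ ENNReal.ofReal (M ^ 2)) →
      ∀ o, ∫⁻ z, ‖(∫ t in s..(s + h * o.elim 1 x), f t z)
          - h • ∑ j, w o j • f (s + h * x j) z‖ₑ ^ 2 ∂μ
        ≤ ENNReal.ofReal ((C * h ^ (n + 1) * M) ^ 2)

/-- Piece 3: extraction of the `n`-th Taylor coefficient from `N` values. -/
def Richardson : Prop :=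
  ∀ n N : ℕ, n < N → ∃ C : ℝ, 0 ≤ C ∧ ∃ (x w : Fin N → ℝ),
    (∀ i, |x i| ≤ 1) ∧ (∑ i, |w i|) ≤ C ∧
    ∀ (Ω : Type) [MeasurableSpace Ω] (μ : Measure Ω) [IsProbabilityMeasure μ] (d : ℕ)
      (f : ℝ → Ω → E d) (θ M : ℝ), 0 < θ → 0 ≤ M →
      (∀ z, ∀ t ∈ Set.Icc (-θ) θ, ContDiffAt ℝ N (fun u => f u z) t) → Measurable (fun p : ℝ × Ω => f p.1 p.2) →
      (∀ t ∈ Set.Icc (-θ) θ, ∫⁻ z, ‖iteratedDeriv N (fun u => f u z) t‖ₑ ^ 2 ∂μ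
        ≤ ENNReal.ofReal (M ^ 2)) →
      ∫⁻ z, ‖(∑ i, w i • f (θ * x i) z)
          - (θ ^ n / n.factorial) • iteratedDeriv n (fun u => f u z) 0‖ₑ ^ 2 ∂μ
        ≤ ENNReal.ofReal ((C * θ ^ N * M) ^ 2)

/-- Piece 4: `δ` is adjoint to the gradient and is bounded from `H¹` to `L²`. -/
def DeltaBound : Prop :=
  ∀ d : ℕ, ∀ Ψ : E d → ℝ, ∀ gΨ : E d → E d, ∀ M : ℝ,
    ContDiff ℝ 2 Ψ → (∀ x, HasGradientAt Ψ (gΨ x) x) →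
    (∀ x v, ‖v‖ ^ 2 ≤ ⟪fderiv ℝ gΨ x v, v⟫ ∧ ⟪fderiv ℝ gΨ x v, v⟫ ≤ M * ‖v‖ ^ 2) →
    ∀ F : E d → E d, ∀ K : ℝ, ∀ n : ℕ, ContDiff ℝ 2 F →
      (∀ x, ‖F x‖ ≤ K * (1 + ‖x‖) ^ n) → (∀ x, ‖fderiv ℝ F x‖ ≤ K * (1 + ‖x‖) ^ n) →
      (∫ x, delta gΨ F x ^ 2 ∂gibbs Ψ)
          ≤ (∫ x, M * ‖F x‖ ^ 2 ∂gibbs Ψ) + ∫ x, hs (derivT 1 F x) ^ 2 ∂gibbs Ψ ∧
      ∀ φ : E d → ℝ, ∀ gφ : E d → E d, Continuous gφ → (∀ x, HasGradientAt φ (gφ x) x) →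
        (∀ x, |φ x| ≤ K * (1 + ‖x‖) ^ n) → (∀ x, ‖gφ x‖ ≤ K * (1 + ‖x‖) ^ n) →
          ∫ x, φ x * delta gΨ F x ∂gibbs Ψ = ∫ x, ⟪gφ x, F x⟫ ∂gibbs Ψ

end Vale.Agent.P347.Gamma0
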