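import Vale.Agent.P347.LogConcave
import Vale.Agent.P347.Gamma0.Interface

/-!
P347, towards `γ_* = 0`, piece 4: integration by parts against a strongly log-concave law, the
adjoint `δ` of the gradient and Bochner's inequality `∫ (δF)² ≤ M ∫ |F|² + ∫ |DF|²`.
-/

namespace Vale.Agent.P347.Gamma0

open MeasureTheory Filter Topology
open scoped RealInnerProductSpace

namespace DeltaAux

open Vale.Agent.P347.LogConcave

variable {d : ℕ} {W : E d → ℝ} {gW : E d → E d} {m : ℝ}

/-- The `i`-th partial derivative. -/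
noncomputable def pdv (i : Fin d) (f : E d → ℝ) (x : E d) : ℝ := fderiv ℝ f x (bv i)

lemma inner_bv (v : E d) (i : Fin d) : ⟪v, bv i⟫ = v i := by
  simp [bv, EuclideanSpace.inner_single_right]

lemma pdv_coord {F : E d → E d} (hF : Differentiable ℝ F) (x : E d) (i j : Fin d) :
    pdv j (fun y => F y i) x = fderiv ℝ F x (bv j) i := by
  have h : HasFDerivAt (fun y => EuclideanSpace.proj (𝕜 := ℝ) i (F y))
      ((EuclideanSpace.proj (𝕜 := ℝ) i).comp (fderiv ℝ F x)) x :=
    (EuclideanSpace.proj (𝕜 := ℝ) i).hasFDerivAt.comp x (hF x).hasFDerivAt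
  exact congrArg (fun L : E d →L[ℝ] ℝ => L (bv j)) h.fderiv

/-- Integration by parts. -/
lemma ibp (hW : LogConc W gW m) {f : E d → ℝ} (i : Fin d) (hf : ContDiff ℝ 1 f) (hp : Poly f)
    (hp' : Poly (pdv i f)) :
    ∫ x, pdv i f x ∂gibbs W = ∫ x, f x * gW x i ∂gibbs W := by
  obtain ⟨M, hM⟩ := hW.lip
  have hgc : Continuous fun x => gW x i :=
    (EuclideanSpace.proj (𝕜 := ℝ) i).continuous.comp hM.continuous
  have hgp : Poly fun x => gW x i := by
    refine Poly.of_le (A := ‖gW 0‖ + M) (N := 1) fun x => ?_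
    have h1 : ‖gW x‖ ≤ ‖gW 0‖ + M * ‖x‖ := by
      have h2 := hM.norm_sub_le x 0
      rw [sub_zero] at h2
      linarith [norm_le_norm_add_norm_sub' (gW x) (gW 0)]
    calc |gW x i| ≤ ‖gW x‖ := by simpa using PiLp.norm_apply_le (gW x) i
      _ ≤ _ := by
        nlinarith [norm_nonneg (gW 0), norm_nonneg x, NNReal.coe_nonneg M]
  have hfd : Differentiable ℝ f := hf.differentiable (by simp)
  have hpc : Continuous (pdv i f) := (hf.continuous_fderiv (by simp)).clm_apply continuous_const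
  have hWd : Differentiable ℝ W := hW.contDiff.differentiable (by norm_num)
  have he : ∀ x, fderiv ℝ (fun y => Real.exp (-W y)) x (bv i) =
      -(Real.exp (-W x) * gW x i) := fun x => by
    rw [((hasGradientAt_iff_hasFDerivAt.1 (hW.grad x)).fun_neg.exp).fderiv]
    simp [InnerProductSpace.toDual_apply_apply, inner_bv]
  have i1 := (integrable_gibbs_iff hW).1 (hp'.integrable hW hpc)
  have i2 := (integrable_gibbs_iff hW).1 ((hp.mul hgp).integrable hW (hf.continuous.mul hgc))
  have i3 := (integrable_gibbs_iff hW).1 (hp.integrable hW hf.continuous)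
  have h := integral_mul_fderiv_eq_neg_fderiv_mul_of_integrable (μ := volume) (f := f)
    (g := fun y => Real.exp (-W y)) (v := bv i)
    (i1.congr (ae_of_all _ fun x => mul_comm _ _))
    (i2.neg.congr (ae_of_all _ fun x => by simp only [Pi.neg_apply, he]; ring))
    (i3.congr (ae_of_all _ fun x => mul_comm _ _))
    (fun x _ => hfd x) (fun x _ => (hWd x).neg.exp)
  rw [integral_gibbs hW, integral_gibbs hW]
  congr 1
  calc ∫ x, Real.exp (-W x) * pdv i f x
      = ∫ x, fderiv ℝ f x (bv i) * Real.exp (-W x) :=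
        integral_congr_ae (ae_of_all _ fun x => mul_comm _ _)
    _ = -∫ x, f x * fderiv ℝ (fun y => Real.exp (-W y)) x (bv i) := by rw [h, neg_neg]
    _ = _ := by
        rw [← integral_neg]
        exact integral_congr_ae (ae_of_all _ fun x => by simp only [he]; ring)

lemma poly_of_compact {f : E d → ℝ} (hc : Continuous f) (hs : HasCompactSupport f) : Poly f := by
  obtain ⟨B, hB⟩ := hc.bounded_above_of_compact_support hs
  exact Poly.of_bound fun x => by simpa using hB x

lemma delta_eq_sum {gW F : E d → E d} (hF : Differentiable ℝ F) (x : E d) :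
    delta gW F x = ∑ i, (gW x i * F x i - pdv i (fun y => F y i) x) := by
  simp only [delta, dvg, pdv_coord hF, Finset.sum_sub_distrib, PiLp.inner_apply]
  simp [mul_comm]

lemma hs_derivT_sq {F : E d → E d} (x : E d) :
    hs (derivT 1 F x) ^ 2 = ∑ i, ∑ j, fderiv ℝ F x (bv j) i ^ 2 := by
  rw [hs, Real.sq_sqrt (Finset.sum_nonneg fun _ _ => sq_nonneg _), ← Fintype.sum_prod_type',
    ← (finTwoArrowEquiv (Fin d)).symm.sum_comp]
  refine Finset.sum_congr rfl fun p _ => ?_
  rw [derivT, iteratedFDeriv_one_apply]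
  rfl

lemma sum_coord_sq (v : E d) : ∑ i, v i ^ 2 = ‖v‖ ^ 2 := (EuclideanSpace.real_norm_sq_eq v).symm

/-- The scalar adjoint step for compactly supported functions. -/
lemma adj_compact (hW : LogConc W gW m) {u v : E d → ℝ} (i : Fin d) (hu : ContDiff ℝ 1 u)
    (hv : ContDiff ℝ 1 v) (hs' : HasCompactSupport v) :
    ∫ x, u x * (gW x i * v x - pdv i v x) ∂gibbs W = ∫ x, pdv i u x * v x ∂gibbs W := by
  obtain ⟨M, hM⟩ := hW.lip
  have hgc : Continuous fun x => gW x i :=
    (EuclideanSpace.proj (𝕜 := ℝ) i).continuous.comp hM.continuous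
  have cu : Continuous (pdv i u) := (hu.continuous_fderiv (by simp)).clm_apply continuous_const
  have cv : Continuous (pdv i v) := (hv.continuous_fderiv (by simp)).clm_apply continuous_const
  have sv : HasCompactSupport (pdv i v) :=
    (hs'.fderiv (𝕜 := ℝ)).comp_left (g := fun L : E d →L[ℝ] ℝ => L (bv i)) rfl
  have int : ∀ f : E d → ℝ, Continuous f → HasCompactSupport f → Integrable f (gibbs W) :=
    fun f hf hf' => (poly_of_compact hf hf').integrable hW hf
  have e : pdv i (fun y => u y * v y) = fun y => pdv i u y * v y + u y * pdv i v y := by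
    funext y
    simp only [pdv]
    rw [fderiv_fun_mul (hu.differentiable (by simp) y) (hv.differentiable (by simp) y)]
    simp only [add_apply, smul_apply, smul_eq_mul]
    ring
  have a1 := int (fun x => pdv i u x * v x) (cu.mul hv.continuous) hs'.mul_left
  have a2 := int (fun x => u x * pdv i v x) (hu.continuous.mul cv) sv.mul_left
  have a3 := int (fun x => u x * v x * gW x i) ((hu.continuous.mul hv.continuous).mul hgc)
    hs'.mul_left.mul_right
  have h := ibp hW i (hu.mul hv) (poly_of_compact (hu.continuous.mul hv.continuous) hs'.mul_left)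
    (by rw [e]; exact poly_of_compact ((cu.mul hv.continuous).add (hu.continuous.mul cv))
          (hs'.mul_left.add sv.mul_left))
  rw [e, integral_add a1 a2] at h
  have e2 : ∫ x, u x * (gW x i * v x - pdv i v x) ∂gibbs W =
      (∫ x, u x * v x * gW x i ∂gibbs W) - ∫ x, u x * pdv i v x ∂gibbs W := by
    rw [← integral_sub a3 a2]
    exact integral_congr_ae (ae_of_all _ fun x => by ring)
  linarith

/-- The divergence in coordinates. -/
noncomputable def dsum (gW F : E d → E d) (x : E d) : ℝ :=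
  ∑ i, (gW x i * F x i - pdv i (fun y => F y i) x)

lemma contDiff_dsum {F : E d → E d} (hg : ContDiff ℝ 1 gW) (hF : ContDiff ℝ 2 F) :
    ContDiff ℝ 1 (dsum gW F) :=
  ContDiff.sum fun i _ => (((EuclideanSpace.proj (𝕜 := ℝ) i).contDiff.comp hg).mul
    ((EuclideanSpace.proj (𝕜 := ℝ) i).contDiff.comp (hF.of_le (by norm_num)))).sub
    (((((EuclideanSpace.proj (𝕜 := ℝ) i).contDiff.comp hF).fderiv_right (by norm_num))).clm_apply
      contDiff_const)

lemma pdv_dsum {F : E d → E d} (hg : ContDiff ℝ 1 gW) (hF : ContDiff ℝ 2 F) (j : Fin d) (x : E d) :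
    pdv j (dsum gW F) x = ∑ i, (pdv j (fun y => gW y i) x * F x i +
      (gW x i * pdv j (fun y => F y i) x - pdv i (pdv j fun y => F y i) x)) := by
  have hf : ∀ i, ContDiff ℝ 2 (fun y => F y i) := fun i =>
    (EuclideanSpace.proj (𝕜 := ℝ) i).contDiff.comp hF
  have hg1 : ∀ i, ContDiff ℝ 1 (fun y => gW y i) := fun i =>
    (EuclideanSpace.proj (𝕜 := ℝ) i).contDiff.comp hg
  have hd : ∀ i, Differentiable ℝ (fun y => fderiv ℝ (fun z => F z i) y) := fun i =>
    ((hf i).fderiv_right (m := 1) (by norm_num)).differentiable (by simp)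
  have hD : ∀ i, Differentiable ℝ (fun y => fderiv ℝ (fun z => F z i) y (bv i)) := fun i =>
    fun y => (hd i y).clm_apply (differentiableAt_const _)
  show fderiv ℝ (fun y => ∑ i, (gW y i * F y i - fderiv ℝ (fun z => F z i) y (bv i))) x (bv j) = _
  rw [fderiv_fun_sum fun i _ => ((((hg1 i).differentiable (by simp)).fun_mul
    ((hf i).differentiable (by norm_num))).fun_sub (hD i)) x, sum_apply]
  refine Finset.sum_congr rfl fun i _ => ?_
  have d1 := ((hg1 i).differentiable (by simp)) x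
  have d2 := ((hf i).differentiable (by norm_num)) x
  rw [fderiv_fun_sub (d1.fun_mul d2) (hD i x), fderiv_fun_mul d1 d2,
    fderiv_clm_apply (hd i x) (differentiableAt_const _)]
  have hsy : IsSymmSndFDerivAt ℝ (fun z => F z i) x :=
    (hf i).contDiffAt.isSymmSndFDerivAt (by simp)
  have e2 : pdv i (pdv j fun y => F y i) x =
      fderiv ℝ (fun y => fderiv ℝ (fun z => F z i) y) x (bv j) (bv i) := by
    show fderiv ℝ (fun y => fderiv ℝ (fun z => F z i) y (bv j)) x (bv i) = _
    rw [fderiv_clm_apply (hd i x) (differentiableAt_const _)]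
    simp
    exact hsy.eq _ _
  rw [e2]
  simp [pdv]
  ring

lemma curvature_le {M : ℝ} (hg : Differentiable ℝ gW)
    (hup : ∀ x v, ⟪fderiv ℝ gW x v, v⟫ ≤ M * ‖v‖ ^ 2) (x v : E d) :
    ∑ j, ∑ i, pdv j (fun y => gW y i) x * v i * v j ≤ M * ‖v‖ ^ 2 := by
  refine le_trans (le_of_eq ?_) (hup x v)
  have hsum : ∑ j, v j • bv j = v := by
    simpa [bv] using (EuclideanSpace.basisFun (Fin d) ℝ).sum_repr v
  rw [congrArg (fderiv ℝ gW x) hsum.symm, map_sum, sum_inner]
  refine Finset.sum_congr rfl fun j _ => ?_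
  rw [map_smul, real_inner_smul_left, PiLp.inner_apply, Finset.mul_sum]
  refine Finset.sum_congr rfl fun i _ => ?_
  simp [pdv_coord hg]
  ring

lemma cross_le {F : E d → E d} (hF : Differentiable ℝ F) (x : E d) :
    ∑ j, ∑ i, pdv i (fun y => F y j) x * pdv j (fun y => F y i) x ≤ hs (derivT 1 F x) ^ 2 := by
  simp only [hs_derivT_sq, pdv_coord hF]
  set D : Fin d → Fin d → ℝ := fun i j => fderiv ℝ F x (bv j) i
  show ∑ j, ∑ i, D j i * D i j ≤ ∑ i, ∑ j, D i j ^ 2
  calc ∑ j, ∑ i, D j i * D i j ≤ ∑ j, ∑ i, (D j i ^ 2 + D i j ^ 2) / 2 :=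
        Finset.sum_le_sum fun j _ => Finset.sum_le_sum fun i _ => by
          nlinarith [sq_nonneg (D j i - D i j)]
    _ = _ := by
        have hcomm : ∑ j, ∑ i, D i j ^ 2 = ∑ i, ∑ j, D i j ^ 2 := Finset.sum_comm
        simp only [← Finset.sum_div, Finset.sum_add_distrib, hcomm]
        ring

lemma integrable_cs (hW : LogConc W gW m) {u : E d → ℝ} (hu : Continuous u)
    (hs' : HasCompactSupport u) : Integrable u (gibbs W) :=
  (poly_of_compact hu hs').integrable hW hu

/-- Bochner's identity for one component. -/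
lemma bochner_comp (hW : LogConc W gW m) (hg : ContDiff ℝ 1 gW) {F : E d → E d}
    (hF : ContDiff ℝ 2 F) (hs' : HasCompactSupport F) (j : Fin d) :
    Integrable (fun x => dsum gW F x * (gW x j * F x j - pdv j (fun y => F y j) x)) (gibbs W) ∧
    Integrable (fun x => ∑ i, pdv j (fun y => gW y i) x * F x i * F x j) (gibbs W) ∧
    Integrable (fun x => ∑ i, pdv i (fun y => F y j) x * pdv j (fun y => F y i) x) (gibbs W) ∧
    ∫ x, dsum gW F x * (gW x j * F x j - pdv j (fun y => F y j) x) ∂gibbs W =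
      (∫ x, ∑ i, pdv j (fun y => gW y i) x * F x i * F x j ∂gibbs W) +
        ∫ x, ∑ i, pdv i (fun y => F y j) x * pdv j (fun y => F y i) x ∂gibbs W := by
  have hf : ∀ i, ContDiff ℝ 2 (fun y => F y i) := fun i =>
    (EuclideanSpace.proj (𝕜 := ℝ) i).contDiff.comp hF
  have sf : ∀ i, HasCompactSupport (fun y => F y i) := fun i =>
    hs'.comp_left (g := fun v : E d => v i) rfl
  have hD : ∀ j i, ContDiff ℝ 1 (pdv j fun y => F y i) := fun j i =>
    ((hf i).fderiv_right (by norm_num)).clm_apply contDiff_const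
  have sD : ∀ j i, HasCompactSupport (pdv j fun y => F y i) := fun j i =>
    ((sf i).fderiv (𝕜 := ℝ)).comp_left (g := fun L : E d →L[ℝ] ℝ => L (bv j)) rfl
  have hg1 : ∀ i, ContDiff ℝ 1 (fun y => gW y i) := fun i =>
    (EuclideanSpace.proj (𝕜 := ℝ) i).contDiff.comp hg
  have cg : ∀ i, Continuous (pdv j fun y => gW y i) := fun i =>
    ((hg1 i).continuous_fderiv (by simp)).clm_apply continuous_const
  have cDD : ∀ i, Continuous (pdv i (pdv j fun y => F y i)) := fun i =>
    ((hD j i).continuous_fderiv (by simp)).clm_apply continuous_const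
  have i1 : ∀ i, Integrable (fun x => pdv j (fun y => gW y i) x * F x i * F x j) (gibbs W) :=
    fun i => integrable_cs hW (((cg i).mul (hf i).continuous).mul (hf j).continuous) (sf j).mul_left
  have i2 : ∀ i, Integrable
      (fun x => pdv i (fun y => F y j) x * pdv j (fun y => F y i) x) (gibbs W) := fun i =>
    integrable_cs hW ((hD i j).continuous.mul (hD j i).continuous) (sD j i).mul_left
  have i3 : ∀ i, Integrable (fun x => F x j *
      (gW x i * pdv j (fun y => F y i) x - pdv i (pdv j fun y => F y i) x)) (gibbs W) := fun i =>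
    integrable_cs hW ((hf j).continuous.mul (((hg1 i).continuous.mul (hD j i).continuous).sub
      (cDD i))) (sf j).mul_right
  have hδ1 := contDiff_dsum hg hF
  refine ⟨integrable_cs hW (hδ1.continuous.mul (((hg1 j).continuous.mul (hf j).continuous).sub
      (hD j j).continuous)) (((sf j).mul_left.sub (sD j j)).mul_left),
    integrable_finsetSum _ fun i _ => i1 i, integrable_finsetSum _ fun i _ => i2 i, ?_⟩
  rw [adj_compact hW j hδ1 ((hf j).of_le (by norm_num)) (sf j),
    integral_finsetSum _ fun i _ => i1 i, integral_finsetSum _ fun i _ => i2 i,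
    ← Finset.sum_add_distrib]
  have e : ∀ x, pdv j (dsum gW F) x * F x j = ∑ i, (pdv j (fun y => gW y i) x * F x i * F x j +
      F x j * (gW x i * pdv j (fun y => F y i) x - pdv i (pdv j fun y => F y i) x)) := fun x => by
    rw [pdv_dsum hg hF, Finset.sum_mul]
    exact Finset.sum_congr rfl fun i _ => by ring
  rw [integral_congr_ae (ae_of_all _ e), integral_finsetSum _ fun i _ => (i1 i).fun_add (i3 i)]
  refine Finset.sum_congr rfl fun i _ => ?_
  rw [integral_add (i1 i) (i3 i), adj_compact hW i ((hf j).of_le (by norm_num)) (hD j i) (sD j i)]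

/-- Bochner for a field with compact support. -/
lemma bochner_compact (hW : LogConc W gW m) {M : ℝ} (hg : ContDiff ℝ 1 gW)
    (hup : ∀ x v, ⟪fderiv ℝ gW x v, v⟫ ≤ M * ‖v‖ ^ 2) {F : E d → E d} (hF : ContDiff ℝ 2 F)
    (hs' : HasCompactSupport F) :
    ∫ x, delta gW F x ^ 2 ∂gibbs W
      ≤ (∫ x, M * ‖F x‖ ^ 2 ∂gibbs W) + ∫ x, hs (derivT 1 F x) ^ 2 ∂gibbs W := by
  have hFd : Differentiable ℝ F := hF.differentiable (by norm_num)
  have hgd : Differentiable ℝ gW := hg.differentiable (by simp)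
  have h := bochner_comp hW hg hF hs'
  have e0 : ∫ x, delta gW F x ^ 2 ∂gibbs W =
      ∫ x, ∑ j, dsum gW F x * (gW x j * F x j - pdv j (fun y => F y j) x) ∂gibbs W :=
    integral_congr_ae (ae_of_all _ fun x => by
      simp only [delta_eq_sum hFd, dsum, sq, Finset.mul_sum])
  rw [e0, integral_finsetSum _ fun j _ => (h j).1, Finset.sum_congr rfl fun j _ => (h j).2.2.2,
    Finset.sum_add_distrib, ← integral_finsetSum _ fun j _ => (h j).2.1,
    ← integral_finsetSum _ fun j _ => (h j).2.2.1]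
  have c2 : Continuous fun x => ‖F x‖ ^ 2 := by fun_prop
  have s2 : HasCompactSupport fun x => ‖F x‖ ^ 2 := by
    refine hs'.mono fun x hx => ?_
    simp only [Function.mem_support, ne_eq] at hx ⊢
    intro h0
    exact hx (by rw [h0]; simp)
  have iF : Integrable (fun x => M * ‖F x‖ ^ 2) (gibbs W) :=
    (integrable_cs hW c2 s2).const_mul M
  have iS : Integrable (fun x => hs (derivT 1 F x) ^ 2) (gibbs W) := by
    refine integrable_cs hW ?_ ?_
    · simp only [hs_derivT_sq]
      exact continuous_finsetSum _ fun i _ => continuous_finsetSum _ fun j _ =>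
        ((EuclideanSpace.proj (𝕜 := ℝ) i).continuous.comp
          ((hF.continuous_fderiv (by norm_num)).clm_apply continuous_const)).pow 2
    · simp only [hs_derivT_sq]
      exact (hs'.fderiv (𝕜 := ℝ)).comp_left
        (g := fun L : E d →L[ℝ] E d => ∑ i, ∑ j, (L (bv j)) i ^ 2) (by simp)
  exact add_le_add
    (integral_mono (integrable_finsetSum _ fun j _ => (h j).2.1) iF
      fun x => curvature_le hgd hup x (F x))
    (integral_mono (integrable_finsetSum _ fun j _ => (h j).2.2.1) iS fun x => cross_le hFd x)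

lemma contDiff_grad {Ψ : E d → ℝ} {gΨ : E d → E d} (hΨ : ContDiff ℝ 2 Ψ)
    (hgr : ∀ x, HasGradientAt Ψ (gΨ x) x) : ContDiff ℝ 1 gΨ := by
  have h : gΨ = fun x => (InnerProductSpace.toDual ℝ (E d)).symm (fderiv ℝ Ψ x) := by
    funext x
    rw [(hasGradientAt_iff_hasFDerivAt.1 (hgr x)).fderiv, LinearIsometryEquiv.symm_apply_apply]
  rw [h]
  exact (InnerProductSpace.toDual ℝ (E d)).symm.toContinuousLinearEquiv.contDiff.comp
    (hΨ.fderiv_right (by norm_num))

/-- Two-sided Hessian bounds give `LogConc`. -/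
lemma logConc_of_hess {Ψ : E d → ℝ} {gΨ : E d → E d} {M : ℝ} (hΨ : ContDiff ℝ 2 Ψ)
    (hgr : ∀ x, HasGradientAt Ψ (gΨ x) x)
    (hH : ∀ x v, ‖v‖ ^ 2 ≤ ⟪fderiv ℝ gΨ x v, v⟫ ∧ ⟪fderiv ℝ gΨ x v, v⟫ ≤ M * ‖v‖ ^ 2) :
    LogConc Ψ gΨ 1 := by
  have hg : Differentiable ℝ gΨ := (contDiff_grad hΨ hgr).differentiable (by simp)
  have hsymm : ∀ x v u, ⟪fderiv ℝ gΨ x v, u⟫ = ⟪fderiv ℝ gΨ x u, v⟫ := by
    intro x
    have key : ∀ v u, ⟪fderiv ℝ gΨ x v, u⟫ = fderiv ℝ (fderiv ℝ Ψ) x v u := by
      intro v u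
      have e : (fun y => ⟪gΨ y, u⟫) = fun y => fderiv ℝ Ψ y u := by
        funext y
        rw [(hasGradientAt_iff_hasFDerivAt.1 (hgr y)).fderiv,
          InnerProductSpace.toDual_apply_apply]
      have h := congrArg (fun f => fderiv ℝ f x v) e
      simp only [fderiv_inner_apply ℝ (hg x) (differentiableAt_const u)] at h
      rw [fderiv_clm_apply ((hΨ.fderiv_right (m := 1) (by norm_num)).differentiable (by simp) x)
        (differentiableAt_const _)] at h
      simpa using h
    intro v u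
    rw [key, key]
    exact (hΨ.contDiffAt.isSymmSndFDerivAt (by simp)).eq v u
  set L := max M 1
  have hL : 0 < L := lt_max_of_lt_right one_pos
  have hop : ∀ x, ‖fderiv ℝ gΨ x‖ ≤ L := fun x => by
    refine ContinuousLinearMap.opNorm_le_bound _ hL.le fun v => ?_
    set A := fderiv ℝ gΨ x
    set u := L⁻¹ • A v with hu
    have h1 : 4 * ⟪A v, u⟫ = ⟪A (v + u), v + u⟫ - ⟪A (v - u), v - u⟫ := by
      simp only [map_add, map_sub, inner_add_left, inner_add_right, inner_sub_left,
        inner_sub_right]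
      linarith [hsymm x u v]
    have h2 : ⟪A (v + u), v + u⟫ ≤ L * ‖v + u‖ ^ 2 := (hH x _).2.trans
      (mul_le_mul_of_nonneg_right (le_max_left _ _) (sq_nonneg _))
    have h3 : 0 ≤ ⟪A (v - u), v - u⟫ := (sq_nonneg _).trans (hH x _).1
    have h4 : ‖v + u‖ ^ 2 ≤ 2 * (‖v‖ ^ 2 + ‖u‖ ^ 2) :=
      (pow_le_pow_left₀ (norm_nonneg _) (norm_add_le v u) 2).trans
        (by nlinarith [sq_nonneg (‖v‖ - ‖u‖)])
    have h5 : ⟪A v, u⟫ = L * ‖u‖ ^ 2 := by
      rw [show A v = L • u by rw [hu, smul_smul, mul_inv_cancel₀ hL.ne', one_smul],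
        real_inner_smul_left, real_inner_self_eq_norm_sq]
    have h6 : ‖A v‖ = L * ‖u‖ := by
      rw [hu, norm_smul, Real.norm_eq_abs, abs_inv, abs_of_pos hL, ← mul_assoc,
        mul_inv_cancel₀ hL.ne', one_mul]
    rw [h6]
    refine mul_le_mul_of_nonneg_left ?_ hL.le
    refine (pow_le_pow_iff_left₀ (norm_nonneg u) (norm_nonneg v) two_ne_zero).1 ?_
    nlinarith [mul_le_mul_of_nonneg_left h4 hL.le]
  refine ⟨hΨ, hgr, one_pos, ⟨L.toNNReal, lipschitzWith_of_nnnorm_fderiv_le hg fun x => ?_⟩,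
    fun x y => ?_⟩
  · rw [← NNReal.coe_le_coe, coe_nnnorm, Real.coe_toNNReal _ hL.le]
    exact hop x
  set v := x - y
  have hp : ∀ t : ℝ, HasDerivAt (fun s : ℝ => ⟪gΨ (y + s • v), v⟫ - s * ‖v‖ ^ 2)
      (⟪fderiv ℝ gΨ (y + t • v) v, v⟫ - 1 * ‖v‖ ^ 2) t := by
    intro t
    have h1 : HasDerivAt (fun s : ℝ => y + s • v) v t := by
      simpa using ((hasDerivAt_id t).smul_const v).const_add y
    have h2 := ((hg (y + t • v)).hasFDerivAt.comp_hasDerivAt t h1).inner ℝ (hasDerivAt_const t v)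
    simp only [inner_zero_right, zero_add] at h2
    exact h2.sub ((hasDerivAt_id t).mul_const _)
  have h := monotone_of_deriv_nonneg (fun t => (hp t).differentiableAt)
    (fun t => by rw [(hp t).deriv]; linarith [(hH (y + t • v) v).1]) (zero_le_one (α := ℝ))
  simp only [zero_smul, add_zero, zero_mul, sub_zero, one_smul, one_mul] at h
  rw [show y + v = x from add_sub_cancel y x] at h
  rw [one_mul, inner_sub_left]
  linarith

/-- Cutoff functions. -/
lemma exists_cut (d : ℕ) : ∃ C : ℝ, 0 ≤ C ∧ ∃ χ : ℕ → E d → ℝ, (∀ k, ContDiff ℝ 2 (χ k)) ∧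
    (∀ k, HasCompactSupport (χ k)) ∧ (∀ k x, |χ k x| ≤ 1) ∧
    (∀ k x, ‖fderiv ℝ (χ k) x‖ ≤ C) ∧ ∀ x, ∀ᶠ k in atTop, χ k =ᶠ[𝓝 x] fun _ => 1 := by
  let ρ : ContDiffBump (0 : E d) := ⟨1, 2, one_pos, one_lt_two⟩
  obtain ⟨C, hC⟩ := ((ρ.contDiff (n := 2)).continuous_fderiv (by norm_num)).bounded_above_of_compact_support
    (ρ.hasCompactSupport.fderiv (𝕜 := ℝ))
  have hC0 : 0 ≤ C := (norm_nonneg _).trans (hC 0)
  refine ⟨C, hC0, fun k x => ρ (((k : ℝ) + 1)⁻¹ • x),
    fun k => ρ.contDiff.comp (contDiff_const_smul _), fun k => ?_, fun k x => ?_, fun k x => ?_,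
    fun x => ?_⟩
  · refine HasCompactSupport.intro (isCompact_closedBall (0 : E d) (2 * ((k : ℝ) + 1))) fun x hx => ?_
    refine ρ.zero_of_le_dist ?_
    rw [mem_closedBall_zero_iff, not_le] at hx
    rw [dist_zero_right, norm_smul, Real.norm_eq_abs, abs_of_pos (by positivity),
      le_inv_mul_iff₀ (by positivity)]
    show ((k : ℝ) + 1) * 2 ≤ ‖x‖
    linarith
  · rw [abs_of_nonneg ρ.nonneg]
    exact ρ.le_one
  · have h := ((ρ.contDiff (n := 2)).differentiable (by norm_num) (((k : ℝ) + 1)⁻¹ • x)).hasFDerivAt.comp x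
      ((hasFDerivAt_id (𝕜 := ℝ) x).const_smul ((k : ℝ) + 1)⁻¹)
    show ‖fderiv ℝ (ρ ∘ HSMul.hSMul ((k : ℝ) + 1)⁻¹) x‖ ≤ C
    rw [h.fderiv]
    refine (ContinuousLinearMap.opNorm_comp_le _ _).trans
      ((mul_le_mul (hC _) ?_ (norm_nonneg _) hC0).trans_eq (mul_one C))
    rw [norm_smul, Real.norm_eq_abs, abs_of_pos (by positivity)]
    exact mul_le_one₀ (inv_le_one_of_one_le₀ (by simp)) (norm_nonneg _)
      ContinuousLinearMap.norm_id_le
  · filter_upwards [eventually_ge_atTop ⌈‖x‖⌉₊] with k hk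
    have h1 : ‖x‖ < (k : ℝ) + 1 :=
      lt_of_le_of_lt ((Nat.le_ceil _).trans (by exact_mod_cast hk)) (lt_add_one _)
    filter_upwards [continuous_norm.continuousAt.eventually (gt_mem_nhds h1)] with y hy
    refine ρ.one_of_mem_closedBall ?_
    rw [mem_closedBall_zero_iff, norm_smul, Real.norm_eq_abs, abs_of_pos (by positivity),
      inv_mul_le_iff₀ (by positivity)]
    show ‖y‖ ≤ ((k : ℝ) + 1) * 1
    linarith

lemma abs_entry_le (L : E d →L[ℝ] E d) (i j : Fin d) : |L (bv j) i| ≤ ‖L‖ := by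
  have h := PiLp.norm_apply_le (L (bv j)) i
  rw [Real.norm_eq_abs] at h
  exact h.trans ((L.le_opNorm _).trans_eq (by simp [bv]))

lemma hs_sq_le {F : E d → E d} (x : E d) :
    hs (derivT 1 F x) ^ 2 ≤ (d : ℝ) ^ 2 * ‖fderiv ℝ F x‖ ^ 2 := by
  rw [hs_derivT_sq]
  calc ∑ i, ∑ j, fderiv ℝ F x (bv j) i ^ 2 ≤ ∑ _i : Fin d, ∑ _j : Fin d, ‖fderiv ℝ F x‖ ^ 2 :=
        Finset.sum_le_sum fun i _ => Finset.sum_le_sum fun j _ => by
          rw [← sq_abs]; exact pow_le_pow_left₀ (abs_nonneg _) (abs_entry_le _ i j) 2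
    _ = _ := by simp; ring

lemma abs_delta_le {F : E d → E d} (x : E d) :
    |delta gW F x| ≤ ‖gW x‖ * ‖F x‖ + d * ‖fderiv ℝ F x‖ := by
  refine (abs_sub _ _).trans (add_le_add (abs_real_inner_le_norm _ _) ?_)
  refine (Finset.abs_sum_le_sum_abs _ _).trans ?_
  calc ∑ i, |fderiv ℝ F x (bv i) i| ≤ ∑ _i : Fin d, ‖fderiv ℝ F x‖ :=
        Finset.sum_le_sum fun i _ => abs_entry_le _ i i
    _ = _ := by simp

lemma continuous_delta {F : E d → E d} (hg : Continuous gW) (hF : ContDiff ℝ 1 F) :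
    Continuous (delta gW F) :=
  (hg.inner hF.continuous).sub (continuous_finsetSum _ fun i _ =>
    (EuclideanSpace.proj (𝕜 := ℝ) i).continuous.comp
      ((hF.continuous_fderiv (by simp)).clm_apply continuous_const))

lemma continuous_hs {F : E d → E d} (hF : ContDiff ℝ 1 F) :
    Continuous fun x => hs (derivT 1 F x) ^ 2 := by
  simp only [hs_derivT_sq]
  exact continuous_finsetSum _ fun i _ => continuous_finsetSum _ fun j _ =>
    ((EuclideanSpace.proj (𝕜 := ℝ) i).continuous.comp
      ((hF.continuous_fderiv (by simp)).clm_apply continuous_const)).pow 2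

lemma poly_norm_grad (hW : LogConc W gW m) : Poly fun x => ‖gW x‖ := by
  obtain ⟨L, hL⟩ := hW.lip
  refine Poly.of_le (A := ‖gW 0‖ + L) (N := 1) fun x => ?_
  rw [abs_norm]
  have h2 := hL.norm_sub_le x 0
  rw [sub_zero] at h2
  nlinarith [norm_le_norm_add_norm_sub' (gW x) (gW 0), norm_nonneg (gW 0), norm_nonneg x,
    NNReal.coe_nonneg L]

/-- Bochner for fields of polynomial growth. -/
lemma bochner (hW : LogConc W gW m) {M : ℝ} (hg : ContDiff ℝ 1 gW)
    (hup : ∀ x v, ⟪fderiv ℝ gW x v, v⟫ ≤ M * ‖v‖ ^ 2) {F : E d → E d} (hF : ContDiff ℝ 2 F)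
    (hp : Poly fun x => ‖F x‖) (hp' : Poly fun x => ‖fderiv ℝ F x‖) :
    ∫ x, delta gW F x ^ 2 ∂gibbs W
      ≤ (∫ x, M * ‖F x‖ ^ 2 ∂gibbs W) + ∫ x, hs (derivT 1 F x) ^ 2 ∂gibbs W := by
  obtain ⟨C, hC0, χ, hχ, hχs, hχ1, hχd, hev⟩ := exists_cut d
  set G : ℕ → E d → E d := fun k x => χ k x • F x
  have hG : ∀ k, ContDiff ℝ 2 (G k) := fun k => (hχ k).smul hF
  have hk := fun k => bochner_compact hW hg hup (hG k) (hχs k).smul_right
  set T : E d → ℝ := fun x => ‖fderiv ℝ F x‖ + C * ‖F x‖ with hT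
  have hGle : ∀ k x, ‖G k x‖ ≤ ‖F x‖ := fun k x => by
    rw [norm_smul]
    exact mul_le_of_le_one_left (norm_nonneg _) (hχ1 k x)
  have hDle : ∀ k x, ‖fderiv ℝ (G k) x‖ ≤ T x := fun k x => by
    rw [fderiv_fun_smul ((hχ k).differentiable (by norm_num) x) (hF.differentiable (by norm_num) x)]
    refine (norm_add_le _ _).trans (add_le_add ?_ ?_)
    · rw [norm_smul]
      exact mul_le_of_le_one_left (norm_nonneg _) (hχ1 k x)
    · rw [ContinuousLinearMap.norm_smulRight_apply]
      exact mul_le_mul_of_nonneg_right (hχd k x) (norm_nonneg _)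
  have cT : Continuous T :=
    (hF.continuous_fderiv (by norm_num)).norm.add (hF.continuous.norm.const_mul C)
  have cF := hF.continuous.norm
  have pT : Poly T := hp'.add ((LogConcave.Poly.const C).mul hp)
  have hF1 : ContDiff ℝ 1 F := hF.of_le (by norm_num)
  have hG1 : ∀ k, ContDiff ℝ 1 (G k) := fun k => (hG k).of_le (by norm_num)
  have hloc : ∀ x, ∀ᶠ k in atTop, G k =ᶠ[𝓝 x] F := fun x =>
    (hev x).mono fun k h => h.mono fun y hy => by simp only [G, hy, one_smul]
  have l1 : Tendsto (fun k => ∫ x, delta gW (G k) x ^ 2 ∂gibbs W) atTop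
      (𝓝 (∫ x, delta gW F x ^ 2 ∂gibbs W)) :=
    tendsto_integral_of_dominated_convergence (fun x => (‖gW x‖ * ‖F x‖ + d * T x) ^ 2)
      (fun k => ((continuous_delta hg.continuous (hG1 k)).pow 2).aestronglyMeasurable)
      (((((poly_norm_grad hW).mul hp).add ((LogConcave.Poly.const (d : ℝ)).mul pT)).pow 2).integrable hW
        (((hg.continuous.norm.mul cF).add (continuous_const.mul cT)).pow 2))
      (fun k => ae_of_all _ fun x => by
        rw [Real.norm_eq_abs, abs_pow]
        refine pow_le_pow_left₀ (abs_nonneg _) ((abs_delta_le x).trans ?_) 2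
        gcongr
        exacts [hGle k x, hDle k x])
      (ae_of_all _ fun x => tendsto_const_nhds.congr' ((hloc x).mono fun k hk => by
        simp only [delta, dvg, hk.fderiv_eq, hk.eq_of_nhds]))
  have l2 : Tendsto (fun k => ∫ x, M * ‖G k x‖ ^ 2 ∂gibbs W) atTop
      (𝓝 (∫ x, M * ‖F x‖ ^ 2 ∂gibbs W)) :=
    tendsto_integral_of_dominated_convergence (fun x => |M| * ‖F x‖ ^ 2)
      (fun k => (((hG k).continuous.norm.pow 2).const_mul M).aestronglyMeasurable)
      (((LogConcave.Poly.const |M|).mul (hp.pow 2)).integrable hW (continuous_const.mul (cF.pow 2)))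
      (fun k => ae_of_all _ fun x => by
        rw [Real.norm_eq_abs, abs_mul, abs_pow, abs_norm]
        gcongr
        exact hGle k x)
      (ae_of_all _ fun x => tendsto_const_nhds.congr' ((hloc x).mono fun k hk => by
        simp only [hk.eq_of_nhds]))
  have l3 : Tendsto (fun k => ∫ x, hs (derivT 1 (G k) x) ^ 2 ∂gibbs W) atTop
      (𝓝 (∫ x, hs (derivT 1 F x) ^ 2 ∂gibbs W)) :=
    tendsto_integral_of_dominated_convergence (fun x => (d : ℝ) ^ 2 * T x ^ 2)
      (fun k => (continuous_hs (hG1 k)).aestronglyMeasurable)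
      (((LogConcave.Poly.const ((d : ℝ) ^ 2)).mul (pT.pow 2)).integrable hW
        (continuous_const.mul (cT.pow 2)))
      (fun k => ae_of_all _ fun x => by
        rw [Real.norm_eq_abs, abs_of_nonneg (sq_nonneg _)]
        refine (hs_sq_le x).trans ?_
        gcongr
        exact hDle k x)
      (ae_of_all _ fun x => tendsto_const_nhds.congr' ((hloc x).mono fun k hk => by
        simp only [hs_derivT_sq, hk.fderiv_eq]))
  exact le_of_tendsto_of_tendsto' l1 (l2.add l3) hk

/-- `δ` is the adjoint of the gradient. -/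
lemma adjoint (hW : LogConc W gW m) {F : E d → E d} (hF : ContDiff ℝ 1 F)
    (hp : Poly fun x => ‖F x‖) (hp' : Poly fun x => ‖fderiv ℝ F x‖) {φ : E d → ℝ}
    {gφ : E d → E d} (hgc : Continuous gφ) (hgr : ∀ x, HasGradientAt φ (gφ x) x) (hq : Poly φ)
    (hq' : Poly fun x => ‖gφ x‖) :
    ∫ x, φ x * delta gW F x ∂gibbs W = ∫ x, ⟪gφ x, F x⟫ ∂gibbs W := by
  have hFd : Differentiable ℝ F := hF.differentiable (by simp)
  have hgW : Continuous gW := let ⟨_, h⟩ := hW.lip; h.continuous
  have hd : ∀ x, fderiv ℝ φ x = InnerProductSpace.toDual ℝ (E d) (gφ x) := fun x =>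
    (hasGradientAt_iff_hasFDerivAt.1 (hgr x)).fderiv
  have hφ : ContDiff ℝ 1 φ := by
    refine contDiff_one_iff_fderiv.2 ⟨fun x => (hgr x).differentiableAt, ?_⟩
    rw [funext hd]
    exact (InnerProductSpace.toDual ℝ (E d)).continuous.comp hgc
  have hf : ∀ i, ContDiff ℝ 1 (fun y => F y i) := fun i =>
    (EuclideanSpace.proj (𝕜 := ℝ) i).contDiff.comp hF
  have cd : ∀ i, Continuous (pdv i fun y => F y i) := fun i =>
    ((hf i).continuous_fderiv (by simp)).clm_apply continuous_const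
  have pc : ∀ (u : E d → E d), Poly (fun x => ‖u x‖) → ∀ i, Poly fun x => u x i := fun u hu i =>
    hu.mono fun x => by rw [abs_norm]; simpa using PiLp.norm_apply_le (u x) i
  have pd' : ∀ i, Poly (pdv i fun y => F y i) := fun i => hp'.mono fun x => by
    rw [pdv_coord hFd, abs_norm]; exact abs_entry_le _ i i
  have e : ∀ i, pdv i (fun y => φ y * F y i) =
      fun x => gφ x i * F x i + φ x * pdv i (fun y => F y i) x := fun i => by
    funext x
    simp only [pdv, fderiv_fun_mul (hφ.differentiable (by simp) x)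
      ((hf i).differentiable (by simp) x), hd, add_apply, smul_apply, smul_eq_mul,
      InnerProductSpace.toDual_apply_apply, inner_bv]
    ring
  have cgi : ∀ i, Continuous fun x => gφ x i := fun i =>
    (EuclideanSpace.proj (𝕜 := ℝ) i).continuous.comp hgc
  have cWi : ∀ i, Continuous fun x => gW x i := fun i =>
    (EuclideanSpace.proj (𝕜 := ℝ) i).continuous.comp hgW
  have a1 : ∀ i, Integrable (fun x => gφ x i * F x i) (gibbs W) := fun i =>
    ((pc gφ hq' i).mul (pc F hp i)).integrable hW ((cgi i).mul (hf i).continuous)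
  have a2 : ∀ i, Integrable (fun x => φ x * pdv i (fun y => F y i) x) (gibbs W) := fun i =>
    (hq.mul (pd' i)).integrable hW (hφ.continuous.mul (cd i))
  have a3 : ∀ i, Integrable (fun x => φ x * F x i * gW x i) (gibbs W) := fun i =>
    ((hq.mul (pc F hp i)).mul (pc gW (poly_norm_grad hW) i)).integrable hW
      ((hφ.continuous.mul (hf i).continuous).mul (cWi i))
  have hi : ∀ i, ∫ x, φ x * F x i * gW x i - φ x * pdv i (fun y => F y i) x ∂gibbs W =
      ∫ x, gφ x i * F x i ∂gibbs W := fun i => by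
    have h := ibp hW i (hφ.mul (hf i)) (hq.mul (pc F hp i))
      (by rw [e]; exact ((pc gφ hq' i).mul (pc F hp i)).add (hq.mul (pd' i)))
    rw [e, integral_add (a1 i) (a2 i)] at h
    rw [integral_sub (a3 i) (a2 i)]
    linarith
  calc ∫ x, φ x * delta gW F x ∂gibbs W
      = ∫ x, ∑ i, (φ x * F x i * gW x i - φ x * pdv i (fun y => F y i) x) ∂gibbs W :=
        integral_congr_ae (ae_of_all _ fun x => by
          simp only [delta_eq_sum hFd, Finset.mul_sum]
          exact Finset.sum_congr rfl fun i _ => by ring)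
    _ = ∑ i, ∫ x, gφ x i * F x i ∂gibbs W := by
        rw [integral_finsetSum _ fun i _ => (a3 i).sub' (a2 i)]
        exact Finset.sum_congr rfl fun i _ => hi i
    _ = _ := by
        rw [← integral_finsetSum _ fun i _ => a1 i]
        exact integral_congr_ae (ae_of_all _ fun x => by simp [PiLp.inner_apply, mul_comm])

end DeltaAux

open DeltaAux Vale.Agent.P347.LogConcave in
theorem deltaBound : DeltaBound := by
  intro d Ψ gΨ M hΨ hgr hH F K n hF hb hb'
  have hW := logConc_of_hess hΨ hgr hH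
  have hp : Poly fun x => ‖F x‖ := Poly.of_le fun x => by rw [abs_norm]; exact hb x
  have hp' : Poly fun x => ‖fderiv ℝ F x‖ := Poly.of_le fun x => by rw [abs_norm]; exact hb' x
  refine ⟨bochner hW (contDiff_grad hΨ hgr) (fun x v => (hH x v).2) hF hp hp',
    fun φ gφ hgc hgφ hq hq' => adjoint hW (hF.of_le (by norm_num)) hp hp' hgc hgφ (Poly.of_le hq)
      (Poly.of_le fun x => by rw [abs_norm]; exact hq' x)⟩

end Vale.Agent.P347.Gamma0
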