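import Vale.Agent.P347.Gamma0.Interface

/-!
P347, towards `γ_* = 0`: bounds in quadratic mean and integration matrices on signed intervals.
-/

namespace Vale.Agent.P347.Gamma0

open MeasureTheory Set
open scoped ENNReal ContDiff

variable {d : ℕ}

/-- A pointwise bound by a combination gives the bound in quadratic mean. -/
lemma ms_le {Ω : Type*} [MeasurableSpace Ω] {μ : Measure Ω} {ι : Type*} (s : Finset ι)
    {F : Ω → E d} {f : ι → Ω → E d} {c : ι → ℝ} {B : ℝ} (hc : ∀ i ∈ s, 0 ≤ c i)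
    (hf : ∀ i ∈ s, Measurable (f i))
    (hF : ∀ z, ‖F z‖ ≤ ∑ i ∈ s, c i * ‖f i z‖)
    (hB : ∀ i ∈ s, ∫⁻ z, ‖f i z‖ₑ ^ 2 ∂μ ≤ ENNReal.ofReal (B ^ 2)) :
    ∫⁻ z, ‖F z‖ₑ ^ 2 ∂μ ≤ ENNReal.ofReal (((∑ i ∈ s, c i) * B) ^ 2) := by
  set S := ∑ i ∈ s, c i
  have hS : 0 ≤ S := Finset.sum_nonneg hc
  have key : ∀ z, ‖F z‖ ^ 2 ≤ S * ∑ i ∈ s, c i * ‖f i z‖ ^ 2 := fun z => by
    refine (pow_le_pow_left₀ (norm_nonneg _) (hF z) 2).trans ?_
    exact Finset.sum_sq_le_sum_mul_sum_of_sq_le_mul s hc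
      (fun i hi => mul_nonneg (hc i hi) (sq_nonneg _)) fun i _ => le_of_eq (by ring)
  have e : ∀ x : E d, ‖x‖ₑ ^ 2 = ENNReal.ofReal (‖x‖ ^ 2) := fun x => by
    rw [← ofReal_norm, ← ENNReal.ofReal_pow (norm_nonneg _)]
  simp only [e] at hB ⊢
  have hm : ∀ i ∈ s, Measurable fun z => ENNReal.ofReal (c i) * ENNReal.ofReal (‖f i z‖ ^ 2) :=
    fun i hi => (((hf i hi).norm.pow_const 2).ennreal_ofReal).const_mul _
  calc ∫⁻ z, ENNReal.ofReal (‖F z‖ ^ 2) ∂μ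
      ≤ ∫⁻ z, ENNReal.ofReal S *
          ∑ i ∈ s, ENNReal.ofReal (c i) * ENNReal.ofReal (‖f i z‖ ^ 2) ∂μ :=
        lintegral_mono fun z => by
          refine (ENNReal.ofReal_le_ofReal (key z)).trans (le_of_eq ?_)
          rw [ENNReal.ofReal_mul hS, ENNReal.ofReal_sum_of_nonneg fun i hi =>
            mul_nonneg (hc i hi) (sq_nonneg _)]
          exact congrArg _ (Finset.sum_congr rfl fun i hi => ENNReal.ofReal_mul (hc i hi))
    _ = ENNReal.ofReal S *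
          ∑ i ∈ s, ENNReal.ofReal (c i) * ∫⁻ z, ENNReal.ofReal (‖f i z‖ ^ 2) ∂μ := by
        rw [lintegral_const_mul' _ _ ENNReal.ofReal_ne_top, lintegral_finsetSum _ hm]
        exact congrArg _ (Finset.sum_congr rfl fun i _ =>
          lintegral_const_mul' _ _ ENNReal.ofReal_ne_top)
    _ ≤ ENNReal.ofReal S * ∑ i ∈ s, ENNReal.ofReal (c i) * ENNReal.ofReal (B ^ 2) := by
        refine mul_le_mul_right ?_ _
        exact Finset.sum_le_sum fun i hi => mul_le_mul_right (hB i hi) _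
    _ = _ := by
        rw [← Finset.sum_mul, ← ENNReal.ofReal_sum_of_nonneg hc, ← mul_assoc,
          ← ENNReal.ofReal_mul hS, ← ENNReal.ofReal_mul (mul_nonneg hS hS)]
        congr 1
        ring

/-- A weaker bound in quadratic mean. -/
lemma ms_mono {Ω : Type*} [MeasurableSpace Ω] {μ : Measure Ω} {F : Ω → E d} {A B : ℝ}
    (h : ∫⁻ z, ‖F z‖ₑ ^ 2 ∂μ ≤ ENNReal.ofReal (A ^ 2)) (hA : 0 ≤ A) (hAB : A ≤ B) :
    ∫⁻ z, ‖F z‖ₑ ^ 2 ∂μ ≤ ENNReal.ofReal (B ^ 2) :=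
  h.trans (ENNReal.ofReal_le_ofReal (pow_le_pow_left₀ hA hAB 2))

/-- A multiple in quadratic mean. -/
lemma ms_smul {Ω : Type*} [MeasurableSpace Ω] {μ : Measure Ω} {F : Ω → E d} {B : ℝ} (c : ℝ)
    (h : ∫⁻ z, ‖F z‖ₑ ^ 2 ∂μ ≤ ENNReal.ofReal (B ^ 2)) :
    ∫⁻ z, ‖c • F z‖ₑ ^ 2 ∂μ ≤ ENNReal.ofReal ((|c| * B) ^ 2) := by
  simp only [enorm_smul, mul_pow, ENNReal.ofReal_mul (sq_nonneg |c|)]
  rw [lintegral_const_mul' _ _ (by simp), Real.enorm_eq_ofReal_abs,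
    ENNReal.ofReal_pow (abs_nonneg c)]
  exact mul_le_mul_right h _

/-- An integration matrix works on signed intervals starting at `0`. -/
theorem intMatrix_signed (hI : IntMatrix) (n : ℕ) (hn : 1 ≤ n) :
    ∃ C : ℝ, 0 ≤ C ∧ ∃ (x : Fin n → ℝ) (w : Option (Fin n) → Fin n → ℝ),
      (∀ i, x i ∈ Icc (0 : ℝ) 1) ∧ (∀ o, ∑ j, |w o j| ≤ C) ∧
      ∀ (Ω : Type) [MeasurableSpace Ω] (μ : Measure Ω) [IsProbabilityMeasure μ] (d : ℕ)
        (f : ℝ → Ω → E d) (h M : ℝ), 0 ≤ M →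
        (∀ z, ∀ t ∈ Icc (-|h|) |h|, ContDiffAt ℝ n (fun u => f u z) t) →
        Measurable (fun p : ℝ × Ω => f p.1 p.2) →
        (∀ t ∈ Icc (-|h|) |h|, ∫⁻ z, ‖iteratedDeriv n (fun u => f u z) t‖ₑ ^ 2 ∂μ
          ≤ ENNReal.ofReal (M ^ 2)) →
        ∀ o, ∫⁻ z, ‖(∫ t in (0 : ℝ)..(h * o.elim 1 x), f t z)
            - h • ∑ j, w o j • f (h * x j) z‖ₑ ^ 2 ∂μ
          ≤ ENNReal.ofReal ((C * |h| ^ (n + 1) * M) ^ 2) := by
  obtain ⟨C, hC, x, w, hx, hw, hf⟩ := hI n hn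
  refine ⟨C, hC, x, w, hx, hw, fun Ω _ μ _ d f h M hM hd hm hb o => ?_⟩
  rcases le_total 0 h with h0 | h0
  · rw [abs_of_nonneg h0] at hd hb ⊢
    have hsub : Icc (0 : ℝ) h ⊆ Icc (-h) h := Icc_subset_Icc_left (by linarith)
    have := hf Ω μ d f 0 h M h0 hM (fun z t ht => hd z t (hsub (by simpa using ht))) hm
      (fun t ht => hb t (hsub (by simpa using ht))) o
    simpa using this
  · rw [abs_of_nonpos h0] at hd hb ⊢
    have hmem : ∀ t ∈ Icc (0 : ℝ) (0 + -h), -t ∈ Icc (- -h) (-h) := fun t ht => by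
      constructor <;> linarith [ht.1, ht.2]
    have := hf Ω μ d (fun t z => f (-t) z) 0 (-h) M (by linarith) hM
      (fun z t ht => ContDiffAt.comp (g := fun u => f u z) t (hd z _ (hmem t ht))
        contDiff_neg.contDiffAt)
      (hm.comp ((measurable_fst.neg).prodMk measurable_snd))
      (fun t ht => by
        have e : ∀ z, ‖iteratedDeriv n (fun u => f (-u) z) t‖ₑ
            = ‖iteratedDeriv n (fun u => f u z) (-t)‖ₑ := fun z => by
          rw [iteratedDeriv_comp_neg n (fun u => f u z), enorm_smul]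
          simp
        simp only [e]
        exact hb _ (hmem t ht)) o
    simp only [zero_add, neg_mul, neg_neg] at this
    refine le_trans (le_of_eq ?_) this
    refine lintegral_congr fun z => congrArg (· ^ 2) ?_
    rw [intervalIntegral.integral_comp_neg fun t => f t z, neg_neg, neg_zero,
      intervalIntegral.integral_symm, neg_smul, sub_neg_eq_add]
    rw [← enorm_neg]
    congr 1
    abel

end Vale.Agent.P347.Gamma0
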