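import Vale.Agent.P347.Gamma0.Ham
import Vale.Agent.P347.Gamma0.MeanSquare
import Vale.Agent.P347.Gamma0.Build

/-!
P347, towards `γ_* = 0`: the compiled Hamiltonian difference quotient `Build.est` is close in
quadratic mean to `a_r(c + q w) D` on the law at `q` times a Gaussian, and is Lipschitz `1/θ`.
-/

namespace Vale.Agent.P347.Gamma0

open MeasureTheory ProbabilityTheory Set Filter
open scoped RealInnerProductSpace ContDiff Topology ENNReal

variable {d : ℕ}

/-- Combinations of measurable vector functions are measurable. -/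
lemma measurable_comb {Ω κ : Type*} [MeasurableSpace Ω] [Fintype κ] {f : κ → Ω → E d}
    (hf : ∀ l, Measurable (f l)) (a : ℝ) (b c : κ → ℝ) :
    Measurable fun z => a • ∑ l, b l • (c l • f l z) :=
  (Finset.measurable_sum _ fun l _ =>
    (show Measurable fun z => b l • (c l • f l z) from ((hf l).const_smul (c l)).const_smul (b l))).const_smul a

/-- The triangle inequality in quadratic mean. -/
lemma ms_add {Ω : Type*} [MeasurableSpace Ω] {μ : Measure Ω} {F G : Ω → E d} {A B : ℝ}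
    (hFm : Measurable F) (hGm : Measurable G) (hA0 : 0 ≤ A) (hB0 : 0 ≤ B)
    (hF : ∫⁻ z, ‖F z‖ₑ ^ 2 ∂μ ≤ ENNReal.ofReal (A ^ 2))
    (hG : ∫⁻ z, ‖G z‖ₑ ^ 2 ∂μ ≤ ENNReal.ofReal (B ^ 2)) :
    ∫⁻ z, ‖F z + G z‖ₑ ^ 2 ∂μ ≤ ENNReal.ofReal ((A + B) ^ 2) := by
  refine (lintegral_mono fun z => pow_le_pow_left₀ zero_le (enorm_add_le (F z) (G z)) 2).trans ?_
  have h := ENNReal.lintegral_Lp_add_le (μ := μ) (p := 2) hFm.enorm.aemeasurable
    hGm.enorm.aemeasurable one_le_two
  simp only [Pi.add_apply, ENNReal.rpow_two, one_div] at h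
  have root : ∀ {x : ℝ≥0∞} {a : ℝ}, 0 ≤ a → x ≤ ENNReal.ofReal (a ^ 2) →
      x ^ (2 : ℝ)⁻¹ ≤ ENNReal.ofReal a := by
    intro x a ha hx
    rw [ENNReal.rpow_inv_le_iff two_pos, ENNReal.rpow_two, ← ENNReal.ofReal_pow ha]
    exact hx
  have h' := h.trans (add_le_add (root hA0 hF) (root hB0 hG))
  rw [← ENNReal.ofReal_add hA0 hB0, ENNReal.rpow_inv_le_iff two_pos, ENNReal.rpow_two,
    ← ENNReal.ofReal_pow (by positivity)] at h'
  exact h'

/-- Derivatives of a function times a sine. -/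
lemma norm_iteratedDeriv_sin_smul_le {n : ℕ} {s : Set ℝ} (hs : IsOpen s) {g : ℝ → E d} {t : ℝ}
    (ht : t ∈ s) (hg : ContDiffOn ℝ n g s) (a : ℝ) :
    ‖iteratedDeriv n (fun u => Real.sin (a - u) • g u) t‖
      ≤ ∑ i ∈ Finset.range (n + 1), (n.choose i : ℝ) * ‖iteratedDeriv (n - i) g t‖ := by
  have hf : ContDiff ℝ n fun u : ℝ => Real.sin (a - u) :=
    Real.contDiff_sin.comp (contDiff_const.sub contDiff_id)
  have h := norm_iteratedFDerivWithin_smul_le (n := n) hf.contDiffOn hg hs.uniqueDiffOn ht le_rfl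
  simp only [iteratedFDerivWithin_of_isOpen _ hs ht, norm_iteratedFDeriv_eq_norm_iteratedDeriv] at h
  refine h.trans (Finset.sum_le_sum fun i _ => ?_)
  refine mul_le_mul_of_nonneg_right (mul_le_of_le_one_right (Nat.cast_nonneg _) ?_) (norm_nonneg _)
  rw [iteratedDeriv_comp_const_sub i Real.sin a]
  simp only [norm_smul, norm_pow, norm_neg, norm_one, one_pow, one_mul, Real.norm_eq_abs]
  exact Real.abs_iteratedDeriv_sin_le_one i _

namespace Data

attribute [local irreducible] G nW psi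

variable (D : Data d)

/-- The iterated derivative of the mean gradient along the Hamiltonian field. -/
noncomputable def hamGen (q : ℝ) : ℕ → E d × E d → E d
  | 0 => fun p => D.Gq q p.1
  | j + 1 => fun p => fderiv ℝ (hamGen q j) p (p.2, -(D.gψ q p.1))

lemma contDiff_hamGen (hP : PostFacts) {q : ℝ} (hq : q ∈ D.I) :
    ∀ j, ContDiff ℝ ∞ (D.hamGen q j)
  | 0 => (D.contDiff_Gq hP hq).comp contDiff_fst
  | j + 1 =>
    ((contDiff_hamGen hP hq j).fderiv_right (by simp)).clm_apply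
      (contDiff_snd.prodMk ((Ham.contDiff_gψ hP hq).comp contDiff_fst).neg)

end Data

namespace Ham

attribute [local irreducible] G nW psi

variable {D : Data d} {q : ℝ} (X : Ham D q) (hP : PostFacts)
include hP

/-- The derivatives along the flow are the generator's iterates at the moving point. -/
lemma iteratedDeriv_Gq_path (hq : q ∈ D.I) (p : E d × E d) (j : ℕ) :
    ∀ t ∈ Ioo (-(3 / 2) : ℝ) (3 / 2),
      iteratedDeriv j (fun u => D.Gq q (X.path u p).1) t = D.hamGen q j (X.path t p) := by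
  induction j with
  | zero => intro t _; rw [iteratedDeriv_zero]; rfl
  | succ j ih =>
    intro t ht
    rw [iteratedDeriv_succ]
    have h := ((D.contDiff_hamGen hP hq j).differentiable (by simp)
      (X.path t p)).hasFDerivAt.comp_hasDerivAt t (X.hasDerivAt_path ht p)
    exact (h.congr_of_eventuallyEq (Filter.eventuallyEq_of_mem (isOpen_Ioo.mem_nhds ht) ih)).deriv

include X in
/-- The first iterate is the product of the Hessian with the velocity. -/
lemma hamGen_one (hq : q ∈ D.I) (p : E d × E d) : D.hamGen q 1 p = q • D.aq q p.1 p.2 := by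
  have h := X.iteratedDeriv_Gq_path hP hq p 1 0 (by norm_num)
  rw [iteratedDeriv_one, (X.hasDerivAt_Gq_zero hP hq p).deriv, X.path_zero] at h
  exact h.symm

/-- Quadratic means are constant along the flow. -/
lemma ms_path (hT : LawTransport) (hq : q ∈ D.I) {F : E d × E d → E d} (hF : Measurable F)
    (t : ℝ) :
    ∫⁻ p, ‖F (X.path t p)‖ₑ ^ 2 ∂(ExFlow.law D q).prod (gam d)
      = ∫⁻ p, ‖F p‖ₑ ^ 2 ∂(ExFlow.law D q).prod (gam d) := by
  have hm : Measurable (X.path t) :=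
    (X.continuous_path.comp (continuous_const.prodMk continuous_id)).measurable
  conv_rhs => rw [← X.map_law hP hT hq t]
  rw [lintegral_map (hF.enorm.pow_const 2) hm]

end Ham

namespace Build

attribute [local irreducible] G nW psi

variable {na : ℕ}

/-- Bounds and orders of a rule for integrals and of an extraction of a first derivative. -/
structure HamRules {n N : ℕ} (ru : Rule n) (fd : Fd N) (C : ℝ) : Prop where
  nonneg : 0 ≤ C
  fd_mem : ∀ i, |fd.x i| ≤ 1
  fd_sum : ∑ i, |fd.wt i| ≤ C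
  ru_mem : ∀ i, ru.x i ∈ Icc (0 : ℝ) 1
  ru_sum : ∀ o, ∑ l, |ru.W o l| ≤ C
  quad : ∀ (Ω : Type) [MeasurableSpace Ω] (μ : Measure Ω) [IsProbabilityMeasure μ] (d : ℕ)
      (f : ℝ → Ω → E d) (h M : ℝ), 0 ≤ M →
      (∀ z, ∀ t ∈ Icc (-|h|) |h|, ContDiffAt ℝ n (fun u => f u z) t) →
      Measurable (fun p : ℝ × Ω => f p.1 p.2) →
      (∀ t ∈ Icc (-|h|) |h|, ∫⁻ z, ‖iteratedDeriv n (fun u => f u z) t‖ₑ ^ 2 ∂μ
        ≤ ENNReal.ofReal (M ^ 2)) →
      ∀ o, ∫⁻ z, ‖(∫ t in (0 : ℝ)..(h * o.elim 1 ru.x), f t z)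
          - h • ∑ j, ru.W o j • f (h * ru.x j) z‖ₑ ^ 2 ∂μ
        ≤ ENNReal.ofReal ((C * |h| ^ (n + 1) * M) ^ 2)
  extract : ∀ (Ω : Type) [MeasurableSpace Ω] (μ : Measure Ω) [IsProbabilityMeasure μ] (d : ℕ)
      (f : ℝ → Ω → E d) (θ M : ℝ), 0 < θ → 0 ≤ M →
      (∀ z, ∀ t ∈ Icc (-θ) θ, ContDiffAt ℝ N (fun u => f u z) t) →
      Measurable (fun p : ℝ × Ω => f p.1 p.2) →
      (∀ t ∈ Icc (-θ) θ, ∫⁻ z, ‖iteratedDeriv N (fun u => f u z) t‖ₑ ^ 2 ∂μ
        ≤ ENNReal.ofReal (M ^ 2)) →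
      ∫⁻ z, ‖(∑ i, fd.wt i • f (θ * fd.x i) z) - θ • deriv (fun u => f u z) 0‖ₑ ^ 2 ∂μ
        ≤ ENNReal.ofReal ((C * θ ^ N * M) ^ 2)

/-- Rules of any order exist. -/
theorem exists_hamRules (hI : IntMatrix) (hR : Richardson) {n N : ℕ} (hn : 1 ≤ n) (hN : 1 < N) :
    ∃ (C : ℝ) (ru : Rule n) (fd : Fd N), HamRules ru fd C := by
  obtain ⟨C₁, hC₁, x, w, hx, hw, hq⟩ := intMatrix_signed hI n hn
  obtain ⟨C₂, hC₂, y, v, hy, hv, he⟩ := hR 1 N hN
  refine ⟨max C₁ C₂, ⟨x, w⟩, ⟨y, v⟩, le_max_of_le_left hC₁, hy, hv.trans (le_max_right _ _), hx,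
    fun o => (hw o).trans (le_max_left _ _), ?_, ?_⟩
  · intro Ω _ μ _ d f h M hM hd hm hb o
    refine ms_mono (hq Ω μ d f h M hM hd hm hb o) (by positivity) ?_
    gcongr
    exact le_max_left _ _
  · intro Ω _ μ _ d f θ M hθ hM hd hm hb
    have h := he Ω μ d f θ M hθ hM hd hm hb
    simp only [pow_one, Nat.factorial_one, Nat.cast_one, div_one, iteratedDeriv_one] at h
    refine ms_mono h (by positivity) ?_
    gcongr
    exact le_max_right _ _

variable (P : Data na)

lemma abs_hamTime_le {C : ℝ} (hC : HamRules P.ham P.fdθ C) (hθ : 0 ≤ P.θ) (k : Fin P.nr)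
    (o : Option (Fin P.nh)) : |hamTime P k o| ≤ P.θ := by
  have h : |o.elim (1 : ℝ) P.ham.x| ≤ 1 := by
    cases o with
    | none => simp
    | some i => simpa [abs_of_nonneg (hC.ru_mem i).1] using (hC.ru_mem i).2
  rw [hamTime, abs_mul, abs_mul, abs_of_nonneg hθ]
  exact mul_le_of_le_one_right (by positivity) h |>.trans (mul_le_of_le_one_right hθ (hC.fd_mem k))

/-- The coefficients of one Picard step. -/
lemma step_coef_le {C : ℝ} (hC : HamRules P.ham P.fdθ C) (hθ : 0 ≤ P.θ) (k : Fin P.nr)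
    (o : Option (Fin P.nh)) :
    ∑ l, |P.θ * P.fdθ.x k * P.ham.W o l * Real.sin (hamTime P k o - hamTime P k (some l))|
      ≤ P.θ ^ 2 * C := by
  have ho : o.elim (1 : ℝ) P.ham.x ∈ Icc (0 : ℝ) 1 := by
    cases o with
    | none => simp
    | some i => exact hC.ru_mem i
  calc _ ≤ ∑ l, P.θ ^ 2 * |P.ham.W o l| := Finset.sum_le_sum fun l _ => ?_
    _ ≤ P.θ ^ 2 * C := by
      rw [← Finset.mul_sum]
      exact mul_le_mul_of_nonneg_left (hC.ru_sum o) (sq_nonneg _)
  have h1 : |Real.sin (hamTime P k o - hamTime P k (some l))| ≤ P.θ := by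
    refine Real.abs_sin_le_abs.trans ?_
    rw [hamTime, hamTime, ← mul_sub, abs_mul, abs_mul, abs_of_nonneg hθ, mul_assoc]
    refine mul_le_of_le_one_right hθ (mul_le_one₀ (hC.fd_mem k) (abs_nonneg _) ?_)
    exact abs_sub_le_iff.2 ⟨by simpa using (sub_le_sub ho.2 (hC.ru_mem l).1),
      by simpa using (sub_le_sub (hC.ru_mem l).2 ho.1)⟩
  rw [abs_mul, abs_mul, abs_mul, abs_of_nonneg hθ]
  calc _ ≤ P.θ * 1 * |P.ham.W o l| * P.θ := by
        gcongr
        exact hC.fd_mem k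
    _ = _ := by ring

/-- The iterates are Lipschitz in the position and the velocity. -/
theorem ham_lip {ι : Type} {Gr : ℝ → E d → E d} (hG : ∀ r, LipschitzWith 1 (Gr r)) {C : ℝ}
    (hC : HamRules P.ham P.fdθ C) (hε : 0 ≤ P.ε) (hθ : 0 ≤ P.θ)
    (hκ : P.ε * P.θ ^ 2 * C ≤ 1 / 2) {q : ℝ} (hq0 : 0 ≤ q) (hq1 : q ≤ 1) (ec ew eD : Expr ι)
    (x y : ι → E d) (hc : ec.val Gr x = ec.val Gr y) (k : Fin P.nr) :
    ∀ p o, ‖(ham P ec q ew eD k p o).val Gr x - (ham P ec q ew eD k p o).val Gr y‖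
      ≤ 2 * (‖ew.val Gr x - ew.val Gr y‖ + ‖eD.val Gr x - eD.val Gr y‖) := by
  set a := ‖ew.val Gr x - ew.val Gr y‖
  set b := ‖eD.val Gr x - eD.val Gr y‖
  have hab : 0 ≤ a + b := by positivity
  have base : ∀ t, ‖(Real.cos t • ew.val Gr x + Real.sin t • eD.val Gr x)
      - (Real.cos t • ew.val Gr y + Real.sin t • eD.val Gr y)‖ ≤ a + b := fun t => by
    rw [add_sub_add_comm, ← smul_sub, ← smul_sub]
    refine (norm_add_le _ _).trans (add_le_add ?_ ?_) <;> rw [norm_smul, Real.norm_eq_abs]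
    · exact mul_le_of_le_one_left (norm_nonneg _) (Real.abs_cos_le_one _)
    · exact mul_le_of_le_one_left (norm_nonneg _) (Real.abs_sin_le_one _)
  intro p
  induction p with
  | zero => intro o; simp only [ham, Expr.val]; exact (base _).trans (by linarith)
  | succ p ih =>
    intro o
    simp only [ham, gateAt, Expr.val, Expr.val_sum, hc]
    rw [add_sub_add_comm, ← Finset.sum_sub_distrib]
    refine (norm_add_le _ _).trans ?_
    refine (add_le_add (base _) ((norm_sum_le _ _).trans (Finset.sum_le_sum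
      (g := fun l => P.ε * q * |P.θ * P.fdθ.x k * P.ham.W o l *
        Real.sin (hamTime P k o - hamTime P k (some l))| * (q * (2 * (a + b))))
      fun l _ => ?_))).trans ?_
    · rw [← smul_sub, norm_smul, Real.norm_eq_abs, abs_neg, mul_assoc (P.ε * q), abs_mul,
        abs_of_nonneg (mul_nonneg hε hq0)]
      refine mul_le_mul_of_nonneg_left (((hG _).norm_sub_le _ _).trans ?_) (by positivity)
      rw [NNReal.coe_one, one_mul, add_sub_add_left_eq_sub, ← smul_sub, norm_smul,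
        Real.norm_eq_abs, abs_of_nonneg hq0]
      exact mul_le_mul_of_nonneg_left (ih _) hq0
    · rw [← Finset.sum_mul, ← Finset.mul_sum]
      have h := step_coef_le P hC hθ k o
      have h2 : q * q ≤ 1 := mul_le_one₀ hq1 hq0 hq1
      have h3 : P.ε * q * (P.θ ^ 2 * C) * (q * (2 * (a + b))) ≤ a + b := by
        have h4 : (P.ε * P.θ ^ 2 * C) * (q * q) ≤ 1 / 2 :=
          (mul_le_of_le_one_right (by have := hC.nonneg; positivity) h2).trans hκ
        calc _ = (P.ε * P.θ ^ 2 * C) * (q * q) * (2 * (a + b)) := by ring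
          _ ≤ 1 / 2 * (2 * (a + b)) := mul_le_mul_of_nonneg_right h4 (by positivity)
          _ = _ := by ring
      have h5 := mul_le_mul_of_nonneg_right (mul_le_mul_of_nonneg_left h (mul_nonneg hε hq0))
        (show 0 ≤ q * (2 * (a + b)) by positivity)
      linarith

/-- The difference quotient is Lipschitz `1/θ` in the position and the velocity. -/
theorem est_lip {ι : Type} {Gr : ℝ → E d → E d} (hG : ∀ r, LipschitzWith 1 (Gr r)) {C : ℝ}
    (hC : HamRules P.ham P.fdθ C) (hε : 0 ≤ P.ε) (hθ : 0 < P.θ)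
    (hκ : P.ε * P.θ ^ 2 * C ≤ 1 / 2) {q : ℝ} (hq0 : 0 < q) (hq1 : q ≤ 1) (ec ew eD : Expr ι)
    (x y : ι → E d) (hc : ec.val Gr x = ec.val Gr y) :
    ‖(est P ec q ew eD).val Gr x - (est P ec q ew eD).val Gr y‖
      ≤ 2 * C / P.θ * (‖ew.val Gr x - ew.val Gr y‖ + ‖eD.val Gr x - eD.val Gr y‖) := by
  set B := 2 * (‖ew.val Gr x - ew.val Gr y‖ + ‖eD.val Gr x - eD.val Gr y‖)
  simp only [est, gateAt, Expr.val, Expr.val_sum, hc]
  rw [← Finset.sum_sub_distrib]
  refine (norm_sum_le _ _).trans ((Finset.sum_le_sum (g := fun k => |P.fdθ.wt k| * (B / P.θ))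
    fun k _ => ?_).trans ?_)
  · rw [← smul_sub, norm_smul, Real.norm_eq_abs, abs_div, abs_of_pos (mul_pos hq0 hθ)]
    calc _ ≤ |P.fdθ.wt k| / (q * P.θ) * (q * B) := by
          refine mul_le_mul_of_nonneg_left (((hG _).norm_sub_le _ _).trans ?_) (by positivity)
          rw [NNReal.coe_one, one_mul, add_sub_add_left_eq_sub, ← smul_sub, norm_smul,
            Real.norm_eq_abs, abs_of_pos hq0]
          exact mul_le_mul_of_nonneg_left
            (ham_lip P hG hC hε hθ.le hκ hq0.le hq1 ec ew eD x y hc k _ _) hq0.le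
      _ = _ := by field_simp
  · rw [← Finset.sum_mul]
    calc (∑ k, |P.fdθ.wt k|) * (B / P.θ) ≤ C * (B / P.θ) :=
          mul_le_mul_of_nonneg_right hC.fd_sum (by positivity)
      _ = _ := by simp only [B]; ring

section Error

variable {D : Gamma0.Data d} {q : ℝ} {C S M : ℝ}

/-- The quadrature error of the integrand of the variation of constants. -/
lemma ham_quad (hP : PostFacts) (hT : LawTransport) (hC : HamRules P.ham P.fdθ C) (hq : q ∈ D.I)
    (X : Ham D q) (hθ : 0 ≤ P.θ) (hθ1 : P.θ ≤ 1) (hS0 : 0 ≤ S) (hM0 : 0 ≤ M)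
    (hS : ∫⁻ p, ‖D.Gq q p.1‖ₑ ^ 2 ∂(ExFlow.law D q).prod (gam d) ≤ ENNReal.ofReal (S ^ 2))
    (hM : ∀ j, 1 ≤ j → j ≤ P.nh →
      ∫⁻ p, ‖D.hamGen q j p‖ₑ ^ 2 ∂(ExFlow.law D q).prod (gam d) ≤ ENNReal.ofReal (M ^ 2))
    (k : Fin P.nr) (o : Option (Fin P.nh)) :
    ∫⁻ z, ‖(∫ t in (0 : ℝ)..hamTime P k o,
          Real.sin (hamTime P k o - t) • D.Gq q (X.path t z).1)
        - (P.θ * P.fdθ.x k) • ∑ l, P.ham.W o l •
            (Real.sin (hamTime P k o - hamTime P k (some l)) •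
              D.Gq q (X.path (hamTime P k (some l)) z).1)‖ₑ ^ 2
        ∂(ExFlow.law D q).prod (gam d)
      ≤ ENNReal.ofReal ((C * P.θ ^ (P.nh + 1) * (2 ^ P.nh * (S + M))) ^ 2) := by
  have := Ham.isProb_law (D := D) hP hq
  have : IsProbabilityMeasure (gam d) := by unfold gam; infer_instance
  have hh : |P.θ * P.fdθ.x k| ≤ P.θ := by
    rw [abs_mul, abs_of_nonneg hθ]; exact mul_le_of_le_one_right hθ (hC.fd_mem k)
  have hI : ∀ t ∈ Icc (-|P.θ * P.fdθ.x k|) |P.θ * P.fdθ.x k|, t ∈ Ioo (-(3 / 2) : ℝ) (3 / 2) :=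
    fun t ht => ⟨by linarith [ht.1], by linarith [ht.2]⟩
  have hg : Continuous fun z : ℝ × (E d × E d) =>
      Real.sin (hamTime P k o - z.1) • D.Gq q (X.path z.1 z.2).1 :=
    (Real.continuous_sin.comp (continuous_const.sub continuous_fst)).smul
      (X.continuous_Gq_path hP hq)
  have h := hC.quad (E d × E d) ((ExFlow.law D q).prod (gam d)) d
    (fun t z => Real.sin (hamTime P k o - t) • D.Gq q (X.path t z).1)
    (P.θ * P.fdθ.x k) (2 ^ P.nh * (S + M)) (by positivity)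
    (fun z t ht => ((Real.contDiff_sin.comp (contDiff_const.sub contDiff_id)).contDiffAt).smul
      (X.contDiffAt_Gq_path hP hq z (hI t ht) _))
    hg.measurable ?_ o
  · refine ms_mono h (by have := hC.nonneg; positivity) ?_
    gcongr
    exact hC.nonneg
  · intro t ht
    have hb : ∀ z, ‖iteratedDeriv P.nh
        (fun u => Real.sin (hamTime P k o - u) • D.Gq q (X.path u z).1) t‖
        ≤ ∑ i ∈ Finset.range (P.nh + 1),
          (P.nh.choose i : ℝ) * ‖D.hamGen q (P.nh - i) (X.path t z)‖ := fun z => by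
      have := norm_iteratedDeriv_sin_smul_le (n := P.nh) isOpen_Ioo (hI t ht)
        (g := fun u => D.Gq q (X.path u z).1)
        (fun u hu => (X.contDiffAt_Gq_path hP hq z hu _).contDiffWithinAt) (hamTime P k o)
      simpa only [X.iteratedDeriv_Gq_path hP hq z _ t (hI t ht)] using this
    have hpm : Measurable (X.path t) :=
      (X.continuous_path.comp (continuous_const.prodMk continuous_id)).measurable
    refine ms_mono (ms_le (Finset.range (P.nh + 1))
      (f := fun i z => D.hamGen q (P.nh - i) (X.path t z))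
      (c := fun i => (P.nh.choose i : ℝ)) (B := S + M) (fun i _ => Nat.cast_nonneg _)
      (fun i _ => (D.contDiff_hamGen hP hq _).continuous.measurable.comp hpm) hb fun i _ => ?_)
      (by positivity) (le_of_eq ?_)
    · rw [X.ms_path hP hT hq (D.contDiff_hamGen hP hq _).continuous.measurable]
      rcases Nat.eq_zero_or_pos (P.nh - i) with h0 | h0
      · rw [h0]; exact ms_mono hS hS0 (le_add_of_nonneg_right hM0)
      · exact ms_mono (hM _ h0 (Nat.sub_le _ _)) hM0 (le_add_of_nonneg_left hS0)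
    · congr 1
      exact_mod_cast Nat.sum_range_choose P.nh

/-- The weighted values along the flow in quadratic mean. -/
lemma ham_combination (hC : HamRules P.ham P.fdθ C) (hθ : 0 ≤ P.θ)
    {B : ℝ} (hB : 0 ≤ B) {f : Fin P.nh → E d × E d → E d} (hf : ∀ l, Measurable (f l))
    {μ : Measure (E d × E d)}
    (hb : ∀ l, ∫⁻ z, ‖f l z‖ₑ ^ 2 ∂μ ≤ ENNReal.ofReal (B ^ 2))
    (k : Fin P.nr) (o : Option (Fin P.nh)) :
    ∫⁻ z, ‖(P.θ * P.fdθ.x k) • ∑ l, P.ham.W o l •
        (Real.sin (hamTime P k o - hamTime P k (some l)) • f l z)‖ₑ ^ 2 ∂μ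
      ≤ ENNReal.ofReal ((P.θ ^ 2 * C * B) ^ 2) := by
  refine ms_mono (ms_le Finset.univ (f := f)
    (c := fun l => |P.θ * P.fdθ.x k * P.ham.W o l *
      Real.sin (hamTime P k o - hamTime P k (some l))|)
    (fun l _ => abs_nonneg _) (fun l _ => hf l) (fun z => ?_) fun l _ => hb l)
    (by positivity) (mul_le_mul_of_nonneg_right (step_coef_le P hC hθ k o) hB)
  rw [Finset.smul_sum]
  exact (norm_sum_le _ _).trans (le_of_eq (Finset.sum_congr rfl fun l _ => by
    rw [smul_smul, smul_smul, norm_smul, Real.norm_eq_abs]))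

variable {ι : Type} [Countable ι] {ec ew eD : Expr ι} {R : E d × E d → ι → E d}

/-- The iterates against the exact flow. -/
lemma ham_error (hP : PostFacts) (hT : LawTransport) (hC : HamRules P.ham P.fdθ C)
    (hε : D.ε = P.ε) (hτ : D.τ = P.τ) (hq : q ∈ D.I) (hq0 : 0 ≤ q) (hq1 : q ≤ 1) (X : Ham D q)
    (hθ : 0 ≤ P.θ) (hθ1 : P.θ ≤ 1) (hκ : P.ε * P.θ ^ 2 * C ≤ 1 / 2) (hS0 : 0 ≤ S) (hM0 : 0 ≤ M)
    (hS : ∫⁻ p, ‖D.Gq q p.1‖ₑ ^ 2 ∂(ExFlow.law D q).prod (gam d) ≤ ENNReal.ofReal (S ^ 2))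
    (hM : ∀ j, 1 ≤ j → j ≤ P.nh →
      ∫⁻ p, ‖D.hamGen q j p‖ₑ ^ 2 ∂(ExFlow.law D q).prod (gam d) ≤ ENNReal.ofReal (M ^ 2))
    (hc : ∀ z, ec.val (Gt D.U D.g D.ε) (R z) = D.c)
    (hw : ∀ z, ew.val (Gt D.U D.g D.ε) (R z) = z.1)
    (hD : ∀ z, eD.val (Gt D.U D.g D.ε) (R z) = z.2) (hR : Measurable R) (k : Fin P.nr) :
    ∀ p o, ∫⁻ z, ‖(ham P ec q ew eD k p o).val (Gt D.U D.g D.ε) (R z)
        - (X.path (hamTime P k o) z).1‖ₑ ^ 2 ∂(ExFlow.law D q).prod (gam d)
      ≤ ENNReal.ofReal ((q * P.ε * (2 * (C * P.θ ^ (P.nh + 1) * (2 ^ P.nh * (S + M)))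
          + (P.ε * P.θ ^ 2 * C) ^ p * (C * P.θ ^ (P.nh + 1) * (2 ^ P.nh * (S + M))
            + P.θ ^ 2 * C * S))) ^ 2) := by
  have hε0 : 0 ≤ P.ε := hε ▸ D.ε0
  have hC0 := hC.nonneg
  set δ := C * P.θ ^ (P.nh + 1) * (2 ^ P.nh * (S + M)) with hδdef
  set κ := P.ε * P.θ ^ 2 * C with hκdef
  have hδ : 0 ≤ δ := by positivity
  have hκ0 : 0 ≤ κ := by positivity
  have hGq : ∀ w, Gt D.U D.g D.ε (P.rs q) (D.c + q • w) = D.Gq q w := fun w => by
    have : 0 < P.rs q := by rw [Data.rs, ← hτ]; exact D.r_pos hq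
    rw [Gt, if_pos this, Data.rs, ← hτ]; rfl
  have hGc : ∀ r, Continuous (Gt D.U D.g D.ε r) := by
    intro r
    unfold Gt
    rcases em (0 < r) with h | h
    · simp only [if_pos h]; exact (D.contDiff_G hP h).continuous
    · simp only [if_neg h]; exact continuous_const
  have hvm : ∀ p l, Measurable fun z =>
      (ham P ec q ew eD k p l).val (Gt D.U D.g D.ε) (R z) :=
    fun p l => (Expr.continuous_val _ hGc _).measurable.comp hR
  have hpm : ∀ t, Measurable (X.path t) := fun t =>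
    (X.continuous_path.comp (continuous_const.prodMk continuous_id)).measurable
  have hGm : Measurable (D.Gq q) := (D.contDiff_Gq hP hq).continuous.measurable
  have ht : ∀ o, hamTime P k o ∈ Icc (-1 : ℝ) 1 := fun o =>
    abs_le.1 ((abs_hamTime_le P hC hθ k o).trans hθ1)
  set Q : Option (Fin P.nh) → E d × E d → E d := fun o z =>
    (∫ t in (0 : ℝ)..hamTime P k o, Real.sin (hamTime P k o - t) • D.Gq q (X.path t z).1)
      - (P.θ * P.fdθ.x k) • ∑ l, P.ham.W o l •
          (Real.sin (hamTime P k o - hamTime P k (some l)) •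
            D.Gq q (X.path (hamTime P k (some l)) z).1) with hQdef
  have hQm : ∀ o, Measurable (Q o) := fun o => by
    have hint : Continuous fun z : E d × E d => ∫ t in (0 : ℝ)..hamTime P k o,
        Real.sin (hamTime P k o - t) • D.Gq q (X.path t z).1 :=
      intervalIntegral.continuous_parametric_intervalIntegral_of_continuous'
        ((Real.continuous_sin.comp (continuous_const.sub continuous_snd)).smul
          ((X.continuous_Gq_path hP hq).comp (continuous_snd.prodMk continuous_fst))) 0 _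
    exact hint.measurable.sub
      (measurable_comb (fun l => (hGm.comp measurable_fst).comp (hpm _)) _ _ _)
  have hQ : ∀ o, ∫⁻ z, ‖(q * P.ε) • Q o z‖ₑ ^ 2 ∂(ExFlow.law D q).prod (gam d)
      ≤ ENNReal.ofReal ((q * P.ε * δ) ^ 2) := fun o => by
    have := ms_smul (q * P.ε) (ham_quad P hP hT hC hq X hθ hθ1 hS0 hM0 hS hM k o)
    rwa [abs_of_nonneg (mul_nonneg hq0 hε0)] at this
  intro p
  induction p with
  | zero =>
    intro o
    set W : E d × E d → E d := fun z => (P.θ * P.fdθ.x k) • ∑ l, P.ham.W o l •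
      (Real.sin (hamTime P k o - hamTime P k (some l)) •
        D.Gq q (X.path (hamTime P k (some l)) z).1)
    have hW := ms_smul (q * P.ε) (ham_combination P hC hθ hS0
      (f := fun l z => D.Gq q (X.path (hamTime P k (some l)) z).1)
      (fun l => (hGm.comp measurable_fst).comp (hpm _))
      (fun l => (X.ms_path hP hT hq (hGm.comp measurable_fst) _).trans_le hS) k o)
    rw [abs_of_nonneg (mul_nonneg hq0 hε0)] at hW
    have hWm : Measurable fun z => (q * P.ε) • W z :=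
      (measurable_comb (fun l => (hGm.comp measurable_fst).comp (hpm _)) _ _ _).const_smul (q * P.ε)
    have h := ms_add ((hQm o).const_smul (q * P.ε)) hWm (by positivity) (by positivity) (hQ o) hW
    refine ms_mono ((le_of_eq (lintegral_congr fun z => ?_)).trans h) (by positivity) ?_
    · congr 2
      rw [X.pos_eq hP hq z (ht o)]
      simp only [ham, Expr.val, hw, hD, Q, W, Pi.smul_apply, ← hε]
      module
    · rw [pow_zero, one_mul]
      nlinarith [mul_nonneg (mul_nonneg hq0 hε0) hδ]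
  | succ p ih =>
    intro o
    set B := q * P.ε * (2 * δ + κ ^ p * (δ + P.θ ^ 2 * C * S)) with hBdef
    have hB : 0 ≤ B := by positivity
    set f : Fin P.nh → E d × E d → E d := fun l z =>
      D.Gq q (X.path (hamTime P k (some l)) z).1
        - D.Gq q ((ham P ec q ew eD k p (some l)).val (Gt D.U D.g D.ε) (R z))
    have hfm : ∀ l, Measurable (f l) := fun l =>
      ((hGm.comp measurable_fst).comp (hpm _)).sub (hGm.comp (hvm p _))
    have hf : ∀ l, ∫⁻ z, ‖f l z‖ₑ ^ 2 ∂(ExFlow.law D q).prod (gam d)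
        ≤ ENNReal.ofReal ((q * B) ^ 2) := fun l => by
      have h := ms_smul q (ih (some l))
      rw [abs_of_nonneg hq0] at h
      refine (lintegral_mono fun z => pow_le_pow_left₀ zero_le ?_ 2).trans h
      rw [← ofReal_norm, ← ofReal_norm, norm_smul, Real.norm_eq_abs]
      refine ENNReal.ofReal_le_ofReal ?_
      rw [norm_sub_rev ((ham P ec q ew eD k p (some l)).val _ _)]
      exact Ham.norm_Gq_sub_le hP hq _ _
    set W : E d × E d → E d := fun z => (P.θ * P.fdθ.x k) • ∑ l, P.ham.W o l •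
      (Real.sin (hamTime P k o - hamTime P k (some l)) • f l z)
    have hW := ms_smul (q * P.ε) (ham_combination P hC hθ (by positivity) hfm hf k o)
    rw [abs_of_nonneg (mul_nonneg hq0 hε0)] at hW
    have hWm : Measurable fun z => (q * P.ε) • W z :=
      (measurable_comb hfm _ _ _).const_smul (q * P.ε)
    have h := ms_add ((hQm o).const_smul (q * P.ε)) hWm (by positivity) (by positivity) (hQ o) hW
    refine ms_mono ((le_of_eq (lintegral_congr fun z => ?_)).trans h) (by positivity) ?_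
    · congr 2
      rw [X.pos_eq hP hq z (ht o)]
      simp only [ham, gateAt, Expr.val, Expr.val_sum, hw, hD, hc, hGq, Q, W, f, Pi.smul_apply, ← hε, smul_sub,
        Finset.smul_sum, smul_smul, Finset.sum_sub_distrib, neg_smul, Finset.sum_neg_distrib]
      rw [mul_comm D.ε q]
      simp only [mul_assoc]
      abel
    · have h2 : q * q ≤ 1 := mul_le_one₀ hq1 hq0 hq1
      have h4 : κ * B ≤ q * P.ε * δ + κ ^ (p + 1) * (q * P.ε * (δ + P.θ ^ 2 * C * S)) := by
        have h5 := mul_le_mul_of_nonneg_right hκ (show 0 ≤ q * P.ε * (2 * δ) by positivity)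
        calc κ * B = κ * (q * P.ε * (2 * δ))
              + κ ^ (p + 1) * (q * P.ε * (δ + P.θ ^ 2 * C * S)) := by rw [hBdef, pow_succ]; ring
          _ ≤ 1 / 2 * (q * P.ε * (2 * δ))
              + κ ^ (p + 1) * (q * P.ε * (δ + P.θ ^ 2 * C * S)) := add_le_add h5 le_rfl
          _ = _ := by ring
      calc q * P.ε * δ + q * P.ε * (P.θ ^ 2 * C * (q * B))
          = q * P.ε * δ + κ * (q * q) * B := by rw [hκdef]; ring
        _ ≤ q * P.ε * δ + κ * B := by
          gcongr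
          exact mul_le_of_le_one_right hκ0 h2
        _ ≤ q * P.ε * (2 * δ + κ ^ (p + 1) * (δ + P.θ ^ 2 * C * S)) := by linarith

/-- The compiled difference quotient against `a_r(c + q w) D`. -/
theorem est_error (hP : PostFacts) (hT : LawTransport) (hC : HamRules P.ham P.fdθ C)
    (hε : D.ε = P.ε) (hτ : D.τ = P.τ) (hq : q ∈ D.I) (hq0 : 0 < q) (hq1 : q ≤ 1) (X : Ham D q)
    (hθ : 0 < P.θ) (hθ1 : P.θ ≤ 1) (hκ : P.ε * P.θ ^ 2 * C ≤ 1 / 2) (hS0 : 0 ≤ S) (hM0 : 0 ≤ M)
    (hS : ∫⁻ p, ‖D.Gq q p.1‖ₑ ^ 2 ∂(ExFlow.law D q).prod (gam d) ≤ ENNReal.ofReal (S ^ 2))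
    (hM : ∀ j, 1 ≤ j → (j ≤ P.nh ∨ j = P.nr) →
      ∫⁻ p, ‖D.hamGen q j p‖ₑ ^ 2 ∂(ExFlow.law D q).prod (gam d) ≤ ENNReal.ofReal ((q * M) ^ 2))
    (hnr : 1 ≤ P.nr) (hc : ∀ z, ec.val (Gt D.U D.g D.ε) (R z) = D.c)
    (hw : ∀ z, ew.val (Gt D.U D.g D.ε) (R z) = z.1)
    (hD : ∀ z, eD.val (Gt D.U D.g D.ε) (R z) = z.2) (hR : Measurable R) :
    ∫⁻ z, ‖(est P ec q ew eD).val (Gt D.U D.g D.ε) (R z) - D.aq q z.1 z.2‖ₑ ^ 2
        ∂(ExFlow.law D q).prod (gam d)
      ≤ ENNReal.ofReal ((C * P.θ ^ (P.nr - 1) * M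
          + 2 ^ (P.nh + 2) * C ^ 2 * P.ε * P.θ ^ P.nh * (S + M)
          + C ^ 2 * P.ε * P.θ * (P.ε * P.θ ^ 2 * C) ^ P.iter * S) ^ 2) := by
  have := Ham.isProb_law (D := D) hP hq
  have : IsProbabilityMeasure (gam d) := by unfold gam; infer_instance
  have hε0 : 0 ≤ P.ε := hε ▸ D.ε0
  have hC0 := hC.nonneg
  have hGq : ∀ w, Gt D.U D.g D.ε (P.rs q) (D.c + q • w) = D.Gq q w := fun w => by
    have : 0 < P.rs q := by rw [Data.rs, ← hτ]; exact D.r_pos hq
    rw [Gt, if_pos this, Data.rs, ← hτ]; rfl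
  have hGc : ∀ r, Continuous (Gt D.U D.g D.ε r) := by
    intro r
    unfold Gt
    rcases em (0 < r) with h | h
    · simp only [if_pos h]; exact (D.contDiff_G hP h).continuous
    · simp only [if_neg h]; exact continuous_const
  set v : Fin P.nr → E d × E d → E d := fun k z =>
    (ham P ec q ew eD k P.iter none).val (Gt D.U D.g D.ε) (R z)
  have hvm : ∀ k, Measurable (v k) := fun k => (Expr.continuous_val _ hGc _).measurable.comp hR
  have hpm : ∀ t, Measurable (X.path t) := fun t =>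
    (X.continuous_path.comp (continuous_const.prodMk continuous_id)).measurable
  have hGm : Measurable (D.Gq q) := (D.contDiff_Gq hP hq).continuous.measurable
  set δ := C * P.θ ^ (P.nh + 1) * (2 ^ P.nh * (S + q * M))
  set κ := P.ε * P.θ ^ 2 * C
  set B := q * P.ε * (2 * δ + κ ^ P.iter * (δ + P.θ ^ 2 * C * S)) with hBdef
  have hv : ∀ k, ∫⁻ z, ‖v k z - (X.path (P.θ * P.fdθ.x k) z).1‖ₑ ^ 2
      ∂(ExFlow.law D q).prod (gam d) ≤ ENNReal.ofReal (B ^ 2) := fun k => by
    have := ham_error P hP hT hC hε hτ hq hq0.le hq1 X hθ.le hθ1 hκ hS0 (by positivity) hS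
      (fun j h1 h2 => hM j h1 (Or.inl h2)) hc hw hD hR k P.iter none
    simpa [hamTime] using this
  set T₁ : E d × E d → E d := fun z => ∑ k, (P.fdθ.wt k / (q * P.θ)) •
    (D.Gq q (v k z) - D.Gq q (X.path (P.θ * P.fdθ.x k) z).1)
  set T₂ : E d × E d → E d := fun z => (q * P.θ)⁻¹ •
    ((∑ k, P.fdθ.wt k • D.Gq q (X.path (P.θ * P.fdθ.x k) z).1)
      - P.θ • deriv (fun u => D.Gq q (X.path u z).1) 0)
  have hT₁ : ∫⁻ z, ‖T₁ z‖ₑ ^ 2 ∂(ExFlow.law D q).prod (gam d)
      ≤ ENNReal.ofReal ((C / P.θ * B) ^ 2) := by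
    refine ms_mono (ms_le Finset.univ
      (f := fun k z => v k z - (X.path (P.θ * P.fdθ.x k) z).1)
      (c := fun k => |P.fdθ.wt k| / P.θ) (fun k _ => by positivity)
      (fun k _ => (hvm k).sub (measurable_fst.comp (hpm _))) (fun z => ?_) fun k _ => hv k)
      (by positivity) ?_
    · refine (norm_sum_le _ _).trans (Finset.sum_le_sum fun k _ => ?_)
      rw [norm_smul, Real.norm_eq_abs, abs_div, abs_of_pos (mul_pos hq0 hθ)]
      refine (mul_le_mul_of_nonneg_left (Ham.norm_Gq_sub_le hP hq _ _) (by positivity)).trans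
        (le_of_eq ?_)
      rw [abs_of_pos hq0]
      field_simp
    · rw [← Finset.sum_div]
      gcongr
      exact hC.fd_sum
  have hT₂ : ∫⁻ z, ‖T₂ z‖ₑ ^ 2 ∂(ExFlow.law D q).prod (gam d)
      ≤ ENNReal.ofReal ((C * P.θ ^ (P.nr - 1) * M) ^ 2) := by
    have hI : ∀ t ∈ Icc (-P.θ) P.θ, t ∈ Ioo (-(3 / 2) : ℝ) (3 / 2) :=
      fun t ht => ⟨by linarith [ht.1], by linarith [ht.2]⟩
    have h := hC.extract (E d × E d) ((ExFlow.law D q).prod (gam d)) d
      (fun t z => D.Gq q (X.path t z).1) P.θ (q * M) hθ (by positivity)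
      (fun z t ht => X.contDiffAt_Gq_path hP hq z (hI t ht) _)
      (X.continuous_Gq_path hP hq).measurable (fun t ht => by
        simp only [X.iteratedDeriv_Gq_path hP hq _ _ t (hI t ht)]
        rw [X.ms_path hP hT hq (D.contDiff_hamGen hP hq _).continuous.measurable]
        exact hM _ hnr (Or.inr rfl))
    refine ms_mono (ms_smul (q * P.θ)⁻¹ h) (by positivity) (le_of_eq ?_)
    rw [abs_of_pos (by positivity)]
    obtain ⟨m, hm⟩ : ∃ m, P.nr = m + 1 := ⟨P.nr - 1, by omega⟩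
    rw [hm, pow_succ, Nat.add_sub_cancel]
    field_simp
  have hT₁m : Measurable T₁ := Finset.measurable_sum _ fun k _ =>
    (show Measurable fun z => D.Gq q (v k z) - D.Gq q (X.path (P.θ * P.fdθ.x k) z).1 from
      (hGm.comp (hvm k)).sub ((hGm.comp measurable_fst).comp (hpm _))).const_smul
        (P.fdθ.wt k / (q * P.θ))
  have hT₂m : Measurable T₂ := by
    refine ((Finset.measurable_sum _ fun k _ =>
      (show Measurable fun z => D.Gq q (X.path (P.θ * P.fdθ.x k) z).1 from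
        (hGm.comp measurable_fst).comp (hpm _)).const_smul (P.fdθ.wt k)).sub ?_).const_smul
          (q * P.θ)⁻¹
    refine Measurable.const_smul ?_ P.θ
    rw [show (fun z => deriv (fun u => D.Gq q (X.path u z).1) 0) = fun z => D.hamGen q 1 z from
      funext fun z => by rw [(X.hasDerivAt_Gq_zero hP hq z).deriv, X.hamGen_one hP hq]]
    exact (D.contDiff_hamGen hP hq 1).continuous.measurable
  have hB : 0 ≤ B := by positivity
  have h := ms_add hT₁m hT₂m (by positivity) (by positivity) hT₁ hT₂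
  refine ms_mono ((le_of_eq (lintegral_congr fun z => ?_)).trans h) (by positivity) ?_
  · congr 2
    simp only [est, gateAt, Expr.val, Expr.val_sum, hc, hGq, T₁, T₂, v,
      (X.hasDerivAt_Gq_zero hP hq z).deriv, smul_sub, Finset.sum_sub_distrib, Finset.smul_sum,
      smul_smul, inv_mul_eq_div]
    rw [show P.θ / (q * P.θ) * q = 1 by field_simp, one_smul]
    abel
  · have e : C / P.θ * B = q * (C * P.ε / P.θ * ((2 + κ ^ P.iter) * δ)
        + C ^ 2 * P.ε * P.θ * κ ^ P.iter * S) := by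
      rw [hBdef]; field_simp; ring
    have hk : κ ^ P.iter ≤ 1 := pow_le_one₀ (by positivity) (hκ.trans (by norm_num))
    have hd : δ ≤ C * P.θ ^ (P.nh + 1) * (2 ^ P.nh * (S + M)) := by
      simp only [δ]; gcongr; exact mul_le_of_le_one_left hM0 hq1
    have h1 : C * P.ε / P.θ * ((2 + κ ^ P.iter) * δ)
        ≤ 2 ^ (P.nh + 2) * C ^ 2 * P.ε * P.θ ^ P.nh * (S + M) := by
      calc _ ≤ C * P.ε / P.θ * (4 * (C * P.θ ^ (P.nh + 1) * (2 ^ P.nh * (S + M)))) := by
            gcongr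
            linarith
        _ = _ := by rw [pow_succ P.θ, pow_add 2]; field_simp; ring
    rw [e]
    have h2 : 0 ≤ C * P.ε / P.θ * ((2 + κ ^ P.iter) * δ)
        + C ^ 2 * P.ε * P.θ * κ ^ P.iter * S := by positivity
    have h3 := mul_le_of_le_one_left h2 hq1
    linarith

end Error

end Build

end Vale.Agent.P347.Gamma0
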