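import Vale.Agent.P347.Gamma0.RegHam
import Vale.Agent.P347.Gamma0.HamBound

/-!
P347, towards `γ_* = 0`: the iterates `Data.hamGen` are bounded in quadratic mean (hypothesis `hM`
of `Build.est_error`), from the Sobolev bound on the generator.
-/

namespace Vale.Agent.P347.Gamma0

namespace Reg

open MeasureTheory Sobolev
open scoped ContDiff RealInnerProductSpace ENNReal

attribute [local irreducible] G nW psi

variable {d : ℕ}

/-- The iterates along the field are the iterates of `δ J ∇`. -/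
lemma hamGen_eq (hP : PostFacts) (hT : TameFact) (D : Data d) (hτ : D.τ ≤ 1) {q : ℝ}
    (hq : q ∈ D.I) (j : ℕ) : ∀ (p : E d × E d) (i : Fin d), D.hamGen q j p i
      = (gen (pairPot D q) fun a b _ => symp d a b)^[j] (pairG D q) i (glueL p) := by
  induction j with
  | zero =>
    intro p i
    show D.Gq q p.1 i = pairG D q i (glueL p)
    simp [pairG]
  | succ j ih =>
    intro p i
    have hf := gen_iter_tame (ibp_pair D hP hT hτ hq).tame
      (J := fun a b _ => symp d a b) (fun a b => Function.HasTemperateGrowth.const _)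
      (tame_pairG D hP hT hτ hq) j
    set v : E d × E d := (p.2, -(D.gψ q p.1)) with hv
    have hγ : HasDerivAt (fun u : ℝ => p + u • v) v 0 := by
      simpa using ((hasDerivAt_id (0 : ℝ)).smul_const v).const_add p
    have h1 : HasDerivAt (fun u : ℝ => D.hamGen q j (p + u • v) i)
        (D.hamGen q (j + 1) p i) 0 := by
      have hd := ((D.contDiff_hamGen hP hq j).differentiable (by simp) p).hasFDerivAt
      have hc := hd.comp_hasDerivAt_of_eq (0 : ℝ) hγ (by simp)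
      exact (EuclideanSpace.proj (𝕜 := ℝ) i).hasFDerivAt.comp_hasDerivAt (0 : ℝ) hc
    simp only [ih] at h1
    have h2 := hasDerivAt_gen D hP hT hτ hq hf (γ := fun u : ℝ => p + u • v) (s := 0)
      (by simpa [hv] using hγ) i
    rw [Function.iterate_succ_apply']
    simpa using h1.unique h2

/-- One iterate in quadratic mean. -/
theorem hamGen_bound (hP : PostFacts) (hT : TameFact) (n : ℕ) :
    ∃ C : ℝ, 0 ≤ C ∧ ∀ (d : ℕ) (D : Data d), D.τ ≤ 1 → ∀ q ∈ D.I, ∀ κ : ℝ, 0 < κ → κ ≤ 1 →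
      κ * |q| ≤ Real.sqrt (D.r q) →
        ∫⁻ p, ‖D.hamGen q (n + 1) p‖ₑ ^ 2 ∂((ExFlow.law D q).prod (gam d))
          ≤ ENNReal.ofReal (C * q ^ 2 * d / κ ^ (4 * n + 2)) := by
  obtain ⟨B, hB0, hB⟩ := exists_mulBound_hess hP hT (2 * n + 1)
  obtain ⟨A, hA0, hA⟩ := exists_mulBound_a hP hT (2 * n + 1)
  obtain ⟨C, hC0, hC⟩ := sob_gen_iter_le (B + 1) 1 (by linarith) n 0
  refine ⟨C * (4 ^ (2 * n + 1) * A ^ 2), by positivity, fun d D hτ q hq κ hκ0 hκ hκq => ?_⟩
  obtain ⟨ha, hat⟩ := hA d D hτ q hq κ hκ0.le hκq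
  have hμ := ibp_pair D hP hT hτ hq
  have hH := mulBound_pair D hP hT hτ hq hB0 _ (hB d D hτ q hq κ hκ0.le hκq)
  set J : Fin d ⊕ Fin d → Fin d ⊕ Fin d → EuclideanSpace ℝ (Fin d ⊕ Fin d) → ℝ :=
    fun a b _ => symp d a b
  have hJ : ∀ a b, Tame (J a b) := fun a b => Function.HasTemperateGrowth.const _
  have hF : TameF ((gen (pairPot D q) J)^[n + 1] (pairG D q)) :=
    gen_iter_tame hμ.tame hJ (tame_pairG D hP hT hτ hq) (n + 1)
  have e : ∀ p : E d × E d, D.hamGen q (n + 1) p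
      = WithLp.toLp 2 fun i => (gen (pairPot D q) J)^[n + 1] (pairG D q) i (glueL p) := fun p => by
    ext i
    exact hamGen_eq hP hT D hτ hq _ p i
  simp only [e]
  refine (lintegral_vec hμ (Z := fun p => glueL p) glueL.continuous.measurable rfl hF).trans_le
    (ENNReal.ofReal_le_ofReal ?_)
  have h := hC (J := J) hμ hκ0.le hκ (by rwa [Nat.zero_add]) hJ
    (mulBound_const (opLe_symp d) _) (tame_pairG D hP hT hτ hq)
  rw [sob_zero, Nat.zero_add] at h
  rw [le_div_iff₀ (by positivity), mul_comm]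
  refine h.trans ((mul_le_mul_of_nonneg_left
    (sob_grad_pairG D hP hT hτ hq (2 * n + 1) ha hat) hC0).trans (le_of_eq ?_))
  ring

/-- The hypothesis `hM` of `Build.est_error`, with `M = C √d / κ ^ (2 N)`. -/
theorem hamGen_bound_upto (hP : PostFacts) (hT : TameFact) (N : ℕ) :
    ∃ C : ℝ, 0 ≤ C ∧ ∀ (d : ℕ) (D : Data d), D.τ ≤ 1 → ∀ q ∈ D.I, ∀ κ : ℝ, 0 < κ → κ ≤ 1 →
      κ * |q| ≤ Real.sqrt (D.r q) → ∀ j, 1 ≤ j → j ≤ N →
        ∫⁻ p, ‖D.hamGen q j p‖ₑ ^ 2 ∂((ExFlow.law D q).prod (gam d))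
          ≤ ENNReal.ofReal ((q * (C * Real.sqrt d / κ ^ (2 * N))) ^ 2) := by
  choose C hC0 hC using fun n => hamGen_bound hP hT n
  refine ⟨Real.sqrt (∑ n ∈ Finset.range N, C n), Real.sqrt_nonneg _,
    fun d D hτ q hq κ hκ0 hκ hκq j hj hjN => ?_⟩
  obtain ⟨n, rfl⟩ : ∃ n, j = n + 1 := ⟨j - 1, by omega⟩
  refine (hC n d D hτ q hq κ hκ0 hκ hκq).trans (ENNReal.ofReal_le_ofReal ?_)
  have hS : 0 ≤ ∑ k ∈ Finset.range N, C k := Finset.sum_nonneg fun k _ => hC0 k
  rw [mul_pow, div_pow, mul_pow, Real.sq_sqrt hS, Real.sq_sqrt (Nat.cast_nonneg d), ← pow_mul,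
    mul_div_assoc', ← mul_assoc, mul_comm (q ^ 2)]
  have h1 : C n ≤ ∑ k ∈ Finset.range N, C k :=
    Finset.single_le_sum (fun k _ => hC0 k) (Finset.mem_range.2 (by omega))
  refine div_le_div₀ (by positivity) ?_ (by positivity)
    (pow_le_pow_of_le_one hκ0.le hκ (by omega))
  gcongr

end Reg

end Vale.Agent.P347.Gamma0
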