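import Vale.Agent.P347.Gamma0.GqMoment
import Vale.Agent.P347.Gamma0.HamGenBound

/-!
P347, towards `γ_* = 0`: the compiled Hamiltonian difference quotient against `a_r(c + q w) D`,
without hypotheses on the moments.
-/

namespace Vale.Agent.P347.Gamma0

namespace Build

open MeasureTheory ProbabilityTheory
open scoped ENNReal

attribute [local irreducible] G nW psi

/-- The bias of `Build.est`, uniformly in the centre up to the term linear in `√d + ‖c‖`. -/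
theorem est_bias (hP : PostFacts) (hT : TameFact) (hF : FlowExists) (hL : LawTransport) (N : ℕ) :
    ∃ K : ℝ, 0 ≤ K ∧ ∀ (d na : ℕ) (P : Data na) (D : Gamma0.Data d) (C : ℝ),
      HamRules P.ham P.fdθ C → 1 ≤ P.nr → P.nr ≤ N → P.nh ≤ N → D.ε = P.ε → D.τ = P.τ →
      D.τ ≤ 1 → 0 < P.θ → P.θ ≤ 1 → P.ε * P.θ ^ 2 * C ≤ 1 / 2 → ∀ q ∈ D.I, 0 < q →
      ∀ κ : ℝ, 0 < κ → κ ≤ 1 → κ * |q| ≤ Real.sqrt (D.r q) →
      ∀ (ι : Type) [Countable ι] (ec ew eD : Expr ι) (R : E d × E d → ι → E d),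
        (∀ z, ec.val (Gt D.U D.g D.ε) (R z) = D.c) →
        (∀ z, ew.val (Gt D.U D.g D.ε) (R z) = z.1) →
        (∀ z, eD.val (Gt D.U D.g D.ε) (R z) = z.2) → Measurable R →
        ∫⁻ z, ‖(est P ec q ew eD).val (Gt D.U D.g D.ε) (R z) - D.aq q z.1 z.2‖ₑ ^ 2
            ∂(ExFlow.law D q).prod (gam d)
          ≤ ENNReal.ofReal ((C * P.θ ^ (P.nr - 1) * (K * Real.sqrt d / κ ^ (2 * N))
              + 2 ^ (P.nh + 2) * C ^ 2 * P.ε * P.θ ^ P.nh
                * (8 * (Real.sqrt d + ‖D.c‖) + K * Real.sqrt d / κ ^ (2 * N))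
              + C ^ 2 * P.ε * P.θ * (P.ε * P.θ ^ 2 * C) ^ P.iter
                * (8 * (Real.sqrt d + ‖D.c‖))) ^ 2) := by
  obtain ⟨K, hK0, hK⟩ := Reg.hamGen_bound_upto hP hT N
  refine ⟨K, hK0, fun d na P D C hC hr hrN hhN hε hτ hτ1 hθ hθ1 hκ q hq hq0 κ hκ0 hκ1 hκq ι _ ec
    ew eD R hc hw hD hR => ?_⟩
  obtain ⟨X⟩ := Ham.exists_ham hP hF hq
  refine est_error P hP hL hC hε hτ hq hq0 (hq.2.le.trans (Real.sqrt_le_one.2 hτ1)) X hθ hθ1 hκ
    (by positivity) (by positivity) (ms_Gq hP hL D hτ1 hq hq0.le) (fun j h1 h2 => ?_) hr hc hw hD hR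
  refine hK d D hτ1 q hq κ hκ0 hκ1 hκq j h1 ?_
  rcases h2 with h2 | h2
  · exact h2.trans hhN
  · exact h2 ▸ hrN

end Build

end Vale.Agent.P347.Gamma0
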