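import Vale.Agent.P347.Gamma0.OutStage

/-!
P347, towards `γ_* = 0`: the compiled linear field is Lipschitz at the scale `√τ`, given that the
compiled Hessian-vector product is.
-/

namespace Vale.Agent.P347.Gamma0

open MeasureTheory Set
open scoped NNReal

variable {d : ℕ}

attribute [local irreducible] G nW psi in
/-- The gradient attached to a scale is `1`-Lipschitz. -/
lemma lipschitz_Gt_of_post (hP : PostFacts) {U : E d → ℝ} {g : E d → E d} (hU : Pot U g) (hg : g 0 = 0)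
    {ε : ℝ} (h0 : 0 ≤ ε) (h1 : ε ≤ 1) (r : ℝ) : LipschitzWith 1 (Gt U g ε r) := by
  rcases em (0 < r) with h | h
  · have e : Gt U g ε r = G U g ε r := funext fun c => by simp [Gt, h]
    rw [e]
    have hd : Differentiable ℝ (G U g ε r) := by
      exact ((⟨U, g, hU, hg, ε, h0, h1, r, h, 0⟩ : Gamma0.Data d).contDiff_G hP h).differentiable
        (by simp)
    refine lipschitzWith_of_nnnorm_fderiv_le hd fun x => ?_
    set D : Gamma0.Data d := ⟨U, g, hU, hg, ε, h0, h1, r, h, x⟩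
    have hb := ExFlow.norm_aq_le hP D.zero_mem (0 : E d)
    rw [← NNReal.coe_le_coe, coe_nnnorm, NNReal.coe_one]
    simpa [Gamma0.Data.aq, Gamma0.Data.r, D] using hb
  · have e : Gt U g ε r = fun _ => 0 := funext fun c => by simp [Gt, h]
    rw [e]
    exact LipschitzWith.const' 0

namespace Build

variable {na : ℕ} (P : Data na)

/-- The compiled Hessian-vector product is `L`-Lipschitz in the point and the direction. -/
def EstLipAt (Gr : ℝ → E d → E d) (L : ℝ) : Prop :=
  ∀ q : ℝ, 0 < q → q ≤ 1 → ∀ (ec ew eD : Expr (OIn na)) (x y : OIn na → E d),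
    ec.val Gr x = ec.val Gr y →
    ‖(est P ec q ew eD).val Gr x - (est P ec q ew eD).val Gr y‖
      ≤ L * (‖ew.val Gr x - ew.val Gr y‖ + ‖eD.val Gr x - eD.val Gr y‖)

variable {P} {Gr : ℝ → E d → E d} {A : ℝ} {ec : Expr (OIn na)} {x y : OIn na → E d}

lemma bwd_lip (hG : ∀ r, LipschitzWith 1 (Gr r)) (hg : GridOK P.g₁ P.q₁ A) (hε : 0 ≤ P.ε)
    (hA : 2 * P.ε * A ≤ 1 / 2) (hA0 : 0 ≤ A) (hq1 : P.q₁ ≤ 1) (hc : ec.val Gr x = ec.val Gr y)
    (ew : Expr (OIn na)) :
    ∀ p i, ‖(bwd P ec ew p i).val Gr x - (bwd P ec ew p i).val Gr y‖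
      ≤ 2 * ‖ew.val Gr x - ew.val Gr y‖ := by
  intro p
  induction p with
  | zero =>
    intro i
    show ‖ew.val Gr x - ew.val Gr y‖ ≤ _
    linarith [norm_nonneg (ew.val Gr x - ew.val Gr y)]
  | succ p ih =>
    intro i
    set D0 := ‖ew.val Gr x - ew.val Gr y‖
    have hD0 : 0 ≤ D0 := norm_nonneg _
    simp only [bwd, gateAt, Expr.val, Expr.val_sum, hc, add_sub_add_comm, ← Finset.sum_sub_distrib,
      ← smul_sub]
    refine (norm_add_le _ _).trans ?_
    refine (add_le_add le_rfl ((norm_sum_le _ _).trans (Finset.sum_le_sum (g := fun j =>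
      P.ε * (|P.g₁.W none j| + |P.g₁.W (some i) j|) * (2 * D0)) fun j _ => ?_))).trans ?_
    · rw [norm_smul, Real.norm_eq_abs, abs_mul, abs_of_nonneg hε]
      refine mul_le_mul (mul_le_mul_of_nonneg_left (abs_sub _ _) hε) ?_ (norm_nonneg _) (by positivity)
      refine ((hG _).norm_sub_le _ _).trans ?_
      rw [NNReal.coe_one, one_mul, add_sub_add_left_eq_sub, ← smul_sub, norm_smul, Real.norm_eq_abs,
        abs_of_pos (hg.pos j)]
      exact (mul_le_of_le_one_left (norm_nonneg _) ((hg.le j).trans hq1)).trans (ih j)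
    · rw [← Finset.sum_mul, ← Finset.mul_sum, Finset.sum_add_distrib]
      have h1 := (hg.sum none).trans (mul_le_of_le_one_right hA0 hq1)
      have h2 := (hg.sum (some i)).trans (mul_le_of_le_one_right hA0 hq1)
      have h3 : P.ε * (∑ j, |P.g₁.W none j| + ∑ j, |P.g₁.W (some i) j|) * (2 * D0)
          ≤ P.ε * (A + A) * (2 * D0) :=
        mul_le_mul_of_nonneg_right (mul_le_mul_of_nonneg_left (add_le_add h1 h2) hε) (by positivity)
      have h4 := mul_le_mul_of_nonneg_right hA (show 0 ≤ 2 * D0 by positivity)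
      linarith

variable {wb : Fin P.M₁ → Expr (OIn na)} {L : ℝ}

lemma abs_phi_le {m : ℕ} {q : ℝ} (h0 : 0 ≤ q) (h1 : q ≤ 1) : |phi m q| ≤ 1 := by
  unfold phi
  split_ifs <;> simp [abs_of_nonneg h0, h1]

lemma norm_ite_sub (p : Prop) [Decidable p] (a : ℝ) (e : Expr (OIn na)) :
    ‖(if p then Expr.smul a e else Expr.zero).val Gr x
        - (if p then Expr.smul a e else Expr.zero).val Gr y‖
      ≤ |a| * ‖e.val Gr x - e.val Gr y‖ := by
  split_ifs
  · simp [Expr.val, ← smul_sub, norm_smul]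
  · simp only [Expr.val, sub_self, norm_zero]
    positivity

lemma sys_term (hg : GridOK P.g₁ P.q₁ A) (hq1 : P.q₁ ≤ 1) (hest : EstLipAt P Gr L) (hL : 0 ≤ L)
    (hc : ec.val Gr x = ec.val Gr y) {s t : ℝ} (hs : |s| ≤ t) (o : Option (Fin P.M₁))
    (j : Fin P.M₁) (m : ℕ) {ew eD : Expr (OIn na)} {a b : ℝ}
    (hw : ‖ew.val Gr x - ew.val Gr y‖ ≤ a) (hD : ‖eD.val Gr x - eD.val Gr y‖ ≤ b)
    (p : Prop) [Decidable p] {σ : ℝ} (hσ : |σ| = |s * P.g₁.W o j * phi m (P.g₁.q j)|) :
    ‖(if p then Expr.smul σ (est P ec (P.g₁.q j) ew eD) else Expr.zero).val Gr x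
        - (if p then Expr.smul σ (est P ec (P.g₁.q j) ew eD) else Expr.zero).val Gr y‖
      ≤ |P.g₁.W o j| * (t * (L * (a + b))) := by
  have ht : 0 ≤ t := (abs_nonneg s).trans hs
  refine (norm_ite_sub p σ _).trans ?_
  rw [hσ, abs_mul, abs_mul]
  refine (mul_le_mul (mul_le_mul (mul_le_mul_of_nonneg_right hs (abs_nonneg _))
    (abs_phi_le (hg.pos j).le ((hg.le j).trans hq1)) (abs_nonneg _) (by positivity))
    ((hest _ (hg.pos j) ((hg.le j).trans hq1) ec ew eD x y hc).trans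
      (mul_le_mul_of_nonneg_left (add_le_add hw hD) hL)) (norm_nonneg _) (by positivity)).trans
    (le_of_eq ?_)
  ring

lemma sys_lip (hg : GridOK P.g₁ P.q₁ A) (hA0 : 0 ≤ A) (hq0 : 0 ≤ P.q₁) (hq1 : P.q₁ ≤ 1)
    (hest : EstLipAt P Gr L) (hL : 0 ≤ L) (hc : ec.val Gr x = ec.val Gr y) (n : ℕ) {s t : ℝ}
    (hs : |s| ≤ t) (hκ : 2 * t * A * L * P.q₁ ≤ 1 / 2) {dw dZ : ℝ} (hdw : 0 ≤ dw) (hdZ : 0 ≤ dZ)
    (hwb : ∀ j, ‖(wb j).val Gr x - (wb j).val Gr y‖ ≤ 2 * dw) {init : ℕ → Expr (OIn na)}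
    (hi0 : ‖(init 0).val Gr x - (init 0).val Gr y‖ ≤ dZ)
    (hi : ∀ m, 1 ≤ m → (init m).val Gr x = (init m).val Gr y) :
    ∀ p o, (∀ m, ‖(sys P ec wb n s init p o m).val Gr x - (sys P ec wb n s init p o m).val Gr y‖
        ≤ 2 * (dw + dZ)) ∧
      ∀ m, 1 ≤ m → ‖(sys P ec wb n s init p o m).val Gr x - (sys P ec wb n s init p o m).val Gr y‖
        ≤ 8 * t * A * L * P.q₁ * (dw + dZ) := by
  have ht : 0 ≤ t := (abs_nonneg s).trans hs
  have hi' : ∀ m, ‖(init m).val Gr x - (init m).val Gr y‖ ≤ dZ := fun m => by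
    rcases Nat.eq_zero_or_pos m with rfl | hm
    · exact hi0
    · rw [hi m hm, sub_self, norm_zero]; exact hdZ
  intro p
  induction p with
  | zero =>
    intro o
    refine ⟨fun m => (hi' m).trans (by linarith), fun m hm => ?_⟩
    show ‖(init m).val Gr x - (init m).val Gr y‖ ≤ _
    rw [hi m hm, sub_self, norm_zero]
    positivity
  | succ p ih =>
    intro o
    have key : ∀ m, ‖(sys P ec wb n s init (p + 1) o m).val Gr x
        - (sys P ec wb n s init (p + 1) o m).val Gr y‖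
        ≤ ‖(init m).val Gr x - (init m).val Gr y‖
          + 2 * t * A * L * P.q₁ * (2 * dw + 2 * (dw + dZ)) := by
      intro m
      simp only [sys, Expr.val, Expr.val_sum, add_sub_add_comm, ← Finset.sum_sub_distrib]
      refine (norm_add_le _ _).trans (add_le_add le_rfl ((norm_sum_le _ _).trans ?_))
      refine (Finset.sum_le_sum (g := fun j =>
        |P.g₁.W o j| * (2 * (t * (L * (2 * dw + 2 * (dw + dZ)))))) fun j _ => ?_).trans ?_
      · refine (norm_add_le _ _).trans ((add_le_add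
          (sys_term hg hq1 hest hL hc hs o j (m - 1) (hwb j) ((ih (some j)).1 (m - 1)) _ rfl)
          (sys_term hg hq1 hest hL hc hs o j m (hwb j) ((ih (some j)).1 (m + 1)) _
            (abs_neg _))).trans (le_of_eq ?_))
        ring
      · rw [← Finset.sum_mul]
        refine (mul_le_mul_of_nonneg_right (hg.sum o) (by positivity)).trans (le_of_eq ?_)
        ring
    have hκ' := mul_le_mul_of_nonneg_right hκ (show 0 ≤ 2 * dw + 2 * (dw + dZ) by positivity)
    refine ⟨fun m => (key m).trans (by linarith [hi' m]), fun m hm => (key m).trans ?_⟩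
    rw [hi m hm, sub_self, norm_zero, zero_add]
    have : 0 ≤ t * A * L * P.q₁ * dZ := by positivity
    nlinarith

/-- The compiled linear field is Lipschitz at the scale `√τ`. -/
theorem etaLip_of_est (hP : PostFacts) (hε0 : 0 ≤ P.ε) (hε1 : P.ε ≤ 1) (hρ : 0 ≤ P.ρ)
    (hτ0 : 0 < P.τ) (hτ1 : P.τ ≤ 1) (hg : GridOK P.g₁ P.q₁ A) (hA0 : 0 ≤ A)
    (hA : 2 * P.ε * A ≤ 1 / 2) (hL : 0 ≤ L)
    (hest : ∀ U g, Pot U g → g 0 = 0 → EstLipAt (d := d) P (Gt U g P.ε) L)
    {Cw : ℝ} (hCw : 0 ≤ Cw) (ht : 0 < P.t) (hεt : P.ε ≤ P.t)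
    (hκ : 2 * P.t * A * L ≤ 1 / 2) (hx : ∀ n k, |(P.fdt n).x k| ≤ 1)
    (hwt : ∀ n, 2 ≤ n → n ≤ na → ∑ k, |(P.fdt n).wt k| ≤ Cw) :
    EtaLip d P (2 * A * L * (1 + 4 * Cw * na)) := by
  intro U g hU hg0 c w w' Z Z' u
  set Gr := Gt U g P.ε
  have hG : ∀ r, LipschitzWith 1 (Gr r) := lipschitz_Gt_of_post hP hU hg0 hε0 hε1
  have he := hest U g hU hg0
  have hq0 : 0 ≤ P.q₁ := Real.sqrt_nonneg _
  have hqs : P.q₁ ≤ Real.sqrt P.τ :=
    Real.sqrt_le_sqrt (sub_le_self _ (mul_nonneg hρ hτ0.le))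
  have hq1 : P.q₁ ≤ 1 := hqs.trans (Real.sqrt_le_one.2 hτ1)
  set dw := ‖w - w'‖
  set dZ := ‖Z - Z'‖
  set D0 := dw + dZ
  have hD0 : 0 ≤ D0 := by positivity
  have hc : (Expr.var OIn.ctr).val Gr (oPoint c w Z u) = (Expr.var OIn.ctr).val Gr (oPoint c w' Z' u) :=
    rfl
  have hb := bwd_lip hG hg hε0 hA hA0 hq1 hc (.var OIn.pt)
  have hκ' : 2 * P.t * A * L * P.q₁ ≤ 1 / 2 :=
    (mul_le_of_le_one_right (by positivity) hq1).trans hκ
  have hi : ∀ σ m, 1 ≤ m →
      (sysInit (fun k => Expr.var (OIn.aux k)) (.var .noi) σ m).val Gr (oPoint c w Z u)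
        = (sysInit (fun k => Expr.var (OIn.aux k)) (.var .noi) σ m).val Gr (oPoint c w' Z' u) := by
    intro σ m hm
    obtain ⟨j, rfl⟩ := Nat.exists_eq_add_of_le' hm
    simp only [sysInit]
    split_ifs <;> rfl
  simp only [etaVal, eta, Expr.val, Expr.val_sum, add_sub_add_comm, ← Finset.sum_sub_distrib,
    ← smul_sub]
  refine (norm_add_le _ _).trans ((add_le_add (b := 2 * A * L * P.q₁ * D0)
    (d := (na : ℝ) * (8 * A * L * Cw * P.q₁ * D0)) ?_ ?_).trans ?_)
  · refine (norm_sum_le _ _).trans ((Finset.sum_le_sum (g := fun j =>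
      |P.g₁.W none j| * (L * (2 * D0))) fun j _ => ?_).trans ?_)
    · rw [norm_smul, Real.norm_eq_abs]
      refine mul_le_mul_of_nonneg_left ((he _ (hg.pos j) ((hg.le j).trans hq1) _ _ _ _ _ hc).trans
        (mul_le_mul_of_nonneg_left ?_ hL)) (abs_nonneg _)
      have h := hb P.iter j
      simp only [Expr.val, oPoint] at h ⊢
      linarith [norm_nonneg (Z - Z')]
    · rw [← Finset.sum_mul]
      refine (mul_le_mul_of_nonneg_right (hg.sum none) (by positivity)).trans (le_of_eq ?_)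
      ring
  · refine (norm_sum_le _ _).trans ((Finset.sum_le_sum (g := fun _ : Fin (na - 1) =>
      8 * A * L * Cw * P.q₁ * D0) fun i _ => ?_).trans ?_)
    · set n := (i : ℕ) + 2
      have hn : n ≤ na := by have := i.isLt; omega
      have hεp : |(-P.ε) ^ ((i : ℕ) + 1) / P.t ^ n| ≤ 1 / P.t := by
        rw [abs_div, abs_pow, abs_neg, abs_of_nonneg hε0, abs_of_pos (pow_pos ht n)]
        rw [show P.t ^ n = P.t ^ ((i : ℕ) + 1) * P.t from pow_succ _ _, ← div_div]
        exact div_le_div_of_nonneg_right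
          ((div_le_one (pow_pos ht _)).2 (pow_le_pow_left₀ hε0 hεt _)) ht.le
      have hsum : ‖∑ k, ((P.fdt n).wt k / 2) • (
          ((sys P (.var .ctr) (bwd P (.var .ctr) (.var .pt) P.iter) n (P.t * (P.fdt n).x k)
              (sysInit (fun k => .var (.aux k)) (.var .noi) 1) P.iter none n).val Gr (oPoint c w Z u)
            - (sys P (.var .ctr) (bwd P (.var .ctr) (.var .pt) P.iter) n (P.t * (P.fdt n).x k)
              (sysInit (fun k => .var (.aux k)) (.var .noi) 1) P.iter none n).val Gr (oPoint c w' Z' u))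
          + ((sys P (.var .ctr) (bwd P (.var .ctr) (.var .pt) P.iter) n (P.t * (P.fdt n).x k)
              (sysInit (fun k => .var (.aux k)) (.var .noi) (-1)) P.iter none n).val Gr (oPoint c w Z u)
            - (sys P (.var .ctr) (bwd P (.var .ctr) (.var .pt) P.iter) n (P.t * (P.fdt n).x k)
              (sysInit (fun k => .var (.aux k)) (.var .noi) (-1)) P.iter none n).val Gr (oPoint c w' Z' u)))‖
          ≤ Cw * (8 * P.t * A * L * P.q₁ * D0) := by
        refine (norm_sum_le _ _).trans ((Finset.sum_le_sum (g := fun k =>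
          |(P.fdt n).wt k| * (8 * P.t * A * L * P.q₁ * D0)) fun k _ => ?_).trans ?_)
        · have hs : |P.t * (P.fdt n).x k| ≤ P.t := by
            rw [abs_mul, abs_of_pos ht]
            exact mul_le_of_le_one_right ht.le (hx n k)
          have hS := fun σ => (sys_lip hg hA0 hq0 hq1 he hL hc n hs hκ' (dw := dw) (dZ := dZ)
            (norm_nonneg _) (norm_nonneg _) (fun j => hb P.iter j)
            (init := sysInit (fun k => Expr.var (OIn.aux k)) (.var .noi) σ) le_rfl (hi σ)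
            P.iter none).2 n (by omega)
          rw [norm_smul, Real.norm_eq_abs, abs_div, abs_two]
          refine (mul_le_mul_of_nonneg_left ((norm_add_le _ _).trans (add_le_add (hS 1) (hS (-1))))
            (by positivity)).trans (le_of_eq ?_)
          simp only [D0]; ring
        · rw [← Finset.sum_mul]
          exact mul_le_mul_of_nonneg_right (hwt n (by omega) hn) (by positivity)
      rw [norm_smul, Real.norm_eq_abs]
      refine (mul_le_mul hεp hsum (norm_nonneg _) (by positivity)).trans (le_of_eq ?_)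
      field_simp
    · rw [Finset.sum_const, Finset.card_fin, nsmul_eq_mul]
      exact mul_le_mul_of_nonneg_right (by exact_mod_cast Nat.sub_le na 1) (by positivity)
  · calc 2 * A * L * P.q₁ * D0 + (na : ℝ) * (8 * A * L * Cw * P.q₁ * D0)
        = P.q₁ * (2 * A * L * (1 + 4 * Cw * na) * D0) := by ring
      _ ≤ Real.sqrt P.τ * (2 * A * L * (1 + 4 * Cw * na) * D0) :=
        mul_le_mul_of_nonneg_right hqs (by positivity)
      _ = _ := by ring

end Build

end Vale.Agent.P347.Gamma0
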