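import Vale.Agent.P347.Gamma0.Interface
import Vale.Agent.P347.Coord
import Vale.Agent.P347.LogConcave
import Vale.Agent.P347.TiltBasic

/-!
P347, towards `γ_* = 0`: the exact flow from `(τ, c)`, its law and the derivative of the mean
gradient along it.
-/

namespace Vale.Agent.P347.Gamma0

open MeasureTheory ProbabilityTheory Set Filter
open scoped RealInnerProductSpace ContDiff Topology

/-- The heat equation of `nW`. -/
def NWHeat : Prop :=
  ∀ d : ℕ, ∀ U : E d → ℝ, ∀ g : E d → E d, Pot U g → g 0 = 0 → ∀ ε : ℝ, 0 ≤ ε → ε ≤ 1 →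
    ∀ r : ℝ, 0 < r → ∀ c : E d,
      HasDerivAt (fun s => nW U ε s c)
        (ε / 2 * dvg (G U g ε r) c - ε ^ 2 / 2 * ‖G U g ε r c‖ ^ 2) r

lemma nwHeat_of_post (hP : PostFacts) : NWHeat :=
  fun d U g hU hg ε h0 h1 r hr c => ((hP d U g hU hg ε h0 h1).2.2 r hr c).2.2.1

/-- The data of a flow: a potential, the parameters and the centre. -/
structure Data (d : ℕ) where
  U : E d → ℝ
  g : E d → E d
  pot : Pot U g
  g0 : g 0 = 0
  ε : ℝ
  ε0 : 0 ≤ ε
  ε1 : ε ≤ 1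
  τ : ℝ
  τ0 : 0 < τ
  c : E d

namespace Data

attribute [local irreducible] G nW

variable {d : ℕ} (D : Data d)

/-- The times. -/
def I : Set ℝ := Ioo (-Real.sqrt D.τ) (Real.sqrt D.τ)

/-- The scale at time `q`. -/
noncomputable def r (q : ℝ) : ℝ := D.τ - q ^ 2

/-- The mean gradient seen at time `q`. -/
noncomputable def Gq (q : ℝ) (w : E d) : E d := G D.U D.g D.ε (D.r q) (D.c + q • w)

/-- The derivative of the mean gradient seen at time `q`. -/
noncomputable def aq (q : ℝ) (w : E d) : E d →L[ℝ] E d :=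
  fderiv ℝ (G D.U D.g D.ε (D.r q)) (D.c + q • w)

/-- The velocity. -/
noncomputable def v (q : ℝ) (w : E d) : E d := vel D.U D.g D.ε D.τ D.c q w

/-- The potential of the law at time `q`. -/
noncomputable def ψ (q : ℝ) (w : E d) : ℝ := psi D.U D.ε D.τ D.c q w

/-- The gradient of `ψ`. -/
noncomputable def gψ (q : ℝ) (w : E d) : E d := w + (q * D.ε) • D.Gq q w

lemma v_eq (q : ℝ) (w : E d) : D.v q w = -(D.ε • D.Gq q w) := rfl

lemma r_pos {q : ℝ} (hq : q ∈ D.I) : 0 < D.r q := by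
  have h : q ^ 2 < Real.sqrt D.τ ^ 2 := sq_lt_sq' hq.1 hq.2
  rw [Real.sq_sqrt D.τ0.le] at h
  simp only [r]; linarith

lemma zero_mem : (0 : ℝ) ∈ D.I :=
  ⟨neg_neg_of_pos (Real.sqrt_pos.2 D.τ0), Real.sqrt_pos.2 D.τ0⟩

lemma isOpen_I : IsOpen (D.I ×ˢ (univ : Set (E d))) := isOpen_Ioo.prod isOpen_univ

lemma mapsTo_arg : MapsTo (fun p : ℝ × E d => (D.r p.1, D.c + p.1 • p.2)) (D.I ×ˢ univ)
    (Ioi 0 ×ˢ univ) := fun _ hp => ⟨D.r_pos hp.1, mem_univ _⟩

lemma contDiff_arg : ContDiff ℝ ∞ fun p : ℝ × E d => (D.r p.1, D.c + p.1 • p.2) := by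
  unfold r; fun_prop

section Post

variable (hP : PostFacts)
include hP

lemma contDiffOn_Gq : ContDiffOn ℝ ∞ (fun p : ℝ × E d => D.Gq p.1 p.2) (D.I ×ˢ univ) :=
  (hP d D.U D.g D.pot D.g0 D.ε D.ε0 D.ε1).1.comp D.contDiff_arg.contDiffOn D.mapsTo_arg

lemma contDiffOn_v : ContDiffOn ℝ ∞ (fun p : ℝ × E d => D.v p.1 p.2) (D.I ×ˢ univ) := by
  simp only [v_eq]
  exact ((D.contDiffOn_Gq hP).const_smul D.ε).neg

lemma contDiffOn_psi : ContDiffOn ℝ ∞ (fun p : ℝ × E d => D.ψ p.1 p.2) (D.I ×ˢ univ) :=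
  ((contDiff_norm_sq ℝ).comp contDiff_snd |>.div_const 2).contDiffOn.add
    ((hP d D.U D.g D.pot D.g0 D.ε D.ε0 D.ε1).2.1.comp D.contDiff_arg.contDiffOn D.mapsTo_arg)

lemma contDiff_G {r : ℝ} (hr : 0 < r) : ContDiff ℝ ∞ (G D.U D.g D.ε r) :=
  contDiffOn_univ.1 ((hP d D.U D.g D.pot D.g0 D.ε D.ε0 D.ε1).1.comp
    (contDiff_const.prodMk contDiff_id).contDiffOn fun _ _ => ⟨hr, mem_univ _⟩)

lemma contDiff_Gq {q : ℝ} (hq : q ∈ D.I) : ContDiff ℝ ∞ (D.Gq q) :=
  (D.contDiff_G hP (D.r_pos hq)).comp (by fun_prop)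

lemma growth_v {a b : ℝ} (ha : -Real.sqrt D.τ < a) (hb : b < Real.sqrt D.τ) :
    ∃ C : ℝ, ∀ q ∈ Icc a b, ∀ w, ‖D.v q w‖ ≤ C * (1 + ‖w‖) := by
  refine ⟨Real.sqrt D.τ + ‖D.c‖ + Real.sqrt (D.τ * d), fun q hq w => ?_⟩
  have hqI : q ∈ D.I := ⟨ha.trans_le hq.1, hq.2.trans_lt hb⟩
  have h := ((hP d D.U D.g D.pot D.g0 D.ε D.ε0 D.ε1).2.2 _ (D.r_pos hqI) (D.c + q • w)).2.2.2.2.2.2.1
  have h1 : Real.sqrt (D.r q * d) ≤ Real.sqrt (D.τ * d) :=
    Real.sqrt_le_sqrt (mul_le_mul_of_nonneg_right (by simp only [r]; nlinarith) (Nat.cast_nonneg d))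
  have h2 : ‖D.c + q • w‖ ≤ ‖D.c‖ + Real.sqrt D.τ * ‖w‖ := by
    refine (norm_add_le _ _).trans (add_le_add le_rfl ?_)
    rw [norm_smul, Real.norm_eq_abs]
    exact mul_le_mul_of_nonneg_right (abs_le.2 ⟨hqI.1.le, hqI.2.le⟩) (norm_nonneg w)
  rw [v_eq, norm_neg, norm_smul, Real.norm_eq_abs, abs_of_nonneg D.ε0]
  refine (mul_le_of_le_one_left (norm_nonneg _) D.ε1).trans ?_
  change ‖G D.U D.g D.ε (D.r q) (D.c + q • w)‖ ≤ _
  have := mul_nonneg (add_nonneg (norm_nonneg D.c) (Real.sqrt_nonneg (D.τ * d))) (norm_nonneg w)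
  nlinarith [norm_nonneg w, Real.sqrt_nonneg D.τ, norm_nonneg D.c]

lemma hasFDerivAt_Gq {q : ℝ} (hq : q ∈ D.I) (w : E d) :
    HasFDerivAt (D.Gq q) (q • D.aq q w) w := by
  have h1 := ((D.contDiff_G hP (D.r_pos hq)).differentiable (by simp)
    (D.c + q • w)).hasFDerivAt
  refine (h1.comp w (((hasFDerivAt_id w).const_smul q).const_add D.c)).congr_fderiv ?_
  ext u
  simp [aq]

lemma hasGradient_psi {q : ℝ} (hq : q ∈ D.I) (w : E d) : HasGradientAt (D.ψ q) (D.gψ q w) w := by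
  have h1 := ((hP d D.U D.g D.pot D.g0 D.ε D.ε0 D.ε1).2.2 _ (D.r_pos hq) (D.c + q • w)).2.1
  have h2 := h1.hasFDerivAt.comp w (((hasFDerivAt_id w).const_smul q).const_add D.c)
  have h3 := (hasFDerivAt_half_sq w).add h2
  rw [hasGradientAt_iff_hasFDerivAt]
  refine h3.congr_fderiv ?_
  ext u
  simp [gψ, Gq, real_inner_smul_left, inner_add_left]
  ring

lemma dvg_v {q : ℝ} (hq : q ∈ D.I) (w : E d) :
    dvg (D.v q) w = -(D.ε * q * dvg (G D.U D.g D.ε (D.r q)) (D.c + q • w)) := by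
  have h : HasFDerivAt (D.v q) (-(D.ε • (q • D.aq q w))) w :=
    ((D.hasFDerivAt_Gq hP hq w).const_smul D.ε).neg
  simp only [dvg, h.fderiv, aq]
  rw [Finset.mul_sum, ← Finset.sum_neg_distrib]
  refine Finset.sum_congr rfl fun i _ => ?_
  simp
  ring

lemma hasDerivAt_psi (hH : NWHeat) {q : ℝ} (hq : q ∈ D.I) (w : E d) :
    HasDerivAt (fun u => D.ψ u w)
      (D.ε * ⟪D.Gq q w, w⟫ - 2 * q * (D.ε / 2 * dvg (G D.U D.g D.ε (D.r q)) (D.c + q • w)
        - D.ε ^ 2 / 2 * ‖D.Gq q w‖ ^ 2)) q := by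
  set F : ℝ × E d → ℝ := fun p => nW D.U D.ε p.1 p.2
  have hr := D.r_pos hq
  have hpt : (D.r q, D.c + q • w) ∈ Ioi (0 : ℝ) ×ˢ (univ : Set (E d)) := ⟨hr, mem_univ _⟩
  have hF : HasFDerivAt F (fderiv ℝ F (D.r q, D.c + q • w)) (D.r q, D.c + q • w) :=
    (((hP d D.U D.g D.pot D.g0 D.ε D.ε0 D.ε1).2.1.contDiffAt
      ((isOpen_Ioi.prod isOpen_univ).mem_nhds hpt)).differentiableAt (by simp)).hasFDerivAt
  set A := fderiv ℝ F (D.r q, D.c + q • w)
  have e1 : A (1, 0) = D.ε / 2 * dvg (G D.U D.g D.ε (D.r q)) (D.c + q • w)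
      - D.ε ^ 2 / 2 * ‖D.Gq q w‖ ^ 2 := by
    have h := hF.comp_hasDerivAt (D.r q)
      ((hasDerivAt_id (D.r q)).prodMk (hasDerivAt_const (D.r q) (D.c + q • w)))
    exact h.unique (hH d D.U D.g D.pot D.g0 D.ε D.ε0 D.ε1 _ hr _)
  have e2 : A (0, w) = D.ε * ⟪D.Gq q w, w⟫ := by
    have h := hF.comp (D.c + q • w)
      ((hasFDerivAt_const (D.r q) (D.c + q • w)).prodMk (hasFDerivAt_id (D.c + q • w)))
    have h' := ((hP d D.U D.g D.pot D.g0 D.ε D.ε0 D.ε1).2.2 _ hr (D.c + q • w)).2.1.hasFDerivAt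
    have := congrArg (fun L : E d →L[ℝ] ℝ => L w) (h.unique h')
    simpa [real_inner_smul_left, Gq] using this
  have hc : HasDerivAt (fun u : ℝ => (D.r u, D.c + u • w)) (-2 * q, w) q := by
    refine HasDerivAt.prodMk ?_ (by simpa using ((hasDerivAt_id q).smul_const w).const_add D.c)
    change HasDerivAt (fun u => D.τ - u ^ 2) (-2 * q) q
    simpa using ((hasDerivAt_pow 2 q).const_sub D.τ)
  have h := (hF.comp_hasDerivAt q hc).const_add (‖w‖ ^ 2 / 2)
  refine h.congr_deriv ?_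
  have e : A (-2 * q, w) = (-2 * q) * A (1, 0) + A (0, w) := by
    rw [← smul_eq_mul (-2 * q) (A (1, 0)), ← map_smul, ← map_add]
    simp
  rw [e, e1, e2]
  ring

/-- The continuity equation. -/
lemma continuity_eq (hH : NWHeat) {q : ℝ} (hq : q ∈ D.I) (w : E d) :
    deriv (fun u => D.ψ u w) q + fderiv ℝ (D.ψ q) w (D.v q w) = dvg (D.v q) w := by
  rw [(D.hasDerivAt_psi hP hH hq w).deriv, (D.hasGradient_psi hP hq w).hasFDerivAt.fderiv,
    InnerProductSpace.toDual_apply_apply, D.dvg_v hP hq, v_eq, gψ]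
  simp only [inner_neg_right, inner_add_left, real_inner_smul_left, real_inner_smul_right,
    real_inner_self_eq_norm_sq, real_inner_comm w (D.Gq q w)]
  ring

lemma integrable_exp_psi {q : ℝ} (hq : q ∈ D.I) :
    Integrable fun w => Real.exp (-D.ψ q w) := by
  set B := Real.exp (-(D.ε * D.U 0))
  have hmin : ∀ x, D.U 0 ≤ D.U x := fun x => by
    have h := LogConcave.strong (D.pot.logConc zero_le_one) 0 x
    simp [D.g0] at h
    linarith
  have : IsProbabilityMeasure (gam d) := by unfold gam; infer_instance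
  have hb : ∀ (r : ℝ) (y : E d), Real.exp (-nW D.U D.ε r y) ≤ max B 1 := fun r y => by
    set J := ∫ u, Real.exp (-(D.ε * D.U (y + Real.sqrt r • u))) ∂gam d
    have hJ0 : 0 ≤ J := integral_nonneg fun u => (Real.exp_pos _).le
    have hJ : J ≤ B := by
      refine (integral_mono_of_nonneg (Eventually.of_forall fun u => (Real.exp_pos _).le)
        (integrable_const B) (Eventually.of_forall fun u => ?_)).trans (by simp)
      exact Real.exp_le_exp.2 (neg_le_neg (mul_le_mul_of_nonneg_left (hmin _) D.ε0))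
    rw [nW, neg_neg]
    rcases hJ0.eq_or_lt with h | h
    · simp only [J] at h; rw [← h]; simp
    · exact ((Real.exp_log h).le.trans hJ).trans (le_max_left _ _)
  refine ((LogConcave.integrable_exp_norm_sq (d := d) (show (0 : ℝ) < 1 / 2 by norm_num)).const_mul
    (max B 1)).mono' ((Real.continuous_exp.comp
      ((contDiff_iff_contDiffAt.2 fun w => ((D.contDiffOn_psi hP).contDiffAt
        (D.isOpen_I.mem_nhds ⟨hq, mem_univ w⟩)).comp w
          (contDiff_const.prodMk contDiff_id).contDiffAt).continuous.neg)).aestronglyMeasurable)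
    (Eventually.of_forall fun w => ?_)
  rw [Real.norm_eq_abs, abs_of_pos (Real.exp_pos _), ψ, psi, neg_add, Real.exp_add,
    mul_comm (max B 1)]
  refine mul_le_mul (le_of_eq (congrArg _ (by ring))) (hb _ _) (Real.exp_pos _).le (Real.exp_pos _).le

/-- The derivative of the mean gradient along a trajectory. -/
lemma hasDerivAt_Gq_path {q : ℝ} (hq : q ∈ D.I) {p : ℝ → E d}
    (hp : HasDerivAt p (D.v q (p q)) q) :
    HasDerivAt (fun u => D.Gq u (p u))
      (D.aq q (p q) (p q) - q • lap (G D.U D.g D.ε (D.r q)) (D.c + q • p q)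
        + (D.ε * q) • D.aq q (p q) (D.Gq q (p q))) q := by
  set F : ℝ × E d → E d := fun z => G D.U D.g D.ε z.1 z.2
  set y := D.c + q • p q
  have hr := D.r_pos hq
  have hpt : (D.r q, y) ∈ Ioi (0 : ℝ) ×ˢ (univ : Set (E d)) := ⟨hr, mem_univ _⟩
  have hF : HasFDerivAt F (fderiv ℝ F (D.r q, y)) (D.r q, y) :=
    (((hP d D.U D.g D.pot D.g0 D.ε D.ε0 D.ε1).1.contDiffAt
      ((isOpen_Ioi.prod isOpen_univ).mem_nhds hpt)).differentiableAt (by simp)).hasFDerivAt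
  set A := fderiv ℝ F (D.r q, y)
  have e1 : A (1, 0) = (1 / 2 : ℝ) • lap (G D.U D.g D.ε (D.r q)) y
      - D.ε • fderiv ℝ (G D.U D.g D.ε (D.r q)) y (G D.U D.g D.ε (D.r q) y) :=
    HasDerivAt.unique (show HasDerivAt (fun s => G D.U D.g D.ε s y) (A (1, 0)) (D.r q) from by
      have := hF.comp_hasDerivAt (D.r q)
        ((hasDerivAt_id (D.r q)).prodMk (hasDerivAt_const (D.r q) y))
      exact this)
      ((hP d D.U D.g D.pot D.g0 D.ε D.ε0 D.ε1).2.2 _ hr y).2.2.2.1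
  have e2 : ∀ u, A (0, u) = D.aq q (p q) u := fun u => by
    have h : HasFDerivAt (G D.U D.g D.ε (D.r q))
        (A.comp (((0 : E d →L[ℝ] ℝ)).prod (ContinuousLinearMap.id ℝ (E d)))) y :=
      hF.comp y ((hasFDerivAt_const (D.r q) y).prodMk (hasFDerivAt_id y))
    have := congrArg (fun L : E d →L[ℝ] E d => L u) h.fderiv.symm
    simp only [aq]
    exact (show A (0, u) = _ by simpa using this)
  have hc : HasDerivAt (fun u : ℝ => (D.r u, D.c + u • p u))
      (-2 * q, p q + q • D.v q (p q)) q := by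
    refine HasDerivAt.prodMk ?_ ?_
    · change HasDerivAt (fun u => D.τ - u ^ 2) (-2 * q) q
      simpa using ((hasDerivAt_pow 2 q).const_sub D.τ)
    · exact (((hasDerivAt_id q).smul hp).const_add D.c).congr_deriv (by simp [add_comm])
  refine (hF.comp_hasDerivAt q hc).congr_deriv ?_
  have e : A (-2 * q, p q + q • D.v q (p q)) = (-2 * q) • A (1, 0) + A (0, p q + q • D.v q (p q)) := by
    rw [← map_smul, ← map_add]
    simp
  rw [e, e1, e2, map_add, map_smul, v_eq, map_neg, map_smul]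
  simp only [aq, Gq, y]
  module

lemma fderiv_Gq_symm {q : ℝ} (hq : q ∈ D.I) (w u u' : E d) :
    ⟪D.aq q w u, u'⟫ = ⟪D.aq q w u', u⟫ :=
  ((hP d D.U D.g D.pot D.g0 D.ε D.ε0 D.ε1).2.2 _ (D.r_pos hq) _).2.2.2.2.1 u u'

end Post

/-- At time `0` the law is Gaussian. -/
lemma gibbs_psi_zero : gibbs (D.ψ 0) = gam d := by
  have e : D.ψ 0 = fun w => (‖w‖ ^ 2 / 2 + 0 * D.U w) + nW D.U D.ε D.τ D.c := funext fun w => by
    simp [ψ, psi]
  rw [e, gibbs_add_const]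
  exact Tilt.tilt_zero D.U

end Data

end Vale.Agent.P347.Gamma0
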