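import Vale.Agent.P347.Gamma0.Lift
import Vale.Agent.P347.GaussCov
import Vale.Agent.P347.Joint
import Vale.Agent.P347.Chain

/-!
P347, towards `γ_* = 0`: the exact bridge.  Given the point at the finer time `q₂`, the point at
time `q₁` is Gaussian: `w₁ = κ w₂ + √(1-κ²) e`, `κ = q₁/q₂`.
-/

namespace Vale.Agent.P347.Gamma0

open MeasureTheory ProbabilityTheory Set Filter
open scoped RealInnerProductSpace ContDiff

namespace Data

variable {d : ℕ} (D : Data d)

/-- `e^{-εU}`. -/
noncomputable def expU (x : E d) : ℝ := Real.exp (-(D.ε * D.U x))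

/-- The density of the law at time `q` with respect to the Gaussian law. -/
noncomputable def dens (q : ℝ) (w : E d) : ℝ := sm (D.r q) D.expU (D.c + q • w)

lemma continuous_expU : Continuous D.expU := by
  have := D.pot.contDiff.continuous
  unfold expU; fun_prop

lemma expU_le (x : E d) : |D.expU x| ≤ Real.exp (-(D.ε * D.U 0)) := by
  have h := LogConcave.strong (D.pot.logConc zero_le_one) 0 x
  simp [D.g0] at h
  rw [expU, abs_of_pos (Real.exp_pos _)]
  exact Real.exp_le_exp.2 (neg_le_neg (mul_le_mul_of_nonneg_left (by linarith) D.ε0))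

lemma dens_pos (q : ℝ) (w : E d) : 0 < D.dens q w := by
  have : IsProbabilityMeasure (gam d) := by unfold gam; infer_instance
  refine integral_exp_pos ?_
  exact Integrable.of_bound ((D.continuous_expU.comp (by fun_prop)).aestronglyMeasurable)
    (Real.exp (-(D.ε * D.U 0))) (Eventually.of_forall fun u => D.expU_le _)

lemma measurable_dens (q : ℝ) : Measurable (D.dens q) :=
  (Per.measurable_sm (D.r q) D.continuous_expU.measurable).comp (by fun_prop)

lemma dens_le (q : ℝ) (w : E d) : |D.dens q w| ≤ Real.exp (-(D.ε * D.U 0)) :=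
  Chain.abs_sm_le (fun x => D.expU_le x) _

lemma exp_neg_psi (q : ℝ) (w : E d) :
    Real.exp (-D.ψ q w) = Real.exp (-(‖w‖ ^ 2 / 2)) * D.dens q w := by
  have h : D.ψ q w = ‖w‖ ^ 2 / 2 + -Real.log (D.dens q w) := rfl
  rw [h, neg_add, neg_neg, Real.exp_add, Real.exp_log (D.dens_pos q w)]

lemma measurable_psi (q : ℝ) : Measurable (D.ψ q) := by
  have h : D.ψ q = fun w => ‖w‖ ^ 2 / 2 + -Real.log (D.dens q w) := rfl
  rw [h]
  exact (by fun_prop : Measurable fun w : E d => ‖w‖ ^ 2 / 2).add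
    (Real.measurable_log.comp (D.measurable_dens q)).neg

/-- Integrals at time `q` against the Gaussian law. -/
lemma integral_law_gam (q : ℝ) (f : E d → ℝ) :
    ∫ w, f w ∂gibbs (D.ψ q)
      = (∫ w, D.dens q w ∂gam d)⁻¹ * ∫ w, f w * D.dens q w ∂gam d := by
  rw [Joint.integral_gibbs (D.measurable_psi q), Joint.gam_eq_gibbs,
    Joint.integral_gibbs (by fun_prop), Joint.integral_gibbs (by fun_prop)]
  simp only [D.exp_neg_psi, smul_eq_mul]
  have hZ : (∫ w : E d, Real.exp (-(‖w‖ ^ 2 / 2))) ≠ 0 :=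
    (integral_exp_pos integrable_exp_half).ne'
  have e : (∫ w : E d, Real.exp (-(‖w‖ ^ 2 / 2)) * D.dens q w * f w)
      = ∫ w : E d, Real.exp (-(‖w‖ ^ 2 / 2)) * (f w * D.dens q w) :=
    integral_congr_ae (Eventually.of_forall fun w => by ring)
  rw [e, mul_inv, inv_inv]
  field_simp

/-- Gaussian averaging from one time to a later one. -/
lemma dens_semigroup {q₁ q₂ : ℝ} (h0 : 0 ≤ q₁) (h12 : q₁ ≤ q₂) (h2 : q₂ ∈ D.I) (w : E d) :
    D.dens q₁ w = ∫ u, sm (D.r q₂) D.expU
      (D.c + q₁ • w + Real.sqrt (q₂ ^ 2 - q₁ ^ 2) • u) ∂gam d := by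
  have hsq : q₁ ^ 2 ≤ q₂ ^ 2 := pow_le_pow_left₀ h0 h12 2
  have hr2 := D.r_pos h2
  have hab : Real.sqrt (q₂ ^ 2 - q₁ ^ 2) ^ 2 + Real.sqrt (D.r q₂) ^ 2 = Real.sqrt (D.r q₁) ^ 2 := by
    rw [Real.sq_sqrt (by linarith), Real.sq_sqrt hr2.le, Real.sq_sqrt (by simp only [r] at *; linarith)]
    simp only [r]; ring
  set x := D.c + q₁ • w
  have hm : Measurable fun g : E d => D.expU (x + g) :=
    D.continuous_expU.measurable.comp (measurable_const_add x)
  have hg := P157.gauss_add (E := E d) hab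
  have : IsProbabilityMeasure (gam d) := by unfold gam; infer_instance
  simp only [dens, sm]
  change ∫ u, D.expU (x + Real.sqrt (D.r q₁) • u) ∂gam d = _
  rw [show ∫ u, D.expU (x + Real.sqrt (D.r q₁) • u) ∂gam d
      = ∫ z, D.expU (x + z) ∂(stdGaussian (E d)).map (fun g => Real.sqrt (D.r q₁) • g) by
    rw [integral_map (Measurable.aemeasurable (by fun_prop)) hm.aestronglyMeasurable]; rfl,
    ← hg, integral_map (Measurable.aemeasurable (by fun_prop)) hm.aestronglyMeasurable,
    integral_prod]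
  · simp only [add_assoc, gam]
  · exact Integrable.of_bound (hm.comp (by fun_prop)).aestronglyMeasurable
      (Real.exp (-(D.ε * D.U 0))) (Eventually.of_forall fun p => D.expU_le _)

/-- The bridge, tested against bounded functions. -/
lemma bridge_integral {q₁ q₂ : ℝ} (h0 : 0 ≤ q₁) (h12 : q₁ ≤ q₂) (hq : 0 < q₂) (h2 : q₂ ∈ D.I)
    {f : E d → ℝ} (hf : Measurable f) {M : ℝ} (hb : ∀ x, |f x| ≤ M) :
    ∫ w, f w * D.dens q₁ w ∂gam d
      = ∫ w, (∫ u, f ((q₁ / q₂) • w + Real.sqrt (1 - (q₁ / q₂) ^ 2) • u) ∂gam d)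
          * D.dens q₂ w ∂gam d := by
  set κ := q₁ / q₂
  set σ := Real.sqrt (1 - κ ^ 2)
  have hκ0 : 0 ≤ κ := div_nonneg h0 hq.le
  have hκ1 : κ ≤ 1 := (div_le_one hq).2 h12
  have hσ : κ ^ 2 + σ ^ 2 = 1 := by
    simp only [σ]; rw [Real.sq_sqrt (by nlinarith)]; ring
  have h1 : q₁ = q₂ * κ := by simp only [κ]; field_simp
  have hδ : Real.sqrt (q₂ ^ 2 - q₁ ^ 2) = q₂ * σ := by
    rw [h1, show q₂ ^ 2 - (q₂ * κ) ^ 2 = q₂ ^ 2 * (1 - κ ^ 2) by ring,
      Real.sqrt_mul (sq_nonneg _), Real.sqrt_sq hq.le]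
  have : IsProbabilityMeasure (gam d) := by unfold gam; infer_instance
  set S := sm (D.r q₂) D.expU
  have hS : Measurable S := Per.measurable_sm _ D.continuous_expU.measurable
  set B := Real.exp (-(D.ε * D.U 0))
  have hM : 0 ≤ M := (abs_nonneg _).trans (hb 0)
  set h : E d × E d → ℝ := fun p => f (κ • p.1 - σ • p.2) * S (D.c + q₂ • p.1) with hh
  have hhm : Measurable h := (hf.comp (by fun_prop)).mul (hS.comp (by fun_prop))
  have hbound : ∀ z y : E d, |f z * S y| ≤ M * B := fun z y => by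
    rw [abs_mul]
    exact mul_le_mul (hb z) (Chain.abs_sm_le (fun x => D.expU_le x) y) (abs_nonneg _) hM
  have hrot := GaussCov.map_rot (m := d) (a := κ) (b := σ) (Real.sqrt_nonneg _) hσ
  have hL : ∫ w, f w * D.dens q₁ w ∂gam d = ∫ p, h p ∂(gam d).prod (gam d) := by
    conv_rhs => rw [← hrot]
    rw [integral_map (Measurable.aemeasurable (by fun_prop)) hhm.aestronglyMeasurable,
      integral_prod]
    · refine integral_congr_ae (Eventually.of_forall fun a => ?_)
      simp only [D.dens_semigroup h0 h12 h2 a, ← integral_const_mul]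
      refine integral_congr_ae (Eventually.of_forall fun b => ?_)
      simp only [hh]
      rw [hδ, h1]
      congr 1
      · refine congrArg f ?_
        rw [show κ • (κ • a + σ • b) - σ • (-σ • a + κ • b) = (κ ^ 2 + σ ^ 2) • a by module, hσ,
          one_smul]
      · refine congrArg S ?_
        module
    · exact Integrable.of_bound (hhm.comp (by fun_prop)).aestronglyMeasurable (M * B)
        (Eventually.of_forall fun p => hbound _ _)
  have hneg : (gam d).map (fun u : E d => -u) = gam d := by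
    have := stdGaussian_map (LinearIsometryEquiv.neg ℝ : E d ≃ₗᵢ[ℝ] E d)
    unfold gam
    simpa using this
  rw [hL, integral_prod _ (Integrable.of_bound hhm.aestronglyMeasurable (M * B)
    (Eventually.of_forall fun p => hbound _ _))]
  refine integral_congr_ae (Eventually.of_forall fun w => ?_)
  simp only [hh, integral_mul_const, Data.dens, S]
  congr 1
  conv_lhs => rw [← hneg]
  have hgm : Measurable fun u : E d => f (κ • w - σ • u) := hf.comp (by fun_prop)
  rw [integral_map (Measurable.aemeasurable (by fun_prop)) hgm.aestronglyMeasurable]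
  simp [sub_eq_add_neg]

end Data

namespace ExFlow

variable {d : ℕ} {D : Data d} (X : ExFlow D)

/-- The bridge law. -/
theorem bridge_law (hP : PostFacts) (hH : NWHeat) (hT : LawTransport) (X : ExFlow D) {q₁ q₂ : ℝ}
    (h0 : 0 ≤ q₁) (h12 : q₁ ≤ q₂) (hq : 0 < q₂) (h2 : q₂ ∈ D.I) :
    ((law D q₂).prod (gam d)).map
        (fun p => (q₁ / q₂) • p.1 + Real.sqrt (1 - (q₁ / q₂) ^ 2) • p.2) = law D q₁ := by
  have h1 : q₁ ∈ D.I := ⟨D.zero_mem.1.trans_le h0, h12.trans_lt h2.2⟩
  have := isProb_law hP hH hT h1 X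
  have := isProb_law hP hH hT h2 X
  have : IsProbabilityMeasure (gam d) := by unfold gam; infer_instance
  have hmap : Measurable fun p : E d × E d =>
      (q₁ / q₂) • p.1 + Real.sqrt (1 - (q₁ / q₂) ^ 2) • p.2 := by fun_prop
  refine Measure.ext fun B hB => ?_
  have key : ∀ (f : E d → ℝ), Measurable f → (∀ x, |f x| ≤ 1) →
      ∫ x, f x ∂((law D q₂).prod (gam d)).map
        (fun p => (q₁ / q₂) • p.1 + Real.sqrt (1 - (q₁ / q₂) ^ 2) • p.2) = ∫ x, f x ∂law D q₁ := by
    intro f hf hb
    have e1 := D.bridge_integral h0 h12 hq h2 hf hb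
    have e0 := D.bridge_integral h0 h12 hq h2 (f := fun _ => (1 : ℝ)) measurable_const
      (M := 1) (fun _ => le_of_eq abs_one)
    simp only [one_mul, integral_const, probReal_univ, one_smul] at e0
    have hi : Integrable (fun p : E d × E d =>
        f ((q₁ / q₂) • p.1 + Real.sqrt (1 - (q₁ / q₂) ^ 2) • p.2)) ((law D q₂).prod (gam d)) :=
      Integrable.of_bound (hf.comp hmap).aestronglyMeasurable 1 (Eventually.of_forall fun p => hb _)
    rw [integral_map hmap.aemeasurable hf.aestronglyMeasurable, integral_prod _ hi]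
    change ∫ w, _ ∂gibbs (D.ψ q₂) = ∫ w, _ ∂gibbs (D.ψ q₁)
    rw [D.integral_law_gam, D.integral_law_gam, e1, e0]
  have h := key (B.indicator fun _ => (1 : ℝ)) (measurable_const.indicator hB)
    fun x => by by_cases hx : x ∈ B <;> simp [hx]
  rw [integral_indicator_const _ hB, integral_indicator_const _ hB, smul_eq_mul, mul_one,
    smul_eq_mul, mul_one] at h
  have hprob := Measure.isProbabilityMeasure_map (μ := (law D q₂).prod (gam d)) hmap.aemeasurable
  exact (measureReal_eq_measureReal_iff (measure_ne_top _ _) (measure_ne_top _ _)).1 h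

/-- The point at time `q₁` from a Gaussian start and a fresh Gaussian. -/
theorem bridge_gam (hP : PostFacts) (hH : NWHeat) (hT : LawTransport) (X : ExFlow D) {q₁ q₂ : ℝ}
    (h0 : 0 ≤ q₁) (h12 : q₁ ≤ q₂) (hq : 0 < q₂) (h2 : q₂ ∈ D.I) :
    ((gam d).prod (gam d)).map
        (fun p => (q₁ / q₂) • X.Φ 0 q₂ p.1 + Real.sqrt (1 - (q₁ / q₂) ^ 2) • p.2) = law D q₁ := by
  have : IsProbabilityMeasure (gam d) := by unfold gam; infer_instance
  have hc := (X.continuous_Φ D.zero_mem h2).measurable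
  rw [← bridge_law hP hH hT X h0 h12 hq h2, ← X.map_gam hP hH hT h2]
  have hmap : Measurable fun p : E d × E d =>
      (q₁ / q₂) • p.1 + Real.sqrt (1 - (q₁ / q₂) ^ 2) • p.2 := by fun_prop
  have e : ((gam d).map (X.Φ 0 q₂)).prod (gam d)
      = ((gam d).prod (gam d)).map (Prod.map (X.Φ 0 q₂) id) := by
    rw [← Measure.map_prod_map (gam d) (gam d) hc measurable_id, Measure.map_id]
  rw [e, Measure.map_map hmap (hc.prodMap measurable_id)]
  rfl

end ExFlow

end Vale.Agent.P347.Gamma0
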