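import Vale.Agent.P347.LogConcave
import Vale.Agent.P347.TiltBasic

/-!
P347, towards `γ* = 0`, piece 1: the exponential family `∝ exp (⟪θ, x⟫ - s ‖x‖²/2 - ε U x)` in
the parameter `p = (θ, s)`, `s > 0`: smoothness, and the link with the Gibbs laws.
-/

namespace Vale.Agent.P347.Gamma0

open MeasureTheory Filter Topology
open scoped RealInnerProductSpace ContDiff

variable {d : ℕ} {U : E d → ℝ} {g : E d → E d}

/-- The potential of the member `p` of the family. -/
noncomputable def pot (U : E d → ℝ) (ε : ℝ) (p : E d × ℝ) (x : E d) : ℝ :=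
  p.2 * ‖x‖ ^ 2 / 2 - ⟪p.1, x⟫ + ε * U x

/-- The gradient of `pot`. -/
noncomputable def potGrad (g : E d → E d) (ε : ℝ) (p : E d × ℝ) (x : E d) : E d :=
  p.2 • x - p.1 + ε • g x

/-- The unnormalised expectation. -/
noncomputable def num (U : E d → ℝ) (ε : ℝ) (φ : E d → ℝ) (p : E d × ℝ) : ℝ :=
  ∫ x, Real.exp (-pot U ε p x) * φ x

/-- The expectation. -/
noncomputable def mean (U : E d → ℝ) (ε : ℝ) (φ : E d → ℝ) (p : E d × ℝ) : ℝ :=
  num U ε φ p / num U ε (fun _ => 1) p

/-- Continuous functions of polynomial growth. -/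
structure Obs (φ : E d → ℝ) : Prop where
  cont : Continuous φ
  poly : LogConcave.Poly φ

lemma Obs.mul {φ ψ : E d → ℝ} (hφ : Obs φ) (hψ : Obs ψ) : Obs fun x => φ x * ψ x :=
  ⟨hφ.cont.mul hψ.cont, hφ.poly.mul hψ.poly⟩

lemma Obs.add {φ ψ : E d → ℝ} (hφ : Obs φ) (hψ : Obs ψ) : Obs fun x => φ x + ψ x :=
  ⟨hφ.cont.add hψ.cont, hφ.poly.add hψ.poly⟩

lemma Obs.const (c : ℝ) : Obs fun _ : E d => c := ⟨continuous_const, LogConcave.Poly.const c⟩

lemma Obs.one : Obs fun _ : E d => (1 : ℝ) := Obs.const 1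

lemma Obs.sum {ι : Type*} (S : Finset ι) {φ : ι → E d → ℝ} (h : ∀ i ∈ S, Obs (φ i)) :
    Obs fun x => ∑ i ∈ S, φ i x := by
  classical
  induction S using Finset.induction with
  | empty => simpa using Obs.const (d := d) 0
  | insert a S ha ih =>
    simpa [Finset.sum_insert ha] using
      (h a (Finset.mem_insert_self a S)).add (ih fun i hi => h i (Finset.mem_insert_of_mem hi))

lemma Obs.coord (i : Fin d) : Obs fun x : E d => x i :=
  ⟨by fun_prop, LogConcave.Poly.of_le (A := 1) (N := 1) fun x => by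
    have h : |x i| ≤ ‖x‖ := by simpa [Real.norm_eq_abs] using PiLp.norm_apply_le x i
    simp only [pow_one, one_mul]
    linarith [norm_nonneg x]⟩

lemma Obs.sq : Obs fun x : E d => ‖x‖ ^ 2 :=
  ⟨by fun_prop, LogConcave.Poly.of_le (A := 1) (N := 2) fun x => by
    rw [abs_of_nonneg (sq_nonneg _), one_mul]
    exact pow_le_pow_left₀ (norm_nonneg x) (by linarith) 2⟩

lemma Obs.inner (u : E d) : Obs fun x : E d => ⟪u, x⟫ :=
  ⟨by fun_prop, LogConcave.Poly.of_le (A := ‖u‖) (N := 1) fun x => by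
    refine (abs_real_inner_le_norm u x).trans ?_
    exact mul_le_mul_of_nonneg_left (by simp) (norm_nonneg u)⟩

lemma Obs.grad (hU : Pot U g) (u : E d) : Obs fun x => ⟪u, g x⟫ :=
  ⟨continuous_const.inner hU.lip.continuous,
    LogConcave.Poly.of_le (A := ‖u‖ * (‖g 0‖ + 1)) (N := 1) fun x => by
      refine (abs_real_inner_le_norm u (g x)).trans ?_
      rw [mul_assoc, pow_one]
      refine mul_le_mul_of_nonneg_left ((Tilt.norm_grad_le hU x).trans ?_) (norm_nonneg u)
      nlinarith [norm_nonneg (g 0), norm_nonneg x]⟩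

lemma logConc (hU : Pot U g) {ε : ℝ} (hε : 0 ≤ ε) {p : E d × ℝ} (hp : 0 < p.2) :
    LogConc (pot U ε p) (potGrad g ε p) p.2 where
  contDiff := by
    unfold pot
    exact (((contDiff_norm_sq ℝ).const_smul p.2 |>.div_const 2).sub
      (contDiff_const.inner ℝ contDiff_id)).add (hU.contDiff.const_smul ε)
  grad x := by
    have h1 : HasGradientAt (fun y : E d => p.2 * ‖y‖ ^ 2 / 2) (p.2 • x) x := by
      rw [hasGradientAt_iff_hasFDerivAt]
      refine (((hasFDerivAt_id x).norm_sq.const_mul p.2).mul_const (1 / 2 : ℝ)).congr_fderiv ?_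
        |>.congr_of_eventuallyEq ?_
      · ext v; simp [InnerProductSpace.toDual_apply_apply, real_inner_smul_left]; ring
      · exact Filter.Eventually.of_forall fun y => by simp; ring
    have h2 : HasGradientAt (fun y : E d => ⟪p.1, y⟫) p.1 x := by
      rw [hasGradientAt_iff_hasFDerivAt]
      exact ((InnerProductSpace.toDual ℝ (E d) p.1).hasFDerivAt).congr_of_eventuallyEq
        (Filter.Eventually.of_forall fun y => by simp [InnerProductSpace.toDual_apply_apply])
    rw [hasGradientAt_iff_hasFDerivAt] at h1 h2 ⊢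
    refine ((h1.sub h2).add (((hU.grad x).hasFDerivAt).const_mul ε)).congr_fderiv ?_
    ext v
    simp [potGrad, InnerProductSpace.toDual_apply_apply, inner_add_left, inner_sub_left,
      real_inner_smul_left]
  pos := hp
  lip := by
    refine ⟨p.2.toNNReal + ε.toNNReal, LipschitzWith.of_dist_le_mul fun x y => ?_⟩
    rw [dist_eq_norm, dist_eq_norm, NNReal.coe_add, Real.coe_toNNReal _ hp.le,
      Real.coe_toNNReal _ hε, add_mul]
    have h := hU.lip.dist_le_mul x y
    rw [dist_eq_norm, dist_eq_norm, NNReal.coe_one, one_mul] at h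
    calc ‖potGrad g ε p x - potGrad g ε p y‖ = ‖p.2 • (x - y) + ε • (g x - g y)‖ := by
          congr 1; simp only [potGrad]; module
      _ ≤ p.2 * ‖x - y‖ + ε * ‖g x - g y‖ := by
          refine (norm_add_le _ _).trans (le_of_eq ?_)
          rw [norm_smul, norm_smul, Real.norm_of_nonneg hp.le, Real.norm_of_nonneg hε]
      _ ≤ _ := by gcongr
  mono x y := by
    have h := mul_nonneg hε (hU.mono x y)
    have e : potGrad g ε p x - potGrad g ε p y = p.2 • (x - y) + ε • (g x - g y) := by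
      simp only [potGrad]; module
    rw [e, inner_add_left, real_inner_smul_left, real_inner_smul_left,
      real_inner_self_eq_norm_sq]
    linarith

variable {ε : ℝ}

lemma num_one_pos (hU : Pot U g) (hε : 0 ≤ ε) {p : E d × ℝ} (hp : 0 < p.2) :
    0 < num U ε (fun _ => 1) p := by
  simpa [num] using LogConcave.integral_pos (logConc hU hε hp)

lemma integrable_num (hU : Pot U g) (hε : 0 ≤ ε) {p : E d × ℝ} (hp : 0 < p.2) {φ : E d → ℝ}
    (hφ : Obs φ) : Integrable fun x => Real.exp (-pot U ε p x) * φ x :=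
  (LogConcave.integrable_gibbs_iff (logConc hU hε hp)).1
    (hφ.poly.integrable (logConc hU hε hp) hφ.cont)

lemma mean_eq (hU : Pot U g) (hε : 0 ≤ ε) {p : E d × ℝ} (hp : 0 < p.2) (φ : E d → ℝ) :
    mean U ε φ p = ∫ x, φ x ∂gibbs (pot U ε p) := by
  simp [mean, num, LogConcave.integral_gibbs (logConc hU hε hp)]

/-- The differential of `num` at `p`, as coordinates. -/
noncomputable def numDeriv (U : E d → ℝ) (ε : ℝ) (φ : E d → ℝ) (p : E d × ℝ) :
    E d × ℝ →L[ℝ] ℝ :=
  ∑ j, num U ε (fun x => φ x * x j) p •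
      ((PiLp.proj 2 (fun _ : Fin d => ℝ) j).comp (ContinuousLinearMap.fst ℝ (E d) ℝ))
    + num U ε (fun x => φ x * ((-1 / 2) * ‖x‖ ^ 2)) p • ContinuousLinearMap.snd ℝ (E d) ℝ

lemma hasFDerivAt_num (hU : Pot U g) (hε : 0 ≤ ε) {φ : E d → ℝ} (hφ : Obs φ) {p : E d × ℝ}
    (hp : 0 < p.2) : HasFDerivAt (num U ε φ) (numDeriv U ε φ p) p := by
  set δ := p.2 / 2 with hδ
  have hδp : 0 < δ := by positivity
  set L : E d → E d × ℝ →L[ℝ] ℝ := fun x => ((InnerProductSpace.toDual ℝ (E d) x :
      E d →L[ℝ] ℝ).comp (ContinuousLinearMap.fst ℝ (E d) ℝ))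
      - (‖x‖ ^ 2 / 2) • ContinuousLinearMap.snd ℝ (E d) ℝ with hL
  have hLa : ∀ x q, L x q = ⟪q.1, x⟫ - q.2 * (‖x‖ ^ 2 / 2) := fun x q => by
    simp [hL, InnerProductSpace.toDual_apply_apply, real_inner_comm x q.1]; ring
  have hLn : ∀ x, ‖L x‖ ≤ ‖x‖ + ‖x‖ ^ 2 := by
    intro x
    refine ContinuousLinearMap.opNorm_le_bound _ (by positivity) fun q => ?_
    rw [hLa, Real.norm_eq_abs]
    have h1 := abs_real_inner_le_norm q.1 x
    have h2 : ‖q.1‖ ≤ ‖q‖ := norm_fst_le q
    have h3 : |q.2| ≤ ‖q‖ := norm_snd_le q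
    calc |⟪q.1, x⟫ - q.2 * (‖x‖ ^ 2 / 2)| ≤ |⟪q.1, x⟫| + |q.2 * (‖x‖ ^ 2 / 2)| := abs_sub _ _
      _ ≤ ‖q‖ * ‖x‖ + ‖q‖ * ‖x‖ ^ 2 := by
          rw [abs_mul, abs_of_nonneg (by positivity : 0 ≤ ‖x‖ ^ 2 / 2)]
          refine add_le_add (h1.trans (by gcongr)) (mul_le_mul h3 ?_ (by positivity) (norm_nonneg _))
          linarith [sq_nonneg ‖x‖]
      _ = _ := by ring
  have hker : ∀ x q, HasFDerivAt (fun r : E d × ℝ => Real.exp (-pot U ε r x) * φ x)
      ((Real.exp (-pot U ε q x) * φ x) • L x) q := by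
    intro x q
    have he : (fun r : E d × ℝ => -pot U ε r x) = fun r => L x r + -(ε * U x) :=
      funext fun r => by rw [hLa]; simp only [pot]; ring
    have := ((he ▸ (L x).hasFDerivAt.add_const (-(ε * U x)) :
      HasFDerivAt (fun r : E d × ℝ => -pot U ε r x) (L x) q).exp).mul_const (φ x)
    exact this.congr_fderiv (by rw [smul_smul]; ring_nf)
  -- a bound near `p`
  obtain ⟨A, N, hA, hb⟩ := hφ.poly
  set R := ‖p.1‖ + δ with hR
  set bound : E d → ℝ := fun x => A * ((1 + ‖x‖) ^ (N + 2) *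
    Real.exp ((R + ε * Tilt.base U g) * ‖x‖ - δ / 2 * ‖x‖ ^ 2)) * Real.exp (ε * Tilt.base U g)
    with hbound
  have hint : Integrable bound :=
    ((Tilt.integrable_poly_exp (by positivity) _ _).const_mul A).mul_const _
  have hle : ∀ q ∈ Metric.ball p δ, ∀ x,
      ‖(Real.exp (-pot U ε q x) * φ x) • L x‖ ≤ bound x := by
    intro q hq x
    rw [Metric.mem_ball, dist_eq_norm] at hq
    have hq1 : ‖q.1‖ ≤ R := by
      have := (norm_fst_le (q - p)).trans hq.le
      simp only [Prod.fst_sub] at this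
      have h := norm_le_norm_add_norm_sub' q.1 p.1
      simp only [hR]; linarith
    have hq2 : δ ≤ q.2 := by
      have := (norm_snd_le (q - p)).trans hq.le
      simp only [Prod.snd_sub, Real.norm_eq_abs] at this
      linarith [(abs_le.1 this).1, hδ]
    have hU0 := (Tilt.pot_two_sided hU x).1
    have h1 := (abs_le.1 (abs_real_inner_le_norm q.1 x)).2
    have hexp : Real.exp (-pot U ε q x) ≤
        Real.exp ((R + ε * Tilt.base U g) * ‖x‖ - δ / 2 * ‖x‖ ^ 2) *
          Real.exp (ε * Tilt.base U g) := by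
      rw [← Real.exp_add]
      refine Real.exp_le_exp.2 ?_
      have h2 : δ / 2 * ‖x‖ ^ 2 ≤ q.2 * ‖x‖ ^ 2 / 2 := by nlinarith [sq_nonneg ‖x‖]
      have h3 : ‖q.1‖ * ‖x‖ ≤ R * ‖x‖ := mul_le_mul_of_nonneg_right hq1 (norm_nonneg x)
      have h4 := mul_le_mul_of_nonneg_left hU0 hε
      simp only [pot]
      nlinarith
    have hx : ‖L x‖ * |φ x| ≤ A * (1 + ‖x‖) ^ (N + 2) := by
      calc ‖L x‖ * |φ x| ≤ (1 + ‖x‖) ^ 2 * (A * (1 + ‖x‖) ^ N) :=
            mul_le_mul ((hLn x).trans (by nlinarith [norm_nonneg x])) (hb x) (abs_nonneg _)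
              (by positivity)
        _ = _ := by ring
    rw [norm_smul, Real.norm_eq_abs, abs_mul, abs_of_pos (Real.exp_pos _), mul_assoc,
      mul_comm |φ x|]
    refine (mul_le_mul hexp hx (by positivity) (by positivity)).trans (le_of_eq ?_)
    simp only [hbound]; ring
  have hc : ∀ q : E d × ℝ, Continuous fun x => Real.exp (-pot U ε q x) * φ x := fun q => by
    have := hU.contDiff.continuous
    have := hφ.cont
    unfold pot; fun_prop
  have hLc : Continuous L := by
    simp only [hL]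
    exact ((ContinuousLinearMap.compL ℝ (E d × ℝ) (E d) ℝ).flip
      (ContinuousLinearMap.fst ℝ (E d) ℝ)).continuous.comp
      (InnerProductSpace.toDual ℝ (E d)).continuous |>.sub (by fun_prop)
  have main := hasFDerivAt_integral_of_dominated_of_fderiv_le (μ := (volume : Measure (E d)))
    (F := fun q x => Real.exp (-pot U ε q x) * φ x)
    (F' := fun q x => (Real.exp (-pot U ε q x) * φ x) • L x) (bound := bound)
    (Metric.ball_mem_nhds p hδp) (Eventually.of_forall fun q => (hc q).aestronglyMeasurable)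
    (integrable_num hU hε hp hφ) ((hc p).smul hLc).aestronglyMeasurable
    (ae_of_all _ fun x q hq => hle q hq x) hint (ae_of_all _ fun x q _ => hker x q)
  refine main.congr_fderiv ?_
  have hi : Integrable fun x => (Real.exp (-pot U ε p x) * φ x) • L x :=
    hint.mono' ((hc p).smul hLc).aestronglyMeasurable
      (ae_of_all _ fun x => hle p (Metric.mem_ball_self hδp) x)
  refine ContinuousLinearMap.ext fun q => ?_
  rw [ContinuousLinearMap.integral_apply hi]
  have hj : ∀ j, Integrable fun x => q.1 j * (Real.exp (-pot U ε p x) * (φ x * x j)) :=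
    fun j => (integrable_num hU hε hp (hφ.mul (Obs.coord j))).const_mul _
  have hs : Integrable fun x =>
      q.2 * (Real.exp (-pot U ε p x) * (φ x * ((-1 / 2) * ‖x‖ ^ 2))) :=
    (integrable_num hU hε hp (hφ.mul ((Obs.const _).mul Obs.sq))).const_mul _
  calc ∫ x, ((Real.exp (-pot U ε p x) * φ x) • L x) q
      = ∫ x, ((∑ j, q.1 j * (Real.exp (-pot U ε p x) * (φ x * x j)))
          + q.2 * (Real.exp (-pot U ε p x) * (φ x * ((-1 / 2) * ‖x‖ ^ 2)))) :=
        integral_congr_ae (ae_of_all _ fun x => by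
          simp only [ContinuousLinearMap.smul_apply, hLa, smul_eq_mul, PiLp.inner_apply,
            RCLike.inner_apply, conj_trivial]
          rw [mul_sub, Finset.mul_sum]
          rw [sub_eq_add_neg]
          congr 1
          · exact Finset.sum_congr rfl fun j _ => by ring
          · ring)
    _ = numDeriv U ε φ p q := by
        rw [integral_add (integrable_finset_sum _ fun j _ => hj j) hs,
          integral_finset_sum _ fun j _ => hj j]
        simp only [integral_const_mul, numDeriv, num, ContinuousLinearMap.add_apply,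
          ContinuousLinearMap.coe_sum', Finset.sum_apply, ContinuousLinearMap.smul_apply,
          ContinuousLinearMap.comp_apply, ContinuousLinearMap.coe_fst', PiLp.proj_apply,
          ContinuousLinearMap.coe_snd', smul_eq_mul]
        congr 1
        · exact Finset.sum_congr rfl fun j _ => mul_comm _ _
        · ring

/-- The parameters of proper members. -/
def params (d : ℕ) : Set (E d × ℝ) := {p | 0 < p.2}

lemma isOpen_params : IsOpen (params d) := isOpen_lt continuous_const continuous_snd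

lemma contDiffOn_num_nat (hU : Pot U g) (hε : 0 ≤ ε) : ∀ (n : ℕ) {φ : E d → ℝ}, Obs φ →
    ContDiffOn ℝ n (num U ε φ) (params d) := by
  intro n
  induction n with
  | zero =>
    intro φ hφ
    exact contDiffOn_zero.2 fun p hp => (hasFDerivAt_num hU hε hφ hp).continuousAt.continuousWithinAt
  | succ n ih =>
    intro φ hφ
    rw [show ((n + 1 : ℕ) : WithTop ℕ∞) = (n : WithTop ℕ∞) + 1 from by push_cast; ring,
      contDiffOn_succ_iff_fderiv_of_isOpen isOpen_params]
    refine ⟨fun p hp => (hasFDerivAt_num hU hε hφ hp).differentiableAt.differentiableWithinAt,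
      by simp, ?_⟩
    refine ContDiffOn.congr ?_ fun p hp => (hasFDerivAt_num hU hε hφ hp).fderiv
    unfold numDeriv
    exact (ContDiffOn.sum fun j _ => (ih (hφ.mul (Obs.coord j))).smul contDiffOn_const).add
      ((ih (hφ.mul ((Obs.const _).mul Obs.sq))).smul contDiffOn_const)

lemma contDiffOn_num (hU : Pot U g) (hε : 0 ≤ ε) {φ : E d → ℝ} (hφ : Obs φ) :
    ContDiffOn ℝ ∞ (num U ε φ) (params d) :=
  contDiffOn_infty.2 fun n => contDiffOn_num_nat hU hε n hφ

lemma contDiffOn_mean (hU : Pot U g) (hε : 0 ≤ ε) {φ : E d → ℝ} (hφ : Obs φ) :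
    ContDiffOn ℝ ∞ (mean U ε φ) (params d) :=
  (contDiffOn_num hU hε hφ).div (contDiffOn_num hU hε Obs.one) fun _ hp =>
    (num_one_pos hU hε hp).ne'

lemma hasFDerivAt_mean (hU : Pot U g) (hε : 0 ≤ ε) {φ : E d → ℝ} (hφ : Obs φ) {p : E d × ℝ}
    (hp : 0 < p.2) : HasFDerivAt (mean U ε φ)
      ((num U ε (fun _ => 1) p)⁻¹ • (numDeriv U ε φ p - mean U ε φ p • numDeriv U ε (fun _ => 1) p))
      p := by
  have hZ := (num_one_pos hU hε hp).ne'
  have h := (hasFDerivAt_num hU hε hφ hp).mul
    ((hasFDerivAt_inv hZ).comp p (hasFDerivAt_num hU hε Obs.one hp))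
  refine (h.congr_fderiv ?_).congr_of_eventuallyEq
    (Eventually.of_forall fun q => by simp [mean, div_eq_mul_inv])
  refine ContinuousLinearMap.ext fun v => ?_
  simp only [ContinuousLinearMap.add_apply, ContinuousLinearMap.smul_apply,
    ContinuousLinearMap.comp_apply, ContinuousLinearMap.sub_apply, smul_eq_mul, Function.comp_apply,
    ContinuousLinearMap.toSpanSingleton_apply, mean]
  field_simp
  ring

end Vale.Agent.P347.Gamma0
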