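import Vale.Agent.P347.Gamma0.Defs

/-!
P347, towards `γ_* = 0`: mean expressions.  An expression is built from vector inputs by linear
operations and gates `G_r(·)`; its value is deterministic, with the exact posterior mean gradient.
-/

namespace Vale.Agent.P347.Gamma0

open MeasureTheory

/-- Mean expressions in the inputs indexed by `ι`. -/
inductive Expr (ι : Type) : Type
  | var (i : ι)
  | zero
  | add (e₁ e₂ : Expr ι)
  | smul (c : ℝ) (e : Expr ι)
  | gate (r : ℝ) (e : Expr ι)

namespace Expr

variable {ι κ : Type} {d : ℕ}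

/-- The value, `Gr r` being the gradient attached to the scale `r`. -/
noncomputable def val (Gr : ℝ → E d → E d) : Expr ι → (ι → E d) → E d
  | var i, x => x i
  | zero, _ => 0
  | add e₁ e₂, x => val Gr e₁ x + val Gr e₂ x
  | smul c e, x => c • val Gr e x
  | gate r e, x => Gr r (val Gr e x)

/-- Substitution of expressions for inputs. -/
def subst (σ : ι → Expr κ) : Expr ι → Expr κ
  | var i => σ i
  | zero => zero
  | add e₁ e₂ => add (subst σ e₁) (subst σ e₂)
  | smul c e => smul c (subst σ e)
  | gate r e => gate r (subst σ e)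

/-- A finite sum. -/
def sum : ∀ {n : ℕ}, (Fin n → Expr ι) → Expr ι
  | 0, _ => zero
  | _ + 1, f => add (f 0) (sum fun i => f i.succ)

/-- Top gates with their coefficients. -/
noncomputable def tops : Expr ι → List (ℝ × ℝ × Expr ι)
  | var _ => []
  | zero => []
  | add e₁ e₂ => tops e₁ ++ tops e₂
  | smul c e => (tops e).map fun p => (c * p.1, p.2)
  | gate r e => [(1, r, e)]

/-- The linear part outside every gate. -/
noncomputable def linPart : Expr ι → Expr ι
  | var i => var i
  | zero => zero
  | add e₁ e₂ => add (linPart e₁) (linPart e₂)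
  | smul c e => smul c (linPart e)
  | gate _ _ => zero

/-- The fluctuation scale of the top gates. -/
noncomputable def size : Expr ι → ℝ
  | var _ => 0
  | zero => 0
  | add e₁ e₂ => size e₁ + size e₂
  | smul c e => |c| * size e
  | gate r _ => Real.sqrt r

/-- The coefficient of an input outside every gate, in absolute value. -/
noncomputable def coef [DecidableEq ι] (i : ι) : Expr ι → ℝ
  | var j => if j = i then 1 else 0
  | zero => 0
  | add e₁ e₂ => coef i e₁ + coef i e₂
  | smul c e => |c| * coef i e
  | gate _ _ => 0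

/-- A Lipschitz constant in one input. -/
noncomputable def lip [DecidableEq ι] (i : ι) : Expr ι → ℝ
  | var j => if j = i then 1 else 0
  | zero => 0
  | add e₁ e₂ => lip i e₁ + lip i e₂
  | smul c e => |c| * lip i e
  | gate _ e => lip i e

/-- The value at zero inputs, divided by `√d`. -/
noncomputable def offset : Expr ι → ℝ
  | var _ => 0
  | zero => 0
  | add e₁ e₂ => offset e₁ + offset e₂
  | smul c e => |c| * offset e
  | gate r e => offset e + Real.sqrt r

/-- All gates at all depths. -/
def gates : Expr ι → List (ℝ × Expr ι)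
  | var _ => []
  | zero => []
  | add e₁ e₂ => gates e₁ ++ gates e₂
  | smul _ e => gates e
  | gate r e => (r, e) :: gates e

/-- The number of nodes of the tree. -/
def nodes : Expr ι → ℕ
  | var _ => 1
  | zero => 1
  | add e₁ e₂ => nodes e₁ + nodes e₂ + 1
  | smul _ e => nodes e + 1
  | gate _ e => nodes e + 1

/-- The largest norm of the arguments of all gates. -/
noncomputable def rad (Gr : ℝ → E d → E d) : Expr ι → (ι → E d) → ℝ
  | var _, _ => 0
  | zero, _ => 0
  | add e₁ e₂, x => max (rad Gr e₁ x) (rad Gr e₂ x)
  | smul _ e, x => rad Gr e x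
  | gate _ e, x => max ‖val Gr e x‖ (rad Gr e x)

/-- Every gate has a positive scale at most one and an argument of load at most `lam`. -/
def Good (lam : ℝ) (e : Expr ι) : Prop :=
  ∀ p ∈ gates e, 0 < p.1 ∧ p.1 ≤ 1 ∧ size p.2 ≤ lam * Real.sqrt p.1

variable (Gr : ℝ → E d → E d)

lemma val_sum : ∀ {n : ℕ} (f : Fin n → Expr ι) (x : ι → E d),
    val Gr (sum f) x = ∑ i, val Gr (f i) x
  | 0, f, x => by simp [sum, val]
  | n + 1, f, x => by simp [sum, val, val_sum, Fin.sum_univ_succ]

lemma val_subst (σ : ι → Expr κ) (e : Expr ι) (x : κ → E d) :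
    val Gr (subst σ e) x = val Gr e fun i => val Gr (σ i) x := by
  induction e <;> simp [subst, val, *]

lemma val_tops (e : Expr ι) (x : ι → E d) :
    val Gr e x = val Gr (linPart e) x
      + ((tops e).map fun p => p.1 • Gr p.2.1 (val Gr p.2.2 x)).sum := by
  induction e with
  | var i => simp [tops, linPart, val]
  | zero => simp [tops, linPart, val]
  | add e₁ e₂ h₁ h₂ =>
    simp only [val, tops, linPart, List.map_append, List.sum_append, h₁, h₂]
    abel
  | smul c e h =>
    simp only [val, tops, linPart, List.map_map, h, smul_add, List.smul_sum]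
    congr 2
    exact List.map_congr_left fun p _ => by simp [Function.comp, mul_smul]
  | gate r e _ => simp [tops, linPart, val]

variable [DecidableEq ι]

lemma lip_nonneg (i : ι) (e : Expr ι) : 0 ≤ lip i e := by
  induction e <;> simp only [lip] <;> positivity

omit [DecidableEq ι] in
lemma size_nonneg (e : Expr ι) : 0 ≤ size e := by
  induction e <;> simp only [size] <;> positivity

omit [DecidableEq ι] in
lemma offset_nonneg (e : Expr ι) : 0 ≤ offset e := by
  induction e <;> simp only [offset] <;> positivity

variable [Fintype ι]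

lemma norm_val_sub_le (hG : ∀ r, LipschitzWith 1 (Gr r)) (e : Expr ι) (x y : ι → E d) :
    ‖val Gr e x - val Gr e y‖ ≤ ∑ i, lip i e * ‖x i - y i‖ := by
  induction e with
  | var j => simp [val, lip]
  | zero => simp [val, lip]
  | add e₁ e₂ h₁ h₂ =>
    simp only [val, lip, add_mul, Finset.sum_add_distrib, add_sub_add_comm]
    exact (norm_add_le _ _).trans (add_le_add h₁ h₂)
  | smul c e h =>
    simp only [val, lip, ← smul_sub, norm_smul, Real.norm_eq_abs, mul_assoc, ← Finset.mul_sum]
    exact mul_le_mul_of_nonneg_left h (abs_nonneg c)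
  | gate r e h =>
    simpa [val, lip] using ((hG r).norm_sub_le _ _).trans (by simpa using h)

lemma norm_val_le (hG : ∀ r, LipschitzWith 1 (Gr r))
    (h0 : ∀ r, ‖Gr r 0‖ ≤ Real.sqrt r * Real.sqrt d) (e : Expr ι) (x : ι → E d) :
    ‖val Gr e x‖ ≤ (∑ i, lip i e * ‖x i‖) + offset e * Real.sqrt d := by
  induction e with
  | var j => simp [val, lip, offset]
  | zero => simp [val, lip, offset]
  | add e₁ e₂ h₁ h₂ =>
    simp only [val, lip, offset, add_mul, Finset.sum_add_distrib]
    linarith [norm_add_le (val Gr e₁ x) (val Gr e₂ x)]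
  | smul c e h =>
    simp only [val, lip, offset, norm_smul, Real.norm_eq_abs, mul_assoc, ← Finset.mul_sum,
      ← mul_add]
    exact mul_le_mul_of_nonneg_left h (abs_nonneg c)
  | gate r e h =>
    have h1 : ‖Gr r (val Gr e x)‖ ≤ ‖val Gr e x‖ + ‖Gr r 0‖ := by
      have := (hG r).norm_sub_le (val Gr e x) 0
      have h2 := norm_le_norm_add_norm_sub' (Gr r (val Gr e x)) (Gr r 0)
      simp at this
      linarith [norm_sub_rev (Gr r (val Gr e x)) (Gr r 0)]
    simp only [val, lip, offset]
    linarith [h0 r, add_mul (offset e) (Real.sqrt r) (Real.sqrt d)]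

omit [DecidableEq ι] [Fintype ι] in
lemma continuous_val (hG : ∀ r, Continuous (Gr r)) (e : Expr ι) :
    Continuous (val Gr e : (ι → E d) → E d) := by
  induction e with
  | var i => exact continuous_apply i
  | zero => exact continuous_const
  | add e₁ e₂ h₁ h₂ => exact h₁.add h₂
  | smul c e h => exact h.const_smul c
  | gate r e h => exact (hG r).comp h

end Expr

end Vale.Agent.P347.Gamma0
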