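import Vale.Agent.P347.Gamma0.Flatten

/-!
P347, towards `γ* = 0`: the flattening bound for `D^t D^k` of the posterior mean gradient, in the
natural parameter `θ`.
-/

namespace Vale.Agent.P347.Gamma0

open MeasureTheory Filter Topology
open scoped RealInnerProductSpace ContDiff

variable {d : ℕ} {U : E d → ℝ} {g : E d → E d} {ε : ℝ}

lemma spl_zero_right (k : ℕ) (X : Coeffs d) (idx : Fin k → Fin d) : spl X 0 k idx = 0 := by
  have h := spl_smul_right k 0 X 0 idx
  simpa using h

lemma spl₂_zero_right : ∀ (t : ℕ) (X : Coeffs₂ d) (J : Fin t → Fin d) (k : ℕ)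
    (idx : Fin k → Fin d), spl₂ X 0 t J k idx = 0
  | 0, X, J, k, idx => spl_zero_right k _ idx
  | t + 1, X, J, k, idx => by
    simp only [spl₂, show shiftO (J 0) (0 : Coeffs₂ d) = 0 from rfl, spl₂_zero_right t, add_zero]

/-- The unit of `spl`. -/
def delta0 : Coeffs d := fun k _ => if k = 0 then 1 else 0

/-- The unit of `spl₂`. -/
def deltaO : Coeffs₂ d := fun t _ => if t = 0 then delta0 else 0

lemma spl_delta : ∀ (k : ℕ) (X : Coeffs d) (idx : Fin k → Fin d), spl X delta0 k idx = X k idx
  | 0, X, idx => by simp [spl, delta0]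
  | k + 1, X, idx => by
    have e : shift (idx 0) (delta0 : Coeffs d) = 0 := by funext l j; simp [shift, delta0]
    simp only [spl, e, spl_zero_right, add_zero, spl_delta k]
    simp [shift]

lemma spl₂_delta : ∀ (t : ℕ) (X : Coeffs₂ d) (J : Fin t → Fin d) (k : ℕ) (idx : Fin k → Fin d),
    spl₂ X deltaO t J k idx = X t J k idx
  | 0, X, J, k, idx => by simp [spl₂, deltaO, spl_delta]
  | t + 1, X, J, k, idx => by
    have e : shiftO (J 0) (deltaO : Coeffs₂ d) = 0 := by funext l j; simp [shiftO, deltaO]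
    simp only [spl₂, e, spl₂_zero_right, add_zero, spl₂_delta t]
    simp [shiftO]

variable (hU : Pot U g) (hε : 0 ≤ ε) {s : ℝ} (hs : 0 < s)
include hU hε hs

lemma derivs_centre {φ : E d → ℝ} (hφ : Obs φ) (θ : E d) :
    ∀ (t : ℕ) (J : Fin t → Fin d) (k : ℕ) (idx : Fin k → Fin d),
      derivs (fun η => dMean U ε s φ η + -dMean U ε s φ θ) θ t J k idx
        = if t = 0 then 0 else derivs (dMean U ε s φ) θ t J k idx
  | 0, J, k, idx => by simp [derivs]
  | t + 1, J, k, idx => by
    simp only [Nat.succ_ne_zero, if_false, derivs, Pi.add_apply]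
    rw [fun_iteratedFDeriv_add_apply (((smooth_dMean hU hε hs hφ) k idx).contDiffAt.of_le
      (by exact_mod_cast le_top)) contDiffAt_const, iteratedFDeriv_succ_const]
    simp

lemma derivs_appMean (θ : E d) (t : ℕ) (J : Fin t → Fin d) (k : ℕ) (idx : Fin k → Fin d) :
    derivs (appMean U ε s (appCoeffs U ε s θ)) θ t J k idx
      = ∫ x, app (appCoeffs U ε s θ) k idx x * app (appCoeffs U ε s θ) t J x
          ∂gibbs (pot U ε (θ, s)) :=
  iteratedFDeriv_mean' hU hε hs t (obs_app k _ idx) J θ

lemma appCoeffs_zero (θ : E d) (J : Fin 0 → Fin d) : appCoeffs U ε s θ 0 J = 1 := by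
  simp [appCoeffs, invCoeffs, (num_one_pos hU hε (p := (θ, s)) hs).ne']

/-- The bound for products of polynomials. -/
lemma opLe_app (θ : E d) (b b' : ℕ) :
    OpLe ((b.factorial : ℝ) * b'.factorial / Real.sqrt s ^ (b + b'))
      fun (p : Fin b → Fin d) (q : Fin b' → Fin d) =>
        derivs (appMean U ε s (appCoeffs U ε s θ)) θ b' q b p := by
  intro M N
  have hW := logConc hU hε (p := (θ, s)) hs
  set c := appCoeffs U ε s θ
  set μ := gibbs (pot U ε (θ, s))
  have hi : ∀ {ψ : E d → ℝ}, Obs ψ → Integrable ψ μ := fun h => h.poly.integrable hW h.cont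
  have e : ∑ p, ∑ q, M p * N q * derivs (appMean U ε s c) θ b' q b p
      = ∫ x, pairing c b M x * pairing c b' N x ∂μ := by
    have hD : ∀ p q, derivs (appMean U ε s c) θ b' q b p = ∫ x, app c b p x * app c b' q x ∂μ :=
      fun p q => derivs_appMean hU hε hs θ b' q b p
    simp only [hD, ← integral_const_mul]
    rw [← Fintype.sum_prod_type' (f := fun p q =>
        ∫ x, M p * N q * (app c b p x * app c b' q x) ∂μ),
      ← integral_finsetSum _ fun pq _ =>
        (hi ((obs_app b c pq.1).mul (obs_app b' c pq.2))).const_mul _]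
    refine integral_congr_ae (ae_of_all _ fun x => ?_)
    simp only [pairing, Finset.sum_mul_sum, Fintype.sum_prod_type]
    exact Finset.sum_congr rfl fun p _ => Finset.sum_congr rfl fun q _ => by ring
  rw [e]
  have hsq := fun k T => integral_pairing_sq_le hU hε hs θ k T
  have hcs := LogConcave.sq_integral_mul_le (μ := μ) (u := pairing c b M) (v := pairing c b' N)
    ((hi ((obs_pairing c b M).mul (obs_pairing c b M))).congr (ae_of_all _ fun x => by ring))
    ((hi ((obs_pairing c b' N).mul (obs_pairing c b' N))).congr (ae_of_all _ fun x => by ring))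
    (hi ((obs_pairing c b M).mul (obs_pairing c b' N)))
  refine (Real.abs_le_sqrt (hcs.trans (mul_le_mul (hsq b M) (hsq b' N)
    (integral_nonneg fun x => sq_nonneg _) (by have := hs2_nonneg M; positivity)))).trans
    (le_of_eq ?_)
  have h1 : ∀ (j : ℕ) (T : (Fin j → Fin d) → ℝ), (j.factorial : ℝ) ^ 2 / s ^ j * hs2 T
      = ((j.factorial : ℝ) / Real.sqrt s ^ j * nrm T) ^ 2 := fun j T => by
    rw [mul_pow, div_pow, ← pow_mul, mul_comm j 2, pow_mul, Real.sq_sqrt hs.le, nrm_sq]
    rfl
  rw [h1, h1, ← mul_pow, Real.sqrt_sq (by have := nrm_nonneg M; have := nrm_nonneg N; positivity),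
    pow_add]
  field_simp

/-- The kernel identity: the main term is the derivative of a mean less the split rest. -/
lemma flat_eq (θ : E d) (k t : ℕ) (ht : t ≠ 0) (p : Fin d × (Fin k → Fin d)) (J : Fin t → Fin d) :
    flat U g ε s θ k t p J
      = iteratedFDeriv ℝ t (meanT U ε s (hH (fun y => g y p.1) (xAt U g ε s θ p.1)
          (appCoeffs U ε s θ) k p.2)) θ (bv ∘ J)
        - spl₂ (derivs (fun η => dMean U ε s (fun y => g y p.1) η + -xAt U g ε s θ p.1) θ)
            (derivs (appMean U ε s (appCoeffs U ε s θ)) θ + -deltaO) t J k p.2 := by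
  have hg := obs_comp hU p.1
  rw [show meanT U ε s (hH (fun y => g y p.1) (xAt U g ε s θ p.1) (appCoeffs U ε s θ) k p.2)
      = fun η => spl (dMean U ε s (fun y => g y p.1) η + -xAt U g ε s θ p.1)
          (appMean U ε s (appCoeffs U ε s θ) η) k p.2 from
      funext fun η => meanT_hH hU hε hs k hg _ _ p.2 η,
    iteratedFDeriv_spl (A := fun η => dMean U ε s (fun y => g y p.1) η + -xAt U g ε s θ p.1)
      (fun l j => (smooth_dMean hU hε hs hg l j).add contDiff_const)
      (smooth_appMean hU hε hs _)]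
  have e : spl₂ (derivs (fun η => dMean U ε s (fun y => g y p.1) η + -xAt U g ε s θ p.1) θ)
      deltaO t J k p.2 = flat U g ε s θ k t p J := by
    rw [spl₂_delta, xAt, derivs_centre hU hε hs hg, if_neg ht]
    rfl
  have h := spl₂_add_right t
    (derivs (fun η => dMean U ε s (fun y => g y p.1) η + -xAt U g ε s θ p.1) θ)
    (derivs (appMean U ε s (appCoeffs U ε s θ)) θ + -deltaO) deltaO J k p.2
  rw [neg_add_cancel_right, e] at h
  linarith

/-- The main term. -/
lemma opLe_main (θ : E d) (k t : ℕ) :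
    OpLe (Real.sqrt (hC k) * t.factorial / Real.sqrt s ^ (k + t + 1))
      fun (p : Fin d × (Fin k → Fin d)) (J : Fin t → Fin d) =>
        iteratedFDeriv ℝ t (meanT U ε s (hH (fun y => g y p.1) (xAt U g ε s θ p.1)
          (appCoeffs U ε s θ) k p.2)) θ (bv ∘ J) := by
  intro A N
  have hW := logConc hU hε (p := (θ, s)) hs
  set c := appCoeffs U ε s θ with hc
  set μ := gibbs (pot U ε (θ, s)) with hμ
  set X := xAt U g ε s θ
  have hi : ∀ {ψ : E d → ℝ}, Obs ψ → Integrable ψ μ := fun h => h.poly.integrable hW h.cont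
  have hint : ∀ (p : Fin d × (Fin k → Fin d)) (J : Fin t → Fin d),
      iteratedFDeriv ℝ t (meanT U ε s (hH (fun y => g y p.1) (X p.1) c k p.2)) θ (bv ∘ J)
        = ∫ x, hH (fun y => g y p.1) (X p.1) c k p.2 x * app c t J x ∂μ := fun p J =>
    iteratedFDeriv_mean' hU hε hs t (obs_hH k (obs_comp hU p.1) _ _ _) J θ
  have e : ∑ p, ∑ J, A p * N J *
      iteratedFDeriv ℝ t (meanT U ε s (hH (fun y => g y p.1) (X p.1) c k p.2)) θ (bv ∘ J)
        = ∫ x, hPair g X c k A x * pairing c t N x ∂μ := by
    simp only [hint, ← integral_const_mul]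
    rw [← Fintype.sum_prod_type' (f := fun (p : Fin d × (Fin k → Fin d)) J =>
        ∫ x, A p * N J * (hH (fun y => g y p.1) (X p.1) c k p.2 x * app c t J x) ∂μ),
      ← integral_finsetSum _ fun pq _ =>
        (hi ((obs_hH k (obs_comp hU pq.1.1) (X pq.1.1) c pq.1.2).mul (obs_app t c pq.2))).const_mul _]
    refine integral_congr_ae (ae_of_all _ fun x => ?_)
    simp only [pairing, hPair]
    rw [Finset.sum_mul_sum, Fintype.sum_prod_type]
    exact Finset.sum_congr rfl fun p _ => Finset.sum_congr rfl fun q _ => by ring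
  rw [e]
  have h1 := integral_hPair_sq_le hU hε hs θ k A
  have h2 := integral_pairing_sq_le hU hε hs θ t N
  have hcs := LogConcave.sq_integral_mul_le (μ := μ) (u := hPair g X c k A) (v := pairing c t N)
    ((hi ((obs_hPair hU X c k A).mul (obs_hPair hU X c k A))).congr (ae_of_all _ fun x => by ring))
    ((hi ((obs_pairing c t N).mul (obs_pairing c t N))).congr (ae_of_all _ fun x => by ring))
    (hi ((obs_hPair hU X c k A).mul (obs_pairing c t N)))
  refine (Real.abs_le_sqrt (hcs.trans (mul_le_mul h1 h2 (integral_nonneg fun x => sq_nonneg _)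
    (by have := hC_nonneg k; positivity)))).trans (le_of_eq ?_)
  have e1 : hC k / s ^ (k + 1) * ∑ p, A p ^ 2
      = (Real.sqrt (hC k) / Real.sqrt s ^ (k + 1) * nrm A) ^ 2 := by
    rw [mul_pow, div_pow, ← pow_mul, mul_comm (k + 1) 2, pow_mul, Real.sq_sqrt hs.le,
      Real.sq_sqrt (hC_nonneg k), nrm_sq]
  have e2 : (t.factorial : ℝ) ^ 2 / s ^ t * hs2 N
      = ((t.factorial : ℝ) / Real.sqrt s ^ t * nrm N) ^ 2 := by
    rw [mul_pow, div_pow, ← pow_mul, mul_comm t 2, pow_mul, Real.sq_sqrt hs.le, nrm_sq]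
    rfl
  rw [e1, e2, ← mul_pow,
    Real.sqrt_sq (by have := nrm_nonneg A; have := nrm_nonneg N; positivity), pow_add, pow_add]
  field_simp
  ring

omit hU hε hs

/-- Every flattening of `D^(t+k) E g` is bounded independently of the dimension. -/
theorem exists_opLe_flat : ∀ k t : ℕ, t ≠ 0 → ∃ K : ℝ, 0 ≤ K ∧
    ∀ (d : ℕ) (U : E d → ℝ) (g : E d → E d) (ε : ℝ), Pot U g → 0 ≤ ε → ∀ (s : ℝ), 0 < s →
      ∀ θ : E d, OpLe (K / Real.sqrt s ^ (k + t + 1)) (flat U g ε s θ k t) := by
  intro k
  induction k using Nat.strong_induction_on with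
  | _ k ih =>
  intro t ht
  choose K hK0 hK using ih
  set L : ℕ → ℕ → ℝ := fun a a' => if h : a < k ∧ a' ≠ 0 then K a h.1 a' h.2 else 0 with hL
  have hL0 : ∀ a a', 0 ≤ L a a' := fun a a' => by
    simp only [hL]; split_ifs with h
    · exact hK0 _ _ _ _
    · exact le_rfl
  set C : ℝ := ∑ a ∈ Finset.range (k + 1), ∑ a' ∈ Finset.range (t + 1),
    L a a' * ((k - a).factorial * (t - a').factorial) with hCdef
  refine ⟨Real.sqrt (hC k) * t.factorial + 2 ^ t * (2 ^ k * C), ?_, ?_⟩
  · have : 0 ≤ C := Finset.sum_nonneg fun a _ => Finset.sum_nonneg fun a' _ => by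
      have := hL0 a a'; positivity
    have := Real.sqrt_nonneg (hC k)
    positivity
  intro d U g ε hU hε s hs θ
  set Y := derivs (appMean U ε s (appCoeffs U ε s θ)) θ + -deltaO with hY
  set X : Fin d → Coeffs₂ d := fun i =>
    derivs (fun η => dMean U ε s (fun y => g y i) η + -xAt U g ε s θ i) θ with hXdef
  have hsk : 0 < Real.sqrt s ^ (k + t + 1) := pow_pos (Real.sqrt_pos.2 hs) _
  have rest := opLe_spl₂ t k (C / Real.sqrt s ^ (k + t + 1)) (fun i (_ : Unit) => X i)
    (fun (_ _ : Unit) => Y) fun a b a' b' hab hab' => by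
      obtain ⟨CY0, hCY0, hYop⟩ := OpLe.exists
        fun (p : Unit × (Fin b → Fin d)) (q : Unit × (Fin b' → Fin d)) => Y b' q.2 b p.2
      obtain ⟨CX0, hCX0, hXop⟩ := OpLe.exists
        fun (p : Fin d × (Fin a → Fin d)) (q : Unit × (Fin a' → Fin d)) => X p.1 a' q.2 a p.2
      have hC0 : 0 ≤ C / Real.sqrt s ^ (k + t + 1) := div_nonneg (Finset.sum_nonneg fun a _ =>
        Finset.sum_nonneg fun a' _ => by have := hL0 a a'; positivity) hsk.le
      by_cases ha' : a' = 0
      · refine ⟨0, CY0, le_rfl, hCY0, OpLe.zero.congr fun p q => ?_, hYop, by simpa using hC0⟩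
        subst ha'
        simp [hXdef, xAt, derivs_centre hU hε hs (obs_comp hU p.1)]
      by_cases hb : b = 0 ∨ b' = 0
      · refine ⟨CX0, 0, hCX0, le_rfl, hXop, OpLe.zero.congr fun p q => ?_, by simpa using hC0⟩
        have hW := logConc hU hε (p := (θ, s)) hs
        haveI := LogConcave.isProb hW
        simp only [hY, Pi.add_apply, Pi.neg_apply, derivs_appMean hU hε hs]
        have h0 : ∀ j : Fin 0 → Fin d, app (appCoeffs U ε s θ) 0 j = fun _ => (1 : ℝ) := fun j =>
          funext fun x => appCoeffs_zero hU hε hs θ j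
        rcases b with _ | b <;> rcases b' with _ | b'
        · simp [h0, deltaO, delta0]
        · simp [h0, deltaO, integral_app_eq_zero hU hε hs]
        · simp [h0, deltaO, delta0, integral_app_eq_zero hU hε hs]
        · simp at hb
      push Not at hb
      have hak : a < k := by omega
      refine ⟨K a hak a' ha' / Real.sqrt s ^ (a + a' + 1),
        (b.factorial : ℝ) * b'.factorial / Real.sqrt s ^ (b + b'), div_nonneg (hK0 _ _ _ _)
          (pow_nonneg (Real.sqrt_nonneg _) _), by positivity, ?_, ?_, ?_⟩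
      · refine ((hK a hak a' ha' d U g ε hU hε s hs θ).reindex (Equiv.refl _)
          (Equiv.punitProd _)).congr fun p q => ?_
        simp [hXdef, xAt, flat, derivs_centre hU hε hs (obs_comp hU p.1), ha']
      · refine ((opLe_app hU hε hs θ b b').reindex (Equiv.punitProd _)
          (Equiv.punitProd _)).congr fun p q => ?_
        simp [hY, deltaO, hb.2]
      · rw [div_mul_div_comm, ← pow_add,
          show a + a' + 1 + (b + b') = k + t + 1 by omega]
        refine div_le_div_of_nonneg_right ?_ hsk.le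
        have e1 : k - a = b := by omega
        have e2 : t - a' = b' := by omega
        calc K a hak a' ha' * ((b.factorial : ℝ) * b'.factorial)
            = L a a' * ((k - a).factorial * (t - a').factorial) := by
              simp [hL, hak, ha', e1, e2]
          _ ≤ ∑ a'' ∈ Finset.range (t + 1), L a a'' * ((k - a).factorial * (t - a'').factorial) :=
              Finset.single_le_sum
                (f := fun a'' => L a a'' * ((k - a).factorial * (t - a'').factorial))
                (fun j _ => by have := hL0 a j; positivity) (Finset.mem_range.2 (by omega))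
          _ ≤ C := Finset.single_le_sum
              (f := fun a => ∑ a'' ∈ Finset.range (t + 1),
                L a a'' * ((k - a).factorial * (t - a'').factorial))
              (fun j _ => Finset.sum_nonneg fun l _ => by have := hL0 j l; positivity)
              (Finset.mem_range.2 (by omega))
  have rest' := rest.reindex
    ((Equiv.prodPUnit (Fin d)).symm.prodCongr (Equiv.refl (Fin k → Fin d)))
    ((Equiv.punitProd (Fin t → Fin d)).symm.trans
      ((Equiv.prodPUnit Unit).symm.prodCongr (Equiv.refl (Fin t → Fin d))))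
  refine (((opLe_main hU hε hs θ k t).sub rest').congr fun p q => ?_).mono (le_of_eq ?_)
  · exact (flat_eq hU hε hs θ k t ht p q).symm
  · rw [add_div, mul_div_assoc (2 ^ t : ℝ), mul_div_assoc (2 ^ k : ℝ)]

end Vale.Agent.P347.Gamma0
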