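import Vale.Agent.P347.Gamma0.Split

/-!
P347, towards `γ* = 0`: every flattening of the derivatives of the posterior mean gradient is
bounded independently of the dimension.  For an observable `φ` and a tensor of `x`-moments the
centred mixed polynomial `hH` has bounded variance by Poincaré; differentiating its expectation in
`θ` gives the flattening up to products of flattenings of lower order.
-/

namespace Vale.Agent.P347.Gamma0

open MeasureTheory Filter Topology
open scoped RealInnerProductSpace ContDiff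

variable {d : ℕ} {U : E d → ℝ} {g : E d → E d} {ε : ℝ}

/-- `φ · app c` less the splitting sum of `X` and `app c`. -/
noncomputable def hH : (E d → ℝ) → Coeffs d → Coeffs d → ∀ k, (Fin k → Fin d) → E d → ℝ
  | φ, X, c, 0, idx, x => (φ x - X 0 idx) * c 0 idx
  | φ, X, c, k + 1, idx, x => x (idx 0) * hH φ X c k (Fin.tail idx) x
      + hH φ X (shift (idx 0) c) k (Fin.tail idx) x
      + hH (fun _ => 0) (shift (idx 0) X) c k (Fin.tail idx) x

lemma obs_hH : ∀ (k : ℕ) {φ : E d → ℝ}, Obs φ → ∀ (X c : Coeffs d) (idx : Fin k → Fin d),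
    Obs (hH φ X c k idx)
  | 0, φ, hφ, X, c, idx => by
    have h := (hφ.add (Obs.const (-X 0 idx))).mul (Obs.const (c 0 idx))
    exact ⟨by simpa [hH, sub_eq_add_neg] using h.cont, h.poly.mono fun x => by
      simp [hH, sub_eq_add_neg]⟩
  | k + 1, φ, hφ, X, c, idx => by
    have h := ((Obs.coord (idx 0)).mul (obs_hH k hφ X c (Fin.tail idx))).add
      (obs_hH k hφ X (shift (idx 0) c) (Fin.tail idx))
    exact h.add (obs_hH k (Obs.const 0) (shift (idx 0) X) c (Fin.tail idx))

/-- The part of the gradient of `hH` from the polynomial. -/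
noncomputable def hRest (φ : E d → ℝ) (X c : Coeffs d) (u : Fin d) :
    ∀ k, (Fin k → Fin d) → E d → ℝ
  | 0, _, _ => 0
  | k + 1, idx, x => ∑ i : Fin (k + 1), if idx i = u then hH φ X c k (i.removeNth idx) x else 0

lemma hasFDerivAt_hH (u : Fin d) : ∀ (k : ℕ) {φ : E d → ℝ}, Differentiable ℝ φ →
    ∀ (X c : Coeffs d) (idx : Fin k → Fin d) (x : E d),
    ∃ D : E d →L[ℝ] ℝ, HasFDerivAt (hH φ X c k idx) D x ∧
      D (bv u) = fderiv ℝ φ x (bv u) * app c k idx x + hRest φ X c u k idx x
  | 0, φ, hφ, X, c, idx, x => by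
    refine ⟨c 0 idx • fderiv ℝ φ x, ?_, ?_⟩
    · exact (((hφ x).hasFDerivAt.sub_const (X 0 idx)).mul_const (c 0 idx)).congr_of_eventuallyEq
        (Eventually.of_forall fun y => by simp [hH])
    · simp [app, hRest, mul_comm]
  | k + 1, φ, hφ, X, c, idx, x => by
    obtain ⟨D1, h1, e1⟩ := hasFDerivAt_hH u k hφ X c (Fin.tail idx) x
    obtain ⟨D2, h2, e2⟩ := hasFDerivAt_hH u k hφ X (shift (idx 0) c) (Fin.tail idx) x
    obtain ⟨D3, h3, e3⟩ := hasFDerivAt_hH u k (differentiable_const (0 : ℝ)) (shift (idx 0) X) c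
      (Fin.tail idx) x
    set P : E d →L[ℝ] ℝ := PiLp.proj 2 (fun _ : Fin d => ℝ) (idx 0) with hP
    refine ⟨((x (idx 0) • D1 + hH φ X c k (Fin.tail idx) x • P) + D2) + D3, ?_, ?_⟩
    · exact (((P.hasFDerivAt.mul h1).add h2).add h3).congr_of_eventuallyEq
        (Eventually.of_forall fun y => by simp [hH, hP])
    · have hP1 : P (bv u) = if idx 0 = u then 1 else 0 := by simp [hP, bv, PiLp.proj_apply]
      simp only [ContinuousLinearMap.add_apply, ContinuousLinearMap.smul_apply, smul_eq_mul, hP1,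
        e1, e2, e3, app, hRest, Fin.sum_univ_succ (n := k), Fin.removeNth_zero, fderiv_fun_const,
        Pi.zero_apply, ContinuousLinearMap.zero_apply, zero_mul, zero_add]
      cases k with
      | zero => simp only [Fin.sum_univ_zero, hRest, add_zero, mul_zero]; split_ifs <;> ring
      | succ k =>
        have hs : ∀ j : Fin (k + 1),
            (if idx j.succ = u then hH φ X c (k + 1) (j.succ.removeNth idx) x else 0)
              = x (idx 0) * (if Fin.tail idx j = u then
                    hH φ X c k (j.removeNth (Fin.tail idx)) x else 0)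
                + (if Fin.tail idx j = u then
                    hH φ X (shift (idx 0) c) k (j.removeNth (Fin.tail idx)) x else 0)
                + (if Fin.tail idx j = u then
                    hH (fun _ => 0) (shift (idx 0) X) c k (j.removeNth (Fin.tail idx)) x else 0) := by
          intro j
          have h0 : (j.succ.removeNth idx) 0 = idx 0 := by simp [Fin.removeNth]
          have ht : Fin.tail (j.succ.removeNth idx) = j.removeNth (Fin.tail idx) := funext fun l => by
            simp [Fin.removeNth, Fin.tail]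
          by_cases h : idx j.succ = u
          · simp only [if_pos h, if_pos (show Fin.tail idx j = u from h)]
            rw [hH, h0, ht]
          · simp [if_neg h, if_neg (show ¬ Fin.tail idx j = u from h)]
        simp only [hRest, hs, Finset.sum_add_distrib, ← Finset.mul_sum]
        split_ifs <;> ring

/-! ### Expectations -/

/-- The expectation as a function of `θ`. -/
noncomputable def meanT (U : E d → ℝ) (ε s : ℝ) (φ : E d → ℝ) (θ : E d) : ℝ := mean U ε φ (θ, s)

/-- The derivatives of an expectation. -/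
noncomputable def dMean (U : E d → ℝ) (ε s : ℝ) (φ : E d → ℝ) (θ : E d) : Coeffs d := fun k idx =>
  iteratedFDeriv ℝ k (meanT U ε s φ) θ (bv ∘ idx)

/-- The expectations of the polynomials. -/
noncomputable def appMean (U : E d → ℝ) (ε s : ℝ) (c : Coeffs d) (θ : E d) : Coeffs d := fun k idx =>
  meanT U ε s (app c k idx) θ

variable (hU : Pot U g) (hε : 0 ≤ ε) {s : ℝ} (hs : 0 < s)
include hU hε hs

lemma meanT_eq (φ : E d → ℝ) (θ : E d) :
    meanT U ε s φ θ = ∫ x, φ x ∂gibbs (pot U ε (θ, s)) :=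
  mean_eq hU hε (p := (θ, s)) hs φ

lemma meanT_add {φ ψ : E d → ℝ} (hφ : Obs φ) (hψ : Obs ψ) (θ : E d) :
    meanT U ε s (fun x => φ x + ψ x) θ = meanT U ε s φ θ + meanT U ε s ψ θ := by
  have hW := logConc hU hε (p := (θ, s)) hs
  rw [meanT_eq hU hε hs, meanT_eq hU hε hs, meanT_eq hU hε hs,
    integral_add (hφ.poly.integrable hW hφ.cont) (hψ.poly.integrable hW hψ.cont)]

lemma meanT_coord_mul {φ : E d → ℝ} (hφ : Obs φ) (v : Fin d) (θ : E d) :
    meanT U ε s (fun x => x v * φ x) θ
      = fderiv ℝ (meanT U ε s φ) θ (bv v) + meanT U ε s (fun x => x v) θ * meanT U ε s φ θ := by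
  have hZ := (num_one_pos hU hε (p := (θ, s)) hs).ne'
  have h : HasFDerivAt (meanT U ε s φ) _ θ :=
    HasFDerivAt.comp (g := mean U ε φ) θ (hasFDerivAt_mean hU hε hφ (p := (θ, s)) hs)
      (hasFDerivAt_prodMk_left θ s)
  rw [h.fderiv]
  simp only [ContinuousLinearMap.comp_apply, ContinuousLinearMap.inl_apply,
    ContinuousLinearMap.smul_apply, ContinuousLinearMap.sub_apply, smul_eq_mul, numDeriv_apply_inl,
    meanT, mean, one_mul]
  rw [show (fun x : E d => x v * φ x) = fun x => φ x * x v from funext fun x => mul_comm _ _]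
  field_simp
  ring

lemma smooth_dMean {φ : E d → ℝ} (hφ : Obs φ) : SmoothCoeffs (dMean U ε s φ) := fun k idx =>
  (ContinuousMultilinearMap.apply ℝ (fun _ : Fin k => E d) ℝ (bv ∘ idx)).contDiff.comp
    ((contDiff_mean_theta hU hε hs hφ).iteratedFDeriv_right (m := ∞) (i := k)
      (by exact_mod_cast le_top))

lemma dCoeffs_dMean {φ : E d → ℝ} (hφ : Obs φ) (X : Coeffs d) (v : Fin d) (θ : E d) :
    dCoeffs (bv v) (fun θ => dMean U ε s φ θ + X) θ = shift v (dMean U ε s φ θ) := by
  funext k idx
  simp only [dCoeffs, Pi.add_apply, fderiv_add_const, shift, dMean]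
  rw [iterated_apply_succ (f := meanT U ε s φ) (contDiff_mean_theta hU hε hs hφ)]
  have e5 : Fin.tail (bv ∘ Fin.cons v idx) = bv ∘ idx := funext fun i => by simp [Fin.tail]
  simp [e5]

lemma smooth_appMean (c : Coeffs d) : SmoothCoeffs (appMean U ε s c) := fun k idx =>
  contDiff_mean_theta hU hε hs (obs_app k c idx)

lemma shift_appMean (c : Coeffs d) (v : Fin d) (θ : E d) :
    shift v (appMean U ε s c θ) = dCoeffs (bv v) (appMean U ε s c) θ
      + meanT U ε s (fun x => x v) θ • appMean U ε s c θ + appMean U ε s (shift v c) θ := by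
  funext k idx
  simp only [shift, appMean, Pi.add_apply, Pi.smul_apply, smul_eq_mul, dCoeffs]
  rw [show app c (k + 1) (Fin.cons v idx) = fun x => x v * app c k idx x + app (shift v c) k idx x
      from funext fun x => by simp [app],
    meanT_add hU hε hs ((Obs.coord v).mul (obs_app k c idx)) (obs_app k _ idx),
    meanT_coord_mul hU hε hs (obs_app k c idx)]

lemma dMean_zero (θ : E d) : dMean U ε s (fun _ => 0) θ = 0 := by
  funext k idx
  have e : meanT U ε s (fun _ : E d => (0 : ℝ)) = fun _ => (0 : ℝ) :=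
    funext fun θ => by simp [meanT, mean, num]
  simp only [dMean, e, Pi.zero_apply]
  cases k with
  | zero => simp
  | succ k => simp [iteratedFDeriv_succ_const]

/-- The expectation of `hH` is a splitting sum. -/
theorem meanT_hH : ∀ (k : ℕ) {φ : E d → ℝ}, Obs φ → ∀ (X c : Coeffs d) (idx : Fin k → Fin d)
    (θ : E d),
    meanT U ε s (hH φ X c k idx) θ
      = spl (dMean U ε s φ θ + -X) (appMean U ε s c θ) k idx
  | 0, φ, hφ, X, c, idx, θ => by
    have hW := logConc hU hε (p := (θ, s)) hs
    haveI := LogConcave.isProb hW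
    have hi := hφ.poly.integrable hW hφ.cont
    rw [meanT_eq hU hε hs]
    simp only [hH, spl, Pi.add_apply, Pi.neg_apply, dMean, iteratedFDeriv_zero_apply, appMean, app]
    rw [integral_mul_const, integral_sub hi (integrable_const _), integral_const,
      meanT_eq hU hε hs φ θ, meanT_eq hU hε hs (fun _ => c 0 idx) θ, integral_const]
    simp [sub_eq_add_neg]
  | k + 1, φ, hφ, X, c, idx, θ => by
    have o1 := obs_hH k hφ X c (Fin.tail idx)
    have o2 := obs_hH k hφ X (shift (idx 0) c) (Fin.tail idx)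
    have o3 := obs_hH k (Obs.const (d := d) 0) (shift (idx 0) X) c (Fin.tail idx)
    rw [show hH φ X c (k + 1) idx = fun x => x (idx 0) * hH φ X c k (Fin.tail idx) x
        + hH φ X (shift (idx 0) c) k (Fin.tail idx) x
        + hH (fun _ => 0) (shift (idx 0) X) c k (Fin.tail idx) x from funext fun x => rfl,
      meanT_add hU hε hs (((Obs.coord _).mul o1).add o2) o3,
      meanT_add hU hε hs ((Obs.coord _).mul o1) o2, meanT_coord_mul hU hε hs o1]
    have ef : meanT U ε s (hH φ X c k (Fin.tail idx))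
        = fun θ => spl (dMean U ε s φ θ + -X) (appMean U ε s c θ) k (Fin.tail idx) :=
      funext fun θ' => meanT_hH k hφ X c _ θ'
    have hA : SmoothCoeffs fun θ => dMean U ε s φ θ + -X := fun l j =>
      (smooth_dMean hU hε hs hφ l j).add contDiff_const
    obtain ⟨D, hD, hDv⟩ := hasFDerivAt_spl hA (smooth_appMean hU hε hs c) k (Fin.tail idx) θ
    rw [ef, hD.fderiv, hDv, dCoeffs_dMean hU hε hs hφ, meanT_hH k hφ X _ _ θ,
      meanT_hH k (Obs.const 0) _ _ _ θ, dMean_zero hU hε hs]
    simp only [spl, shift_appMean hU hε hs, spl_add_right, spl_smul_right, zero_add,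
      show shift (idx 0) (dMean U ε s φ θ + -X)
        = shift (idx 0) (dMean U ε s φ θ) + -shift (idx 0) X from rfl, spl_add_left]
    ring

omit hs

/-- `g` is `C¹`. -/
lemma differentiable_grad : Differentiable ℝ g ∧ Continuous (fderiv ℝ g) := by
  have e : g = fun x => (InnerProductSpace.toDual ℝ (E d)).symm (fderiv ℝ U x) := funext fun x => by
    rw [((hU.grad x).hasFDerivAt).fderiv, LinearIsometryEquiv.symm_apply_apply]
  have h : ContDiff ℝ 1 g := by
    rw [e]
    exact (InnerProductSpace.toDual ℝ (E d)).symm.toContinuousLinearEquiv.contDiff.comp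
      (hU.contDiff.fderiv_right (m := 1) (by norm_num))
  exact ⟨h.differentiable one_ne_zero, h.continuous_fderiv one_ne_zero⟩

omit hε

lemma norm_fderiv_grad_le (x : E d) : ‖fderiv ℝ g x‖ ≤ 1 := by
  simpa using norm_fderiv_le_of_lipschitz ℝ hU.lip (x₀ := x)

omit hU

/-- The pairing of `hH`, for the components of `g`, with a tensor. -/
noncomputable def hPair (g : E d → E d) (X : Fin d → Coeffs d) (c : Coeffs d) (k : ℕ)
    (A : Fin d × (Fin k → Fin d) → ℝ) (x : E d) : ℝ :=
  ∑ p : Fin d × (Fin k → Fin d), A p * hH (fun y => g y p.1) (X p.1) c k p.2 x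

/-- The centring data at `θ₀`. -/
noncomputable def xAt (U : E d → ℝ) (g : E d → E d) (ε s : ℝ) (θ₀ : E d) : Fin d → Coeffs d :=
  fun i => dMean U ε s (fun y => g y i) θ₀

include hU

lemma obs_comp (i : Fin d) : Obs fun y => g y i := by
  simpa [bv, EuclideanSpace.inner_single_left] using Obs.grad hU (bv i)

lemma obs_hPair (X : Fin d → Coeffs d) (c : Coeffs d) (k : ℕ)
    (A : Fin d × (Fin k → Fin d) → ℝ) : Obs (hPair g X c k A) :=
  Obs.sum _ fun p _ => (Obs.const _).mul (obs_hH k (obs_comp hU p.1) _ _ _)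

/-- The vector of polynomials multiplying the derivative of `g`. -/
noncomputable def vPart (c : Coeffs d) (k : ℕ) (A : Fin d × (Fin k → Fin d) → ℝ) (x : E d) : E d :=
  WithLp.toLp 2 fun i => pairing c k (fun idx => A (i, idx)) x

/-- The gradient of `hPair`. -/
noncomputable def hPairGrad (g : E d → E d) (X : Fin d → Coeffs d) (c : Coeffs d) :
    ∀ k, (Fin d × (Fin k → Fin d) → ℝ) → E d → E d
  | 0, A, x => ContinuousLinearMap.adjoint (fderiv ℝ g x) (vPart c 0 A x)
  | k + 1, A, x => ContinuousLinearMap.adjoint (fderiv ℝ g x) (vPart c (k + 1) A x)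
      + WithLp.toLp 2 fun u => ∑ i : Fin (k + 1),
          hPair g X c k (fun p => A (p.1, i.insertNth u p.2)) x

lemma adjoint_apply_bv (c : Coeffs d) (k : ℕ) (A : Fin d × (Fin k → Fin d) → ℝ) (x : E d)
    (u : Fin d) : (ContinuousLinearMap.adjoint (fderiv ℝ g x) (vPart c k A x)) u
      = ∑ p : Fin d × (Fin k → Fin d), A p * (fderiv ℝ g x (bv u) p.1 * app c k p.2 x) := by
  have h : (ContinuousLinearMap.adjoint (fderiv ℝ g x) (vPart c k A x)) u
      = ⟪vPart c k A x, fderiv ℝ g x (bv u)⟫ := by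
    rw [← ContinuousLinearMap.adjoint_inner_left, bv, EuclideanSpace.inner_single_right]
    simp
  rw [h, PiLp.inner_apply, Fintype.sum_prod_type]
  refine Finset.sum_congr rfl fun i _ => ?_
  simp only [vPart, pairing, RCLike.inner_apply, conj_trivial, Finset.mul_sum]
  exact Finset.sum_congr rfl fun idx _ => by ring

include hε

lemma hasGradientAt_hPair (X : Fin d → Coeffs d) (c : Coeffs d) (k : ℕ)
    (A : Fin d × (Fin k → Fin d) → ℝ) (x : E d) :
    HasGradientAt (hPair g X c k A) (hPairGrad g X c k A x) x := by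
  have hg := (differentiable_grad hU hε).1
  have hgi : ∀ i, Differentiable ℝ fun y => g y i := fun i =>
    (PiLp.proj 2 (fun _ : Fin d => ℝ) i : E d →L[ℝ] ℝ).differentiable.comp hg
  have hfd : ∀ i v, fderiv ℝ (fun y => g y i) x v = fderiv ℝ g x v i := fun i v => by
    rw [show (fun y => g y i) = (PiLp.proj 2 (fun _ : Fin d => ℝ) i : E d →L[ℝ] ℝ) ∘ g from rfl,
      fderiv_comp x (ContinuousLinearMap.differentiableAt _) (hg x), ContinuousLinearMap.fderiv]
    rfl
  have hdiff : ∀ p : Fin d × (Fin k → Fin d),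
      DifferentiableAt ℝ (hH (fun y => g y p.1) (X p.1) c k p.2) x := fun p => by
    rcases Nat.eq_zero_or_pos d with h | h
    · subst h; exact p.1.elim0
    · obtain ⟨D, hD, -⟩ := hasFDerivAt_hH ⟨0, h⟩ k (hgi p.1) (X p.1) c p.2 x
      exact hD.differentiableAt
  rw [hasGradientAt_iff_hasFDerivAt]
  have hsum : HasFDerivAt (hPair g X c k A)
      (∑ p, A p • fderiv ℝ (hH (fun y => g y p.1) (X p.1) c k p.2) x) x :=
    HasFDerivAt.fun_sum fun p _ => (hdiff p).hasFDerivAt.const_mul (A p)
  refine hsum.congr_fderiv (ContinuousLinearMap.coe_inj.1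
    ((EuclideanSpace.basisFun (Fin d) ℝ).toBasis.ext fun u => ?_))
  have hu : ∀ p : Fin d × (Fin k → Fin d), fderiv ℝ (hH (fun y => g y p.1) (X p.1) c k p.2) x (bv u)
      = fderiv ℝ g x (bv u) p.1 * app c k p.2 x
        + hRest (fun y => g y p.1) (X p.1) c u k p.2 x := by
    intro p
    obtain ⟨D, hD, e⟩ := hasFDerivAt_hH u k (hgi p.1) (X p.1) c p.2 x
    rw [hD.fderiv, e, hfd]
  simp only [OrthonormalBasis.coe_toBasis, EuclideanSpace.basisFun_apply, ContinuousLinearMap.coe_coe,
    InnerProductSpace.toDual_apply_apply, ContinuousLinearMap.coe_sum', Finset.sum_apply,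
    ContinuousLinearMap.smul_apply, smul_eq_mul, EuclideanSpace.inner_single_right, conj_trivial,
    one_mul]
  change ∑ p, A p * fderiv ℝ (hH (fun y => g y p.1) (X p.1) c k p.2) x (bv u) = _
  simp only [hu, mul_add, Finset.sum_add_distrib]
  cases k with
  | zero => simp [hPairGrad, hRest, adjoint_apply_bv hU c 0 A x u]
  | succ k =>
    simp only [hPairGrad, PiLp.add_apply, adjoint_apply_bv hU c (k + 1) A x u]
    congr 1
    simp only [hRest, Finset.mul_sum, mul_ite, mul_zero]
    rw [Finset.sum_comm]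
    refine Finset.sum_congr rfl fun i _ => ?_
    simp only [hPair, Fintype.sum_prod_type]
    refine Finset.sum_congr rfl fun a _ => ?_
    rw [sum_slot i u fun idx => A (a, idx) * hH (fun y => g y a) (X a) c k (i.removeNth idx) x]
    simp

include hs

omit hU hε hs in
/-- The constants of the variance bound. -/
def hC : ℕ → ℝ
  | 0 => 1
  | k + 1 => 2 * ((k + 1).factorial : ℝ) ^ 2 + 2 * ((k + 1 : ℕ) : ℝ) ^ 2 * hC k

omit hU hε hs in
lemma hC_nonneg : ∀ k, 0 ≤ hC k
  | 0 => zero_le_one
  | k + 1 => by have := hC_nonneg k; rw [hC]; positivity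

lemma integral_vPart_sq_le (θ : E d) (k : ℕ) (A : Fin d × (Fin k → Fin d) → ℝ) :
    ∫ x, ‖vPart (appCoeffs U ε s θ) k A x‖ ^ 2 ∂gibbs (pot U ε (θ, s))
      ≤ (k.factorial : ℝ) ^ 2 / s ^ k * ∑ p, A p ^ 2 := by
  have hW := logConc hU hε (p := (θ, s)) hs
  have h1 : ∀ i : Fin d, Integrable (fun x =>
      pairing (appCoeffs U ε s θ) k (fun idx => A (i, idx)) x ^ 2) (gibbs (pot U ε (θ, s))) :=
    fun i => by
      have h := (obs_pairing (appCoeffs U ε s θ) k fun idx => A (i, idx)).mul
        (obs_pairing (appCoeffs U ε s θ) k fun idx => A (i, idx))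
      exact (h.poly.integrable hW h.cont).congr (ae_of_all _ fun x => by ring)
  simp only [EuclideanSpace.norm_sq_eq, vPart, Real.norm_eq_abs, sq_abs]
  rw [integral_finsetSum _ fun i _ => h1 i, Fintype.sum_prod_type, Finset.mul_sum]
  exact Finset.sum_le_sum fun i _ => integral_pairing_sq_le hU hε hs θ k _

lemma meanT_hH_self (θ : E d) (k : ℕ) {φ : E d → ℝ} (hφ : Obs φ) (c : Coeffs d)
    (idx : Fin k → Fin d) : meanT U ε s (hH φ (dMean U ε s φ θ) c k idx) θ = 0 := by
  rw [meanT_hH hU hε hs k hφ, add_neg_cancel, spl_zero_left]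

lemma norm_adjoint_vPart_le (c : Coeffs d) (k : ℕ) (A : Fin d × (Fin k → Fin d) → ℝ) (x : E d) :
    ‖ContinuousLinearMap.adjoint (fderiv ℝ g x) (vPart c k A x)‖ ≤ ‖vPart c k A x‖ := by
  refine (ContinuousLinearMap.le_opNorm _ _).trans (mul_le_of_le_one_left (norm_nonneg _) ?_)
  rw [LinearIsometryEquiv.norm_map]
  exact norm_fderiv_grad_le hU x

lemma obs_norm_sq {f : E d → E d} (h : ∀ u, Obs fun x => f x u) :
    Obs fun x => ‖f x‖ ^ 2 := by
  have h2 := Obs.sum Finset.univ fun u (_ : u ∈ (Finset.univ : Finset (Fin d))) => (h u).mul (h u)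
  rw [show (fun x => ‖f x‖ ^ 2) = fun x => ∑ u, f x u * f x u from funext fun x => by
    rw [EuclideanSpace.norm_sq_eq]
    exact Finset.sum_congr rfl fun u _ => by rw [Real.norm_eq_abs, sq_abs, sq]]
  exact h2

lemma obs_vPart (c : Coeffs d) (k : ℕ) (A : Fin d × (Fin k → Fin d) → ℝ) (i : Fin d) :
    Obs fun x => vPart c k A x i := by
  simpa [vPart] using obs_pairing c k fun idx => A (i, idx)

/-- Poincaré for `hPair`, given any bound for the gradient. -/
lemma hPair_poincare (θ : E d) (k : ℕ) (A : Fin d × (Fin k → Fin d) → ℝ) {B : E d → ℝ} (hB : Obs B)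
    (hgrad : ∀ x, ‖hPairGrad g (xAt U g ε s θ) (appCoeffs U ε s θ) k A x‖ ^ 2 ≤ B x) :
    ∫ x, hPair g (xAt U g ε s θ) (appCoeffs U ε s θ) k A x ^ 2 ∂gibbs (pot U ε (θ, s))
      ≤ (∫ x, B x ∂gibbs (pot U ε (θ, s))) / s := by
  have hW := logConc hU hε (p := (θ, s)) hs
  haveI := LogConcave.isProb hW
  set X := xAt U g ε s θ
  set c := appCoeffs U ε s θ
  obtain ⟨N, M, hN, hb⟩ := hB.poly
  have hgrow : ∀ x, ‖hPairGrad g X c k A x‖ ≤ (N + 1) * (1 + ‖x‖) ^ M := by
    intro x
    have h1 := (hgrad x).trans ((le_abs_self _).trans (hb x))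
    have h2 : (1:ℝ) ≤ (1 + ‖x‖) ^ M := one_le_pow₀ (le_add_of_nonneg_right (norm_nonneg x))
    nlinarith [sq_nonneg (‖hPairGrad g X c k A x‖ - 1)]
  have hg1 := (differentiable_grad hU hε).2
  have hgc : Continuous (hPairGrad g X c k A) := by
    have hv : ∀ j B', Continuous (vPart c j B' : E d → E d) := fun j B' =>
      (PiLp.continuous_toLp 2 fun _ : Fin d => ℝ).comp
        (continuous_pi fun i => (obs_pairing c j fun idx => B' (i, idx)).cont)
    have hadj : ∀ j B', Continuous fun x =>
        ContinuousLinearMap.adjoint (fderiv ℝ g x) (vPart c j B' x) := fun j B' =>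
      (ContinuousLinearMap.adjoint.continuous.comp hg1).clm_apply (hv j B')
    cases k with
    | zero => exact hadj 0 A
    | succ k =>
      exact (hadj (k + 1) A).add ((PiLp.continuous_toLp 2 fun _ : Fin d => ℝ).comp
        (continuous_pi fun u => continuous_finsetSum _ fun i _ => (obs_hPair hU X c k _).cont))
  have hP := poincare d (pot U ε (θ, s)) _ _ hW (hPair g X c k A) (hPairGrad g X c k A) hgc
    (hasGradientAt_hPair hU hε X c k A) _ _ hgrow
  have h0 : ∫ x, hPair g X c k A x ∂gibbs (pot U ε (θ, s)) = 0 := by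
    simp only [hPair]
    rw [integral_finsetSum _ fun p _ => ((Obs.const _).mul (obs_hH k (obs_comp hU p.1) _ c
      p.2)).poly.integrable hW ((Obs.const _).mul (obs_hH k (obs_comp hU p.1) _ c p.2)).cont]
    refine Finset.sum_eq_zero fun p _ => ?_
    rw [integral_const_mul, ← meanT_eq hU hε hs]
    simp [X, xAt, meanT_hH_self hU hε hs θ k (obs_comp hU p.1)]
  simp only [cov', h0, ← sq] at hP
  rw [zero_pow two_ne_zero, sub_zero] at hP
  refine hP.trans (div_le_div_of_nonneg_right ?_ hs.le)
  exact integral_mono_of_nonneg (ae_of_all _ fun x => sq_nonneg _)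
    (hB.poly.integrable hW hB.cont) (ae_of_all _ hgrad)

/-- `hPair` has bounded variance. -/
theorem integral_hPair_sq_le (θ : E d) : ∀ (k : ℕ) (A : Fin d × (Fin k → Fin d) → ℝ),
    ∫ x, hPair g (xAt U g ε s θ) (appCoeffs U ε s θ) k A x ^ 2 ∂gibbs (pot U ε (θ, s))
      ≤ hC k / s ^ (k + 1) * ∑ p, A p ^ 2 := by
  have hW := logConc hU hε (p := (θ, s)) hs
  haveI := LogConcave.isProb hW
  set X := xAt U g ε s θ with hX
  set c := appCoeffs U ε s θ with hc
  intro k
  induction k with
  | zero =>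
    intro A
    have h := hPair_poincare hU hε hs θ 0 A (obs_norm_sq hU hε hs (obs_vPart hU hε hs c 0 A))
      fun x => pow_le_pow_left₀ (norm_nonneg _) (norm_adjoint_vPart_le hU hε hs c 0 A x) 2
    refine h.trans ((div_le_div_of_nonneg_right (integral_vPart_sq_le hU hε hs θ 0 A)
      hs.le).trans (le_of_eq ?_))
    simp [hC]
    ring
  | succ k ih =>
    intro A
    set P : Fin (k + 1) → Fin d → Fin d × (Fin k → Fin d) → ℝ :=
      fun i u p => A (p.1, i.insertNth u p.2) with hP
    set S : E d → ℝ := fun x => ∑ u, ∑ i, hPair g X c k (P i u) x * hPair g X c k (P i u) x with hS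
    have oS : Obs S := Obs.sum _ fun u _ => Obs.sum _ fun i _ =>
      (obs_hPair hU X c k _).mul (obs_hPair hU X c k _)
    have oV := obs_norm_sq hU hε hs (obs_vPart hU hε hs c (k + 1) A)
    have hgr : ∀ x, ‖hPairGrad g X c (k + 1) A x‖ ^ 2
        ≤ 2 * ‖vPart c (k + 1) A x‖ ^ 2 + 2 * ((k + 1 : ℕ) : ℝ) * S x := by
      intro x
      set a := ContinuousLinearMap.adjoint (fderiv ℝ g x) (vPart c (k + 1) A x)
      set b : E d := WithLp.toLp 2 fun u => ∑ i : Fin (k + 1), hPair g X c k (P i u) x with hb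
      have ha := pow_le_pow_left₀ (norm_nonneg a) (norm_adjoint_vPart_le hU hε hs c (k + 1) A x) 2
      have hb2 : ‖b‖ ^ 2 ≤ ((k + 1 : ℕ) : ℝ) * S x := by
        simp only [hb, hS, EuclideanSpace.norm_sq_eq, Real.norm_eq_abs, sq_abs, Finset.mul_sum]
        refine Finset.sum_le_sum fun u _ => ?_
        rw [← Finset.mul_sum]
        simpa [sq] using sq_sum_le_card_mul_sum_sq (s := Finset.univ)
          (f := fun i : Fin (k + 1) => hPair g X c k (P i u) x)
      have h2 : ‖a + b‖ ^ 2 ≤ 2 * ‖a‖ ^ 2 + 2 * ‖b‖ ^ 2 := by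
        have := pow_le_pow_left₀ (norm_nonneg (a + b)) (norm_add_le a b) 2
        nlinarith [sq_nonneg (‖a‖ - ‖b‖)]
      calc ‖hPairGrad g X c (k + 1) A x‖ ^ 2 = ‖a + b‖ ^ 2 := rfl
        _ ≤ _ := by linarith
    have oB : Obs fun x => 2 * ‖vPart c (k + 1) A x‖ ^ 2 + 2 * ((k + 1 : ℕ) : ℝ) * S x :=
      ((Obs.const 2).mul oV).add ((Obs.const _).mul oS)
    refine (hPair_poincare hU hε hs θ (k + 1) A oB hgr).trans ?_
    rw [integral_add (((Obs.const 2).mul oV).poly.integrable hW ((Obs.const 2).mul oV).cont)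
      (((Obs.const _).mul oS).poly.integrable hW ((Obs.const _).mul oS).cont),
      integral_const_mul, integral_const_mul]
    have hV := integral_vPart_sq_le hU hε hs θ (k + 1) A
    have hSb : ∫ x, S x ∂gibbs (pot U ε (θ, s))
        ≤ hC k / s ^ (k + 1) * ((k + 1 : ℕ) : ℝ) * ∑ p, A p ^ 2 := by
      have hi : ∀ u i, Integrable (fun x => hPair g X c k (P i u) x * hPair g X c k (P i u) x)
          (gibbs (pot U ε (θ, s))) := fun u i =>
        ((obs_hPair hU X c k _).mul (obs_hPair hU X c k _)).poly.integrable hW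
          ((obs_hPair hU X c k _).mul (obs_hPair hU X c k _)).cont
      simp only [hS]
      rw [integral_finsetSum _ fun u _ => integrable_finsetSum _ fun i _ => hi u i]
      refine (Finset.sum_le_sum fun u _ => le_of_eq_of_le (integral_finsetSum _ fun i _ => hi u i)
        (Finset.sum_le_sum fun i _ => le_of_eq_of_le (integral_congr_ae (ae_of_all _ fun x =>
          (sq _).symm)) (ih (P i u)))).trans (le_of_eq ?_)
      rw [Finset.sum_comm]
      simp only [← Finset.mul_sum, hP]
      have e : ∀ i : Fin (k + 1), ∑ u, ∑ p : Fin d × (Fin k → Fin d),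
          A (p.1, i.insertNth u p.2) ^ 2 = ∑ p, A p ^ 2 := by
        intro i
        simp only [Fintype.sum_prod_type]
        rw [Finset.sum_comm]
        refine Finset.sum_congr rfl fun a _ => ?_
        rw [← Equiv.sum_comp (Fin.insertNthEquiv (fun _ => Fin d) i), Fintype.sum_prod_type]
        simp [Fin.insertNthEquiv]
      simp only [e, Finset.sum_const, Finset.card_univ, Fintype.card_fin, nsmul_eq_mul]
      ring
    refine (div_le_div_of_nonneg_right (add_le_add (mul_le_mul_of_nonneg_left hV zero_le_two)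
      (mul_le_mul_of_nonneg_left hSb (by positivity))) hs.le).trans (le_of_eq ?_)
    simp only [hC]
    field_simp
    ring

/-- The kernel of `D^t D^k E g`. -/
noncomputable def flat (U : E d → ℝ) (g : E d → E d) (ε s : ℝ) (θ : E d) (k t : ℕ)
    (p : Fin d × (Fin k → Fin d)) (J : Fin t → Fin d) : ℝ :=
  derivs (dMean U ε s fun y => g y p.1) θ t J k p.2

end Vale.Agent.P347.Gamma0
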