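import Mathlib

/-!
P347, Gamma0: smooth flows of time dependent fields with bounded trajectories.
Global existence, uniqueness, differentiability in the initial point with the variational
equation, and smoothness of every order by passing to the extended system.
-/

namespace Vale.Agent.P347.Gamma0.OdeFlow

open Set Metric Filter Topology
open scoped ContDiff NNReal

variable {F : Type} [NormedAddCommGroup F] [NormedSpace ℝ F]

/-- `γ` solves `γ' = w t γ` on `I`. -/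
def Sol (w : ℝ → F → F) (I : Set ℝ) (γ : ℝ → F) : Prop :=
  ∀ t ∈ I, HasDerivAt γ (w t (γ t)) t

theorem gronwall_fwd {f f' : ℝ → F} {K ε s t : ℝ} (hst : s ≤ t)
    (hf : ∀ u ∈ Icc s t, HasDerivAt f (f' u) u)
    (hb : ∀ u ∈ Icc s t, ‖f' u‖ ≤ K * ‖f u‖ + ε) :
    ‖f t‖ ≤ gronwallBound ‖f s‖ K ε (t - s) :=
  norm_le_gronwallBound_of_norm_deriv_right_le
    (fun u hu => (hf u hu).continuousAt.continuousWithinAt)
    (fun u hu => (hf u (Ico_subset_Icc_self hu)).hasDerivWithinAt) le_rfl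
    (fun u hu => hb u (Ico_subset_Icc_self hu)) t ⟨hst, le_rfl⟩

/-- Two sided Gronwall inequality. -/
theorem gronwall_abs {f f' : ℝ → F} {K ε a b δ s t : ℝ} (hK : 0 ≤ K) (hε : 0 ≤ ε)
    (hs : s ∈ Icc a b) (ht : t ∈ Icc a b) (hf : ∀ u ∈ Icc a b, HasDerivAt f (f' u) u)
    (hb : ∀ u ∈ Icc a b, ‖f' u‖ ≤ K * ‖f u‖ + ε) (hδ : ‖f s‖ ≤ δ) :
    ‖f t‖ ≤ gronwallBound δ K ε (b - a) := by
  have key : ‖f t‖ ≤ gronwallBound ‖f s‖ K ε |t - s| := by
    rcases le_total s t with h | h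
    · rw [abs_of_nonneg (sub_nonneg.2 h)]
      have hsub : Icc s t ⊆ Icc a b := Icc_subset_Icc hs.1 ht.2
      exact gronwall_fwd h (fun u hu => hf u (hsub hu)) (fun u hu => hb u (hsub hu))
    · rw [abs_of_nonpos (sub_nonpos.2 h), neg_sub]
      have hmem : ∀ u ∈ Icc (-s) (-t), -u ∈ Icc a b := fun u hu =>
        ⟨by linarith [hu.2, ht.1], by linarith [hu.1, hs.2]⟩
      have := gronwall_fwd (f := fun u => f (-u)) (f' := fun u => -f' (-u)) (K := K) (ε := ε)
        (neg_le_neg h) (fun u hu => by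
          simpa [Function.comp_def] using (hf (-u) (hmem u hu)).scomp u (hasDerivAt_neg u))
        (fun u hu => by simpa using hb (-u) (hmem u hu))
      simpa [neg_add_eq_sub] using this
  have hle : |t - s| ≤ b - a := abs_le.2 ⟨by linarith [ht.1, hs.2], by linarith [ht.2, hs.1]⟩
  refine key.trans ((gronwallBound_mono (norm_nonneg _) hε hK hle).trans ?_)
  rcases eq_or_ne K 0 with h | h
  · simp [gronwallBound_K0, h, hδ]
  · simp only [gronwallBound_of_K_ne_0 h]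
    gcongr

/-- Linear growth, locally uniformly in time. -/
def Growth (w : ℝ → F → F) (a b : ℝ) : Prop :=
  ∀ a' b', a < a' → b' < b → ∃ C : ℝ, ∀ t ∈ Icc a' b', ∀ x, ‖w t x‖ ≤ C * (1 + ‖x‖)

/-- Trajectories from bounded initial points are bounded on compact time intervals. -/
def Bounded (Ψ : F → ℝ → F) (a b : ℝ) : Prop :=
  ∀ a' b', a < a' → b' < b → ∀ R : ℝ, ∃ R' : ℝ, ∀ x, ‖x‖ ≤ R → ∀ u ∈ Icc a' b', ‖Ψ x u‖ ≤ R'

theorem exists_sub_interval {a b s t : ℝ} (hs : s ∈ Ioo a b) (ht : t ∈ Ioo a b) :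
    ∃ a' b', a < a' ∧ b' < b ∧ s ∈ Ioo a' b' ∧ t ∈ Ioo a' b' := by
  refine ⟨(a + min s t) / 2, (b + max s t) / 2, ?_, ?_, ⟨?_, ?_⟩, ⟨?_, ?_⟩⟩ <;>
    grind

theorem Icc_sub_Ioo {a b a' b' : ℝ} (ha : a < a') (hb : b' < b) : Icc a' b' ⊆ Ioo a b :=
  fun _ h => ⟨ha.trans_le h.1, h.2.trans_lt hb⟩

theorem growth_bound {w : ℝ → F → F} {a' b' s t C R : ℝ} {γ : ℝ → F} (hs : s ∈ Icc a' b')
    (ht : t ∈ Icc a' b') (hγ : Sol w (Icc a' b') γ)
    (hC : ∀ u ∈ Icc a' b', ∀ x, ‖w u x‖ ≤ C * (1 + ‖x‖)) (hR : ‖γ s‖ ≤ R) :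
    ‖γ t‖ ≤ gronwallBound R C C (b' - a') := by
  have hC0 : 0 ≤ C := by simpa using (norm_nonneg _).trans (hC s hs 0)
  exact gronwall_abs hC0 hC0 hs ht hγ
    (fun u hu => (hC u hu (γ u)).trans_eq (by ring)) hR

theorem bounded_of_growth {w : ℝ → F → F} {a b s : ℝ} {Ψ : F → ℝ → F} (hs : s ∈ Ioo a b)
    (hg : Growth w a b) (hΨ : ∀ x, Sol w (Ioo a b) (Ψ x)) (h0 : ∀ x, Ψ x s = x) :
    Bounded Ψ a b := by
  intro a' b' ha hb R
  have ha1 : a < min a' s := lt_min ha hs.1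
  have hb1 : max b' s < b := max_lt hb hs.2
  obtain ⟨C, hC⟩ := hg _ _ ha1 hb1
  refine ⟨gronwallBound R C C (max b' s - min a' s), fun x hx u hu => ?_⟩
  exact growth_bound (w := w) ⟨min_le_right _ _, le_max_right _ _⟩
    ⟨(min_le_left _ _).trans hu.1, hu.2.trans (le_max_left _ _)⟩
    (fun t ht => hΨ x t (Icc_sub_Ioo ha1 hb1 ht)) hC (by rw [h0]; exact hx)

/-- Lipschitz on balls, locally uniformly in time. -/
def LocLip (w : ℝ → F → F) (a b : ℝ) : Prop :=
  ∀ a' b', a < a' → b' < b → ∀ R : ℝ, ∃ K : ℝ≥0, ∀ t ∈ Icc a' b',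
    LipschitzOnWith K (w t) (closedBall 0 R)

theorem unique {w : ℝ → F → F} {a b s : ℝ} (hl : LocLip w a b) {f g : ℝ → F} (hs : s ∈ Ioo a b)
    (hf : Sol w (Ioo a b) f) (hg : Sol w (Ioo a b) g) (h : f s = g s) :
    ∀ t ∈ Ioo a b, f t = g t := by
  intro t ht
  obtain ⟨a', b', ha, hb, hs', ht'⟩ := exists_sub_interval hs ht
  have hsub := Icc_sub_Ioo ha hb
  obtain ⟨R1, hR1⟩ := isCompact_Icc.exists_bound_of_continuousOn
    (fun u hu => (hf u (hsub hu)).continuousAt.continuousWithinAt : ContinuousOn f (Icc a' b'))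
  obtain ⟨R2, hR2⟩ := isCompact_Icc.exists_bound_of_continuousOn
    (fun u hu => (hg u (hsub hu)).continuousAt.continuousWithinAt : ContinuousOn g (Icc a' b'))
  obtain ⟨K, hK⟩ := hl a' b' ha hb (max R1 R2)
  have := gronwall_abs (f := fun u => f u - g u) (f' := fun u => w u (f u) - w u (g u)) (δ := 0)
    K.coe_nonneg le_rfl (Ioo_subset_Icc_self hs') (Ioo_subset_Icc_self ht')
    (fun u hu => (hf u (hsub hu)).sub (hg u (hsub hu)))
    (fun u hu => by
      rw [add_zero]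
      exact (hK u hu).norm_sub_le (mem_closedBall_zero_iff.2 ((hR1 u hu).trans (le_max_left _ _)))
        (mem_closedBall_zero_iff.2 ((hR2 u hu).trans (le_max_right _ _))))
    (by simp [h])
  rw [gronwallBound_ε0_δ0] at this
  exact sub_eq_zero.1 (norm_le_zero_iff.1 this)

theorem exists_sol [CompleteSpace F] {w : ℝ → F → F} {a b : ℝ}
    (hc : ∀ x, ContinuousOn (fun t => w t x) (Ioo a b)) (hl : LocLip w a b) (hg : Growth w a b)
    {s : ℝ} (hs : s ∈ Ioo a b) (x : F) : ∃ γ : ℝ → F, γ s = x ∧ Sol w (Ioo a b) γ := by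
  classical
  have hsol : ∀ a' b', a < a' → b' < b → s ∈ Ioo a' b' →
      ∃ α : ℝ → F, α s = x ∧ Sol w (Ioo a' b') α := by
    intro a' b' ha hb hs'
    obtain ⟨C, hC⟩ := hg a' b' ha hb
    have hC0 : 0 ≤ C := by simpa using (norm_nonneg _).trans (hC s (Ioo_subset_Icc_self hs') 0)
    set R := gronwallBound ‖x‖ C C (b' - a')
    obtain ⟨K, hK⟩ := hl a' b' ha hb (|R| + 1)
    set M : ℝ≥0 := (C * (1 + (|R| + 1))).toNNReal
    set χ : F → ℝ := fun y => max 0 (min 1 (|R| + 1 - ‖y‖))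
    have hχ0 : ∀ y, 0 ≤ χ y := fun y => le_max_left _ _
    have hχ1 : ∀ y, χ y ≤ 1 := fun y => max_le zero_le_one (min_le_left _ _)
    have hχz : ∀ y, |R| + 1 < ‖y‖ → χ y = 0 := fun y hy =>
      max_eq_left ((min_le_right _ _).trans (by linarith))
    have hχL : ∀ y z, |χ y - χ z| ≤ ‖y - z‖ := fun y z => by
      refine (abs_max_sub_max_le_max _ _ _ _).trans ?_
      rw [sub_self, abs_zero, max_eq_right (abs_nonneg _)]
      refine (abs_min_sub_min_le_max _ _ _ _).trans ?_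
      rw [sub_self, abs_zero, max_eq_right (abs_nonneg _)]
      calc |(|R| + 1 - ‖y‖) - (|R| + 1 - ‖z‖)| = |‖z‖ - ‖y‖| := by ring_nf
        _ ≤ ‖z - y‖ := abs_norm_sub_norm_le _ _
        _ = ‖y - z‖ := norm_sub_rev _ _
    set w' : ℝ → F → F := fun t y => χ y • w t y
    have hw'g : ∀ t ∈ Icc a' b', ∀ y, ‖w' t y‖ ≤ C * (1 + ‖y‖) := fun t ht y => by
      rw [norm_smul, Real.norm_eq_abs, abs_of_nonneg (hχ0 y)]
      exact (mul_le_of_le_one_left (norm_nonneg _) (hχ1 y)).trans (hC t ht y)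
    have hw'M : ∀ t ∈ Icc a' b', ∀ y, ‖w' t y‖ ≤ M := fun t ht y => by
      rw [Real.coe_toNNReal _ (by positivity)]
      rcases le_or_gt ‖y‖ (|R| + 1) with hy | hy
      · exact (hw'g t ht y).trans (by gcongr)
      · simp only [w', hχz y hy, zero_smul, norm_zero]
        positivity
    have hw'L : ∀ t ∈ Icc a' b', LipschitzWith (K + M) (w' t) := by
      intro t ht
      refine LipschitzWith.of_dist_le_mul fun y z => ?_
      rw [dist_eq_norm, dist_eq_norm]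
      wlog hyz : ‖y‖ ≤ ‖z‖ generalizing y z
      · rw [norm_sub_rev, norm_sub_rev y z]
        exact this z y (le_of_not_ge hyz)
      rcases le_or_gt ‖y‖ (|R| + 1) with hy | hy
      · have hwy : ‖w t y‖ ≤ M := by
          rw [Real.coe_toNNReal _ (by positivity)]
          exact (hC t ht y).trans (by gcongr)
        have hsplit : w' t y - w' t z = (χ y - χ z) • w t y + χ z • (w t y - w t z) := by
          simp only [w', sub_smul, smul_sub]; abel
        rw [hsplit, NNReal.coe_add, add_mul, add_comm ((K : ℝ) * _)]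
        refine (norm_add_le _ _).trans (add_le_add ?_ ?_)
        · rw [norm_smul, mul_comm (M : ℝ)]
          exact mul_le_mul (hχL y z) hwy (norm_nonneg _) (norm_nonneg _)
        · rcases le_or_gt ‖z‖ (|R| + 1) with hz | hz
          · rw [norm_smul, Real.norm_eq_abs, abs_of_nonneg (hχ0 z)]
            exact (mul_le_of_le_one_left (norm_nonneg _) (hχ1 z)).trans
              ((hK t ht).norm_sub_le (mem_closedBall_zero_iff.2 hy) (mem_closedBall_zero_iff.2 hz))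
          · rw [hχz z hz, zero_smul, norm_zero]; positivity
      · simp only [w', hχz y hy, hχz z (hy.trans_le hyz), zero_smul, sub_zero, norm_zero]
        positivity
    have pl : IsPicardLindelof w' ⟨s, Ioo_subset_Icc_self hs'⟩ x
        (M * (b' - a').toNNReal) 0 M (K + M) :=
      { lipschitzOnWith := fun t ht => (hw'L t ht).lipschitzOnWith
        continuousOn := fun y _ => ((hc y).mono (Icc_sub_Ioo ha hb)).const_smul (χ y)
        norm_le := fun t ht y _ => hw'M t ht y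
        mul_max_le := by
          rw [NNReal.coe_mul, NNReal.coe_zero, sub_zero]
          refine mul_le_mul_of_nonneg_left ?_ M.coe_nonneg
          exact (max_le (by change b' - s ≤ b' - a'; linarith [hs'.1])
            (by change s - a' ≤ b' - a'; linarith [hs'.2])).trans (Real.le_coe_toNNReal _) }
    obtain ⟨α, hα0, hα⟩ := pl.exists_eq_forall_mem_Icc_hasDerivWithinAt₀
    refine ⟨α, hα0, fun t ht => ?_⟩
    have hd : ∀ u ∈ Ioo a' b', HasDerivAt α (w' u (α u)) u := fun u hu =>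
      (hα u (Ioo_subset_Icc_self hu)).hasDerivAt (Icc_mem_nhds hu.1 hu.2)
    have hbd : ‖α t‖ ≤ R := by
      have hsub : uIcc s t ⊆ Ioo a' b' := ordConnected_Ioo.uIcc_subset hs' ht
      refine (growth_bound (w := w') (a' := min s t) (b' := max s t) (s := s) (t := t)
        ⟨min_le_left _ _, le_max_left _ _⟩ ⟨min_le_right _ _, le_max_right _ _⟩
        (fun u hu => hd u (hsub hu)) (fun u hu => hw'g u (Ioo_subset_Icc_self (hsub hu)))
        (by rw [hα0])).trans ?_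
      refine gronwallBound_mono (norm_nonneg _) hC0 hC0 ?_
      have := le_max_left a' s
      rcases le_total s t with h | h <;> simp [h] <;> linarith [hs'.1, hs'.2, ht.1, ht.2]
    have h1 : χ (α t) = 1 := by
      have : (1 : ℝ) ≤ |R| + 1 - ‖α t‖ := by linarith [le_abs_self R]
      simp [χ, min_eq_left this]
    simpa [w', h1] using hd t ht
  -- glue the solutions
  let lo : ℕ → ℝ := fun n => a + (s - a) / (n + 2)
  let hi : ℕ → ℝ := fun n => b - (b - s) / (n + 2)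
  have hlo : ∀ n, a < lo n ∧ hi n < b ∧ s ∈ Ioo (lo n) (hi n) := fun n => by
    have h1 : 0 < (s - a) := sub_pos.2 hs.1
    have h2 : 0 < (b - s) := sub_pos.2 hs.2
    have hn : (1 : ℝ) < (n : ℝ) + 2 := by linarith [n.cast_nonneg (α := ℝ)]
    have h3 : (s - a) / (n + 2) < s - a := div_lt_self h1 hn
    have h4 : (b - s) / (n + 2) < b - s := div_lt_self h2 hn
    have h5 : 0 < (s - a) / ((n : ℝ) + 2) := by positivity
    have h6 : 0 < (b - s) / ((n : ℝ) + 2) := by positivity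
    exact ⟨by simp only [lo]; linarith, by simp only [hi]; linarith,
      by simp only [lo]; linarith, by simp only [hi]; linarith⟩
  choose α hα0 hα using fun n => hsol (lo n) (hi n) (hlo n).1 (hlo n).2.1 (hlo n).2.2
  have hex : ∀ t ∈ Ioo a b, ∃ n, t ∈ Ioo (lo n) (hi n) := by
    intro t ht
    obtain ⟨n, hn⟩ := exists_nat_gt (max ((s - a) / (t - a)) ((b - s) / (b - t)))
    rw [max_lt_iff, div_lt_iff₀ (sub_pos.2 ht.1), div_lt_iff₀ (sub_pos.2 ht.2)] at hn
    have hn0 : (0 : ℝ) < (n : ℝ) + 2 := by positivity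
    have h1 : (s - a) / ((n : ℝ) + 2) < t - a := by
      rw [div_lt_iff₀ hn0]; nlinarith [ht.1]
    have h2 : (b - s) / ((n : ℝ) + 2) < b - t := by
      rw [div_lt_iff₀ hn0]; nlinarith [ht.2]
    exact ⟨n, by simp only [lo]; linarith, by simp only [hi]; linarith⟩
  have heq : ∀ n m t, t ∈ Ioo (lo n) (hi n) → t ∈ Ioo (lo m) (hi m) → α n t = α m t := by
    intro n m t hn hm
    have hl' : LocLip w (max (lo n) (lo m)) (min (hi n) (hi m)) := fun a' b' h1 h2 =>
      hl a' b' (((hlo n).1.trans_le (le_max_left _ _)).trans h1)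
        (h2.trans ((min_le_left _ _).trans_lt (hlo n).2.1))
    exact unique hl' ⟨max_lt (hlo n).2.2.1 (hlo m).2.2.1, lt_min (hlo n).2.2.2 (hlo m).2.2.2⟩
      (fun u hu => hα n u ⟨(le_max_left _ _).trans_lt hu.1, hu.2.trans_le (min_le_left _ _)⟩)
      (fun u hu => hα m u ⟨(le_max_right _ _).trans_lt hu.1, hu.2.trans_le (min_le_right _ _)⟩)
      ((hα0 n).trans (hα0 m).symm) t ⟨max_lt hn.1 hm.1, lt_min hn.2 hm.2⟩
  refine ⟨fun t => if h : ∃ n, t ∈ Ioo (lo n) (hi n) then α (Nat.find h) t else x, ?_, ?_⟩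
  · have h : ∃ n, s ∈ Ioo (lo n) (hi n) := ⟨0, (hlo 0).2.2⟩
    simp only [dif_pos h, hα0]
  · intro t ht
    obtain ⟨n, hn⟩ := hex t ht
    have hev : (fun u => if h : ∃ n, u ∈ Ioo (lo n) (hi n) then α (Nat.find h) u else x)
        =ᶠ[𝓝 t] α n := by
      filter_upwards [isOpen_Ioo.mem_nhds hn] with u hu
      have h : ∃ m, u ∈ Ioo (lo m) (hi m) := ⟨n, hu⟩
      rw [dif_pos h]
      exact heq _ _ u (Nat.find_spec h) hu
    have he := hev.eq_of_nhds
    simp only at he ⊢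
    rw [he]
    exact (hα n t hn).congr_of_eventuallyEq hev

/-- The derivative of `w t` at `x`, as a function of the pair. -/
noncomputable def dw (w : ℝ → F → F) (p : ℝ × F) : F →L[ℝ] F := fderiv ℝ (w p.1) p.2

theorem hasFDerivAt_slice {w : ℝ → F → F} {a b : ℝ}
    (hw : ContDiffOn ℝ ∞ (fun p : ℝ × F => w p.1 p.2) (Ioo a b ×ˢ univ)) {t : ℝ}
    (ht : t ∈ Ioo a b) (x : F) :
    HasFDerivAt (w t)
      ((fderiv ℝ (fun p : ℝ × F => w p.1 p.2) (t, x)).comp (ContinuousLinearMap.inr ℝ ℝ F)) x := by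
  have h : HasFDerivAt (fun p : ℝ × F => w p.1 p.2)
      (fderiv ℝ (fun p : ℝ × F => w p.1 p.2) (t, x)) (t, x) :=
    (((hw (t, x) ⟨ht, mem_univ _⟩).contDiffAt
      ((isOpen_Ioo.prod isOpen_univ).mem_nhds ⟨ht, mem_univ _⟩)).differentiableAt
        (by simp)).hasFDerivAt
  exact h.comp x (hasFDerivAt_prodMk_right t x)

theorem contDiffOn_dw {w : ℝ → F → F} {a b : ℝ}
    (hw : ContDiffOn ℝ ∞ (fun p : ℝ × F => w p.1 p.2) (Ioo a b ×ˢ univ)) :
    ContDiffOn ℝ ∞ (dw w) (Ioo a b ×ˢ univ) := by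
  have h := (hw.fderiv_of_isOpen (m := ∞) (isOpen_Ioo.prod isOpen_univ) (by simp)).clm_comp
    (contDiffOn_const (c := ContinuousLinearMap.inr ℝ ℝ F))
  exact h.congr fun p hp => (hasFDerivAt_slice hw hp.1 p.2).fderiv

theorem continuous_time {w : ℝ → F → F} {a b : ℝ}
    (hw : ContDiffOn ℝ ∞ (fun p : ℝ × F => w p.1 p.2) (Ioo a b ×ˢ univ)) (x : F) :
    ContinuousOn (fun t => w t x) (Ioo a b) :=
  hw.continuousOn.comp (by fun_prop : Continuous fun t : ℝ => (t, x)).continuousOn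
    fun _ ht => ⟨ht, mem_univ _⟩

variable [FiniteDimensional ℝ F]

theorem dw_bound {w : ℝ → F → F} {a b a' b' : ℝ}
    (hw : ContDiffOn ℝ ∞ (fun p : ℝ × F => w p.1 p.2) (Ioo a b ×ˢ univ))
    (ha : a < a') (hb : b' < b) (R : ℝ) :
    ∃ M : ℝ≥0, ∀ t ∈ Icc a' b', ∀ x, ‖x‖ ≤ R → ‖dw w (t, x)‖ ≤ M := by
  have : ProperSpace F := FiniteDimensional.proper ℝ F
  obtain ⟨M, hM⟩ := ((isCompact_Icc (a := a') (b := b')).prod
    (isCompact_closedBall (0 : F) R)).exists_bound_of_continuousOn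
    ((contDiffOn_dw hw).continuousOn.mono (prod_mono (Icc_sub_Ioo ha hb) (subset_univ _)))
  exact ⟨M.toNNReal, fun t ht x hx =>
    (hM (t, x) ⟨ht, mem_closedBall_zero_iff.2 hx⟩).trans (Real.le_coe_toNNReal M)⟩

theorem locLip {w : ℝ → F → F} {a b : ℝ}
    (hw : ContDiffOn ℝ ∞ (fun p : ℝ × F => w p.1 p.2) (Ioo a b ×ˢ univ)) : LocLip w a b := by
  intro a' b' ha hb R
  obtain ⟨M, hM⟩ := dw_bound hw ha hb R
  refine ⟨M, fun t ht => (convex_closedBall _ _).lipschitzOnWith_of_nnnorm_fderiv_le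
    (fun x _ => (hasFDerivAt_slice hw (Icc_sub_Ioo ha hb ht) x).differentiableAt) fun x hx => ?_⟩
  rw [← NNReal.coe_le_coe, coe_nnnorm]
  exact hM t ht x (mem_closedBall_zero_iff.1 hx)

/-- A family of solutions through `(s, x)` with bounded trajectories. -/
structure Fam (w : ℝ → F → F) (a b s : ℝ) (Ψ : F → ℝ → F) : Prop where
  mem : s ∈ Ioo a b
  field : ContDiffOn ℝ ∞ (fun p : ℝ × F => w p.1 p.2) (Ioo a b ×ˢ univ)
  init : ∀ x, Ψ x s = x
  sol : ∀ x, Sol w (Ioo a b) (Ψ x)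
  bdd : Bounded Ψ a b

variable {w : ℝ → F → F} {a b s : ℝ} {Ψ : F → ℝ → F}

theorem Fam.exists_variation (H : Fam w a b s Ψ) (x : F) :
    ∃ J : ℝ → F →L[ℝ] F, J s = ContinuousLinearMap.id ℝ F ∧
      Sol (fun u (T : F →L[ℝ] F) => (dw w (u, Ψ x u)).comp T) (Ioo a b) J := by
  have hA : ContinuousOn (fun u => dw w (u, Ψ x u)) (Ioo a b) :=
    (contDiffOn_dw H.field).continuousOn.comp
      (continuousOn_id.prodMk fun u hu => (H.sol x u hu).continuousAt.continuousWithinAt)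
      fun u hu => ⟨hu, mem_univ _⟩
  have hbd : ∀ a' b', a < a' → b' < b → ∃ M : ℝ≥0, ∀ u ∈ Icc a' b', ‖dw w (u, Ψ x u)‖ ≤ M := by
    intro a' b' ha hb
    obtain ⟨M, hM⟩ := isCompact_Icc.exists_bound_of_continuousOn (hA.mono (Icc_sub_Ioo ha hb))
    exact ⟨M.toNNReal, fun u hu => (hM u hu).trans (Real.le_coe_toNNReal M)⟩
  refine exists_sol (fun T => hA.clm_comp continuousOn_const) ?_ ?_ H.mem _
  · intro a' b' ha hb R
    obtain ⟨M, hM⟩ := hbd a' b' ha hb
    refine ⟨M, fun u hu => LipschitzOnWith.of_dist_le_mul fun T _ T' _ => ?_⟩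
    rw [dist_eq_norm, dist_eq_norm, ← ContinuousLinearMap.comp_sub]
    exact (ContinuousLinearMap.opNorm_comp_le _ _).trans (by gcongr; exact hM u hu)
  · intro a' b' ha hb
    obtain ⟨M, hM⟩ := hbd a' b' ha hb
    refine ⟨M, fun u hu T => (ContinuousLinearMap.opNorm_comp_le _ _).trans ?_⟩
    exact mul_le_mul (hM u hu) (by linarith) (norm_nonneg _) M.coe_nonneg

/-- The solution of the variational equation. -/
noncomputable def Fam.J (H : Fam w a b s Ψ) (x : F) : ℝ → F →L[ℝ] F :=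
  (H.exists_variation x).choose

theorem Fam.J_init (H : Fam w a b s Ψ) (x : F) : H.J x s = ContinuousLinearMap.id ℝ F :=
  (H.exists_variation x).choose_spec.1

theorem Fam.J_deriv (H : Fam w a b s Ψ) (x : F) {t : ℝ} (ht : t ∈ Ioo a b) :
    HasDerivAt (H.J x) ((dw w (t, Ψ x t)).comp (H.J x t)) t :=
  (H.exists_variation x).choose_spec.2 t ht

theorem gronwall_linear (K ε T : ℝ) : gronwallBound 0 K ε T = ε * gronwallBound 0 K 1 T := by
  unfold gronwallBound
  split_ifs <;> ring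

theorem Fam.hasFDerivAt (H : Fam w a b s Ψ) (x₀ : F) {t : ℝ} (ht : t ∈ Ioo a b) :
    HasFDerivAt (fun x => Ψ x t) (H.J x₀ t) x₀ := by
  have : ProperSpace F := FiniteDimensional.proper ℝ F
  obtain ⟨a', b', ha, hb, hs', ht'⟩ := exists_sub_interval H.mem ht
  have hsub := Icc_sub_Ioo ha hb
  obtain ⟨R, hR⟩ := H.bdd a' b' ha hb (‖x₀‖ + 1)
  obtain ⟨M, hM⟩ := dw_bound H.field ha hb R
  have hdiff : ∀ u ∈ Icc a' b', ∀ y, HasFDerivAt (w u) (dw w (u, y)) y := fun u hu y =>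
    (hasFDerivAt_slice H.field (hsub hu) y).differentiableAt.hasFDerivAt
  set T := b' - a'
  have hT : 0 ≤ T := by linarith [hs'.1, hs'.2]
  set L := Real.exp ((M : ℝ) * T)
  have hL : 0 < L := Real.exp_pos _
  have hlip : ∀ x, ‖x - x₀‖ ≤ 1 → ∀ u ∈ Icc a' b', ‖Ψ x u - Ψ x₀ u‖ ≤ L * ‖x - x₀‖ := by
    intro x hx u hu
    have hxR : ‖x‖ ≤ ‖x₀‖ + 1 := by linarith [norm_le_insert' x x₀]
    have := gronwall_abs (f := fun v => Ψ x v - Ψ x₀ v)
      (f' := fun v => w v (Ψ x v) - w v (Ψ x₀ v)) (δ := ‖x - x₀‖) M.coe_nonneg le_rfl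
      (Ioo_subset_Icc_self hs') hu
      (fun v hv => (H.sol x v (hsub hv)).sub (H.sol x₀ v (hsub hv)))
      (fun v hv => by
        rw [add_zero]
        refine (convex_closedBall (0 : F) R).norm_image_sub_le_of_norm_hasFDerivWithin_le
          (fun y _ => (hdiff v hv y).hasFDerivWithinAt)
          (fun y hy => hM v hv y (mem_closedBall_zero_iff.1 hy)) ?_ ?_
        · exact mem_closedBall_zero_iff.2 (hR x₀ (by linarith) v hv)
        · exact mem_closedBall_zero_iff.2 (hR x hxR v hv))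
      (by rw [H.init, H.init])
    rw [gronwallBound_ε0, mul_comm] at this
    exact this
  set G := gronwallBound 0 (M : ℝ) 1 T
  have hG : 0 ≤ G := by
    have := gronwallBound_mono (δ := 0) (ε := 1) le_rfl zero_le_one M.coe_nonneg hT
    rwa [gronwallBound_x0] at this
  rw [hasFDerivAt_iff_isLittleO, Asymptotics.isLittleO_iff]
  intro c hc
  set η := c / (L * G + 1)
  have hη : 0 < η := by positivity
  have hK : IsCompact (Icc a' b' ×ˢ closedBall (0 : F) R) :=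
    isCompact_Icc.prod (isCompact_closedBall _ _)
  obtain ⟨δ, hδ, huc⟩ := Metric.uniformContinuousOn_iff_le.1
    (hK.uniformContinuousOn_of_continuous
      ((contDiffOn_dw H.field).continuousOn.mono (prod_mono hsub (subset_univ _)))) η hη
  filter_upwards [Metric.closedBall_mem_nhds x₀ (lt_min one_pos (div_pos hδ hL))] with x hx
  rw [mem_closedBall, dist_eq_norm] at hx
  have hx1 : ‖x - x₀‖ ≤ 1 := hx.trans (min_le_left _ _)
  have hxR : ‖x‖ ≤ ‖x₀‖ + 1 := by linarith [norm_le_insert' x x₀]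
  have hxδ : L * ‖x - x₀‖ ≤ δ := by
    calc L * ‖x - x₀‖ ≤ L * (δ / L) := by gcongr; exact hx.trans (min_le_right _ _)
      _ = δ := by field_simp
  have := gronwall_abs (f := fun v => Ψ x v - Ψ x₀ v - H.J x₀ v (x - x₀))
    (f' := fun v => w v (Ψ x v) - w v (Ψ x₀ v) - dw w (v, Ψ x₀ v) (H.J x₀ v (x - x₀)))
    (δ := 0) (ε := η * (L * ‖x - x₀‖)) M.coe_nonneg (by positivity) (Ioo_subset_Icc_self hs')
    (Ioo_subset_Icc_self ht')
    (fun v hv => ((H.sol x v (hsub hv)).sub (H.sol x₀ v (hsub hv))).sub (by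
      simpa using (H.J_deriv x₀ (hsub hv)).clm_apply (hasDerivAt_const v (x - x₀))))
    (fun v hv => by
      set y := Ψ x v
      set y₀ := Ψ x₀ v
      set φ := dw w (v, y₀)
      have hy : y ∈ closedBall (0 : F) R := mem_closedBall_zero_iff.2 (hR x hxR v hv)
      have hy₀ : y₀ ∈ closedBall (0 : F) R := mem_closedBall_zero_iff.2 (hR x₀ (by linarith) v hv)
      have h2 : ‖y - y₀‖ ≤ L * ‖x - x₀‖ := hlip x hx1 v hv
      have h1 : ‖w v y - w v y₀ - φ (y - y₀)‖ ≤ η * ‖y - y₀‖ := by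
        refine ((convex_closedBall (0 : F) R).inter (convex_closedBall y₀ δ)
          ).norm_image_sub_le_of_norm_hasFDerivWithin_le'
          (fun z _ => (hdiff v hv z).hasFDerivWithinAt) (fun z hz => ?_)
          ⟨hy₀, mem_closedBall_self hδ.le⟩ ⟨hy, ?_⟩
        · rw [← dist_eq_norm]
          refine huc (v, z) ⟨hv, hz.1⟩ (v, y₀) ⟨hv, hy₀⟩ ?_
          rw [Prod.dist_eq, dist_self]
          exact max_le hδ.le (mem_closedBall.1 hz.2)
        · rw [mem_closedBall, dist_eq_norm]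
          exact h2.trans hxδ
      have hsplit : w v y - w v y₀ - φ (H.J x₀ v (x - x₀)) =
          (w v y - w v y₀ - φ (y - y₀)) + φ (y - y₀ - H.J x₀ v (x - x₀)) := by
        simp only [map_sub]; abel
      rw [hsplit, add_comm ((M : ℝ) * _)]
      refine (norm_add_le _ _).trans (add_le_add (h1.trans (by gcongr)) ?_)
      exact (φ.le_opNorm _).trans
        (by gcongr; exact hM v hv y₀ (mem_closedBall_zero_iff.1 hy₀)))
    (by simp [H.init, H.J_init])
  rw [gronwall_linear] at this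
  refine this.trans ?_
  calc η * (L * ‖x - x₀‖) * gronwallBound 0 (M : ℝ) 1 (b' - a')
      = η * (L * G) * ‖x - x₀‖ := by ring
    _ ≤ c * ‖x - x₀‖ := by
        gcongr
        calc η * (L * G) ≤ η * (L * G + 1) := by gcongr; linarith
          _ = c := by simp only [η]; field_simp

theorem Fam.fderiv_eq (H : Fam w a b s Ψ) {t : ℝ} (ht : t ∈ Ioo a b) :
    fderiv ℝ (fun x => Ψ x t) = fun x => H.J x t :=
  funext fun x => (H.hasFDerivAt x ht).fderiv

/-- The extended field on `F × (F →L F)`. -/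
noncomputable def wExt (w : ℝ → F → F) (t : ℝ) (p : F × (F →L[ℝ] F)) : F × (F →L[ℝ] F) :=
  (w t p.1, (dw w (t, p.1)).comp p.2)

/-- The extended family. -/
noncomputable def Fam.ext (H : Fam w a b s Ψ) (p : F × (F →L[ℝ] F)) (u : ℝ) : F × (F →L[ℝ] F) :=
  (Ψ p.1 u, (H.J p.1 u).comp p.2)

theorem Fam.norm_J_le (H : Fam w a b s Ψ) {a' b' R : ℝ} {M : ℝ≥0} (ha : a < a') (hb : b' < b)
    (hs : s ∈ Icc a' b') {x : F} (hR : ∀ v ∈ Icc a' b', ‖Ψ x v‖ ≤ R)
    (hM : ∀ v ∈ Icc a' b', ∀ y, ‖y‖ ≤ R → ‖dw w (v, y)‖ ≤ M) {u : ℝ} (hu : u ∈ Icc a' b') :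
    ‖H.J x u‖ ≤ gronwallBound 1 (M : ℝ) 0 (b' - a') := by
  refine gronwall_abs (f' := fun v => (dw w (v, Ψ x v)).comp (H.J x v)) M.coe_nonneg le_rfl hs hu
    (fun v hv => H.J_deriv x (Icc_sub_Ioo ha hb hv)) (fun v hv => ?_) ?_
  · rw [add_zero]
    exact (ContinuousLinearMap.opNorm_comp_le _ _).trans (by gcongr; exact hM v hv _ (hR v hv))
  · rw [H.J_init]; exact ContinuousLinearMap.norm_id_le

theorem Fam.extFam (H : Fam w a b s Ψ) : Fam (wExt w) a b s H.ext := by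
  have : ProperSpace F := FiniteDimensional.proper ℝ F
  refine ⟨H.mem, ?_, fun p => by simp [Fam.ext, H.init, H.J_init], fun p u hu => ?_, ?_⟩
  · have hp : ContDiffOn ℝ ∞ (fun q : ℝ × F × (F →L[ℝ] F) => (q.1, q.2.1))
        (Ioo a b ×ˢ univ) := (by fun_prop : ContDiff ℝ ∞ _).contDiffOn
    have hm : MapsTo (fun q : ℝ × F × (F →L[ℝ] F) => (q.1, q.2.1)) (Ioo a b ×ˢ univ)
        (Ioo a b ×ˢ univ) := fun q hq => ⟨hq.1, mem_univ _⟩
    exact (H.field.comp hp hm).prodMk (((contDiffOn_dw H.field).comp hp hm).clm_comp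
      (by fun_prop : ContDiff ℝ ∞ fun q : ℝ × F × (F →L[ℝ] F) => q.2.2).contDiffOn)
  · have h2 := (H.J_deriv p.1 hu).clm_comp (hasDerivAt_const u p.2)
    have := (H.sol p.1 u hu).prodMk h2
    simp only [ContinuousLinearMap.comp_zero, add_zero] at this
    exact this
  · intro a' b' ha hb R
    have ha1 : a < min a' s := lt_min ha H.mem.1
    have hb1 : max b' s < b := max_lt hb H.mem.2
    obtain ⟨R1, hR1⟩ := H.bdd _ _ ha1 hb1 R
    obtain ⟨M, hM⟩ := dw_bound H.field ha1 hb1 R1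
    set B := gronwallBound 1 (M : ℝ) 0 (max b' s - min a' s)
    refine ⟨max R1 (B * R), fun p hp u hu => ?_⟩
    have hu' : u ∈ Icc (min a' s) (max b' s) :=
      ⟨(min_le_left _ _).trans hu.1, hu.2.trans (le_max_left _ _)⟩
    have h1 : ‖p.1‖ ≤ R := (norm_fst_le p).trans hp
    have hJ : ‖H.J p.1 u‖ ≤ B :=
      H.norm_J_le ha1 hb1 ⟨min_le_right _ _, le_max_right _ _⟩ (hR1 p.1 h1) hM hu'
    rw [Prod.norm_def]
    refine max_le_max (hR1 p.1 h1 u hu') ?_
    exact (ContinuousLinearMap.opNorm_comp_le _ _).trans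
      (mul_le_mul hJ ((norm_snd_le p).trans hp) (norm_nonneg _) ((norm_nonneg _).trans hJ))

theorem contDiff_nat : ∀ (n : ℕ) {F : Type} [NormedAddCommGroup F] [NormedSpace ℝ F]
    [FiniteDimensional ℝ F] {w : ℝ → F → F} {a b s : ℝ} {Ψ : F → ℝ → F},
    Fam w a b s Ψ → ∀ t ∈ Ioo a b, ContDiff ℝ n fun x => Ψ x t := by
  intro n
  induction n with
  | zero =>
    intro F _ _ _ w a b s Ψ H t ht
    exact contDiff_zero.2 (continuous_iff_continuousAt.2 fun x => (H.hasFDerivAt x ht).continuousAt)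
  | succ n ih =>
    intro F _ _ _ w a b s Ψ H t ht
    rw [Nat.cast_add, Nat.cast_one, contDiff_succ_iff_fderiv]
    refine ⟨fun x => (H.hasFDerivAt x ht).differentiableAt, by simp, ?_⟩
    rw [H.fderiv_eq ht]
    have h := (ih H.extFam t ht).comp
      ((contDiff_id.prodMk contDiff_const) :
        ContDiff ℝ n fun x : F => (x, ContinuousLinearMap.id ℝ F))
    simpa [Fam.ext, Function.comp_def] using h.snd

theorem Fam.contDiff (H : Fam w a b s Ψ) {t : ℝ} (ht : t ∈ Ioo a b) :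
    ContDiff ℝ ∞ fun x => Ψ x t :=
  contDiff_infty.2 fun n => contDiff_nat n H t ht

/-- Trajectories are bounded uniformly in the initial time. -/
def UBounded (Ψ : ℝ → F → ℝ → F) (a b : ℝ) : Prop :=
  ∀ a' b', a < a' → b' < b → ∀ R : ℝ, ∃ R' : ℝ,
    ∀ s ∈ Icc a' b', ∀ x, ‖x‖ ≤ R → ∀ u ∈ Icc a' b', ‖Ψ s x u‖ ≤ R'

omit [FiniteDimensional ℝ F] in
theorem joint_continuous {w : ℝ → F → F} {a b : ℝ} (hl : LocLip w a b) {Ψ : ℝ → F → ℝ → F}
    (hi : ∀ s ∈ Ioo a b, ∀ x, Ψ s x s = x) (hsol : ∀ s ∈ Ioo a b, ∀ x, Sol w (Ioo a b) (Ψ s x))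
    (hB : UBounded Ψ a b) :
    ContinuousOn (fun p : ℝ × ℝ × F => Ψ p.1 p.2.2 p.2.1) (Ioo a b ×ˢ Ioo a b ×ˢ univ) := by
  rintro ⟨s₀, t₀, x₀⟩ ⟨hs₀, ht₀, -⟩
  obtain ⟨a', b', ha, hb, hs', ht'⟩ := exists_sub_interval hs₀ ht₀
  have hsub := Icc_sub_Ioo ha hb
  obtain ⟨R, hR⟩ := hB a' b' ha hb (‖x₀‖ + 1)
  obtain ⟨K, hK⟩ := hl a' b' ha hb R
  have key : ∀ s ∈ Icc a' b', ∀ t ∈ Icc a' b', ∀ x, ‖x‖ ≤ ‖x₀‖ + 1 →
      ‖Ψ s x t - Ψ s₀ x₀ t‖ ≤ Real.exp (K * (b' - a')) * ‖x - Ψ s₀ x₀ s‖ := by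
    intro s hs t ht x hx
    have := gronwall_abs (f := fun v => Ψ s x v - Ψ s₀ x₀ v)
      (f' := fun v => w v (Ψ s x v) - w v (Ψ s₀ x₀ v)) (δ := ‖x - Ψ s₀ x₀ s‖) K.coe_nonneg le_rfl
      hs ht
      (fun v hv => (hsol s (hsub hs) x v (hsub hv)).sub (hsol s₀ hs₀ x₀ v (hsub hv)))
      (fun v hv => by
        rw [add_zero]
        exact (hK v hv).norm_sub_le (mem_closedBall_zero_iff.2 (hR s hs x hx v hv))
          (mem_closedBall_zero_iff.2 (hR s₀ (Ioo_subset_Icc_self hs') x₀ (by linarith) v hv)))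
      (by rw [hi s (hsub hs)])
    rw [gronwallBound_ε0, mul_comm] at this
    exact this
  have h1 : Tendsto (fun p : ℝ × ℝ × F => Ψ s₀ x₀ p.2.1) (𝓝 (s₀, t₀, x₀))
      (𝓝 (Ψ s₀ x₀ t₀)) :=
    (hsol s₀ hs₀ x₀ t₀ ht₀).continuousAt.tendsto.comp
      ((continuous_fst.comp continuous_snd).tendsto _)
  have h2 : Tendsto (fun p : ℝ × ℝ × F => Ψ p.1 p.2.2 p.2.1 - Ψ s₀ x₀ p.2.1) (𝓝 (s₀, t₀, x₀))
      (𝓝 0) := by
    refine squeeze_zero_norm'
      (a := fun p => Real.exp (K * (b' - a')) * ‖p.2.2 - Ψ s₀ x₀ p.1‖) ?_ ?_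
    · filter_upwards [prod_mem_nhds (Icc_mem_nhds hs'.1 hs'.2)
        (prod_mem_nhds (Icc_mem_nhds ht'.1 ht'.2) (closedBall_mem_nhds x₀ one_pos))] with p hp
      refine key p.1 hp.1 p.2.1 hp.2.1 p.2.2 ?_
      have := hp.2.2
      rw [mem_closedBall, dist_eq_norm] at this
      linarith [norm_le_insert' p.2.2 x₀]
    · have h3 : Tendsto (fun p : ℝ × ℝ × F => p.2.2 - Ψ s₀ x₀ p.1) (𝓝 (s₀, t₀, x₀))
          (𝓝 (x₀ - Ψ s₀ x₀ s₀)) :=
        ((continuous_snd.comp continuous_snd).tendsto _).sub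
          ((hsol s₀ hs₀ x₀ s₀ hs₀).continuousAt.tendsto.comp (continuous_fst.tendsto _))
      rw [hi s₀ hs₀, sub_self] at h3
      simpa using (tendsto_norm.comp h3).const_mul (Real.exp (K * (b' - a')))
  have h4 := h2.add h1
  simp only [sub_add_cancel, zero_add] at h4
  exact h4.mono_left nhdsWithin_le_nhds

omit [FiniteDimensional ℝ F] in
theorem ubounded_of_growth {w : ℝ → F → F} {a b : ℝ} {Ψ : ℝ → F → ℝ → F} (hg : Growth w a b)
    (hi : ∀ s ∈ Ioo a b, ∀ x, Ψ s x s = x) (hsol : ∀ s ∈ Ioo a b, ∀ x, Sol w (Ioo a b) (Ψ s x)) :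
    UBounded Ψ a b := by
  intro a' b' ha hb R
  obtain ⟨C, hC⟩ := hg a' b' ha hb
  refine ⟨gronwallBound R C C (b' - a'), fun s hs x hx u hu => ?_⟩
  exact growth_bound (w := w) hs hu
    (fun t ht => hsol s (Icc_sub_Ioo ha hb hs) x t (Icc_sub_Ioo ha hb ht)) hC
    (by rw [hi s (Icc_sub_Ioo ha hb hs)]; exact hx)

theorem Fam.continuous_joint_J {w : ℝ → F → F} {a b : ℝ} {Ψ : ℝ → F → ℝ → F}
    (H : ∀ s ∈ Ioo a b, Fam w a b s (Ψ s)) (hB : UBounded Ψ a b) :
    ContinuousOn (fun p : ℝ × ℝ × F => fderiv ℝ (fun y => Ψ p.1 y p.2.1) p.2.2)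
      (Ioo a b ×ˢ Ioo a b ×ˢ univ) := by
  classical
  by_cases hne : (Ioo a b).Nonempty
  swap
  · simp [not_nonempty_iff_eq_empty.1 hne]
  obtain ⟨m, hm⟩ := hne
  set Ψ' : ℝ → F × (F →L[ℝ] F) → ℝ → F × (F →L[ℝ] F) :=
    fun s p u => if h : s ∈ Ioo a b then (H s h).ext p u else p
  have hc := joint_continuous (locLip (H m hm).extFam.field) (Ψ := Ψ')
    (fun s hs p => by simp only [Ψ', dif_pos hs]; exact (H s hs).extFam.init p)
    (fun s hs p u hu => by simp only [Ψ', dif_pos hs]; exact (H s hs).extFam.sol p u hu) ?_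
  · have := (hc.comp (Continuous.continuousOn (by fun_prop :
      Continuous fun p : ℝ × ℝ × F => (p.1, p.2.1, (p.2.2, ContinuousLinearMap.id ℝ F))))
      (fun p (hp : p ∈ Ioo a b ×ˢ Ioo a b ×ˢ univ) => ⟨hp.1, hp.2.1, mem_univ _⟩)).snd
    refine this.congr fun p hp => ?_
    rw [(H p.1 hp.1).fderiv_eq hp.2.1]
    simp only [Function.comp_apply, Ψ', dif_pos hp.1, Fam.ext, ContinuousLinearMap.comp_id]
  · intro a' b' ha hb R
    obtain ⟨R1, hR1⟩ := hB a' b' ha hb R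
    obtain ⟨M, hM⟩ := dw_bound (H m hm).field ha hb R1
    refine ⟨max R1 (gronwallBound 1 (M : ℝ) 0 (b' - a') * R), fun s hs p hp u hu => ?_⟩
    have hs' := Icc_sub_Ioo ha hb hs
    have h1 : ‖p.1‖ ≤ R := (norm_fst_le p).trans hp
    have hJ := (H s hs').norm_J_le ha hb hs (hR1 s hs p.1 h1) hM hu
    simp only [Ψ', dif_pos hs', Fam.ext, Prod.norm_def]
    refine max_le_max (hR1 s hs p.1 h1 u hu) ?_
    exact (ContinuousLinearMap.opNorm_comp_le _ _).trans
      (mul_le_mul hJ ((norm_snd_le p).trans hp) (norm_nonneg _) ((norm_nonneg _).trans hJ))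

end Vale.Agent.P347.Gamma0.OdeFlow
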