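import Vale.Agent.P347.Gamma0.Interface
import Vale.Agent.P347.Gamma0.OdeFlow

/-!
P347, Gamma0: global flows and transport of Gibbs laws from the continuity equation.
-/

namespace Vale.Agent.P347.Gamma0

open MeasureTheory Set Filter Topology
open scoped RealInnerProductSpace ContDiff ENNReal

theorem flowExists : FlowExists := by
  intro N a b _ v hv hg
  have hl := OdeFlow.locLip hv
  have hex := fun (s : Ioo a b) (x : E N) =>
    OdeFlow.exists_sol (OdeFlow.continuous_time hv) hl hg s.2 x
  choose γ hγ0 hγ using hex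
  classical
  refine ⟨fun s t x => if h : s ∈ Ioo a b then γ ⟨s, h⟩ x t else x, ?_⟩
  have hH : ∀ s (hs : s ∈ Ioo a b), OdeFlow.Fam v a b s (γ ⟨s, hs⟩) := fun s hs =>
    ⟨hs, hv, hγ0 _, hγ _, OdeFlow.bounded_of_growth hs hg (hγ _) (hγ0 _)⟩
  have hi : ∀ s ∈ Ioo a b, ∀ x, (fun s x t => if h : s ∈ Ioo a b then γ ⟨s, h⟩ x t else x) s x s
      = x := fun s hs x => by simp only [dif_pos hs]; exact hγ0 _ x
  have hsol : ∀ s ∈ Ioo a b, ∀ x,
      OdeFlow.Sol v (Ioo a b) (fun t => if h : s ∈ Ioo a b then γ ⟨s, h⟩ x t else x) := by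
    intro s hs x
    simp only [dif_pos hs]
    exact hγ _ x
  have hF : ∀ s ∈ Ioo a b,
      OdeFlow.Fam v a b s (fun x t => if h : s ∈ Ioo a b then γ ⟨s, h⟩ x t else x) := by
    intro s hs
    simp only [dif_pos hs]
    exact hH s hs
  have hU := OdeFlow.ubounded_of_growth hg hi hsol
  constructor
  case cont => exact OdeFlow.joint_continuous hl hi hsol hU
  case cont_fderiv => exact OdeFlow.Fam.continuous_joint_J hF hU
  · intro s hs x
    simp only [dif_pos hs]
    exact hγ0 _ x
  · intro s hs t ht x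
    simp only [dif_pos hs]
    exact hγ _ x t ht
  · intro r hr s hs t ht x
    simp only [dif_pos hs, dif_pos hr]
    exact OdeFlow.unique hl hs (hγ _ _) (hγ _ x) (hγ0 _ _) t ht
  · intro s hs t ht
    simp only [dif_pos hs]
    exact (hH s hs).contDiff ht
  · intro s hs t ht x h
    simp only [dif_pos hs]
    have e : ∀ u ∈ Ioo a b, fderiv ℝ (fun y => γ ⟨s, hs⟩ y u) x = (hH s hs).J x u :=
      fun u hu => ((hH s hs).hasFDerivAt x hu).fderiv
    have h1 : HasDerivAt (fun u => (hH s hs).J x u h)
        (OdeFlow.dw v (t, γ ⟨s, hs⟩ x t) ((hH s hs).J x t h)) t := by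
      simpa using ((hH s hs).J_deriv x ht).clm_apply (hasDerivAt_const t h)
    rw [e t ht]
    refine h1.congr_of_eventuallyEq ?_
    filter_upwards [isOpen_Ioo.mem_nhds ht] with u hu
    rw [e u hu]

/-- The matrix of a map in the standard basis. -/
theorem det_eq_matrix {N : ℕ} (L : E N →L[ℝ] E N) :
    L.det = (Matrix.of fun i j => L (bv j) i).det := by
  rw [ContinuousLinearMap.det,
    ← LinearMap.det_toMatrix (EuclideanSpace.basisFun (Fin N) ℝ).toBasis]
  congr 1

/-- The derivative of the determinant at the identity is the trace. -/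
theorem hasDerivAt_det_one {n : ℕ} {M : ℝ → Matrix (Fin n) (Fin n) ℝ}
    {A : Matrix (Fin n) (Fin n) ℝ} {t : ℝ} (h1 : M t = 1)
    (hM : ∀ i j, HasDerivAt (fun u => M u i j) (A i j) t) :
    HasDerivAt (fun u => (M u).det) A.trace t := by
  classical
  simp_rw [Matrix.det_apply']
  have h := HasDerivAt.fun_sum (u := Finset.univ) fun σ (_ : σ ∈ Finset.univ) =>
    (HasDerivAt.fun_finsetProd (u := Finset.univ) fun i (_ : i ∈ Finset.univ) =>
      hM (σ i) i).const_mul ((Equiv.Perm.sign σ : ℤ) : ℝ)
  refine h.congr_deriv ?_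
  rw [Finset.sum_eq_single (1 : Equiv.Perm (Fin n))]
  · simp [h1, Matrix.trace]
  · intro σ _ hσ
    rw [Finset.sum_eq_zero, mul_zero]
    intro i _
    obtain ⟨j, hj, hji⟩ : ∃ j, σ j ≠ j ∧ j ≠ i := by
      by_contra hcon
      push Not at hcon
      refine hσ (Equiv.ext fun j => ?_)
      by_contra hj
      have hji : j = i := hcon j hj
      have hj2 : σ (σ j) ≠ σ j := fun he => hj (σ.injective he)
      exact hj ((hcon (σ j) hj2).trans hji.symm)
    rw [Finset.prod_eq_zero (Finset.mem_erase.2 ⟨hji, Finset.mem_univ _⟩), zero_smul]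
    simp [h1, hj]
  · simp

theorem lawTransport : LawTransport := by
  intro N a b _ v Φ hΦ _ _ Ψ hΨ _ hcont s hs t ht
  have hdiff : ∀ p ∈ Ioo a b, ∀ q ∈ Ioo a b, Differentiable ℝ (Φ p q) := fun p hp q hq =>
    (hΦ.smooth p hp q hq).differentiable (by simp)
  -- the density is constant along trajectories
  have key : ∀ x, Real.exp (-Ψ t (Φ s t x)) * (fderiv ℝ (Φ s t) x).det = Real.exp (-Ψ s x) := by
    intro x
    set f : ℝ → ℝ := fun u => Real.exp (-Ψ u (Φ s u x)) * (fderiv ℝ (Φ s u) x).det
    have hd : ∀ u ∈ Ioo a b, HasDerivAt f 0 u := by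
      intro u hu
      set y := Φ s u x
      have hW : HasFDerivAt (fun p : ℝ × E N => Ψ p.1 p.2)
          (fderiv ℝ (fun p : ℝ × E N => Ψ p.1 p.2) (u, y)) (u, y) :=
        (((hΨ (u, y) ⟨hu, mem_univ _⟩).contDiffAt
          ((isOpen_Ioo.prod isOpen_univ).mem_nhds ⟨hu, mem_univ _⟩)).differentiableAt
            (by simp)).hasFDerivAt
      set P := fderiv ℝ (fun p : ℝ × E N => Ψ p.1 p.2) (u, y)
      have hA : fderiv ℝ (Ψ u) y = P.comp (ContinuousLinearMap.inr ℝ ℝ (E N)) :=
        (hW.comp y (hasFDerivAt_prodMk_right u y)).fderiv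
      have hB : HasDerivAt (fun r => Ψ r y) (P (1, 0)) u :=
        HasFDerivAt.comp_hasDerivAt (f := fun r => (r, y)) (l := fun p : ℝ × E N => Ψ p.1 p.2) u hW
          ((hasDerivAt_id u).prodMk (hasDerivAt_const u y))
      have hC : HasDerivAt (fun r => Ψ r (Φ s r x)) (dvg (v u) y) u := by
        have h1 : HasDerivAt (fun r => Ψ r (Φ s r x)) (P (1, v u y)) u :=
          HasFDerivAt.comp_hasDerivAt (f := fun r => (r, Φ s r x))
            (l := fun p : ℝ × E N => Ψ p.1 p.2) u hW
            ((hasDerivAt_id u).prodMk (hΦ.deriv s hs u hu x))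
        refine h1.congr_deriv ?_
        rw [← hcont u hu y, hB.deriv, hA, ContinuousLinearMap.comp_apply,
          ContinuousLinearMap.inr_apply, ← map_add]
        simp
      have hid : fderiv ℝ (Φ u u) y = ContinuousLinearMap.id ℝ (E N) := by
        rw [show Φ u u = id from funext (hΦ.refl u hu)]
        exact fderiv_id
      have hdet : HasDerivAt (fun r => (fderiv ℝ (Φ u r) y).det) (dvg (v u) y) u := by
        simp_rw [det_eq_matrix]
        have h := hasDerivAt_det_one (M := fun r => Matrix.of fun i j => fderiv ℝ (Φ u r) y (bv j) i)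
          (A := Matrix.of fun i j => fderiv ℝ (v u) y (bv j) i) (t := u)
          (by ext i j; simp [hid, bv, Matrix.one_apply]) (fun i j => by
            have h := hΦ.variational u hu u hu y (bv j)
            rw [hΦ.refl u hu, hid] at h
            simpa using (hasDerivAt_pi.1 ((PiLp.continuousLinearEquiv 2 ℝ
              (fun _ : Fin N => ℝ)).hasFDerivAt.comp_hasDerivAt u h)) i)
        simpa [Matrix.trace, dvg] using h
      have hsplit : (fun r => (fderiv ℝ (Φ s r) x).det) =ᶠ[𝓝 u]
          fun r => (fderiv ℝ (Φ u r) y).det * (fderiv ℝ (Φ s u) x).det := by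
        filter_upwards [isOpen_Ioo.mem_nhds hu] with r hr
        have hc : Φ s r = Φ u r ∘ Φ s u := funext fun z => (hΦ.trans s hs u hu r hr z).symm
        rw [hc, fderiv_comp x (hdiff u hu r hr _) (hdiff s hs u hu _)]
        simp [ContinuousLinearMap.det, LinearMap.det_comp, y]
      have hD := (hdet.mul_const (fderiv ℝ (Φ s u) x).det).congr_of_eventuallyEq hsplit
      have hone : (fderiv ℝ (Φ u u) y).det = 1 := by simp [hid, ContinuousLinearMap.det]
      have := hC.neg.exp.mul hD
      refine this.congr_deriv ?_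
      rw [hsplit.eq_of_nhds, hone]
      ring
    obtain ⟨c, hc⟩ : ∃ c, ∀ u ∈ Ioo a b, f u = c :=
      ⟨f s, fun u hu => isOpen_Ioo.is_const_of_deriv_eq_zero isPreconnected_Ioo
        (fun r hr => (hd r hr).differentiableAt.differentiableWithinAt)
        (fun r hr => (hd r hr).deriv) hu hs⟩
    have h0 : f s = Real.exp (-Ψ s x) := by
      have : Φ s s = id := funext (hΦ.refl s hs)
      simp [f, this, ContinuousLinearMap.det]
    exact (hc t ht).trans ((hc s hs).symm.trans h0)
  have hinj : Function.LeftInverse (Φ t s) (Φ s t) := fun x => by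
    rw [hΦ.trans s hs t ht s hs x, hΦ.refl s hs]
  have hright : Function.RightInverse (Φ t s) (Φ s t) := fun x => by
    rw [hΦ.trans t ht s hs t ht x, hΦ.refl t ht]
  have hmeas : Measurable (Φ s t) := (hdiff s hs t ht).continuous.measurable
  have hint : ∀ B : Set (E N), MeasurableSet B →
      ∫⁻ x in Φ s t ⁻¹' B, ENNReal.ofReal (Real.exp (-Ψ s x))
        = ∫⁻ y in B, ENNReal.ofReal (Real.exp (-Ψ t y)) := by
    intro B hB
    have h := lintegral_image_eq_lintegral_abs_det_fderiv_mul (μ := volume) (hmeas hB)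
      (fun x _ => ((hdiff s hs t ht) x).hasFDerivAt.hasFDerivWithinAt)
      (hinj.injective.injOn) (fun y => ENNReal.ofReal (Real.exp (-Ψ t y)))
    rw [Set.image_preimage_eq B hright.surjective] at h
    rw [h]
    refine lintegral_congr fun x => ?_
    have hpos : 0 < (fderiv ℝ (Φ s t) x).det := by
      by_contra hcon
      exact absurd (key x) (ne_of_lt (lt_of_le_of_lt
        (mul_nonpos_of_nonneg_of_nonpos (Real.exp_pos _).le (not_lt.1 hcon)) (Real.exp_pos _)))
    rw [abs_of_pos hpos, ← ENNReal.ofReal_mul hpos.le, mul_comm, key x]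
  refine Measure.ext fun B hB => ?_
  rw [Measure.map_apply hmeas hB, gibbs, gibbs, Measure.smul_apply, Measure.smul_apply,
    withDensity_apply _ hB, withDensity_apply _ (hmeas hB), hint B hB]
  have hZ := hint univ MeasurableSet.univ
  simp only [preimage_univ, setLIntegral_univ] at hZ
  rw [hZ]

end Vale.Agent.P347.Gamma0
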