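import Vale.Agent.P347.Gamma0.ExactBase
import Vale.Agent.P347.Gamma0.Calc

/-!
P347, towards `γ_* = 0`: along the exact flow the increment of the mean gradient is a divergence,
`G_{r₁}(c + q₁ w) - G_τ c = δ k`, `k = ∫₀^{q₁} J a dq`.
-/

namespace Vale.Agent.P347.Gamma0

open MeasureTheory ProbabilityTheory Set Filter
open scoped RealInnerProductSpace ContDiff Topology

/-- An exact flow with its regularity in all variables. -/
structure ExFlow {d : ℕ} (D : Data d) where
  Φ : ℝ → ℝ → E d → E d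
  flow : IsFlow D.v D.I Φ
  joint : ContDiffOn ℝ ∞ (fun p : ℝ × ℝ × E d => Φ p.1 p.2.1 p.2.2) (D.I ×ˢ D.I ×ˢ univ)

namespace ExFlow

attribute [local irreducible] G nW psi

variable {d : ℕ} {D : Data d} (X : ExFlow D)

/-- The law at time `q`. -/
noncomputable def law (D : Data d) (q : ℝ) : Measure (E d) := gibbs (D.ψ q)

lemma map_gam (hP : PostFacts) (hH : NWHeat) (hT : LawTransport) {q : ℝ} (hq : q ∈ D.I) :
    (gam d).map (X.Φ 0 q) = law D q := by
  have hτ := Real.sqrt_pos.2 D.τ0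
  rw [← D.gibbs_psi_zero]
  exact hT d _ _ (by linarith) D.v X.Φ X.flow (D.contDiffOn_v hP)
    (fun a b ha hb => D.growth_v hP ha hb) D.ψ (D.contDiffOn_psi hP)
    (fun t ht => D.integrable_exp_psi hP ht) (fun t ht w => D.continuity_eq hP hH ht w)
    0 D.zero_mem q hq

lemma continuous_Φ {s t : ℝ} (hs : s ∈ D.I) (ht : t ∈ D.I) : Continuous (X.Φ s t) :=
  (X.flow.smooth s hs t ht).continuous

/-- The integrand of `k`: at time `q`, seen from time `q₁`. -/
noncomputable def kInt (q₁ : ℝ) (e : E d) (q : ℝ) (w : E d) : E d :=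
  fderiv ℝ (X.Φ q q₁) (X.Φ q₁ q w) (D.aq q (X.Φ q₁ q w) e)

/-- The field `k` applied to an output direction. -/
noncomputable def k (q₁ : ℝ) (e : E d) (w : E d) : E d := ∫ q in (0 : ℝ)..q₁, X.kInt q₁ e q w

section Post

variable (hP : PostFacts)
include hP

lemma contDiffOn_aq :
    ContDiffOn ℝ ∞ (fun p : ℝ × E d => D.aq p.1 p.2) (D.I ×ˢ univ) := by
  have hF := (hP d D.U D.g D.pot D.g0 D.ε D.ε0 D.ε1).1
  have hopen : IsOpen (Ioi (0 : ℝ) ×ˢ (univ : Set (E d))) := isOpen_Ioi.prod isOpen_univ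
  have h1 : ContDiffOn ℝ ∞ (fun p : ℝ × E d =>
      (fderiv ℝ (fun z : ℝ × E d => G D.U D.g D.ε z.1 z.2) p).comp
        ((0 : E d →L[ℝ] ℝ).prod (ContinuousLinearMap.id ℝ (E d)))) (Ioi 0 ×ˢ univ) :=
    (hF.fderiv_of_isOpen hopen (by simp)).clm_comp contDiffOn_const
  refine (h1.comp D.contDiff_arg.contDiffOn D.mapsTo_arg).congr fun p hp => ?_
  refine ContinuousLinearMap.ext fun e => ?_
  simp only [Data.aq, Function.comp_apply]
  rw [fderiv_partial (F := fun z : ℝ × E d => G D.U D.g D.ε z.1 z.2)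
    ((hF.contDiffAt (hopen.mem_nhds (D.mapsTo_arg hp))).differentiableAt (by simp)) e]
  simp

omit hP in
lemma contDiffOn_DΦ {q₁ : ℝ} (h1 : q₁ ∈ D.I) :
    ContDiffOn ℝ ∞ (fun p : ℝ × E d => fderiv ℝ (X.Φ p.1 q₁) p.2) (D.I ×ˢ univ) := by
  set F : ℝ × E d → E d := fun p => X.Φ p.1 q₁ p.2
  have hF : ContDiffOn ℝ ∞ F (D.I ×ˢ univ) :=
    X.joint.comp (contDiff_fst.prodMk (contDiff_const.prodMk contDiff_snd)).contDiffOn
      fun p hp => ⟨hp.1, h1, mem_univ _⟩
  have h2 : ContDiffOn ℝ ∞ (fun p => (fderiv ℝ F p).comp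
      ((0 : E d →L[ℝ] ℝ).prod (ContinuousLinearMap.id ℝ (E d)))) (D.I ×ˢ univ) :=
    (hF.fderiv_of_isOpen D.isOpen_I (by simp)).clm_comp contDiffOn_const
  refine h2.congr fun p hp => ContinuousLinearMap.ext fun e => ?_
  rw [fderiv_partial (F := F)
    ((hF.contDiffAt (D.isOpen_I.mem_nhds hp)).differentiableAt (by simp)) e]
  simp

lemma contDiffOn_kInt {q₁ : ℝ} (h1 : q₁ ∈ D.I) (e : E d) :
    ContDiffOn ℝ ∞ (fun p : ℝ × E d => X.kInt q₁ e p.1 p.2) (D.I ×ˢ univ) := by
  have hb : ContDiffOn ℝ ∞ (fun p : ℝ × E d => (p.1, X.Φ q₁ p.1 p.2)) (D.I ×ˢ univ) :=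
    contDiffOn_fst.prodMk
      (X.joint.comp (contDiff_const.prodMk (contDiff_fst.prodMk contDiff_snd)).contDiffOn
        fun p hp => ⟨h1, hp.1, mem_univ _⟩)
  have hm : MapsTo (fun p : ℝ × E d => (p.1, X.Φ q₁ p.1 p.2)) (D.I ×ˢ univ) (D.I ×ˢ univ) :=
    fun p hp => ⟨hp.1, mem_univ _⟩
  exact ((X.contDiffOn_DΦ h1).comp hb hm).clm_apply
    (((contDiffOn_aq hP).comp hb hm).clm_apply contDiffOn_const)

omit hP in
lemma uIcc_subset {q₁ : ℝ} (h1 : q₁ ∈ D.I) : uIcc (0 : ℝ) q₁ ⊆ D.I :=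
  ordConnected_Ioo.uIcc_subset D.zero_mem h1

lemma contDiff_k {q₁ : ℝ} (h1 : q₁ ∈ D.I) (e : E d) (n : ℕ) : ContDiff ℝ n (X.k q₁ e) :=
  contDiff_intervalIntegral isOpen_Ioo (uIcc_subset h1) n
    (fun p => X.kInt q₁ e p.1 p.2) (X.contDiffOn_kInt hP h1 e)

/-- The divergence of `a e` at time `q`. -/
lemma delta_a {q : ℝ} (hq : q ∈ D.I) (w e : E d) :
    delta (D.gψ q) (fun z => D.aq q z e) w
      = ⟪D.aq q w w - q • lap (G D.U D.g D.ε (D.r q)) (D.c + q • w)
          + (D.ε * q) • D.aq q w (D.Gq q w), e⟫ := by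
  set y := D.c + q • w
  set F := G D.U D.g D.ε (D.r q)
  have hF : ContDiff ℝ ∞ F := D.contDiff_G hP (D.r_pos hq)
  have hF1 : Differentiable ℝ (fderiv ℝ F) :=
    (hF.fderiv_right (m := ∞) (by simp)).differentiable (by simp)
  have hsym : ∀ z a b, ⟪fderiv ℝ F z a, b⟫ = ⟪fderiv ℝ F z b, a⟫ := fun z a b =>
    ((hP d D.U D.g D.pot D.g0 D.ε D.ε0 D.ε1).2.2 _ (D.r_pos hq) z).2.2.2.2.1 a b
  set D2 := fderiv ℝ (fderiv ℝ F) y
  have hd : HasFDerivAt (fun z => D.aq q z e)
      (q • ((ContinuousLinearMap.apply ℝ (E d) e).comp D2)) w := by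
    have h := ((ContinuousLinearMap.apply ℝ (E d) e).hasFDerivAt.comp w
      ((hF1 y).hasFDerivAt.comp w (((hasFDerivAt_id w).const_smul q).const_add D.c)))
    refine h.congr_fderiv ?_
    ext u
    simp [D2, y]
  have hsym2 : ∀ i, D2 (bv i) e i = ⟪D2 (bv i) (bv i), e⟫ := fun i => by
    have l : ∀ a b : E d, HasFDerivAt (fun z => ⟪fderiv ℝ F z a, b⟫)
        ((innerSL ℝ b).comp ((ContinuousLinearMap.apply ℝ (E d) a).comp D2)) y := fun a b => by
      have e' : (fun z => ⟪fderiv ℝ F z a, b⟫) = fun z => innerSL ℝ b (fderiv ℝ F z a) :=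
        funext fun z => by simp [real_inner_comm]
      rw [e']
      exact (innerSL ℝ b).hasFDerivAt.comp y
        ((ContinuousLinearMap.apply ℝ (E d) a).hasFDerivAt.comp y (hF1 y).hasFDerivAt)
    have h1 := l e (bv i)
    rw [show (fun z => ⟪fderiv ℝ F z e, bv i⟫) = fun z => ⟪fderiv ℝ F z (bv i), e⟫ from
      funext fun z => hsym z e (bv i)] at h1
    have h2 := congrArg (fun L : E d →L[ℝ] ℝ => L (bv i)) (h1.unique (l (bv i) e))
    simp only [ContinuousLinearMap.coe_comp, Function.comp_apply,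
      ContinuousLinearMap.apply_apply, innerSL_apply_apply] at h2
    rw [← inner_bv_right i (D2 (bv i) e), real_inner_comm, h2, real_inner_comm]
  have hlap : ⟪lap F y, e⟫ = ∑ i, D2 (bv i) e i := by
    rw [lap, sum_inner]
    refine Finset.sum_congr rfl fun i _ => ?_
    rw [hsym2 i, iteratedFDeriv_two_apply]
    simp [D2]
  simp only [delta, dvg, hd.fderiv]
  have hdiv : ∑ i, (q • (ContinuousLinearMap.apply ℝ (E d) e).comp D2) (bv i) i
      = q * ∑ i, D2 (bv i) e i := by
    rw [Finset.mul_sum]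
    refine Finset.sum_congr rfl fun i _ => ?_
    simp
  rw [hdiv, ← hlap, Data.gψ, inner_add_left, real_inner_smul_left, inner_add_left, inner_sub_left,
    real_inner_smul_left, real_inner_smul_left, real_inner_comm (D.aq q w e) w,
    real_inner_comm (D.aq q w e) (D.Gq q w), D.fderiv_Gq_symm hP hq w e w,
    D.fderiv_Gq_symm hP hq w e (D.Gq q w)]
  ring

omit hP in
/-- A continuous family with compact support in space is integrable on a slab. -/
lemma integrable_slab (μ : Measure (E d)) [IsFiniteMeasure μ] {a b : ℝ} {f : ℝ → E d → ℝ}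
    (hf : ContinuousOn (fun p : ℝ × E d => f p.1 p.2) (uIcc a b ×ˢ univ)) {K : Set (E d)}
    (hK : IsCompact K) (hz : ∀ q ∈ uIcc a b, ∀ z, z ∉ K → f q z = 0) :
    Integrable (Function.uncurry f) ((volume.restrict (uIoc a b)).prod μ) := by
  obtain ⟨M, hM⟩ := (isCompact_uIcc.prod hK).exists_bound_of_continuousOn
    (hf.mono (prod_mono subset_rfl (subset_univ _)))
  have e' : (volume.restrict (uIoc a b)).prod μ
      = ((volume : Measure ℝ).prod μ).restrict (uIoc a b ×ˢ univ) := by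
    rw [← Measure.prod_restrict, Measure.restrict_univ]
  have hfin : IsFiniteMeasure (volume.restrict (uIoc a b)) :=
    isFiniteMeasure_restrict.2 measure_Ioc_lt_top.ne
  have hfin' : IsFiniteMeasure (((volume : Measure ℝ).prod μ).restrict (uIoc a b ×ˢ univ)) := by
    rw [← e']; infer_instance
  rw [e']
  refine Integrable.of_bound ((hf.mono (prod_mono uIoc_subset_uIcc subset_rfl)).aestronglyMeasurable
    (measurableSet_uIoc.prod MeasurableSet.univ)) (max M 0)
    ((ae_restrict_iff' (measurableSet_uIoc.prod MeasurableSet.univ)).2 (ae_of_all _ fun p hp => ?_))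
  by_cases h : p.2 ∈ K
  · exact (hM (p.1, p.2) ⟨uIoc_subset_uIcc hp.1, h⟩).trans (le_max_left _ _)
  · simp [Function.uncurry, hz p.1 (uIoc_subset_uIcc hp.1) p.2 h]

lemma continuous_law_test {q : ℝ} (hq : q ∈ D.I) :
    ContDiff ℝ ∞ (D.ψ q) :=
  contDiffOn_univ.1 (ContDiffOn.comp (g := fun p : ℝ × E d => D.ψ p.1 p.2)
    (f := fun w : E d => (q, w)) (D.contDiffOn_psi hP)
    (contDiff_const.prodMk contDiff_id).contDiffOn fun _ _ => ⟨hq, mem_univ _⟩)

lemma integral_law (hH : NWHeat) (hT : LawTransport) {q : ℝ} (hq : q ∈ D.I) {f : E d → ℝ}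
    (hf : Continuous f) : ∫ w, f w ∂law D q = ∫ z, f (X.Φ 0 q z) ∂gam d := by
  rw [← X.map_gam hP hH hT hq, integral_map (X.continuous_Φ D.zero_mem hq).aemeasurable
    hf.aestronglyMeasurable]

lemma isProb_law (hH : NWHeat) (hT : LawTransport) {q : ℝ} (hq : q ∈ D.I) (X : ExFlow D) :
    IsProbabilityMeasure (law D q) := by
  have : IsProbabilityMeasure (gam d) := by unfold gam; infer_instance
  rw [← X.map_gam hP hH hT hq]
  exact Measure.isProbabilityMeasure_map (X.continuous_Φ D.zero_mem hq).aemeasurable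

lemma continuousOn_delta_a (e : E d) :
    ContinuousOn (fun p : ℝ × E d => delta (D.gψ p.1) (fun z => D.aq p.1 z e) p.2)
      (D.I ×ˢ univ) := by
  have ha := (contDiffOn_aq hP (D := D)).clm_apply (contDiffOn_const (c := e))
  have hfd := (ha.fderiv_of_isOpen D.isOpen_I (m := ∞) (by simp)).continuousOn
  have hgψc : ContinuousOn (fun p : ℝ × E d => D.gψ p.1 p.2) (D.I ×ˢ univ) :=
    continuousOn_snd.add ((continuousOn_fst.mul continuousOn_const).smul
      (D.contDiffOn_Gq hP).continuousOn)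
  refine (hgψc.inner ha.continuousOn).sub (continuousOn_finsetSum _ fun i _ => ?_)
  refine (PiLp.continuous_apply 2 _ i).comp_continuousOn ?_
  refine ContinuousOn.congr (hfd.clm_apply (continuousOn_const (c := ((0 : ℝ), bv i))))
    fun p hp => ?_
  exact fderiv_partial (F := fun p : ℝ × E d => D.aq p.1 p.2 e)
    ((ha.contDiffAt (D.isOpen_I.mem_nhds hp)).differentiableAt (by simp)) (bv i)

/-- One time of the weak identity. -/
lemma weak_step (hH : NWHeat) (hT : LawTransport) {q q₁ : ℝ} (hq : q ∈ D.I) (h1 : q₁ ∈ D.I)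
    (e : E d) {χ : E d → ℝ} (hχ : ContDiff ℝ 1 χ) (hs : HasCompactSupport χ) :
    ∫ z, χ (X.Φ 0 q₁ z) * delta (D.gψ q) (fun u => D.aq q u e) (X.Φ 0 q z) ∂gam d
      = ∫ w, fderiv ℝ χ w (X.kInt q₁ e q w) ∂law D q₁ := by
  have hχq : ContDiff ℝ 1 fun w => χ (X.Φ q q₁ w) :=
    hχ.comp ((X.flow.smooth q hq q₁ h1).of_le (by simp))
  have hsq : HasCompactSupport fun w => χ (X.Φ q q₁ w) :=
    HasCompactSupport.intro (hs.image (X.continuous_Φ h1 hq)) fun w hw => by
      refine image_eq_zero_of_notMem_tsupport fun h => hw ⟨_, h, ?_⟩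
      rw [X.flow.trans q hq q₁ h1 q hq, X.flow.refl q hq]
  have haq : ContDiff ℝ 1 fun w => D.aq q w e := contDiff_iff_contDiffAt.2 fun w =>
    ((((contDiffOn_aq hP).clm_apply contDiffOn_const).contDiffAt
      (D.isOpen_I.mem_nhds ⟨hq, mem_univ w⟩)).comp w
        (contDiff_const.prodMk contDiff_id).contDiffAt).of_le (by simp)
  have h := integral_delta ((continuous_law_test hP hq).of_le (by simp))
    (fun w => D.hasGradient_psi hP hq w) haq hχq hsq
  have hcd : Continuous fun w => fderiv ℝ (fun z => χ (X.Φ q q₁ z)) w (D.aq q w e) :=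
    (hχq.continuous_fderiv one_ne_zero).clm_apply haq.continuous
  have hkc : Continuous fun w => fderiv ℝ χ w (X.kInt q₁ e q w) := by
    refine (hχ.continuous_fderiv one_ne_zero).clm_apply (continuous_iff_continuousAt.2 fun w => ?_)
    exact ((X.contDiffOn_kInt hP h1 e).continuousOn.continuousAt
      (D.isOpen_I.mem_nhds ⟨hq, mem_univ w⟩)).comp
        (f := fun u : E d => (q, u)) (continuous_const.prodMk continuous_id).continuousAt
  have hLqc : Continuous fun w => χ (X.Φ q q₁ w) * delta (D.gψ q) (fun u => D.aq q u e) w :=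
    hχq.continuous.mul (continuous_iff_continuousAt.2 fun w =>
      ((continuousOn_delta_a hP e).continuousAt (D.isOpen_I.mem_nhds ⟨hq, mem_univ w⟩)).comp
        (f := fun z : E d => (q, z)) (continuous_const.prodMk continuous_id).continuousAt)
  rw [show gibbs (D.ψ q) = law D q from rfl, X.integral_law hP hH hT hq hLqc,
    X.integral_law hP hH hT hq hcd] at h
  rw [X.integral_law hP hH hT h1 hkc]
  refine Eq.trans (Eq.trans (integral_congr_ae (ae_of_all _ fun z => ?_)) h)
    (integral_congr_ae (ae_of_all _ fun z => ?_))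
  · simp only [X.flow.trans 0 D.zero_mem q hq q₁ h1]
  · have hb : X.Φ q₁ q (X.Φ 0 q₁ z) = X.Φ 0 q z := X.flow.trans 0 D.zero_mem q₁ h1 q hq z
    have hc : X.Φ q q₁ (X.Φ 0 q z) = X.Φ 0 q₁ z := X.flow.trans 0 D.zero_mem q hq q₁ h1 z
    have hd := ((hχ.differentiable one_ne_zero (X.Φ q q₁ (X.Φ 0 q z))).hasFDerivAt.comp
      (X.Φ 0 q z) ((X.flow.smooth q hq q₁ h1).differentiable (by simp) _).hasFDerivAt).fderiv
    simp only [Function.comp_def] at hd
    simp only [hd, ContinuousLinearMap.coe_comp, Function.comp_apply, kInt, hb, hc]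

/-- The increment along trajectories, integrated against a test function. -/
lemma weak_left (hH : NWHeat) (hT : LawTransport) {q₁ : ℝ} (h1 : q₁ ∈ D.I) (e : E d)
    {χ : E d → ℝ} (hχ : ContDiff ℝ 1 χ) (hs : HasCompactSupport χ) :
    ∫ w, χ w * ⟪D.Gq q₁ w - G D.U D.g D.ε D.τ D.c, e⟫ ∂law D q₁
      = ∫ q in (0 : ℝ)..q₁, ∫ z, χ (X.Φ 0 q₁ z) *
          delta (D.gψ q) (fun u => D.aq q u e) (X.Φ 0 q z) ∂gam d := by
  have : IsProbabilityMeasure (gam d) := by unfold gam; infer_instance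
  have hsub := uIcc_subset (D := D) h1
  have hpath : ContinuousOn (fun p : ℝ × E d => (p.1, X.Φ 0 p.1 p.2)) (D.I ×ˢ univ) :=
    continuousOn_fst.prodMk (X.joint.continuousOn.comp
      (continuous_const.prodMk (continuous_fst.prodMk continuous_snd)).continuousOn
      fun p hp => ⟨D.zero_mem, hp.1, mem_univ _⟩)
  have hLc := (continuousOn_delta_a (D := D) hP e).comp hpath fun p hp => ⟨hp.1, mem_univ _⟩
  have hH2 : ContinuousOn (fun p : ℝ × E d => χ (X.Φ 0 q₁ p.2) *
      delta (D.gψ p.1) (fun u => D.aq p.1 u e) (X.Φ 0 p.1 p.2)) (uIcc 0 q₁ ×ˢ univ) :=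
    ((hχ.continuous.comp ((X.continuous_Φ D.zero_mem h1).comp continuous_snd)).continuousOn).mul
      (hLc.mono (prod_mono hsub subset_rfl))
  rw [X.integral_law hP hH hT h1 (f := fun w => χ w * ⟪D.Gq q₁ w - G D.U D.g D.ε D.τ D.c, e⟫)
    (hχ.continuous.mul (((D.contDiff_Gq hP h1).continuous.sub continuous_const).inner
      continuous_const))]
  rw [intervalIntegral_integral_swap (integrable_slab (gam d)
    (f := fun q z => χ (X.Φ 0 q₁ z) * delta (D.gψ q) (fun u => D.aq q u e) (X.Φ 0 q z)) hH2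
    (hs.image (X.continuous_Φ h1 D.zero_mem)) fun q _ z hz => by
      have : X.Φ 0 q₁ z ∉ tsupport χ := fun h => hz ⟨_, h, by
        rw [X.flow.trans 0 D.zero_mem q₁ h1 0 D.zero_mem, X.flow.refl 0 D.zero_mem]⟩
      simp [image_eq_zero_of_notMem_tsupport this])]
  refine integral_congr_ae (ae_of_all _ fun z => ?_)
  have hLder : ∀ q ∈ D.I, HasDerivAt (fun u => ⟪D.Gq u (X.Φ 0 u z), e⟫)
      (delta (D.gψ q) (fun u => D.aq q u e) (X.Φ 0 q z)) q := fun q hq => by
    have h := (D.hasDerivAt_Gq_path hP hq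
      (p := fun u => X.Φ 0 u z) (X.flow.deriv 0 D.zero_mem q hq z)).inner ℝ (hasDerivAt_const q e)
    refine h.congr_deriv ?_
    simp only [delta_a hP hq, inner_zero_right, zero_add]
  have hslice : ContinuousOn (fun q => delta (D.gψ q) (fun u => D.aq q u e) (X.Φ 0 q z))
      (uIcc 0 q₁) :=
    hLc.comp (f := fun q : ℝ => (q, z)) (continuous_id.prodMk continuous_const).continuousOn
      fun q hq => ⟨hsub hq, mem_univ _⟩
  have hftc := intervalIntegral.integral_eq_sub_of_hasDerivAt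
    (fun q hq => hLder q (hsub hq)) hslice.intervalIntegrable
  have e0 : D.Gq 0 (X.Φ 0 0 z) = G D.U D.g D.ε D.τ D.c := by simp [Data.Gq, Data.r]
  simp only [intervalIntegral.integral_const_mul, hftc]
  rw [e0, inner_sub_left]

/-- The increment of the mean gradient against a test function. -/
lemma weak_identity (hH : NWHeat) (hT : LawTransport) {q₁ : ℝ} (h1 : q₁ ∈ D.I) (e : E d)
    {χ : E d → ℝ} (hχ' : ContDiff ℝ ∞ χ) (hs : HasCompactSupport χ) :
    ∫ w, χ w * (⟪D.Gq q₁ w - G D.U D.g D.ε D.τ D.c, e⟫ - delta (D.gψ q₁) (X.k q₁ e) w)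
      ∂law D q₁ = 0 := by
  have hprob1 := isProb_law hP hH hT h1 X
  have hχ : ContDiff ℝ 1 χ := hχ'.of_le (by simp)
  have hGc : Continuous (D.Gq q₁) := (D.contDiff_Gq hP h1).continuous
  have hk1 : ContDiff ℝ 1 (X.k q₁ e) := X.contDiff_k hP h1 e 1
  have hδc : Continuous (delta (D.gψ q₁) (X.k q₁ e)) := by
    refine ((continuous_id.add (hGc.const_smul (q₁ * D.ε))).inner hk1.continuous).sub ?_
    exact continuous_finsetSum _ fun i _ => (PiLp.continuous_apply 2 _ i).comp
      ((hk1.continuous_fderiv one_ne_zero).clm_apply continuous_const)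
  have iA : Integrable (fun w => χ w * ⟪D.Gq q₁ w - G D.U D.g D.ε D.τ D.c, e⟫) (law D q₁) :=
    (hχ.continuous.mul ((hGc.sub continuous_const).inner
      continuous_const)).integrable_of_hasCompactSupport hs.mul_right
  have iB : Integrable (fun w => χ w * delta (D.gψ q₁) (X.k q₁ e) w) (law D q₁) :=
    (hχ.continuous.mul hδc).integrable_of_hasCompactSupport hs.mul_right
  simp only [mul_sub]
  rw [integral_sub iA iB, sub_eq_zero, X.weak_left hP hH hT h1 e hχ hs]
  refine Eq.trans ?_ (integral_delta ((continuous_law_test hP h1).of_le (by simp))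
    (fun w => D.hasGradient_psi hP h1 w) hk1 hχ hs).symm
  have hsub := uIcc_subset (D := D) h1
  rw [intervalIntegral.integral_congr fun q hq => X.weak_step hP hH hT (hsub hq) h1 e hχ hs]
  have hc : ContinuousOn (fun p : ℝ × E d => fderiv ℝ χ p.2 (X.kInt q₁ e p.1 p.2))
      (uIcc 0 q₁ ×ˢ univ) :=
    ((hχ.continuous_fderiv one_ne_zero).comp continuous_snd).continuousOn.clm_apply
      ((X.contDiffOn_kInt hP h1 e).continuousOn.mono (prod_mono hsub subset_rfl))
  rw [intervalIntegral_integral_swap (integrable_slab (law D q₁)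
    (f := fun q w => fderiv ℝ χ w (X.kInt q₁ e q w)) hc hs
    fun q _ z hz => by simp [fderiv_of_notMem_tsupport ℝ hz])]
  refine integral_congr_ae (ae_of_all _ fun w => ?_)
  have hi : IntervalIntegrable (fun q => X.kInt q₁ e q w) volume 0 q₁ :=
    ((X.contDiffOn_kInt hP h1 e).continuousOn.comp (f := fun q : ℝ => (q, w))
      (continuous_id.prodMk continuous_const).continuousOn
      fun q hq => ⟨hsub hq, mem_univ w⟩).intervalIntegrable
  exact (fderiv ℝ χ w).intervalIntegral_comp_comm hi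

/-- The pointwise identity. -/
theorem delta_k (hH : NWHeat) (hT : LawTransport) {q₁ : ℝ} (h1 : q₁ ∈ D.I) (e w : E d) :
    delta (D.gψ q₁) (X.k q₁ e) w = ⟪D.Gq q₁ w - G D.U D.g D.ε D.τ D.c, e⟫ := by
  have hGc : Continuous (D.Gq q₁) := (D.contDiff_Gq hP h1).continuous
  have hψ1 : Continuous (D.ψ q₁) := continuous_iff_continuousAt.2 fun z =>
    (((D.contDiffOn_psi hP).contDiffAt (D.isOpen_I.mem_nhds ⟨h1, mem_univ z⟩)).continuousAt).comp
      (f := fun u : E d => (q₁, u)) (continuous_const.prodMk continuous_id).continuousAt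
  have hk1 : ContDiff ℝ 1 (X.k q₁ e) := X.contDiff_k hP h1 e 1
  have hδc : Continuous (delta (D.gψ q₁) (X.k q₁ e)) := by
    refine ((continuous_id.add (hGc.const_smul (q₁ * D.ε))).inner hk1.continuous).sub ?_
    exact continuous_finsetSum _ fun i _ => (PiLp.continuous_apply 2 _ i).comp
      ((hk1.continuous_fderiv one_ne_zero).clm_apply continuous_const)
  have h := eq_zero_of_integral_gibbs hψ1 (D.integrable_exp_psi hP h1)
    (((hGc.sub continuous_const).inner continuous_const).sub hδc)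
    (fun χ hχ hs => X.weak_identity hP hH hT h1 e hχ hs) w
  exact (sub_eq_zero.1 h).symm

end Post

end ExFlow

end Vale.Agent.P347.Gamma0
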