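import Vale.Agent.P347.Gamma0.Flow
import Vale.Agent.P347.Gamma0.Identity

/-!
P347, towards `γ_* = 0`: flows are smooth jointly in the two times and the initial point; exact
flows exist.
-/

namespace Vale.Agent.P347.Gamma0

open Set Filter Topology Metric
open scoped ContDiff

/-- The field whose time-one map is the flow over an arbitrary interval. -/
noncomputable def retime {N : ℕ} (v : ℝ → E N → E N) (β : ℝ → ℝ) (lam : ℝ → ℝ) (_u : ℝ)
    (y : E N × ℝ × ℝ) : E N × ℝ × ℝ :=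
  (lam y.2.2 • β y.2.1 • v y.2.1 y.1, lam y.2.2, 0)

theorem IsFlow.joint_smooth {N : ℕ} {a b : ℝ} {v : ℝ → E N → E N} {Φ : ℝ → ℝ → E N → E N}
    (hΦ : IsFlow v (Ioo a b) Φ)
    (hv : ContDiffOn ℝ ∞ (fun p : ℝ × E N => v p.1 p.2) (Ioo a b ×ˢ univ))
    (hg : ∀ a' b', a < a' → b' < b → ∃ C : ℝ, ∀ t ∈ Icc a' b', ∀ x, ‖v t x‖ ≤ C * (1 + ‖x‖)) :
    ContDiffOn ℝ ∞ (fun p : ℝ × ℝ × E N => Φ p.1 p.2.1 p.2.2)
      (Ioo a b ×ˢ Ioo a b ×ˢ univ) := by
  rintro ⟨s₀, t₀, x₀⟩ ⟨hs₀, ht₀, -⟩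
  refine ContDiffAt.contDiffWithinAt ?_
  set μ := min (min (s₀ - a) (b - s₀)) (min (t₀ - a) (b - t₀)) / 4 with hμdef
  have hμ : 0 < μ := by
    have := hs₀.1; have := hs₀.2; have := ht₀.1; have := ht₀.2
    positivity
  have hab : a < b := hs₀.1.trans hs₀.2
  have hsA : a + 4 * μ ≤ s₀ ∧ s₀ ≤ b - 4 * μ := by
    have h1 := min_le_left (min (s₀ - a) (b - s₀)) (min (t₀ - a) (b - t₀))
    have h2 := min_le_left (s₀ - a) (b - s₀)
    have h3 := min_le_right (s₀ - a) (b - s₀)
    constructor <;> linarith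
  have htA : a + 4 * μ ≤ t₀ ∧ t₀ ≤ b - 4 * μ := by
    have h1 := min_le_right (min (s₀ - a) (b - s₀)) (min (t₀ - a) (b - t₀))
    have h2 := min_le_left (t₀ - a) (b - t₀)
    have h3 := min_le_right (t₀ - a) (b - t₀)
    constructor <;> linarith
  -- cut-off functions
  set c₀ := (a + b) / 2
  set R := (b - a) / 2 - μ
  have hR : 0 < R := by simp only [R]; linarith
  let βb : ContDiffBump c₀ := ⟨R, R + μ / 2, hR, by linarith⟩
  set β : ℝ → ℝ := fun σ => βb σ
  let κ : ContDiffBump (0 : ℝ) := ⟨b - a, b - a + 1, by linarith, by linarith⟩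
  set lam : ℝ → ℝ := fun l => κ l * l
  have hlamC : ContDiff ℝ ∞ lam := κ.contDiff.mul contDiff_id
  have hlamB : ∀ l, |lam l| ≤ b - a + 1 := by
    intro l
    rcases le_or_gt (b - a + 1) |l| with h | h
    · have : κ l = 0 := κ.zero_of_le_dist (by simpa [Real.dist_eq] using h)
      simp only [lam, this, zero_mul, abs_zero]
      linarith
    · simp only [lam, abs_mul, abs_of_nonneg κ.nonneg]
      exact (mul_le_of_le_one_left (abs_nonneg l) κ.le_one).trans h.le
  have hβ0 : ∀ σ, σ ∉ Icc (a + μ / 2) (b - μ / 2) → β σ = 0 := by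
    intro σ hσ
    refine βb.zero_of_le_dist ?_
    change R + μ / 2 ≤ dist σ c₀
    rw [mem_Icc, not_and_or, not_le, not_le] at hσ
    rw [Real.dist_eq]
    rcases hσ with h | h
    · refine le_trans ?_ (neg_le_abs _); simp only [R, c₀]; linarith
    · refine le_trans ?_ (le_abs_self _); simp only [R, c₀]; linarith
  have hβ1 : ∀ σ ∈ Icc (a + μ) (b - μ), β σ = 1 := fun σ hσ => by
    refine βb.one_of_mem_closedBall ?_
    change dist σ c₀ ≤ R
    rw [Real.dist_eq, abs_le]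
    simp only [R, c₀]
    constructor <;> linarith [hσ.1, hσ.2]
  -- the extended field
  have hbv : ContDiff ℝ ∞ fun p : ℝ × E N => β p.1 • v p.1 p.2 := by
    refine contDiff_iff_contDiffAt.2 fun p => ?_
    rcases em (p.1 ∈ Ioo a b) with h | h
    · exact (βb.contDiff.comp contDiff_fst).contDiffAt.smul
        (hv.contDiffAt ((isOpen_Ioo.prod isOpen_univ).mem_nhds ⟨h, mem_univ _⟩))
    · refine (contDiffAt_const (c := (0 : E N))).congr_of_eventuallyEq ?_
      have hp : p.1 ∉ Icc (a + μ / 2) (b - μ / 2) := fun h' =>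
        h ⟨by linarith [h'.1], by linarith [h'.2]⟩
      filter_upwards [(continuous_fst.tendsto p).eventually (isClosed_Icc.isOpen_compl.mem_nhds hp)]
        with z hz
      simp [hβ0 z.1 hz]
  have hw : ContDiffOn ℝ ∞ (fun p : ℝ × (E N × ℝ × ℝ) => retime v β lam p.1 p.2)
      (Ioo (-(μ / (b - a))) (1 + μ / (b - a)) ×ˢ univ) := by
    have h2 : ContDiff ℝ ∞ fun p : ℝ × (E N × ℝ × ℝ) => lam p.2.2.2 := hlamC.comp (by fun_prop)
    have h3 : ContDiff ℝ ∞ fun p : ℝ × (E N × ℝ × ℝ) => β p.2.2.1 • v p.2.2.1 p.2.1 :=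
      hbv.comp (f := fun p : ℝ × (E N × ℝ × ℝ) => (p.2.2.1, p.2.1)) (by fun_prop)
    exact ((h2.smul h3).prodMk (h2.prodMk contDiff_const)).contDiffOn
  obtain ⟨C, hC⟩ := hg (a + μ / 2) (b - μ / 2) (by linarith) (by linarith)
  have hgr : OdeFlow.Growth (retime v β lam) (-(μ / (b - a))) (1 + μ / (b - a)) := by
    intro a' b' _ _
    refine ⟨(b - a + 1) * (max C 0 + 1), fun u _ y => ?_⟩
    have hL := hlamB y.2.2
    have hbv' : ‖β y.2.1 • v y.2.1 y.1‖ ≤ max C 0 * (1 + ‖y‖) := by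
      rcases em (y.2.1 ∈ Icc (a + μ / 2) (b - μ / 2)) with h | h
      · rw [norm_smul, Real.norm_eq_abs, abs_of_nonneg βb.nonneg]
        refine (mul_le_of_le_one_left (norm_nonneg _) βb.le_one).trans ((hC _ h _).trans ?_)
        exact mul_le_mul (le_max_left _ _) (by linarith [norm_fst_le y]) (by positivity)
          (le_max_right _ _)
      · rw [hβ0 _ h, zero_smul, norm_zero]
        positivity
    have hba : 0 ≤ b - a + 1 := by linarith
    have hy : (0 : ℝ) ≤ ‖y‖ := norm_nonneg y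
    have hm : (0 : ℝ) ≤ max C 0 := le_max_right _ _
    refine norm_prod_le_iff.2 ⟨?_, norm_prod_le_iff.2 ⟨?_, ?_⟩⟩
    · change ‖lam y.2.2 • β y.2.1 • v y.2.1 y.1‖ ≤ _
      rw [norm_smul, Real.norm_eq_abs]
      refine (mul_le_mul hL hbv' (norm_nonneg _) hba).trans ?_
      rw [← mul_assoc]
      gcongr
      linarith
    · change ‖lam y.2.2‖ ≤ _
      rw [Real.norm_eq_abs]
      refine hL.trans ?_
      rw [mul_assoc]
      exact le_mul_of_one_le_right hba
        (one_le_mul_of_one_le_of_one_le (by linarith) (by linarith))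
    · change ‖(0 : ℝ)‖ ≤ _
      rw [norm_zero]
      positivity
  set e := μ / (b - a)
  have he : 0 < e := div_pos hμ (by linarith)
  have h0I : (0 : ℝ) ∈ Ioo (-e) (1 + e) := ⟨by linarith, by linarith⟩
  have h1I : (1 : ℝ) ∈ Ioo (-e) (1 + e) := ⟨by linarith, by linarith⟩
  have hl := OdeFlow.locLip hw
  choose Ψ hΨ0 hΨ using fun y : E N × ℝ × ℝ =>
    OdeFlow.exists_sol (OdeFlow.continuous_time hw) hl hgr h0I y
  have hFam : OdeFlow.Fam (retime v β lam) (-e) (1 + e) 0 Ψ :=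
    ⟨h0I, hw, hΨ0, hΨ, OdeFlow.bounded_of_growth h0I hgr hΨ hΨ0⟩
  have hsmooth : ContDiff ℝ ∞ fun p : ℝ × ℝ × E N =>
      (Ψ (p.2.2, p.1, p.2.1 - p.1) 1).1 :=
    contDiff_fst.comp ((hFam.contDiff h1I).comp
      (f := fun p : ℝ × ℝ × E N => (p.2.2, p.1, p.2.1 - p.1)) (by fun_prop))
  refine hsmooth.contDiffAt.congr_of_eventuallyEq ?_
  have hnhds : {p : ℝ × ℝ × E N | |p.1 - s₀| < μ ∧ |p.2.1 - t₀| < μ} ∈ 𝓝 (s₀, t₀, x₀) := by
    refine (IsOpen.mem_nhds ?_ (by simp [hμ]))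
    have c1 : Continuous fun p : ℝ × ℝ × E N => |p.1 - s₀| := by fun_prop
    have c2 : Continuous fun p : ℝ × ℝ × E N => |p.2.1 - t₀| := by fun_prop
    exact (isOpen_lt c1 continuous_const).inter (isOpen_lt c2 continuous_const)
  filter_upwards [hnhds] with ⟨s, t, x⟩ hp
  obtain ⟨hs, ht⟩ := hp
  rw [abs_lt] at hs ht
  set l := t - s
  have hlabs : |l| ≤ b - a := by rw [abs_le]; constructor <;> linarith
  have hlam : lam l = l := by
    have : κ l = 1 := κ.one_of_mem_closedBall (by simpa [Real.dist_eq] using hlabs)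
    simp [lam, this]
  have hseg : ∀ u ∈ Ioo (-e) (1 + e), s + u * l ∈ Icc (a + μ) (b - μ) := by
    intro u hu
    have h1 : |u * l - max 0 (min 1 u) * l| ≤ μ := by
      rw [← sub_mul, abs_mul]
      have hu' : |u - max 0 (min 1 u)| ≤ e := by
        rcases le_or_gt u 0 with h | h
        · rw [min_eq_right (h.trans zero_le_one), max_eq_left h, sub_zero, abs_of_nonpos h]
          linarith [hu.1]
        · rcases le_or_gt u 1 with h' | h'
          · simp [min_eq_right h', max_eq_right h.le, he.le]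
          · rw [min_eq_left h'.le, max_eq_right zero_le_one, abs_of_pos (sub_pos.2 h')]
            linarith [hu.2]
      refine (mul_le_mul hu' hlabs (abs_nonneg _) he.le).trans (le_of_eq ?_)
      simp only [e]
      rw [div_mul_cancel₀ _ (by linarith : b - a ≠ 0)]
    rw [abs_le] at h1
    have hm0 : 0 ≤ max 0 (min 1 u) := le_max_left _ _
    have hm1 : max 0 (min 1 u) ≤ 1 := max_le zero_le_one (min_le_left _ _)
    set m := max 0 (min 1 u)
    have key : s + m * l ∈ Icc (a + 3 * μ) (b - 3 * μ) := by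
      have : s + m * l = (1 - m) * s + m * t := by simp only [l]; ring
      rw [this]
      constructor
      · nlinarith [mul_nonneg hm0 (show 0 ≤ t - (a + 3 * μ) by linarith),
          mul_nonneg (sub_nonneg.2 hm1) (show 0 ≤ s - (a + 3 * μ) by linarith)]
      · nlinarith [mul_nonneg hm0 (show 0 ≤ b - 3 * μ - t by linarith),
          mul_nonneg (sub_nonneg.2 hm1) (show 0 ≤ b - 3 * μ - s by linarith)]
    exact ⟨by linarith [key.1, h1.1], by linarith [key.2, h1.2]⟩
  set f : ℝ → E N × ℝ × ℝ := fun u => (Φ s (s + u * l) x, s + u * l, l)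
  have hsI : s ∈ Ioo a b := ⟨by linarith, by linarith⟩
  have hsol : OdeFlow.Sol (retime v β lam) (Ioo (-e) (1 + e)) f := by
    intro u hu
    have hin := hseg u hu
    have hI : s + u * l ∈ Ioo a b := ⟨by linarith [hin.1], by linarith [hin.2]⟩
    have h1 : HasDerivAt (fun w : ℝ => s + w * l) l u := by
      simpa using ((hasDerivAt_id u).mul_const l).const_add s
    refine ((((hΦ.deriv s hsI _ hI x).scomp u h1).prodMk (h1.prodMk (hasDerivAt_const u l)))).congr_deriv ?_
    simp [retime, f, hlam, hβ1 _ hin]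
  have huniq := OdeFlow.unique hl h0I hsol (hΨ (x, s, l))
    (by rw [hΨ0]; simp [f, hΦ.refl s hsI]) 1 h1I
  change Φ s t x = (Ψ (x, s, l) 1).1
  rw [← huniq]
  simp [f, l]

/-- Exact flows exist. -/
theorem exists_exFlow (hP : PostFacts) {d : ℕ} (D : Data d) : Nonempty (ExFlow D) := by
  have hτ := Real.sqrt_pos.2 D.τ0
  obtain ⟨Φ, hΦ⟩ := flowExists d _ _ (by linarith) D.v (D.contDiffOn_v hP)
    fun a b ha hb => D.growth_v hP ha hb
  exact ⟨⟨Φ, hΦ, hΦ.joint_smooth (D.contDiffOn_v hP) fun a b ha hb => D.growth_v hP ha hb⟩⟩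

end Vale.Agent.P347.Gamma0
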