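import Vale.Agent.P347.Gamma0.Expr
import Vale.Agent.P347.AlgoRun

/-!
P347, towards `γ_* = 0`: maps computed with a bounded number of adaptive evaluations of an unknown
vector field, and their translation to the first order oracle.
-/

namespace Vale.Agent.P347.Gamma0

open MeasureTheory

variable {d : ℕ}

/-- Computed with `k` adaptive evaluations of the field. -/
def GReal (d : ℕ) : (k : ℕ) → ∀ {S T : Type} [MeasurableSpace S] [MeasurableSpace T],
    ((E d → E d) → S → T) → Prop
  | 0, _, _, _, _, F => ∃ h, Measurable h ∧ ∀ g, Continuous g → ∀ s, F g s = h s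
  | k + 1, S, T, _, _, F => ∃ (pre : S → E d) (H : (E d → E d) → S × E d → T),
      Measurable pre ∧ GReal d k H ∧ ∀ g, Continuous g → ∀ s, F g s = H g (s, g (pre s))

namespace GReal

variable {S T W : Type} [MeasurableSpace S] [MeasurableSpace T] [MeasurableSpace W]

lemma congr {k : ℕ} {F G : (E d → E d) → S → T} (h : GReal d k F)
    (e : ∀ g, Continuous g → ∀ s, G g s = F g s) : GReal d k G := by
  cases k with
  | zero =>
    obtain ⟨f, hf, hF⟩ := h
    exact ⟨f, hf, fun g hg s => (e g hg s).trans (hF g hg s)⟩
  | succ k =>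
    obtain ⟨pre, H, hp, hH, hF⟩ := h
    exact ⟨pre, H, hp, hH, fun g hg s => (e g hg s).trans (hF g hg s)⟩

lemma measurable {k : ℕ} {F : (E d → E d) → S → T} (h : GReal d k F) {g : E d → E d}
    (hg : Continuous g) : Measurable (F g) := by
  induction k generalizing S with
  | zero =>
    obtain ⟨f, hf, hF⟩ := h
    rw [show F g = f from funext (hF g hg)]
    exact hf
  | succ k ih =>
    obtain ⟨pre, H, hp, hH, hF⟩ := h
    rw [show F g = fun s => H g (s, g (pre s)) from funext (hF g hg)]
    exact (ih hH).comp (measurable_id.prodMk (hg.measurable.comp hp))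

lemma precomp {k : ℕ} {F : (E d → E d) → T → W} (h : GReal d k F) {φ : S → T}
    (hφ : Measurable φ) : GReal d k fun g s => F g (φ s) := by
  induction k generalizing S T with
  | zero =>
    obtain ⟨f, hf, hF⟩ := h
    exact ⟨fun s => f (φ s), hf.comp hφ, fun g hg s => hF g hg (φ s)⟩
  | succ k ih =>
    obtain ⟨pre, H, hp, hH, hF⟩ := h
    exact ⟨fun s => pre (φ s), fun g p => H g (φ p.1, p.2), hp.comp hφ,
      ih hH ((hφ.comp measurable_fst).prodMk measurable_snd), fun g hg s => hF g hg (φ s)⟩

lemma comp {k l : ℕ} {F : (E d → E d) → S → T} {G : (E d → E d) → T → W}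
    (hF : GReal d k F) (hG : GReal d l G) : GReal d (k + l) fun g s => G g (F g s) := by
  induction k generalizing S with
  | zero =>
    obtain ⟨f, hf, hF⟩ := hF
    rw [Nat.zero_add]
    exact (hG.precomp hf).congr fun g hg s => congrArg (G g) (hF g hg s)
  | succ k ih =>
    obtain ⟨pre, H, hp, hH, hF⟩ := hF
    rw [Nat.succ_add]
    exact ⟨pre, fun g p => G g (H g p), hp, ih hH, fun g hg s => congrArg (G g) (hF g hg s)⟩

lemma pure {φ : S → T} (hφ : Measurable φ) : GReal d 0 fun (_ : E d → E d) s => φ s :=
  ⟨φ, hφ, fun _ _ _ => rfl⟩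

lemma postcomp {k : ℕ} {F : (E d → E d) → S → T} (hF : GReal d k F) {φ : T → W}
    (hφ : Measurable φ) : GReal d k fun g s => φ (F g s) :=
  hF.comp (pure hφ)

lemma carry {k : ℕ} {F : (E d → E d) → S → T} (h : GReal d k F) :
    GReal d k fun g (p : S × W) => (p.2, F g p.1) := by
  induction k generalizing S with
  | zero =>
    obtain ⟨f, hf, hF⟩ := h
    exact ⟨fun p : S × W => (p.2, f p.1), measurable_snd.prodMk (hf.comp measurable_fst),
      fun g hg p => congrArg (Prod.mk p.2) (hF g hg p.1)⟩
  | succ k ih =>
    obtain ⟨pre, H, hp, hH, hF⟩ := h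
    exact ⟨fun p => pre p.1, fun g x => (x.1.2, H g (x.1.1, x.2)), hp.comp measurable_fst,
      (ih hH).precomp
        (((measurable_fst.comp measurable_fst).prodMk measurable_snd).prodMk
          (measurable_snd.comp measurable_fst)),
      fun g hg p => congrArg (Prod.mk p.2) (hF g hg p.1)⟩

lemma succ {k : ℕ} {F : (E d → E d) → S → T} (h : GReal d k F) : GReal d (k + 1) F :=
  ⟨fun _ => 0, fun g p => F g p.1, measurable_const, h.precomp measurable_fst, fun _ _ _ => rfl⟩

lemma mono {k l : ℕ} {F : (E d → E d) → S → T} (h : GReal d k F) (hl : k ≤ l) :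
    GReal d l F := by
  induction hl with
  | refl => exact h
  | step _ ih => exact ih.succ

lemma ask {pre : S → E d} (hp : Measurable pre) : GReal d 1 fun g s => (s, g (pre s)) :=
  ⟨pre, fun _ x => x, hp, pure measurable_id, fun _ _ _ => rfl⟩

/-- Two independent maps. -/
lemma pair {k l : ℕ} {F : (E d → E d) → S → T} {G : (E d → E d) → S → W}
    (hF : GReal d k F) (hG : GReal d l G) : GReal d (k + l) fun g s => (F g s, G g s) :=
  (((hF.carry (W := S)).precomp (φ := fun s : S => (s, s)) (measurable_id.prodMk measurable_id)).comp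
    ((hG.carry (W := T)).precomp (φ := fun p : S × T => (p.1, p.2))
      (measurable_fst.prodMk measurable_snd))).congr fun _ _ _ => rfl

/-- An expression evaluated with the field in place of every gate. -/
lemma expr {ι : Type} [Fintype ι] (e : Expr ι) :
    GReal d e.nodes fun g (x : ι → E d) => e.val (fun _ => g) x := by
  induction e with
  | var i => exact (pure (measurable_pi_apply i)).mono (Nat.zero_le _)
  | zero => exact (pure measurable_const).mono (Nat.zero_le _)
  | add e₁ e₂ h₁ h₂ =>
    exact (((h₁.pair h₂).postcomp (φ := fun p : E d × E d => p.1 + p.2) (by fun_prop)).mono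
      (Nat.le_succ _)).congr fun _ _ _ => rfl
  | smul c e h =>
    exact ((h.postcomp (φ := fun p : E d => c • p) (by fun_prop)).mono (Nat.le_succ _)).congr
      fun _ _ _ => rfl
  | gate r e h =>
    exact ((h.comp (ask (pre := fun y : E d => y) measurable_id)).postcomp
      (φ := fun p : E d × E d => p.2) measurable_snd).congr fun _ _ _ => rfl

/-- Translation to the oracle, the field at `u` being an affine image of the gradient at `α u`. -/
lemma realizable {k : ℕ} {F : (E d → E d) → S → T} (h : GReal d k F) (α β γ : ℝ) :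
    AlgoRun.Realizable d k fun V s => F (fun u => β • gradient V (α • u) + γ • u) s := by
  induction k generalizing S with
  | zero =>
    obtain ⟨f, hf, hF⟩ := h
    exact ⟨f, hf, fun V hV s => hF _
      (((hV.contDiff_gradient.continuous.comp (continuous_const_smul α)).const_smul β).add
        (continuous_const_smul γ)) s⟩
  | succ k ih =>
    obtain ⟨pre, H, hp, hH, hF⟩ := h
    refine ⟨fun s => α • pre s,
      fun V p => H (fun u => β • gradient V (α • u) + γ • u)
        (p.1, β • p.2.2 + γ • pre p.1), hp.const_smul α, ?_, fun V hV s => ?_⟩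
    · exact (ih hH).precomp (g := fun p : S × (ℝ × E d) => (p.1, β • p.2.2 + γ • pre p.1))
        (by fun_prop)
    · exact hF _ (((hV.contDiff_gradient.continuous.comp (continuous_const_smul α)).const_smul β).add
        (continuous_const_smul γ)) s

end GReal

end Vale.Agent.P347.Gamma0
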