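import Vale.Agent.P347.Gamma0.MeanStage

/-!
P347, towards `γ_* = 0`: the quadratic mean of the mean gradient on the law at one time.
-/

namespace Vale.Agent.P347.Gamma0

open MeasureTheory ProbabilityTheory Set Filter
open scoped RealInnerProductSpace ContDiff ENNReal

variable {d : ℕ}

attribute [local irreducible] G nW psi

/-- The hypothesis `hS` of `Build.est_error`. -/
theorem ms_Gq (hP : PostFacts) (hT : LawTransport) (D : Data d) (hτ : D.τ ≤ 1) {q : ℝ}
    (hq : q ∈ D.I) (h0 : 0 ≤ q) :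
    ∫⁻ p, ‖D.Gq q p.1‖ₑ ^ 2 ∂(ExFlow.law D q).prod (gam d)
      ≤ ENNReal.ofReal ((8 * (Real.sqrt d + ‖D.c‖)) ^ 2) := by
  obtain ⟨X⟩ := exists_exFlow hP D
  have : IsProbabilityMeasure (gam d) := by unfold gam; infer_instance
  have hGm : Measurable (D.Gq q) := (D.contDiff_Gq hP hq).continuous.measurable
  have hΦ : Measurable (X.Φ 0 q) := (X.continuous_Φ D.zero_mem hq).measurable
  set K := Real.sqrt d + ‖D.c‖
  have hK : 0 ≤ K := by positivity
  have hexp : Real.exp D.ε ≤ 3 :=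
    (Real.exp_le_exp.2 D.ε1).trans Real.exp_one_lt_three.le
  have hpt : ∀ R, ‖D.Gq q (X.Φ 0 q R)‖ₑ ^ 2
      ≤ ENNReal.ofReal (18 * ‖R‖ ^ 2 + 32 * K ^ 2) := fun R => by
    rw [← ofReal_norm, ← ENNReal.ofReal_pow (norm_nonneg _)]
    refine ENNReal.ofReal_le_ofReal ?_
    have h1 := ExFlow.norm_Gq_le hP hτ hq (X.Φ 0 q R)
    have h2 := X.norm_path_le hP hτ hq h0 R
    have h3 : (‖R‖ + D.ε * (‖D.c‖ + Real.sqrt d)) * Real.exp D.ε ≤ (‖R‖ + K) * 3 := by
      refine mul_le_mul (add_le_add le_rfl ?_) hexp (Real.exp_pos _).le (by positivity)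
      exact (mul_le_of_le_one_left (by positivity) D.ε1).trans (add_comm _ _).le
    have h4 : ‖D.Gq q (X.Φ 0 q R)‖ ≤ 3 * ‖R‖ + 4 * K := by simp only [K] at h3 ⊢; linarith
    exact (pow_le_pow_left₀ (norm_nonneg _) h4 2).trans (by nlinarith [sq_nonneg (3 * ‖R‖ - 4 * K)])
  have hi : Integrable (fun R : E d => ‖R‖ ^ 2) (gam d) := by
    unfold gam
    exact ((IsGaussian.memLp_id (stdGaussian (E d)) 2 (by simp)).norm).integrable_sq
  calc ∫⁻ p, ‖D.Gq q p.1‖ₑ ^ 2 ∂(ExFlow.law D q).prod (gam d)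
      = ∫⁻ w, ‖D.Gq q w‖ₑ ^ 2 ∂ExFlow.law D q := by
        rw [lintegral_prod (fun p : E d × E d => ‖D.Gq q p.1‖ₑ ^ 2)
          ((hGm.comp measurable_fst).enorm.pow_const 2).aemeasurable]
        simp
    _ = ∫⁻ R, ‖D.Gq q (X.Φ 0 q R)‖ₑ ^ 2 ∂gam d := by
        rw [← X.map_gam hP (nwHeat_of_post hP) hT hq,
          lintegral_map (hGm.enorm.pow_const 2) hΦ]
    _ ≤ ∫⁻ R, ENNReal.ofReal (18 * ‖R‖ ^ 2 + 32 * K ^ 2) ∂gam d := lintegral_mono hpt
    _ = ENNReal.ofReal (18 * d + 32 * K ^ 2) := by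
        have hi' : Integrable (fun R : E d => 18 * ‖R‖ ^ 2 + 32 * K ^ 2) (gam d) :=
          (hi.const_mul 18).add (integrable_const _)
        rw [← ofReal_integral_eq_lintegral_ofReal hi' (Eventually.of_forall fun R => by positivity),
          integral_add (hi.const_mul 18) (integrable_const _), integral_const_mul,
          QuadOU.integral_norm_sq, integral_const, probReal_univ, one_smul]
    _ ≤ _ := by
        refine ENNReal.ofReal_le_ofReal ?_
        have h1 : (d : ℝ) ≤ K ^ 2 := by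
          calc (d : ℝ) = Real.sqrt d ^ 2 := (Real.sq_sqrt (Nat.cast_nonneg d)).symm
            _ ≤ K ^ 2 := pow_le_pow_left₀ (Real.sqrt_nonneg _)
              (le_add_of_nonneg_right (norm_nonneg _)) 2
        nlinarith

end Vale.Agent.P347.Gamma0
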