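import Vale.Agent.P347.Gamma0.Lift

/-!
P347, towards `γ_* = 0`: the Hamiltonian flow of the law at one time.  It preserves the law times a
Gaussian and its first derivative is the product of the Hessian with the velocity.
-/

namespace Vale.Agent.P347.Gamma0

open MeasureTheory ProbabilityTheory Set Filter
open scoped RealInnerProductSpace ContDiff Topology ENNReal

variable {d : ℕ}

/-- A Gibbs law with an integrable weight is a probability law. -/
lemma isProb_gibbs_of_integrable {ψ : E d → ℝ}
    (hi : Integrable fun x => Real.exp (-ψ x)) : IsProbabilityMeasure (gibbs ψ) := by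
  have hp : 0 < ∫ x, Real.exp (-ψ x) := by
    refine (integral_pos_iff_support_of_nonneg (fun x => (Real.exp_pos _).le) hi).2 ?_
    rw [show Function.support (fun x => Real.exp (-ψ x)) = univ from
      eq_univ_of_forall fun x => (Real.exp_pos _).ne']
    exact isOpen_univ.measure_pos volume univ_nonempty
  constructor
  rw [gibbs, Measure.smul_apply, withDensity_apply _ MeasurableSet.univ, Measure.restrict_univ,
    smul_eq_mul,
    ← ofReal_integral_eq_lintegral_ofReal hi (ae_of_all _ fun _ => (Real.exp_pos _).le)]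
  exact ENNReal.inv_mul_cancel (by simpa using hp) ENNReal.ofReal_ne_top

namespace Data

attribute [local irreducible] G nW

variable (D : Data d)

/-- The Hamiltonian field of `ψ q` and a standard Gaussian velocity. -/
noncomputable def hamVel (q : ℝ) (_t : ℝ) (x : E (d + d)) : E (d + d) :=
  (split d).symm ((split d x).2, -(D.gψ q (split d x).1))

end Data

/-- The Hamiltonian flow at time `q`. -/
structure Ham (D : Data d) (q : ℝ) where
  Ψ : ℝ → ℝ → E (d + d) → E (d + d)
  flow : IsFlow (D.hamVel q) (Ioo (-2 : ℝ) 2) Ψ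

namespace Ham

attribute [local irreducible] G nW psi

/-- The times are cut to an interval inside the life time. -/
noncomputable def cut (s : ℝ) : ℝ := max (-(3 / 2)) (min s (3 / 2))

lemma cut_mem (s : ℝ) : cut s ∈ Ioo (-2 : ℝ) 2 := by
  constructor
  · exact (show (-2 : ℝ) < -(3 / 2) by norm_num).trans_le (le_max_left _ _)
  · exact (max_le (by norm_num : -(3 / 2 : ℝ) ≤ 3 / 2) (min_le_right _ _)).trans_lt (by norm_num)

lemma cut_eq {s : ℝ} (hs : s ∈ Icc (-(3 / 2) : ℝ) (3 / 2)) : cut s = s := by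
  rw [cut, min_eq_left hs.2, max_eq_right hs.1]

lemma continuous_cut : Continuous cut := continuous_const.max (continuous_id.min continuous_const)

variable {D : Data d} {q : ℝ} (X : Ham D q)

/-- Position and velocity after time `s`. -/
noncomputable def path (s : ℝ) (p : E d × E d) : E d × E d :=
  split d (X.Ψ 0 (cut s) ((split d).symm p))

lemma path_zero (p : E d × E d) : X.path 0 p = p := by
  simp [path, cut_eq (show (0 : ℝ) ∈ Icc (-(3 / 2) : ℝ) (3 / 2) by norm_num),
    X.flow.refl 0 (by norm_num)]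

lemma continuous_path : Continuous fun z : ℝ × (E d × E d) => X.path z.1 z.2 := by
  refine (split d).continuous.comp (X.flow.cont.comp_continuous (f := fun z : ℝ × (E d × E d) =>
    ((0 : ℝ), cut z.1, (split d).symm z.2)) ?_ fun z => ⟨by norm_num, cut_mem _, mem_univ _⟩)
  exact continuous_const.prodMk ((continuous_cut.comp continuous_fst).prodMk
    ((split d).symm.continuous.comp continuous_snd))

lemma hasDerivAt_path {s : ℝ} (hs : s ∈ Ioo (-(3 / 2) : ℝ) (3 / 2)) (p : E d × E d) :
    HasDerivAt (fun u => X.path u p) ((X.path s p).2, -(D.gψ q (X.path s p).1)) s := by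
  have hsI : s ∈ Ioo (-2 : ℝ) 2 := ⟨by linarith [hs.1], by linarith [hs.2]⟩
  have h := (split d).toContinuousLinearMap.hasFDerivAt.comp_hasDerivAt s
    (X.flow.deriv 0 (by norm_num) s hsI ((split d).symm p))
  refine (h.congr_of_eventuallyEq ?_).congr_deriv ?_
  · filter_upwards [isOpen_Ioo.mem_nhds hs] with u hu
    simp [path, cut_eq (Ioo_subset_Icc_self hu)]
  · simp [Data.hamVel, path, cut_eq (Ioo_subset_Icc_self hs)]

lemma hasDerivAt_pos {s : ℝ} (hs : s ∈ Ioo (-(3 / 2) : ℝ) (3 / 2)) (p : E d × E d) :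
    HasDerivAt (fun u => (X.path u p).1) (X.path s p).2 s :=
  (ContinuousLinearMap.fst ℝ (E d) (E d)).hasFDerivAt.comp_hasDerivAt s (X.hasDerivAt_path hs p)

lemma hasDerivAt_mom {s : ℝ} (hs : s ∈ Ioo (-(3 / 2) : ℝ) (3 / 2)) (p : E d × E d) :
    HasDerivAt (fun u => (X.path u p).2) (-(D.gψ q (X.path s p).1)) s :=
  (ContinuousLinearMap.snd ℝ (E d) (E d)).hasFDerivAt.comp_hasDerivAt s (X.hasDerivAt_path hs p)

section Post

variable (hP : PostFacts)
include hP

omit X in
lemma contDiff_gψ (hq : q ∈ D.I) : ContDiff ℝ ∞ (D.gψ q) :=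
  contDiff_id.add ((D.contDiff_Gq hP hq).const_smul (q * D.ε))

omit X in
lemma contDiff_hamVel (hq : q ∈ D.I) (t : ℝ) : ContDiff ℝ ∞ (D.hamVel q t) :=
  (split d).symm.contDiff.comp ((contDiff_snd.comp (split d).contDiff).prodMk
    ((contDiff_gψ hP hq).comp (contDiff_fst.comp (split d).contDiff)).neg)

omit X in
/-- The mean gradient seen at time `q` is `|q|`-Lipschitz. -/
lemma norm_Gq_sub_le (hq : q ∈ D.I) (u v : E d) : ‖D.Gq q u - D.Gq q v‖ ≤ |q| * ‖u - v‖ :=
  Convex.norm_image_sub_le_of_norm_hasFDerivWithin_le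
    (fun x _ => (D.hasFDerivAt_Gq hP hq x).hasFDerivWithinAt)
    (fun x _ => (norm_smul_le q (D.aq q x)).trans (by
      rw [Real.norm_eq_abs]
      exact mul_le_of_le_one_right (abs_nonneg q) (ExFlow.norm_aq_le hP hq x)))
    convex_univ (mem_univ v) (mem_univ u)

omit X in
lemma growth_hamVel (hq : q ∈ D.I) :
    ∃ C : ℝ, ∀ t x, ‖D.hamVel q t x‖ ≤ C * (1 + ‖x‖) := by
  set S := ‖((split d).symm : E d × E d →L[ℝ] E (d + d))‖
  set P := ‖(split d : E (d + d) →L[ℝ] E d × E d)‖
  set k := |q * D.ε|
  set K := (1 + k * |q|) * P + k * ‖D.Gq q 0‖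
  refine ⟨S * K, fun t x => ?_⟩
  have hx : ‖split d x‖ ≤ P * ‖x‖ := (split d : E (d + d) →L[ℝ] E d × E d).le_opNorm x
  have hk : 0 ≤ k := abs_nonneg _
  have hP0 : 0 ≤ P := norm_nonneg _
  have e1 : 0 ≤ k * |q| * P := by positivity
  have e2 : 0 ≤ k * ‖D.Gq q 0‖ * ‖x‖ := by positivity
  have e3 : 0 ≤ k * |q| * P * ‖x‖ := by positivity
  have e4 : 0 ≤ k * ‖D.Gq q 0‖ := by positivity
  have e5 : 0 ≤ P * ‖x‖ := by positivity
  have h2 : ‖(split d x).2‖ ≤ K * (1 + ‖x‖) := by
    have := (norm_snd_le _).trans hx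
    simp only [K]
    nlinarith
  have h1 : ‖-(D.gψ q (split d x).1)‖ ≤ K * (1 + ‖x‖) := by
    rw [norm_neg, Data.gψ]
    refine (norm_add_le _ _).trans ?_
    rw [norm_smul, Real.norm_eq_abs]
    have hw := (norm_fst_le _).trans hx
    have hG := norm_le_norm_add_norm_sub' (D.Gq q (split d x).1) (D.Gq q 0)
    have hl := norm_Gq_sub_le hP hq (split d x).1 0
    rw [sub_zero] at hl
    have h3 : ‖D.Gq q (split d x).1‖ ≤ ‖D.Gq q 0‖ + |q| * (P * ‖x‖) := by
      have := mul_le_mul_of_nonneg_left hw (abs_nonneg q)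
      linarith
    have := mul_le_mul_of_nonneg_left h3 hk
    simp only [K]
    nlinarith
  rw [mul_assoc]
  refine (((split d).symm : E d × E d →L[ℝ] E (d + d)).le_opNorm _).trans ?_
  exact mul_le_mul_of_nonneg_left (norm_prod_le_iff.2 ⟨h2, h1⟩) (norm_nonneg _)

omit X in
/-- The Hamiltonian flow exists. -/
theorem exists_ham (hF : FlowExists) (hq : q ∈ D.I) : Nonempty (Ham D q) := by
  obtain ⟨C, hC⟩ := growth_hamVel hP hq
  obtain ⟨Ψ, hΨ⟩ := hF (d + d) (-2) 2 (by norm_num) (D.hamVel q)
    ((contDiff_hamVel hP hq 0).comp contDiff_snd).contDiffOn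
    fun _ _ _ _ => ⟨C, fun t _ x => hC t x⟩
  exact ⟨⟨Ψ, hΨ⟩⟩

omit X in
lemma dvg_hamVel (hq : q ∈ D.I) (t : ℝ) (x : E (d + d)) : dvg (D.hamVel q t) x = 0 := by
  set L : E (d + d) →L[ℝ] E d × E d := (split d : E (d + d) →L[ℝ] E d × E d)
  have h1 : HasFDerivAt (fun y : E (d + d) => (split d y).2)
      ((ContinuousLinearMap.snd ℝ (E d) (E d)).comp L) x :=
    ((ContinuousLinearMap.snd ℝ (E d) (E d)).comp L).hasFDerivAt
  have h2 : HasFDerivAt (fun y : E (d + d) => (split d y).1)
      ((ContinuousLinearMap.fst ℝ (E d) (E d)).comp L) x :=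
    ((ContinuousLinearMap.fst ℝ (E d) (E d)).comp L).hasFDerivAt
  have h3 := (HasFDerivAt.comp (f := fun y : E (d + d) => (split d y).1) (g := D.gψ q) x
    ((contDiff_gψ hP hq).differentiable (by simp) _).hasFDerivAt h2).neg
  have h : HasFDerivAt (D.hamVel q t) _ x :=
    (split d).symm.toContinuousLinearMap.hasFDerivAt.comp x (h1.prodMk h3)
  simp only [dvg, h.fderiv]
  rw [Fin.sum_univ_add, ← add_zero (0 : ℝ)]
  congr 1 <;> refine Finset.sum_eq_zero fun i _ => ?_
  · simp [L, split_bv_left, (ExFlow.split_symm_coord _ i).1]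
  · simp [-Fin.natAdd_eq_addNat, L, split_bv_right, (ExFlow.split_symm_coord _ i).2]

omit X in
/-- The law at one time is a probability law. -/
lemma isProb_law (hq : q ∈ D.I) : IsProbabilityMeasure (ExFlow.law D q) :=
  isProb_gibbs_of_integrable (D.integrable_exp_psi hP hq)

/-- (a) The flow preserves the law times a Gaussian. -/
theorem map_law (hT : LawTransport) (hq : q ∈ D.I) (s : ℝ) :
    ((ExFlow.law D q).prod (gam d)).map (X.path s) = (ExFlow.law D q).prod (gam d) := by
  have hψc : ContDiff ℝ ∞ (D.ψ q) := ExFlow.continuous_law_test hP hq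
  have hpair : (gibbs (ExFlow.liftPot D q)).map (split d) = (ExFlow.law D q).prod (gam d) := by
    have e : gibbs (fun z : E d => ‖z‖ ^ 2 / 2) = gam d := by
      have := Tilt.tilt_zero D.U
      simpa [tilt] using this
    rw [← e]
    exact gibbs_pair hψc.continuous (D.integrable_exp_psi hP hq)
  have hpotc : ContDiff ℝ ∞ (ExFlow.liftPot D q) :=
    (hψc.comp (contDiff_fst.comp (split d).contDiff)).add
      (((contDiff_norm_sq ℝ).comp (contDiff_snd.comp (split d).contDiff)).div_const 2)
  have hint : Integrable fun x => Real.exp (-ExFlow.liftPot D q x) := by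
    have hi : Integrable (fun p : E d × E d =>
        Real.exp (-D.ψ q p.1) * Real.exp (-(‖p.2‖ ^ 2 / 2)))
        ((volume : Measure (E d)).prod (volume : Measure (E d))) :=
      (D.integrable_exp_psi hP hq).mul_prod integrable_exp_half
    refine ((measurePreserving_split d).integrable_comp_of_integrable hi).congr
      (Eventually.of_forall fun x => ?_)
    simp only [ExFlow.liftPot, Function.comp_apply, neg_add, Real.exp_add]
  obtain ⟨C, hC⟩ := growth_hamVel hP hq
  have h := hT (d + d) (-2) 2 (by norm_num) (D.hamVel q) X.Ψ X.flow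
    ((contDiff_hamVel hP hq 0).comp contDiff_snd).contDiffOn
    (fun _ _ _ _ => ⟨C, fun t _ x => hC t x⟩) (fun _ => ExFlow.liftPot D q)
    (hpotc.comp contDiff_snd).contDiffOn (fun _ _ => hint)
    (fun t _ x => by
      rw [deriv_const, zero_add, ExFlow.fderiv_liftPot hP hq, dvg_hamVel hP hq]
      simp only [Data.hamVel, ContinuousLinearEquiv.apply_symm_apply, inner_neg_right]
      rw [real_inner_comm (split d x).2, real_inner_comm (D.gψ q _)]
      ring)
    0 (by norm_num) (cut s) (cut_mem s)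
  have hm : Measurable (X.Ψ 0 (cut s)) :=
    (X.flow.smooth 0 (by norm_num) _ (cut_mem s)).continuous.measurable
  have hm' : Measurable (X.path s) :=
    (split d).continuous.measurable.comp (hm.comp (split d).symm.continuous.measurable)
  rw [← hpair, Measure.map_map hm' (split d).continuous.measurable]
  conv_rhs => rw [← h]
  rw [Measure.map_map (split d).continuous.measurable hm]
  congr 1
  funext x
  simp [path]

/-- Trajectories are smooth in time. -/
lemma contDiffOn_path (hq : q ∈ D.I) (p : E d × E d) :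
    ContDiffOn ℝ ∞ (fun u => X.path u p) (Ioo (-(3 / 2) : ℝ) (3 / 2)) := by
  have hf : ContDiff ℝ ∞ fun z : E d × E d => (z.2, -(D.gψ q z.1)) :=
    contDiff_snd.prodMk ((contDiff_gψ hP hq).comp contDiff_fst).neg
  refine contDiffOn_infty.2 fun n => ?_
  induction n with
  | zero =>
    exact contDiffOn_zero.2 fun u hu => (X.hasDerivAt_path hu p).continuousAt.continuousWithinAt
  | succ n ih =>
    push_cast
    refine (contDiffOn_succ_iff_deriv_of_isOpen isOpen_Ioo).2
      ⟨fun u hu => (X.hasDerivAt_path hu p).differentiableAt.differentiableWithinAt, by simp, ?_⟩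
    exact ((hf.of_le (by exact_mod_cast le_top)).comp_contDiffOn ih).congr fun u hu => (X.hasDerivAt_path hu p).deriv

lemma contDiffAt_Gq_path (hq : q ∈ D.I) (p : E d × E d) {s : ℝ}
    (hs : s ∈ Ioo (-(3 / 2) : ℝ) (3 / 2)) (n : ℕ) :
    ContDiffAt ℝ n (fun u => D.Gq q (X.path u p).1) s :=
  ((D.contDiff_Gq hP hq).of_le (by exact_mod_cast le_top)).contDiffAt.comp s
    (contDiffAt_fst.comp s (((X.contDiffOn_path hP hq p).contDiffAt (isOpen_Ioo.mem_nhds hs)).of_le
      (by exact_mod_cast le_top)))

lemma continuous_Gq_path (hq : q ∈ D.I) :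
    Continuous fun z : ℝ × (E d × E d) => D.Gq q (X.path z.1 z.2).1 :=
  (D.contDiff_Gq hP hq).continuous.comp (continuous_fst.comp X.continuous_path)

/-- (b) The first derivative of the mean gradient along the flow. -/
theorem hasDerivAt_Gq_zero (hq : q ∈ D.I) (p : E d × E d) :
    HasDerivAt (fun u => D.Gq q (X.path u p).1) (q • D.aq q p.1 p.2) 0 := by
  have h := (D.hasFDerivAt_Gq hP hq (X.path 0 p).1).comp_hasDerivAt (0 : ℝ)
    (X.hasDerivAt_pos (by norm_num) p)
  refine h.congr_deriv ?_
  simp [X.path_zero]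

omit hP in
/-- Variation of constants for a forced harmonic oscillator. -/
lemma osc_step {u v F : ℝ → E d} {k s t : ℝ} (hu : HasDerivAt u (v t) t)
    (hv : HasDerivAt v (-(u t + k • F t)) t) :
    HasDerivAt (fun r => Real.cos (s - r) • u r + Real.sin (s - r) • v r)
      (-(k • (Real.sin (s - t) • F t))) t := by
  have h1 : HasDerivAt (fun r => s - r) (-1) t := by simpa using (hasDerivAt_id t).const_sub s
  refine ((h1.cos.smul hu).add (h1.sin.smul hv)).congr_deriv ?_
  module

/-- Variation of constants against the harmonic part. -/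
theorem pos_eq (hq : q ∈ D.I) (p : E d × E d) {s : ℝ} (hs : s ∈ Icc (-1 : ℝ) 1) :
    (X.path s p).1 = Real.cos s • p.1 + Real.sin s • p.2
      - (q * D.ε) • ∫ t in (0 : ℝ)..s, Real.sin (s - t) • D.Gq q (X.path t p).1 := by
  have hI : ∀ t ∈ uIcc (0 : ℝ) s, t ∈ Ioo (-(3 / 2) : ℝ) (3 / 2) := fun t ht => by
    have := uIcc_subset_Icc (show (0 : ℝ) ∈ Icc (-1 : ℝ) 1 by norm_num) hs ht
    exact ⟨by linarith [this.1], by linarith [this.2]⟩
  generalize hF : (fun t => D.Gq q (X.path t p).1) = F
  have hF' : ∀ t, D.Gq q (X.path t p).1 = F t := fun t => congrFun hF t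
  have hFc : Continuous F := by
    have hg : Continuous fun t : ℝ => (t, p) := continuous_id.prodMk continuous_const
    rw [← hF]
    exact Continuous.comp (g := fun z : ℝ × (E d × E d) => D.Gq q (X.path z.1 z.2).1)
      (f := fun t : ℝ => (t, p)) (X.continuous_Gq_path hP hq) hg
  have hd : ∀ t ∈ uIcc (0 : ℝ) s, HasDerivAt
      (fun u => Real.cos (s - u) • (X.path u p).1 + Real.sin (s - u) • (X.path u p).2)
      (-((q * D.ε) • (Real.sin (s - t) • F t))) t := fun t ht => by
    have h2 := X.hasDerivAt_mom (hI t ht) p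
    rw [Data.gψ, hF' t] at h2
    exact osc_step (u := fun r => (X.path r p).1) (v := fun r => (X.path r p).2)
      (X.hasDerivAt_pos (hI t ht) p) h2
  have hc : Continuous fun t => -((q * D.ε) • (Real.sin (s - t) • F t)) :=
    (((Real.continuous_sin.comp (continuous_const.sub continuous_id)).smul hFc).const_smul
      (q * D.ε)).neg
  have h := intervalIntegral.integral_eq_sub_of_hasDerivAt hd (hc.intervalIntegrable 0 s)
  simp only [hF']
  rw [intervalIntegral.integral_neg, intervalIntegral.integral_smul] at h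
  simp only [sub_self, sub_zero, Real.cos_zero, Real.sin_zero, one_smul, zero_smul, add_zero,
    X.path_zero] at h
  rw [sub_eq_add_neg, h]
  abel

end Post

end Ham

end Vale.Agent.P347.Gamma0
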