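import Vale.Agent.P347.Gamma0.Recursion

/-!
P347, towards `γ_* = 0`: one stage, syntactically and semantically: the bridge mean and the output
with the stage inputs substituted.
-/

namespace Vale.Agent.P347.Gamma0

open MeasureTheory ProbabilityTheory

variable {d : ℕ} {ι : Type} [Fintype ι] {na N : ℕ}

local instance (m : ℕ) : IsProbabilityMeasure (gam m) := by unfold gam; infer_instance

namespace Layer

lemma sum_MIn (h : MIn → ℝ) : ∑ i, h i = h .ctr + h .seed := by
  rw [show (Finset.univ : Finset MIn) = {.ctr, .seed} from rfl]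
  simp

lemma sum_OIn {n : ℕ} (h : OIn n → ℝ) :
    ∑ i, h i = h .ctr + h .pt + h .noi + ∑ j, h (.aux j) := by
  rw [show (Finset.univ : Finset (OIn n))
    = {.ctr, .pt, .noi} ∪ Finset.univ.image OIn.aux from rfl,
    Finset.sum_union (by simp [Finset.disjoint_left]), Finset.sum_image (by simp [Function.Injective])]
  simp
  ring

/-- Inputs of the bridge mean. -/
def mSub (arg : Expr ι) : MIn → Expr (Option ι)
  | .ctr => arg.subst fun i => .var (some i)
  | .seed => .var none

/-- The bridge mean of a gate. -/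
def mExpr (S : Stage na N) (arg : Expr ι) : Expr (Option ι) := S.mean.subst (mSub arg)

/-- Inputs of the output. -/
def oSub (arg : Expr ι) : OIn na → Expr (OIn na ⊕ ι)
  | .ctr => arg.subst fun i => .var (Sum.inr i)
  | i => .var (Sum.inl i)

/-- The argument of a residual gate. -/
def rArg (S : Stage na N) (arg : Expr ι) (j : Fin N) : Expr (OIn na ⊕ ι) :=
  (Expr.add (.var .pt) (S.shift j)).subst (oSub arg)

/-- The mean of the output. -/
noncomputable def oExpr (S : Stage na N) (arg : Expr ι) (γ r : ℝ) : Expr (OIn na ⊕ ι) :=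
  .add (.smul (Real.sqrt 2)⁻¹ (.var (Sum.inl .noi)))
    (.smul γ (Expr.sum fun j => .smul (S.w j) (.gate r (rArg S arg j))))

variable (Gr : ℝ → E d → E d) (S : Stage na N) (arg : Expr ι)

lemma val_mExpr (x : Option ι → E d) :
    (mExpr S arg).val Gr x = S.mean.val Gr (mPoint (arg.val Gr fun i => x (some i)) (x none)) := by
  rw [mExpr, Expr.val_subst]
  congr 1
  funext i
  cases i <;> simp [mSub, mPoint, Expr.val_subst, Expr.val]

lemma val_rArg (x : OIn na ⊕ ι → E d) (j : Fin N) :
    (rArg S arg j).val Gr x = x (Sum.inl .pt) + (S.shift j).val Gr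
      (oPoint (arg.val Gr fun i => x (Sum.inr i)) (x (Sum.inl .pt)) (x (Sum.inl .noi))
        fun k => x (Sum.inl (.aux k))) := by
  rw [rArg, Expr.val_subst]
  simp only [Expr.val, oSub]
  congr 2
  funext i
  cases i <;> simp [oSub, oPoint, Expr.val_subst, Expr.val]

lemma val_oExpr (γ r : ℝ) (x : OIn na ⊕ ι → E d) :
    (oExpr S arg γ r).val Gr x = outMean Gr S γ r
      (oPoint (arg.val Gr fun i => x (Sum.inr i)) (x (Sum.inl .pt)) (x (Sum.inl .noi))
        fun k => x (Sum.inl (.aux k))) := by
  simp only [oExpr, Expr.val, Expr.val_sum, val_rArg, outMean, oPoint]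

lemma size_rename {κ : Type} (f : ι → κ) (e : Expr ι) :
    (e.subst fun i => .var (f i)).size = e.size := by
  induction e <;> simp [Expr.subst, Expr.size, *]

lemma nodes_rename {κ : Type} (f : ι → κ) (e : Expr ι) :
    (e.subst fun i => .var (f i)).nodes = e.nodes := by
  induction e <;> simp [Expr.subst, Expr.nodes, *]

lemma gates_rename {κ : Type} (f : ι → κ) (e : Expr ι) :
    (e.subst fun i => .var (f i)).gates
      = e.gates.map fun p => (p.1, p.2.subst fun i => .var (f i)) := by
  induction e <;> simp [Expr.subst, Expr.gates, *]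

lemma good_rename {κ : Type} (f : ι → κ) {lam : ℝ} {e : Expr ι} (h : Expr.Good lam e) :
    Expr.Good lam (e.subst fun i => .var (f i)) := by
  intro p hp
  rw [gates_rename] at hp
  obtain ⟨q, hq, rfl⟩ := List.mem_map.1 hp
  simpa [size_rename] using h q hq

lemma rad_rename {κ : Type} (f : ι → κ) (e : Expr ι) (x : κ → E d) :
    (e.subst fun i => .var (f i)).rad Gr x = e.rad Gr fun i => x (f i) := by
  induction e <;> simp [Expr.subst, Expr.rad, Expr.val_subst, Expr.val, *]

lemma size_mSub_seed : (mSub arg MIn.seed).size = 0 := rfl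

lemma size_mExpr [DecidableEq MIn] (t : Expr MIn) :
    (t.subst (mSub arg)).size = t.size + Expr.coef MIn.ctr t * arg.size := by
  rw [Expr.size_subst, sum_MIn]
  simp [mSub, size_rename, Expr.size]

lemma size_oSub (t : Expr (OIn na)) :
    (t.subst (oSub arg)).size = t.size + Expr.coef OIn.ctr t * arg.size := by
  rw [Expr.size_subst, sum_OIn]
  simp [oSub, size_rename, Expr.size]

lemma mem_gates_sum {κ : Type} : ∀ {n : ℕ} (f : Fin n → Expr κ) {p : ℝ × Expr κ},
    p ∈ (Expr.sum f).gates → ∃ j, p ∈ (f j).gates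
  | 0, f, p, h => by simp [Expr.sum, Expr.gates] at h
  | n + 1, f, p, h => by
    simp only [Expr.sum, Expr.gates, List.mem_append] at h
    rcases h with h | h
    · exact ⟨0, h⟩
    · obtain ⟨j, hj⟩ := mem_gates_sum _ h
      exact ⟨j.succ, hj⟩

lemma mem_tops_sum {κ : Type} : ∀ {n : ℕ} (f : Fin n → Expr κ) {p : ℝ × ℝ × Expr κ},
    p ∈ (Expr.sum f).tops → ∃ j, p ∈ (f j).tops
  | 0, f, p, h => by simp [Expr.sum, Expr.tops] at h
  | n + 1, f, p, h => by
    simp only [Expr.sum, Expr.tops, List.mem_append] at h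
    rcases h with h | h
    · exact ⟨0, h⟩
    · obtain ⟨j, hj⟩ := mem_tops_sum _ h
      exact ⟨j.succ, hj⟩

lemma size_sum {κ : Type} : ∀ {n : ℕ} (f : Fin n → Expr κ),
    (Expr.sum f).size = ∑ j, (f j).size
  | 0, f => by simp [Expr.sum, Expr.size]
  | n + 1, f => by simp [Expr.sum, Expr.size, size_sum, Fin.sum_univ_succ]

lemma nodes_sum_le {κ : Type} {M : ℕ} : ∀ {n : ℕ} (f : Fin n → Expr κ), (∀ j, (f j).nodes ≤ M) →
    (Expr.sum f).nodes ≤ n * (M + 1) + 1
  | 0, f, _ => by simp [Expr.sum, Expr.nodes]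
  | n + 1, f, h => by
    have := nodes_sum_le (fun i => f i.succ) fun j => h _
    have := h 0
    simp only [Expr.sum, Expr.nodes]
    rw [Nat.succ_mul]
    omega

/-- The residual gates are the only top gates of the output. -/
lemma mem_tops_oExpr {γ r : ℝ} {p : ℝ × ℝ × Expr (OIn na ⊕ ι)}
    (hp : p ∈ (oExpr S arg γ r).tops) : ∃ j, p.2 = (r, rArg S arg j) := by
  simp only [oExpr, Expr.tops, List.map_nil, List.nil_append, List.mem_map] at hp
  obtain ⟨q, hq, rfl⟩ := hp
  obtain ⟨j, hj⟩ := mem_tops_sum _ hq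
  simp only [Expr.tops, List.map_cons, List.map_nil, List.mem_singleton] at hj
  exact ⟨j, by rw [hj]⟩

lemma size_oExpr {γ r : ℝ} :
    (oExpr S arg γ r).size = |γ| * (∑ j, |S.w j|) * Real.sqrt r := by
  simp [oExpr, Expr.size, size_sum, Finset.sum_mul, mul_assoc]

end Layer

end Vale.Agent.P347.Gamma0
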