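import Vale.Agent.P347.Gamma0.Defs
import Vale.Agent.P347.LogConcave

/-!
P347, towards `γ_* = 0`: a pair of vectors as one vector.
-/

namespace Vale.Agent.P347.Gamma0

open MeasureTheory ProbabilityTheory
open scoped RealInnerProductSpace ENNReal

variable {d : ℕ}

/-- The splitting of `E (d + d)`. -/
noncomputable def split (d : ℕ) : E (d + d) ≃L[ℝ] E d × E d := EuclideanSpace.finAddEquivProd

lemma split_fst (x : E (d + d)) (i : Fin d) : (split d x).1 i = x (Fin.castAdd d i) := by
  simp [split]

lemma split_snd (x : E (d + d)) (i : Fin d) : (split d x).2 i = x (Fin.natAdd d i) := by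
  simp [split]

lemma split_bv_left (i : Fin d) : split d (bv (Fin.castAdd d i)) = (bv i, 0) := by
  refine Prod.ext (PiLp.ext fun j => ?_) (PiLp.ext fun j => ?_)
  · rw [split_fst]; simp [bv, Fin.castAdd_inj]
  · rw [split_snd]
    simp [bv, Fin.ext_iff]; omega

lemma split_bv_right (i : Fin d) : split d (bv (Fin.natAdd d i)) = (0, bv i) := by
  refine Prod.ext (PiLp.ext fun j => ?_) (PiLp.ext fun j => ?_)
  · rw [split_fst]
    simp [bv, Fin.ext_iff]; omega
  · rw [split_snd]; simp [bv]

lemma measurePreserving_split (d : ℕ) :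
    MeasurePreserving (split d) volume ((volume : Measure (E d)).prod (volume : Measure (E d))) := by
  have h1 := PiLp.volume_preserving_ofLp (Fin (d + d))
  have h2 := (volume_measurePreserving_piCongrLeft (fun _ : Fin (d + d) => ℝ) finSumFinEquiv).symm
  have h3 := volume_measurePreserving_sumPiEquivProdPi fun _ : Fin d ⊕ Fin d => ℝ
  have h4 := (PiLp.volume_preserving_toLp (Fin d)).prod (PiLp.volume_preserving_toLp (Fin d))
  have h := h4.comp ((h3.comp h2).comp h1)
  have e : (split d : E (d + d) → E d × E d) = Prod.map (WithLp.toLp 2) (WithLp.toLp 2) ∘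
      (((MeasurableEquiv.sumPiEquivProdPi fun _ : Fin d ⊕ Fin d => ℝ) ∘
        (MeasurableEquiv.piCongrLeft (fun _ : Fin (d + d) => ℝ) finSumFinEquiv).symm) ∘
          WithLp.ofLp) := by
    funext x
    refine Prod.ext (PiLp.ext fun i => ?_) (PiLp.ext fun i => ?_)
    · rw [split_fst]
      simp [MeasurableEquiv.piCongrLeft, MeasurableEquiv.sumPiEquivProdPi,
        Equiv.sumPiEquivProdPi]
    · rw [split_snd]
      simp [MeasurableEquiv.piCongrLeft, MeasurableEquiv.sumPiEquivProdPi,
        Equiv.sumPiEquivProdPi]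
  rw [e]
  exact h

lemma integrable_exp_half : Integrable fun z : E d => Real.exp (-(‖z‖ ^ 2 / 2)) :=
  (LogConcave.integrable_exp_norm_sq (d := d) (show (0 : ℝ) < 1 / 2 by norm_num)).congr
    (Filter.Eventually.of_forall fun x => congrArg Real.exp (by ring))

/-- A potential in `w` and a Gaussian in `z`, as one Gibbs law. -/
lemma gibbs_pair {ψ : E d → ℝ} (hψ : Continuous ψ) (hi : Integrable fun w => Real.exp (-ψ w)) :
    (gibbs fun x : E (d + d) => ψ (split d x).1 + ‖(split d x).2‖ ^ 2 / 2).map (split d)
      = (gibbs ψ).prod (gibbs fun z : E d => ‖z‖ ^ 2 / 2) := by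
  set f : E d → ℝ≥0∞ := fun w => ENNReal.ofReal (Real.exp (-ψ w))
  set h : E d → ℝ≥0∞ := fun z => ENNReal.ofReal (Real.exp (-(‖z‖ ^ 2 / 2)))
  have hf : Measurable f := hψ.neg.rexp.measurable.ennreal_ofReal
  have hh : Measurable h := by simp only [h]; fun_prop
  have hfh : Measurable fun p : E d × E d => f p.1 * h p.2 :=
    (hf.comp measurable_fst).mul (hh.comp measurable_snd)
  have e : (fun x : E (d + d) => ENNReal.ofReal (Real.exp (-(ψ (split d x).1 +
      ‖(split d x).2‖ ^ 2 / 2)))) = fun x => f (split d x).1 * h (split d x).2 := funext fun x => by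
    simp only [f, h]
    rw [← ENNReal.ofReal_mul (Real.exp_pos _).le, ← Real.exp_add, neg_add]
  have hmp := measurePreserving_split d
  have emass : ∫⁻ x : E (d + d), f (split d x).1 * h (split d x).2 = (∫⁻ w, f w) * ∫⁻ z, h z := by
    rw [hmp.lintegral_comp hfh]
    exact lintegral_prod_mul hf.aemeasurable hh.aemeasurable
  have hA : (∫⁻ w, f w) ≠ ∞ := by
    simp only [f]
    rw [← ofReal_integral_eq_lintegral_ofReal hi
      (Filter.Eventually.of_forall fun _ => (Real.exp_pos _).le)]
    exact ENNReal.ofReal_ne_top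
  have hB : (∫⁻ z, h z) ≠ ∞ := by
    simp only [h]
    rw [← ofReal_integral_eq_lintegral_ofReal integrable_exp_half
      (Filter.Eventually.of_forall fun _ => (Real.exp_pos _).le)]
    exact ENNReal.ofReal_ne_top
  have emap : (volume.withDensity fun x : E (d + d) => f (split d x).1 * h (split d x).2).map
      (split d) = (volume.withDensity f).prod (volume.withDensity h) := by
    rw [prod_withDensity hf hh]
    ext s hs
    rw [Measure.map_apply (split d).continuous.measurable hs,
      withDensity_apply _ ((split d).continuous.measurable hs), withDensity_apply _ hs]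
    exact hmp.setLIntegral_comp_preimage hs hfh
  simp only [gibbs]
  rw [e, Measure.map_smul, emap, emass, Measure.prod_smul_left, Measure.prod_smul_right, smul_smul,
    ENNReal.mul_inv (Or.inr hB) (Or.inl hA)]

end Vale.Agent.P347.Gamma0
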