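import Vale.Agent.P347.Gamma0.Identity
import Vale.Agent.P347.Gamma0.PairSplit

/-!
P347, towards `γ_* = 0`: the exact absorption field.  If `w` has the law at time `q₁` and `Z` is
standard Gaussian, then `Z + γ ∫₀¹ G_{r₁}(c + q₁ w_t) dt` has the law `N (γ G_τ c) I` exactly.
-/

namespace Vale.Agent.P347.Gamma0

open MeasureTheory ProbabilityTheory Set Filter
open scoped RealInnerProductSpace ContDiff Topology

variable {d : ℕ}

lemma fderiv_pairField {N : ℕ} (L : E N ≃L[ℝ] E d × E d) (γ : ℝ) (K : E d → E d →L[ℝ] E d)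
    (F : E d → E d) (m : E d) (hK : Differentiable ℝ K) (x : E N) {A : E d →L[ℝ] E d}
    (hF : HasFDerivAt F A (L x).1) (u : E N) :
    fderiv ℝ (fun y => γ • L.symm (-(K (L y).1 (L y).2), F (L y).1 - m)) x u
      = γ • L.symm (-(fderiv ℝ K (L x).1 (L u).1 (L x).2 + K (L x).1 (L u).2), A (L u).1) := by
  have hf : HasFDerivAt (fun y : E N => (L y).1)
      ((ContinuousLinearMap.fst ℝ (E d) (E d)).comp (L : E N →L[ℝ] E d × E d)) x :=
    ((ContinuousLinearMap.fst ℝ (E d) (E d)).comp (L : E N →L[ℝ] E d × E d)).hasFDerivAt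
  have hs : HasFDerivAt (fun y : E N => (L y).2)
      ((ContinuousLinearMap.snd ℝ (E d) (E d)).comp (L : E N →L[ℝ] E d × E d)) x :=
    ((ContinuousLinearMap.snd ℝ (E d) (E d)).comp (L : E N →L[ℝ] E d × E d)).hasFDerivAt
  have hK1 : HasFDerivAt (fun y : E N => K (L y).1) _ x :=
    HasFDerivAt.comp (f := fun y : E N => (L y).1) (g := K) x (hK _).hasFDerivAt hf
  have hF1 : HasFDerivAt (fun y : E N => F (L y).1) _ x :=
    HasFDerivAt.comp (f := fun y : E N => (L y).1) (g := F) x hF hf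
  have hP' := (hK1.clm_apply hs).neg.prodMk (hF1.sub_const m)
  have hv : HasFDerivAt (fun y => γ • L.symm (-(K (L y).1 (L y).2), F (L y).1 - m)) _ x :=
    (HasFDerivAt.comp (g := fun p : E d × E d => L.symm p) x
      (L.symm : E d × E d →L[ℝ] E N).hasFDerivAt hP').const_smul γ
  rw [hv.fderiv]
  simp only [smul_apply, ContinuousLinearMap.comp_apply,
    ContinuousLinearMap.prod_apply, neg_apply, add_apply, ContinuousLinearMap.flip_apply,
    ContinuousLinearMap.coe_fst', ContinuousLinearMap.coe_snd', ContinuousLinearEquiv.coe_coe]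
  rw [add_comm (K (L x).1 (L u).2)]

namespace ExFlow

attribute [local irreducible] G nW psi

variable {d : ℕ} {D : Data d} (X : ExFlow D)

/-- The integrand of `k` as an operator. -/
noncomputable def kOpInt (q₁ : ℝ) (q : ℝ) (w : E d) : E d →L[ℝ] E d :=
  (fderiv ℝ (X.Φ q q₁) (X.Φ q₁ q w)).comp (D.aq q (X.Φ q₁ q w))

/-- `k` as an operator on output directions. -/
noncomputable def kOp (q₁ : ℝ) (w : E d) : E d →L[ℝ] E d :=
  ∫ q in (0 : ℝ)..q₁, X.kOpInt q₁ q w

section Post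

variable (hP : PostFacts)
include hP

lemma contDiffOn_kOpInt {q₁ : ℝ} (h1 : q₁ ∈ D.I) :
    ContDiffOn ℝ ∞ (fun p : ℝ × E d => X.kOpInt q₁ p.1 p.2) (D.I ×ˢ univ) := by
  have hb : ContDiffOn ℝ ∞ (fun p : ℝ × E d => (p.1, X.Φ q₁ p.1 p.2)) (D.I ×ˢ univ) :=
    contDiffOn_fst.prodMk
      (X.joint.comp (contDiff_const.prodMk (contDiff_fst.prodMk contDiff_snd)).contDiffOn
        fun p hp => ⟨h1, hp.1, mem_univ _⟩)
  have hm : MapsTo (fun p : ℝ × E d => (p.1, X.Φ q₁ p.1 p.2)) (D.I ×ˢ univ) (D.I ×ˢ univ) :=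
    fun p hp => ⟨hp.1, mem_univ _⟩
  exact ((X.contDiffOn_DΦ h1).comp hb hm).clm_comp ((contDiffOn_aq hP).comp hb hm)

lemma contDiff_kOp {q₁ : ℝ} (h1 : q₁ ∈ D.I) : ContDiff ℝ ∞ (X.kOp q₁) :=
  contDiff_infty.2 fun n => contDiff_intervalIntegral isOpen_Ioo (uIcc_subset h1) n
    (fun p => X.kOpInt q₁ p.1 p.2) (X.contDiffOn_kOpInt hP h1)

lemma kOp_apply {q₁ : ℝ} (h1 : q₁ ∈ D.I) (w e : E d) : X.kOp q₁ w e = X.k q₁ e w := by
  have hi : IntervalIntegrable (fun q => X.kOpInt q₁ q w) volume 0 q₁ :=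
    ((X.contDiffOn_kOpInt hP h1).continuousOn.comp (f := fun q : ℝ => (q, w))
      (continuous_id.prodMk continuous_const).continuousOn
      fun q hq => ⟨uIcc_subset h1 hq, mem_univ w⟩).intervalIntegrable
  rw [kOp, ContinuousLinearMap.intervalIntegral_apply hi]
  rfl

lemma norm_aq_le {q : ℝ} (hq : q ∈ D.I) (w : E d) : ‖D.aq q w‖ ≤ 1 := by
  set A := D.aq q w
  have hb : ∀ v, 0 ≤ ⟪A v, v⟫ ∧ ⟪A v, v⟫ ≤ ‖v‖ ^ 2 :=
    ((hP d D.U D.g D.pot D.g0 D.ε D.ε0 D.ε1).2.2 _ (D.r_pos hq) _).2.2.2.2.2.1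
  refine ContinuousLinearMap.opNorm_le_bound _ zero_le_one fun v => ?_
  have h : ∀ t : ℝ, 0 ≤ ⟪A (A v), A v⟫ * (t * t) + 2 * ⟪A v, A v⟫ * t + ⟪A v, v⟫ := fun t => by
    have h := (hb (v + t • A v)).1
    rw [map_add, map_smul, inner_add_left, inner_add_right, inner_add_right, real_inner_smul_left,
      real_inner_smul_left, real_inner_smul_right, real_inner_smul_right,
      D.fderiv_Gq_symm hP hq w (A v) v] at h
    linarith
  have hd := discrim_le_zero h
  rw [discrim] at hd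
  have h2 : (‖A v‖ ^ 2) ^ 2 ≤ ‖v‖ ^ 2 * ‖A v‖ ^ 2 := by
    have h3 := mul_le_mul (hb v).2 (hb (A v)).2 (hb (A v)).1 (sq_nonneg _)
    rw [real_inner_self_eq_norm_sq] at hd
    nlinarith
  rcases eq_or_lt_of_le (norm_nonneg (A v)) with h0 | h0
  · rw [← h0]; positivity
  · rw [one_mul]
    exact pow_le_pow_iff_left₀ h0.le (norm_nonneg v) two_ne_zero |>.1
      (le_of_mul_le_mul_right (by linarith) (pow_pos h0 2))

lemma norm_DΦ_le {q q₁ : ℝ} (hq : q ∈ D.I) (h1 : q₁ ∈ D.I) (hle : q ≤ q₁) (y : E d) :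
    ‖fderiv ℝ (X.Φ q q₁) y‖ ≤ Real.exp (Real.sqrt D.τ * (q₁ - q)) := by
  refine ContinuousLinearMap.opNorm_le_bound _ (Real.exp_pos _).le fun h => ?_
  have hI : ∀ t ∈ Icc q q₁, t ∈ D.I := fun t ht => ⟨hq.1.trans_le ht.1, ht.2.trans_lt h1.2⟩
  set f : ℝ → E d := fun t => fderiv ℝ (X.Φ q t) y h
  have hd : ∀ t ∈ Icc q q₁, HasDerivAt f (fderiv ℝ (D.v t) (X.Φ q t y) (f t)) t :=
    fun t ht => X.flow.variational q hq t (hI t ht) y h
  have h0 : f q = h := by
    have e : X.Φ q q = id := funext fun z => X.flow.refl q hq z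
    simp [f, e]
  have := norm_le_gronwallBound_of_norm_deriv_right_le (f := f)
    (f' := fun t => fderiv ℝ (D.v t) (X.Φ q t y) (f t)) (δ := ‖h‖) (K := Real.sqrt D.τ) (ε := 0)
    (a := q) (b := q₁) (fun t ht => (hd t ht).continuousAt.continuousWithinAt)
    (fun t ht => (hd t ⟨ht.1, ht.2.le⟩).hasDerivWithinAt) (by rw [h0]) (fun t ht => by
      have htI := hI t ⟨ht.1, ht.2.le⟩
      have hv : HasFDerivAt (D.v t) (-(D.ε • (t • D.aq t (X.Φ q t y)))) (X.Φ q t y) :=
        ((D.hasFDerivAt_Gq hP htI _).const_smul D.ε).neg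
      rw [hv.fderiv, add_zero, ← norm_neg]
      simp only [neg_apply, smul_apply,
        neg_neg, norm_smul, Real.norm_eq_abs, abs_of_nonneg D.ε0]
      have h3 : |t| ≤ Real.sqrt D.τ := abs_le.2 ⟨htI.1.le, htI.2.le⟩
      have h4 : ‖D.aq t (X.Φ q t y) (f t)‖ ≤ ‖f t‖ := by
        simpa using (D.aq t (X.Φ q t y)).le_of_opNorm_le (norm_aq_le hP htI _) (f t)
      calc D.ε * (|t| * ‖D.aq t (X.Φ q t y) (f t)‖) ≤ 1 * (Real.sqrt D.τ * ‖f t‖) := by
            refine mul_le_mul D.ε1 (mul_le_mul h3 h4 (norm_nonneg _) (Real.sqrt_nonneg _))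
              (by positivity) zero_le_one
        _ = _ := one_mul _)
    q₁ ⟨hle, le_rfl⟩
  rw [gronwallBound_ε0] at this
  rw [mul_comm (Real.exp _)]
  exact this

lemma norm_kOp_le {q₁ : ℝ} (h1 : q₁ ∈ D.I) (h0 : 0 ≤ q₁) (w : E d) :
    ‖X.kOp q₁ w‖ ≤ Real.exp (Real.sqrt D.τ * q₁) * q₁ := by
  refine (intervalIntegral.norm_integral_le_of_norm_le_const
    (C := Real.exp (Real.sqrt D.τ * q₁)) fun q hq => ?_).trans (le_of_eq ?_)
  · rw [uIoc_of_le h0] at hq
    have hqI : q ∈ D.I := uIcc_subset h1 (by rw [uIcc_of_le h0]; exact ⟨hq.1.le, hq.2⟩)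
    refine (ContinuousLinearMap.opNorm_comp_le _ _).trans ?_
    refine (mul_le_of_le_one_right (norm_nonneg _) (norm_aq_le hP hqI _)).trans
      ((X.norm_DΦ_le hP hqI h1 hq.2 _).trans (Real.exp_le_exp.2 ?_))
    exact mul_le_mul_of_nonneg_left (by linarith [hq.1]) (Real.sqrt_nonneg _)
  · rw [sub_zero, abs_of_nonneg h0]

omit hP in
/-- The absorption field, on `E (d + d)`. -/
noncomputable def liftVel (γ q₁ : ℝ) (_t : ℝ) (x : E (d + d)) : E (d + d) :=
  γ • (split d).symm (-(X.kOp q₁ (split d x).1 (split d x).2),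
    D.Gq q₁ (split d x).1 - G D.U D.g D.ε D.τ D.c)

omit hP in
/-- The potential of the invariant law. -/
noncomputable def liftPot (D : Data d) (q₁ : ℝ) (x : E (d + d)) : ℝ :=
  D.ψ q₁ (split d x).1 + ‖(split d x).2‖ ^ 2 / 2

lemma contDiff_liftVel {q₁ : ℝ} (h1 : q₁ ∈ D.I) (γ : ℝ) (t : ℝ) :
    ContDiff ℝ ∞ (X.liftVel γ q₁ t) := by
  have hs : ContDiff ℝ ∞ (split d) := (split d).contDiff
  have hK : ContDiff ℝ ∞ fun x : E (d + d) => X.kOp q₁ (split d x).1 (split d x).2 :=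
    ((X.contDiff_kOp hP h1).comp (contDiff_fst.comp hs)).clm_apply (contDiff_snd.comp hs)
  have hG : ContDiff ℝ ∞ fun x : E (d + d) => D.Gq q₁ (split d x).1 - G D.U D.g D.ε D.τ D.c :=
    ((D.contDiff_Gq hP h1).comp (contDiff_fst.comp hs)).sub contDiff_const
  exact ((split d).symm.contDiff.comp (hK.neg.prodMk hG)).const_smul γ

lemma growth_liftVel {q₁ : ℝ} (h1 : q₁ ∈ D.I) (h0 : 0 ≤ q₁) (γ : ℝ) :
    ∃ C : ℝ, ∀ t x, ‖X.liftVel γ q₁ t x‖ ≤ C * (1 + ‖x‖) := by
  set S := ‖((split d).symm : E d × E d →L[ℝ] E (d + d))‖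
  set P := ‖(split d : E (d + d) →L[ℝ] E d × E d)‖
  set K := Real.exp (Real.sqrt D.τ * q₁) * q₁
  have hK : 0 ≤ K := mul_nonneg (Real.exp_pos _).le h0
  set M := ‖D.c‖ + Real.sqrt (D.r q₁ * d) + ‖G D.U D.g D.ε D.τ D.c‖
  have hM : 0 ≤ M := by positivity
  refine ⟨|γ| * S * ((K + q₁) * P + M), fun t x => ?_⟩
  have hx : ‖split d x‖ ≤ P * ‖x‖ := (split d : E (d + d) →L[ℝ] E d × E d).le_opNorm x
  have hP0 : 0 ≤ P * ‖x‖ := by positivity
  have ha : ‖-(X.kOp q₁ (split d x).1 (split d x).2)‖ ≤ ((K + q₁) * P + M) * (1 + ‖x‖) := by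
    rw [norm_neg]
    refine ((X.kOp q₁ _).le_of_opNorm_le (X.norm_kOp_le hP h1 h0 _) _).trans ?_
    refine (mul_le_mul_of_nonneg_left ((norm_snd_le _).trans hx) hK).trans ?_
    nlinarith [norm_nonneg x, show 0 ≤ P from norm_nonneg _,
      mul_nonneg h0 (show 0 ≤ P * (1 + ‖x‖) by positivity)]
  have hb : ‖D.Gq q₁ (split d x).1 - G D.U D.g D.ε D.τ D.c‖
      ≤ ((K + q₁) * P + M) * (1 + ‖x‖) := by
    have h := ((hP d D.U D.g D.pot D.g0 D.ε D.ε0 D.ε1).2.2 _ (D.r_pos h1)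
      (D.c + q₁ • (split d x).1)).2.2.2.2.2.2.1
    have h2 : ‖D.c + q₁ • (split d x).1‖ ≤ ‖D.c‖ + q₁ * (P * ‖x‖) := by
      refine (norm_add_le _ _).trans (add_le_add le_rfl ?_)
      rw [norm_smul, Real.norm_eq_abs, abs_of_nonneg h0]
      exact mul_le_mul_of_nonneg_left ((norm_fst_le _).trans hx) h0
    refine (norm_sub_le _ _).trans ?_
    change ‖G D.U D.g D.ε (D.r q₁) (D.c + q₁ • (split d x).1)‖ + _ ≤ _
    nlinarith [norm_nonneg x, show 0 ≤ P from norm_nonneg _,
      mul_nonneg hK (show 0 ≤ P * (1 + ‖x‖) by positivity)]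
  rw [liftVel, norm_smul, Real.norm_eq_abs, mul_assoc, mul_assoc]
  refine mul_le_mul_of_nonneg_left ?_ (abs_nonneg γ)
  refine (((split d).symm : E d × E d →L[ℝ] E (d + d)).le_opNorm _).trans ?_
  exact mul_le_mul_of_nonneg_left (norm_prod_le_iff.2 ⟨ha, hb⟩) (norm_nonneg _)

lemma hasFDerivAt_k {q₁ : ℝ} (h1 : q₁ ∈ D.I) (z w : E d) :
    HasFDerivAt (X.k q₁ z) ((fderiv ℝ (X.kOp q₁) w).flip z) w := by
  have e : X.k q₁ z = fun u => X.kOp q₁ u z := funext fun u => (X.kOp_apply hP h1 u z).symm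
  rw [e]
  exact (((X.contDiff_kOp hP h1).differentiable (by simp) w).hasFDerivAt.clm_apply
    (hasFDerivAt_const z w)).congr_fderiv (by ext u; simp)

omit hP in
lemma split_symm_coord (p : E d × E d) (i : Fin d) :
    ((split d).symm p) (Fin.castAdd d i) = p.1 i ∧ ((split d).symm p) (Fin.natAdd d i) = p.2 i :=
  ⟨by rw [← split_fst, ContinuousLinearEquiv.apply_symm_apply],
    by rw [← split_snd, ContinuousLinearEquiv.apply_symm_apply]⟩

lemma fderiv_liftVel {q₁ : ℝ} (h1 : q₁ ∈ D.I) (γ : ℝ) (t : ℝ) (x u : E (d + d)) :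
    fderiv ℝ (X.liftVel γ q₁ t) x u
      = γ • (split d).symm
          (-(fderiv ℝ (X.kOp q₁) (split d x).1 (split d u).1 (split d x).2
              + X.kOp q₁ (split d x).1 (split d u).2),
            q₁ • D.aq q₁ (split d x).1 (split d u).1) :=
  fderiv_pairField (split d) γ (X.kOp q₁) (D.Gq q₁) (G D.U D.g D.ε D.τ D.c)
    ((X.contDiff_kOp hP h1).differentiable (by simp)) x (D.hasFDerivAt_Gq hP h1 _) u

lemma dvg_liftVel {q₁ : ℝ} (h1 : q₁ ∈ D.I) (γ : ℝ) (t : ℝ) (x : E (d + d)) :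
    dvg (X.liftVel γ q₁ t) x = -(γ * dvg (X.k q₁ (split d x).2) (split d x).1) := by
  simp only [dvg, X.fderiv_liftVel hP h1 γ t x, (X.hasFDerivAt_k hP h1 _ _).fderiv]
  rw [Fin.sum_univ_add, Finset.mul_sum, ← Finset.sum_neg_distrib, ← add_zero (∑ i, -(γ * _))]
  congr 1
  · refine Finset.sum_congr rfl fun i _ => ?_
    simp [split_bv_left, (split_symm_coord _ i).1]
  · refine Finset.sum_eq_zero fun i _ => ?_
    simp only [split_bv_right, map_zero, zero_apply, zero_add,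
      PiLp.smul_apply, (split_symm_coord _ i).2, smul_zero, PiLp.zero_apply, smul_eq_mul, mul_zero]

lemma fderiv_liftPot {q₁ : ℝ} (h1 : q₁ ∈ D.I) (x u : E (d + d)) :
    fderiv ℝ (liftPot D q₁) x u
      = ⟪D.gψ q₁ (split d x).1, (split d u).1⟫ + ⟪(split d x).2, (split d u).2⟫ := by
  set L : E (d + d) →L[ℝ] E d × E d := (split d : E (d + d) →L[ℝ] E d × E d)
  have hf : HasFDerivAt (fun y : E (d + d) => (split d y).1)
      ((ContinuousLinearMap.fst ℝ (E d) (E d)).comp L) x :=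
    ((ContinuousLinearMap.fst ℝ (E d) (E d)).comp L).hasFDerivAt
  have hs : HasFDerivAt (fun y : E (d + d) => (split d y).2)
      ((ContinuousLinearMap.snd ℝ (E d) (E d)).comp L) x :=
    ((ContinuousLinearMap.snd ℝ (E d) (E d)).comp L).hasFDerivAt
  have hpot : HasFDerivAt (liftPot D q₁) _ x :=
    (HasFDerivAt.comp (f := fun y : E (d + d) => (split d y).1) (g := D.ψ q₁) x
      (D.hasGradient_psi hP h1 _).hasFDerivAt hf).add
    (HasFDerivAt.comp (f := fun y : E (d + d) => (split d y).2)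
      (g := fun z : E d => ‖z‖ ^ 2 / 2) x (hasFDerivAt_half_sq _) hs)
  rw [hpot.fderiv]
  simp [L]

/-- The field preserves the law. -/
lemma lift_continuity (hH : NWHeat) (hT : LawTransport) {q₁ : ℝ} (h1 : q₁ ∈ D.I) (γ : ℝ)
    (t : ℝ) (x : E (d + d)) :
    deriv (fun _ : ℝ => liftPot D q₁ x) t
      + fderiv ℝ (liftPot D q₁) x (X.liftVel γ q₁ t x) = dvg (X.liftVel γ q₁ t) x := by
  rw [deriv_const, zero_add, X.dvg_liftVel hP h1 γ t x, fderiv_liftPot hP h1]
  have hδ := X.delta_k hP hH hT h1 (split d x).2 (split d x).1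
  rw [delta] at hδ
  simp only [liftVel, map_smul, Prod.smul_fst, Prod.smul_snd,
    ContinuousLinearEquiv.apply_symm_apply, inner_neg_right, real_inner_smul_right,
    X.kOp_apply hP h1, real_inner_comm (D.Gq q₁ (split d x).1 - G D.U D.g D.ε D.τ D.c)]
  linear_combination (-γ) * hδ

/-- The exact output law of a stage. -/
theorem lift_law (hH : NWHeat) (hF : FlowExists) (hT : LawTransport) {q₁ : ℝ} (h1 : q₁ ∈ D.I)
    (h0 : 0 ≤ q₁) (γ : ℝ) :
    ∃ Ψ : ℝ → ℝ → E (d + d) → E (d + d),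
      IsFlow (X.liftVel γ q₁) (Ioo (-1 : ℝ) 2) Ψ ∧
      (∀ t ∈ Icc (0 : ℝ) 1,
        ((law D q₁).prod (gam d)).map (fun p => split d (Ψ 0 t ((split d).symm p)))
          = (law D q₁).prod (gam d)) ∧
      ((law D q₁).prod (gam d)).map (fun p => p.2 + γ •
          ∫ t in (0 : ℝ)..1, D.Gq q₁ (split d (Ψ 0 t ((split d).symm p))).1)
        = (gam d).map (fun z => z + γ • G D.U D.g D.ε D.τ D.c) := by
  obtain ⟨C, hC⟩ := X.growth_liftVel hP h1 h0 γ
  have hvs : ContDiffOn ℝ ∞ (fun p : ℝ × E (d + d) => X.liftVel γ q₁ p.1 p.2)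
      (Ioo (-1 : ℝ) 2 ×ˢ univ) :=
    ((X.contDiff_liftVel hP h1 γ 0).comp contDiff_snd).contDiffOn
  obtain ⟨Ψ, hΨ⟩ := hF (d + d) (-1) 2 (by norm_num) (X.liftVel γ q₁) hvs
    fun _ _ _ _ => ⟨C, fun t _ x => hC t x⟩
  have hψc : ContDiff ℝ ∞ (D.ψ q₁) := continuous_law_test hP h1
  have := isProb_law hP hH hT h1 X
  have : IsProbabilityMeasure (gam d) := by unfold gam; infer_instance
  have hpair : (gibbs (liftPot D q₁)).map (split d) = (law D q₁).prod (gam d) := by
    have e : gibbs (fun z : E d => ‖z‖ ^ 2 / 2) = gam d := by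
      have := Tilt.tilt_zero D.U
      simpa [tilt] using this
    rw [← e]
    exact gibbs_pair hψc.continuous (D.integrable_exp_psi hP h1)
  have hpotc : ContDiff ℝ ∞ (liftPot D q₁) :=
    (hψc.comp (contDiff_fst.comp (split d).contDiff)).add
      (((contDiff_norm_sq ℝ).comp (contDiff_snd.comp (split d).contDiff)).div_const 2)
  have hint : Integrable fun x => Real.exp (-liftPot D q₁ x) := by
    have hi : Integrable (fun p : E d × E d =>
        Real.exp (-D.ψ q₁ p.1) * Real.exp (-(‖p.2‖ ^ 2 / 2)))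
        ((volume : Measure (E d)).prod (volume : Measure (E d))) :=
      (D.integrable_exp_psi hP h1).mul_prod integrable_exp_half
    refine ((measurePreserving_split d).integrable_comp_of_integrable hi).congr
      (Eventually.of_forall fun x => ?_)
    simp only [liftPot, Function.comp_apply, neg_add, Real.exp_add]
  have hinv : ∀ t ∈ Icc (0 : ℝ) 1,
      ((law D q₁).prod (gam d)).map (fun p => split d (Ψ 0 t ((split d).symm p)))
        = (law D q₁).prod (gam d) := by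
    intro t ht
    have htI : t ∈ Ioo (-1 : ℝ) 2 := ⟨by linarith [ht.1], by linarith [ht.2]⟩
    have h := hT (d + d) (-1) 2 (by norm_num) (X.liftVel γ q₁) Ψ hΨ hvs
      (fun _ _ _ _ => ⟨C, fun s _ x => hC s x⟩) (fun _ => liftPot D q₁)
      (hpotc.comp contDiff_snd).contDiffOn (fun _ _ => hint)
      (fun s _ x => X.lift_continuity hP hH hT h1 γ s x) 0 (by norm_num) t htI
    have hm : Measurable (Ψ 0 t) := (hΨ.smooth 0 (by norm_num) t htI).continuous.measurable
    have hm' : Measurable fun p : E d × E d => split d (Ψ 0 t ((split d).symm p)) :=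
      (split d).continuous.measurable.comp (hm.comp (split d).symm.continuous.measurable)
    rw [← hpair, Measure.map_map hm' (split d).continuous.measurable]
    conv_rhs => rw [← h]
    rw [Measure.map_map (split d).continuous.measurable hm]
    congr 1
    funext x
    simp
  refine ⟨Ψ, hΨ, hinv, ?_⟩
  set m := G D.U D.g D.ε D.τ D.c
  have hI : ∀ t ∈ uIcc (0 : ℝ) 1, t ∈ Ioo (-1 : ℝ) 2 := fun t ht => by
    rw [uIcc_of_le zero_le_one] at ht
    exact ⟨by linarith [ht.1], by linarith [ht.2]⟩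
  have key : ∀ p : E d × E d, p.2 + γ • ∫ t in (0 : ℝ)..1,
      D.Gq q₁ (split d (Ψ 0 t ((split d).symm p))).1
        = (split d (Ψ 0 1 ((split d).symm p))).2 + γ • m := by
    intro p
    set y := (split d).symm p
    set f : ℝ → E d := fun t => (split d (Ψ 0 t y)).2
    have hd : ∀ t ∈ uIcc (0 : ℝ) 1,
        HasDerivAt f (γ • (D.Gq q₁ (split d (Ψ 0 t y)).1 - m)) t := fun t ht => by
      have h := ((ContinuousLinearMap.snd ℝ (E d) (E d)).comp
        (split d : E (d + d) →L[ℝ] E d × E d)).hasFDerivAt.comp_hasDerivAt t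
          (hΨ.deriv 0 (by norm_num) t (hI t ht) y)
      refine h.congr_deriv ?_
      simp [liftVel, m]
    have hc : ContinuousOn (fun t => D.Gq q₁ (split d (Ψ 0 t y)).1) (uIcc (0 : ℝ) 1) :=
      (D.contDiff_Gq hP h1).continuous.comp_continuousOn ((continuous_fst.comp
        (split d).continuous).comp_continuousOn fun t ht =>
          (hΨ.deriv 0 (by norm_num) t (hI t ht) y).continuousAt.continuousWithinAt)
    have hftc := intervalIntegral.integral_eq_sub_of_hasDerivAt hd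
      (((hc.sub continuousOn_const).const_smul γ).intervalIntegrable)
    rw [intervalIntegral.integral_smul, intervalIntegral.integral_sub hc.intervalIntegrable
      intervalIntegrable_const, intervalIntegral.integral_const, sub_zero, one_smul, smul_sub] at hftc
    have e0 : f 0 = p.2 := by simp [f, y, hΨ.refl 0 (by norm_num)]
    rw [e0] at hftc
    change _ = f 1 + γ • m
    rw [sub_eq_iff_eq_add] at hftc
    rw [hftc]
    abel
  simp only [key]
  have hm : Measurable fun p : E d × E d => split d (Ψ 0 1 ((split d).symm p)) :=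
    (split d).continuous.measurable.comp ((hΨ.smooth 0 (by norm_num) 1
      (by norm_num)).continuous.measurable.comp (split d).symm.continuous.measurable)
  have hg : Measurable fun p : E d × E d => p.2 + γ • m := measurable_snd.add_const _
  calc ((law D q₁).prod (gam d)).map (fun p => (split d (Ψ 0 1 ((split d).symm p))).2 + γ • m)
      = (((law D q₁).prod (gam d)).map (fun p => split d (Ψ 0 1 ((split d).symm p)))).map
          (fun p : E d × E d => p.2 + γ • m) := (Measure.map_map hg hm).symm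
    _ = ((law D q₁).prod (gam d)).map (fun p : E d × E d => p.2 + γ • m) := by
        rw [hinv 1 ⟨zero_le_one, le_rfl⟩]
    _ = (((law D q₁).prod (gam d)).map Prod.snd).map (fun z : E d => z + γ • m) :=
        (Measure.map_map (g := fun z : E d => z + γ • m) (measurable_id.add_const _)
          measurable_snd).symm
    _ = _ := by rw [Measure.map_snd_prod, measure_univ, one_smul]

end Post

end ExFlow

end Vale.Agent.P347.Gamma0
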