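import Vale.Agent.P347.Gamma0.ExactBridge
import Vale.Agent.P347.Gamma0.FlowJoint
import Vale.Agent.P347.Gamma0.Build
import Vale.Agent.P347.QuadOU
import Vale.Agent.P347.Tilt

/-!
P347, towards `γ_* = 0`: the compiled bridge mean of a stage is accurate, given the quadrature
error along the exact flow; the first moment of the point of the stage.
-/

namespace Vale.Agent.P347.Gamma0

open MeasureTheory ProbabilityTheory Set Filter
open scoped RealInnerProductSpace ContDiff NNReal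

variable {d : ℕ}

lemma mean_norm_gam : Integrable (fun w : E d => ‖w‖) (gam d) ∧
    ∫ w, ‖w‖ ∂gam d ≤ Real.sqrt d := by
  have h2 : ∫ w, ‖w‖ ^ 2 ∂gam d = d := QuadOU.integral_norm_sq d
  have hi : Integrable (fun w : E d => ‖w‖) (gam d) := Tilt.integrable_norm_gam
  have hm : MemLp (fun w : E d => ‖w‖) 2 (gam d) := by
    unfold gam
    exact (IsGaussian.memLp_id (stdGaussian (E d)) 2 (by simp)).norm
  refine ⟨hi, ?_⟩
  have : IsProbabilityMeasure (gam d) := by unfold gam; infer_instance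
  have hv := variance_nonneg (fun w : E d => ‖w‖) (gam d)
  rw [variance_eq_sub hm] at hv
  exact Real.le_sqrt_of_sq_le (by simp only [Pi.pow_apply] at hv; linarith)

namespace ExFlow

attribute [local irreducible] G nW psi

variable {D : Data d} (X : ExFlow D)

section Post

variable (hP : PostFacts)
include hP

/-- The size of the gradient seen along the flow. -/
lemma norm_Gq_le (hτ : D.τ ≤ 1) {q : ℝ} (hq : q ∈ D.I) (w : E d) :
    ‖D.Gq q w‖ ≤ ‖D.c‖ + Real.sqrt d + ‖w‖ := by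
  have h := ((hP d D.U D.g D.pot D.g0 D.ε D.ε0 D.ε1).2.2 _ (D.r_pos hq) (D.c + q • w)).2.2.2.2.2.2.1
  refine h.trans ?_
  have hr : D.r q ≤ 1 := by simp only [Data.r]; nlinarith
  have h1 : Real.sqrt (D.r q * d) ≤ Real.sqrt d :=
    Real.sqrt_le_sqrt (mul_le_of_le_one_left (Nat.cast_nonneg d) hr)
  have hq1 : |q| ≤ 1 := (abs_le.2 ⟨hq.1.le, hq.2.le⟩).trans (Real.sqrt_le_one.2 hτ)
  have h2 : ‖D.c + q • w‖ ≤ ‖D.c‖ + ‖w‖ := by
    refine (norm_add_le _ _).trans (add_le_add le_rfl ?_)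
    rw [norm_smul, Real.norm_eq_abs]
    exact mul_le_of_le_one_left (norm_nonneg _) hq1
  linarith

/-- Trajectories stay within a constant of their start. -/
lemma norm_path_le (hτ : D.τ ≤ 1) {q : ℝ} (hq : q ∈ D.I) (h0 : 0 ≤ q) (R : E d) :
    ‖X.Φ 0 q R‖ ≤ (‖R‖ + D.ε * (‖D.c‖ + Real.sqrt d)) * Real.exp D.ε := by
  set M := ‖D.c‖ + Real.sqrt d
  have hM : 0 ≤ M := by positivity
  have hI : ∀ t ∈ Icc 0 q, t ∈ D.I := fun t ht =>
    ⟨D.zero_mem.1.trans_le ht.1, ht.2.trans_lt hq.2⟩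
  have hq1 : q ≤ 1 := hq.2.le.trans (Real.sqrt_le_one.2 hτ)
  have h := norm_le_gronwallBound_of_norm_deriv_right_le (f := fun t => X.Φ 0 t R)
    (f' := fun t => D.v t (X.Φ 0 t R)) (δ := ‖R‖) (K := D.ε) (ε := D.ε * M) (a := 0) (b := q)
    (fun t ht => (X.flow.deriv 0 D.zero_mem t (hI t ht) R).continuousAt.continuousWithinAt)
    (fun t ht => (X.flow.deriv 0 D.zero_mem t (hI t ⟨ht.1, ht.2.le⟩) R).hasDerivWithinAt)
    (by rw [X.flow.refl 0 D.zero_mem]) (fun t ht => by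
      rw [Data.v_eq, norm_neg, norm_smul, Real.norm_eq_abs, abs_of_nonneg D.ε0, ← mul_add]
      refine mul_le_mul_of_nonneg_left ((norm_Gq_le hP hτ (hI t ⟨ht.1, ht.2.le⟩) _).trans ?_) D.ε0
      linarith) q ⟨h0, le_rfl⟩
  refine h.trans ?_
  rw [sub_zero]
  have hexp : Real.exp (D.ε * q) ≤ Real.exp D.ε :=
    Real.exp_le_exp.2 (mul_le_of_le_one_right D.ε0 hq1)
  rcases eq_or_ne D.ε 0 with he | he
  · simp [he, gronwallBound_K0]
  · rw [gronwallBound_of_K_ne_0 he, mul_div_cancel_left₀ M he, add_mul]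
    refine add_le_add (mul_le_mul_of_nonneg_left hexp (norm_nonneg _)) ?_
    have h1 : Real.exp (D.ε * q) - 1 ≤ D.ε * Real.exp D.ε := by
      have h2 := Real.add_one_le_exp (-(D.ε * q))
      have h3 := Real.exp_pos (D.ε * q)
      have h4 : Real.exp (D.ε * q) * Real.exp (-(D.ε * q)) = 1 := by
        rw [← Real.exp_add, add_neg_cancel, Real.exp_zero]
      have h5 : Real.exp (D.ε * q) - 1 ≤ D.ε * q * Real.exp (D.ε * q) := by nlinarith
      refine h5.trans (mul_le_mul (mul_le_of_le_one_right D.ε0 hq1) hexp h3.le D.ε0)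
    calc M * (Real.exp (D.ε * q) - 1) ≤ M * (D.ε * Real.exp D.ε) :=
          mul_le_mul_of_nonneg_left h1 hM
      _ = _ := by ring

lemma mean_path (hτ : D.τ ≤ 1) {q : ℝ} (hq : q ∈ D.I) (h0 : 0 ≤ q) :
    Integrable (fun R => ‖X.Φ 0 q R‖) (gam d) ∧
    ∫ R, ‖X.Φ 0 q R‖ ∂gam d ≤ (Real.sqrt d + D.ε * (‖D.c‖ + Real.sqrt d)) * Real.exp D.ε := by
  have : IsProbabilityMeasure (gam d) := by unfold gam; infer_instance
  obtain ⟨hi, hle⟩ := mean_norm_gam (d := d)
  have hb := (hi.add (integrable_const (D.ε * (‖D.c‖ + Real.sqrt d)))).mul_const (Real.exp D.ε)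
  refine ⟨hb.mono' (X.continuous_Φ D.zero_mem hq).norm.aestronglyMeasurable
    (Eventually.of_forall fun R => by rw [norm_norm]; exact X.norm_path_le hP hτ hq h0 R), ?_⟩
  refine (integral_mono_of_nonneg (Eventually.of_forall fun R => norm_nonneg _) hb
    (Eventually.of_forall fun R => X.norm_path_le hP hτ hq h0 R)).trans ?_
  simp only [Pi.add_apply]
  rw [integral_mul_const, integral_add hi (integrable_const _), integral_const, probReal_univ,
    one_smul]
  exact mul_le_mul_of_nonneg_right (add_le_add hle le_rfl) (Real.exp_pos _).le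

end Post

end ExFlow

namespace Build

variable {na : ℕ}

/-- The error of a grid on the exact integrand of the flow, in mean. -/
def QuadFwd (d : ℕ) (P : Data na) (δ : ℝ) : Prop :=
  ∀ D : Gamma0.Data d, D.ε = P.ε → D.τ = P.τ → ∀ X : ExFlow D, ∀ o : Option (Fin P.M₂),
    ∫⁻ R, ‖(∫ q in (0 : ℝ)..(P.g₂.at' P.q₂ o), D.Gq q (X.Φ 0 q R))
        - ∑ j, P.g₂.W o j • D.Gq (P.g₂.q j) (X.Φ 0 (P.g₂.q j) R)‖ₑ ∂gam d
      ≤ ENNReal.ofReal (δ * (Real.sqrt d + ‖D.c‖))

variable (P : Data na)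

lemma q₂_mem {d : ℕ} {D : Gamma0.Data d} (hτ : D.τ = P.τ) (hρ : 0 < P.ρ) (hρ1 : P.ρ ≤ 1) :
    P.q₂ ∈ D.I ∧ 0 < P.q₂ := by
  have hτ0 : 0 < P.τ := hτ ▸ D.τ0
  have h1 : 0 < P.τ - P.ρ * P.τ / 2 := by nlinarith
  have h0 : 0 < P.q₂ := Real.sqrt_pos.2 h1
  refine ⟨⟨?_, ?_⟩, h0⟩
  · have := Real.sqrt_pos.2 D.τ0
    linarith
  · rw [hτ]
    exact Real.sqrt_lt_sqrt h1.le (by nlinarith)

attribute [local irreducible] G nW psi in
/-- The forward iterates against the exact flow. -/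
lemma fwd_error {ι : Type} [Countable ι] (hP : PostFacts) {D : Gamma0.Data d} (hε : D.ε = P.ε) (hτ : D.τ = P.τ)
    (hτ1 : D.τ ≤ 1) (hρ : 0 < P.ρ) (hρ1 : P.ρ ≤ 1) (hε10 : D.ε ≤ 1 / 10) {A δ : ℝ}
    (hg : GridOK P.g₂ P.q₂ A) (hA : P.ε * A ≤ 1 / 2) (hA0 : 0 ≤ A) (hδ : 0 ≤ δ)
    (hq : QuadFwd d P δ) (X : ExFlow D) (ec eR : Expr ι) (R : E d → ι → E d)
    (hc : ∀ z, Expr.val (Gt D.U D.g D.ε) ec (R z) = D.c)
    (hR : ∀ z, Expr.val (Gt D.U D.g D.ε) eR (R z) = z) (hRm : Measurable R) :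
    ∀ p o, ∫⁻ z, ‖Expr.val (Gt D.U D.g D.ε) (fwd P ec eR p o) (R z)
        - X.Φ 0 (P.g₂.at' P.q₂ o) z‖ₑ ∂gam d
      ≤ ENNReal.ofReal ((2 * P.ε * δ + 4 * (P.ε * A) ^ p) * (Real.sqrt d + ‖D.c‖)) := by
  have : IsProbabilityMeasure (gam d) := by unfold gam; infer_instance
  obtain ⟨hq2, hq20⟩ := q₂_mem P (d := d) hτ hρ hρ1
  have hq21 : P.q₂ ≤ 1 := hq2.2.le.trans (Real.sqrt_le_one.2 hτ1)
  have hεP : 0 ≤ P.ε := hε ▸ D.ε0
  set M := Real.sqrt d + ‖D.c‖
  have hM : 0 ≤ M := by positivity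
  have hat : ∀ o, 0 ≤ P.g₂.at' P.q₂ o ∧ P.g₂.at' P.q₂ o ≤ P.q₂ := fun o => by
    cases o with
    | none => exact ⟨hq20.le, le_rfl⟩
    | some i => exact ⟨(hg.pos i).le, hg.le i⟩
  have hatI : ∀ o, P.g₂.at' P.q₂ o ∈ D.I := fun o =>
    ⟨D.zero_mem.1.trans_le (hat o).1, (hat o).2.trans_lt hq2.2⟩
  have hGeq : ∀ q ∈ D.I, ∀ w, Gt D.U D.g D.ε (P.rs q) (D.c + q • w) = D.Gq q w := fun q hq w => by
    have : 0 < P.rs q := by rw [Data.rs, ← hτ]; exact D.r_pos hq
    rw [Gt, if_pos this, Data.rs, ← hτ]; rfl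
  have hlip : ∀ q ∈ D.I, ∀ w w', ‖D.Gq q w - D.Gq q w'‖ ≤ |q| * ‖w - w'‖ := fun q hq w w' =>
    convex_univ.norm_image_sub_le_of_norm_hasFDerivWithin_le
      (fun z _ => (D.hasFDerivAt_Gq hP hq z).hasFDerivWithinAt) (fun z _ => by
        rw [norm_smul, Real.norm_eq_abs]
        exact mul_le_of_le_one_right (abs_nonneg q) (ExFlow.norm_aq_le hP hq z))
      (mem_univ w') (mem_univ w)
  have hftc : ∀ o z, X.Φ 0 (P.g₂.at' P.q₂ o) z
      = z + -(D.ε • ∫ q in (0 : ℝ)..(P.g₂.at' P.q₂ o), D.Gq q (X.Φ 0 q z)) := by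
    intro o z
    have hsub : uIcc (0 : ℝ) (P.g₂.at' P.q₂ o) ⊆ D.I :=
      ordConnected_Ioo.uIcc_subset D.zero_mem (hatI o)
    have hcont : ContinuousOn (fun q => D.Gq q (X.Φ 0 q z)) (uIcc 0 (P.g₂.at' P.q₂ o)) :=
      (D.contDiffOn_Gq hP).continuousOn.comp (f := fun q : ℝ => (q, X.Φ 0 q z))
        (continuousOn_id.prodMk fun q hq =>
          (X.flow.deriv 0 D.zero_mem q (hsub hq) z).continuousAt.continuousWithinAt)
        fun q hq => ⟨hsub hq, mem_univ _⟩
    have h := intervalIntegral.integral_eq_sub_of_hasDerivAt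
      (f := fun q => X.Φ 0 q z) (f' := fun q => -(D.ε • D.Gq q (X.Φ 0 q z)))
      (fun q hq => X.flow.deriv 0 D.zero_mem q (hsub hq) z)
      ((hcont.const_smul D.ε).neg.intervalIntegrable)
    rw [intervalIntegral.integral_neg, intervalIntegral.integral_smul, X.flow.refl 0 D.zero_mem] at h
    rw [h]; abel
  have hGj : ∀ j w, Gt D.U D.g D.ε (P.rs (P.g₂.q j)) (D.c + P.g₂.q j • w)
      = D.Gq (P.g₂.q j) w := fun j w => hGeq _ (hatI (some j)) w
  intro p
  induction p with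
  | zero =>
    intro o
    obtain ⟨hi, hle⟩ := X.mean_path hP hτ1 (hatI o) (hat o).1
    obtain ⟨hg1, hg2⟩ := mean_norm_gam (d := d)
    have hi2 : Integrable (fun z : E d => ‖z‖ + ‖X.Φ 0 (P.g₂.at' P.q₂ o) z‖) (gam d) := hg1.add hi
    simp only [fwd, hR, pow_zero, mul_one]
    refine (lintegral_mono (g := fun z => ENNReal.ofReal (‖z‖ + ‖X.Φ 0 (P.g₂.at' P.q₂ o) z‖))
      fun z => ?_).trans ?_
    · rw [← ofReal_norm_eq_enorm]
      exact ENNReal.ofReal_le_ofReal (norm_sub_le _ _)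
    rw [← ofReal_integral_eq_lintegral_ofReal hi2 (Eventually.of_forall fun z => by positivity),
      integral_add hg1 hi]
    refine ENNReal.ofReal_le_ofReal ?_
    have hexp : Real.exp D.ε ≤ 3 / 2 := by
      have h2 := Real.exp_bound_div_one_sub_of_interval' (by norm_num : (0:ℝ) < 1/10) (by norm_num)
      have h3 := Real.exp_le_exp.2 hε10
      norm_num at h2
      linarith
    have h4 : (Real.sqrt d + D.ε * (‖D.c‖ + Real.sqrt d)) * Real.exp D.ε
        ≤ (Real.sqrt d + M) * (3 / 2) := by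
      refine mul_le_mul (add_le_add le_rfl ?_) hexp (Real.exp_pos _).le (by positivity)
      exact (mul_le_of_le_one_left (by positivity) D.ε1).trans (by simp only [M]; linarith)
    have h5 : 0 ≤ 2 * P.ε * δ * M := by positivity
    have h6 : Real.sqrt d ≤ M := le_add_of_nonneg_right (norm_nonneg _)
    nlinarith [Real.sqrt_nonneg (d : ℝ)]
  | succ p ih =>
    intro o
    set B := (2 * P.ε * δ + 4 * (P.ε * A) ^ p) * M with hB
    have hB0 : 0 ≤ B := by positivity
    set v := fun j z => Expr.val (Gt D.U D.g D.ε) (fwd P ec eR p (some j)) (R z)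
    set S := fun z => (∫ q in (0 : ℝ)..(P.g₂.at' P.q₂ o), D.Gq q (X.Φ 0 q z))
        - ∑ j, P.g₂.W o j • D.Gq (P.g₂.q j) (X.Φ 0 (P.g₂.q j) z)
    have hpt : ∀ z, ‖Expr.val (Gt D.U D.g D.ε) (fwd P ec eR (p + 1) o) (R z)
        - X.Φ 0 (P.g₂.at' P.q₂ o) z‖ₑ
        ≤ ENNReal.ofReal P.ε * ‖S z‖ₑ + ∑ j, ENNReal.ofReal (P.ε * |P.g₂.W o j|)
            * ‖v j z - X.Φ 0 (P.g₂.q j) z‖ₑ := by
      intro z
      have e : Expr.val (Gt D.U D.g D.ε) (fwd P ec eR (p + 1) o) (R z)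
          - X.Φ 0 (P.g₂.at' P.q₂ o) z = P.ε • S z + ∑ j, (-(P.ε * P.g₂.W o j)) •
            (D.Gq (P.g₂.q j) (v j z) - D.Gq (P.g₂.q j) (X.Φ 0 (P.g₂.q j) z)) := by
        rw [hftc o z]
        simp only [fwd, gateAt, Expr.val, Expr.val_sum, hc, hR, S, v,
          hGj, Grid.at', smul_sub, Finset.smul_sum, smul_smul,
          Finset.sum_sub_distrib, neg_smul, Finset.sum_neg_distrib, ← hε]
        abel
      rw [e]
      refine (enorm_add_le _ _).trans (add_le_add ?_ ((enorm_sum_le _ _).trans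
        (Finset.sum_le_sum fun j _ => ?_)))
      · rw [enorm_smul, Real.enorm_eq_ofReal hεP]
      · rw [enorm_smul, Real.enorm_eq_ofReal_abs, abs_neg, abs_mul, abs_of_nonneg hεP]
        refine mul_le_mul_right ?_ _
        rw [← ofReal_norm_eq_enorm, ← ofReal_norm_eq_enorm]
        refine ENNReal.ofReal_le_ofReal ((hlip _ (hatI (some j)) _ _).trans ?_)
        refine mul_le_of_le_one_left (norm_nonneg _) ?_
        change |P.g₂.q j| ≤ 1
        rw [abs_of_pos (hg.pos j)]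
        exact (hg.le j).trans hq21
    have hGc : ∀ r, Continuous (Gt D.U D.g D.ε r) := by
      intro r
      unfold Gt
      rcases em (0 < r) with h | h
      · simp only [if_pos h]; exact (D.contDiff_G hP h).continuous
      · simp only [if_neg h]; exact continuous_const
    have hm : ∀ j, Measurable fun z => ENNReal.ofReal (P.ε * |P.g₂.W o j|) *
        ‖v j z - X.Φ 0 (P.g₂.q j) z‖ₑ := fun j =>
      measurable_const.mul (((Expr.continuous_val _ hGc _).measurable.comp hRm).sub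
        (X.continuous_Φ D.zero_mem (hatI (some j))).measurable).enorm
    refine (lintegral_mono hpt).trans ?_
    rw [lintegral_add_right _ (Finset.measurable_sum _ fun j _ => hm j),
      lintegral_finsetSum _ fun j _ => hm j, lintegral_const_mul' _ _ ENNReal.ofReal_ne_top]
    simp only [lintegral_const_mul' _ _ ENNReal.ofReal_ne_top]
    refine (add_le_add (mul_le_mul_right (hq D hε hτ X o) _) (Finset.sum_le_sum fun j _ =>
      mul_le_mul_right (ih (some j)) _)).trans ?_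
    rw [← ENNReal.ofReal_mul hεP]
    simp only [← ENNReal.ofReal_mul (show 0 ≤ P.ε * |P.g₂.W o _| by positivity)]
    rw [← ENNReal.ofReal_sum_of_nonneg fun j _ => by positivity,
      ← ENNReal.ofReal_add (by positivity) (Finset.sum_nonneg fun j _ => by positivity)]
    refine ENNReal.ofReal_le_ofReal ?_
    rw [← Finset.sum_mul, ← Finset.mul_sum]
    have hs : ∑ j, |P.g₂.W o j| ≤ A := (hg.sum o).trans (mul_le_of_le_one_right hA0 hq21)
    have h1 : (∑ j, |P.g₂.W o j|) * P.ε * B ≤ P.ε * A * B := by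
      rw [mul_comm P.ε A]; gcongr
    have h2 : P.ε * A * (2 * P.ε * δ * M) ≤ 1 / 2 * (2 * P.ε * δ * M) :=
      mul_le_mul_of_nonneg_right hA (by positivity)
    rw [pow_succ]
    nlinarith

/-- The compiled bridge mean is accurate and the point of the stage has a bounded first moment. -/
theorem mean_acc_of_quad (hP : PostFacts) (hT : LawTransport) (hτ0 : 0 < P.τ) (hτ1 : P.τ ≤ 1)
    (hε0 : 0 ≤ P.ε) (hε10 : P.ε ≤ 1 / 10) (hρ : 0 < P.ρ) (hρ1 : P.ρ < 1) {A δ : ℝ}
    (hg : GridOK P.g₂ P.q₂ A) (hA : P.ε * A ≤ 1 / 2) (hA0 : 0 ≤ A) (hδ : 0 ≤ δ)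
    (hq : QuadFwd d P δ) (U : E d → ℝ) (g : E d → E d) (hU : Pot U g) (hg0 : g 0 = 0) (c : E d) :
    (∀ φ : E d → ℝ, Lip1 φ →
      |(∫ R, sm ((stage P).s ^ 2) φ ((stage P).mean.val (Gt U g P.ε) (mPoint c R)) ∂gam d)
          - ∫ y, φ y ∂lawY U P.ε P.τ (P.ρ * P.τ) c|
        ≤ Real.sqrt P.τ * (2 * P.ε * δ + 4 * (P.ε * A) ^ P.iter) * (Real.sqrt d + ‖c‖)) ∧
    Integrable (fun y => ‖y‖) (lawY U P.ε P.τ (P.ρ * P.τ) c) ∧
      ∫ y, ‖y‖ ∂lawY U P.ε P.τ (P.ρ * P.τ) c ≤ 2 * (Real.sqrt d + ‖c‖) := by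
  let D : Gamma0.Data d := ⟨U, g, hU, hg0, P.ε, hε0, hε10.trans (by norm_num), P.τ, hτ0, c⟩
  obtain ⟨X⟩ := exists_exFlow hP D
  have hH := nwHeat_of_post hP
  have : IsProbabilityMeasure (gam d) := by unfold gam; infer_instance
  obtain ⟨hq2, hq20⟩ := q₂_mem P (d := d) (D := D) rfl hρ hρ1.le
  have h10 : 0 ≤ P.τ - P.ρ * P.τ := by nlinarith
  have hq1sq : P.q₁ ^ 2 = P.τ - P.ρ * P.τ := Real.sq_sqrt h10
  have hq2sq : P.q₂ ^ 2 = P.τ - P.ρ * P.τ / 2 := Real.sq_sqrt (by nlinarith)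
  have hq10 : 0 ≤ P.q₁ := Real.sqrt_nonneg _
  have h12 : P.q₁ ≤ P.q₂ := Real.sqrt_le_sqrt (by nlinarith)
  have hq1 : P.q₁ ∈ D.I := ⟨D.zero_mem.1.trans_le hq10, h12.trans_lt hq2.2⟩
  have hq11 : P.q₁ ≤ 1 := hq1.2.le.trans (Real.sqrt_le_one.2 hτ1)
  -- the law of the point
  have hq1p : 0 < P.q₁ := Real.sqrt_pos.2 (by nlinarith)
  have hY : lawY U P.ε P.τ (P.ρ * P.τ) c
      = (ExFlow.law D P.q₁).map (fun w => c + P.q₁ • w) := by
    have hW : Measurable fun y : E d =>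
        ‖y - c‖ ^ 2 / (2 * (P.τ - P.ρ * P.τ)) + nW U P.ε (P.ρ * P.τ) y := by
      have h : (fun y => nW U P.ε (P.ρ * P.τ) y)
          = fun y => -Real.log (sm (P.ρ * P.τ) D.expU y) := rfl
      have hn : Measurable fun y => nW U P.ε (P.ρ * P.τ) y := by
        rw [h]
        exact (Real.measurable_log.comp (Per.measurable_sm _ D.continuous_expU.measurable)).neg
      exact (by fun_prop : Measurable fun y : E d => ‖y - c‖ ^ 2 / (2 * (P.τ - P.ρ * P.τ))).add hn
    rw [lawY, ← gibbs_map_affine _ hW c hq1p, ExFlow.law]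
    congr 2
    funext w
    simp only [Gamma0.Data.ψ, psi, D, add_sub_cancel_left, norm_smul, Real.norm_eq_abs, mul_pow,
      sq_abs]
    have hne : P.τ - P.ρ * P.τ ≠ 0 := by nlinarith
    rw [show P.τ - P.q₁ ^ 2 = P.ρ * P.τ by rw [hq1sq]; ring, hq1sq, ← mul_comm (‖w‖ ^ 2),
      mul_comm 2 (P.τ - P.ρ * P.τ), ← div_div, mul_div_cancel_right₀ _ hne]
  have hlam : P.lam * P.q₂ = P.q₁ * (P.q₁ / P.q₂) := by
    rw [Data.lam, ← hq1sq, ← hq2sq]
    field_simp
  have hs : P.s = P.q₁ * Real.sqrt (1 - (P.q₁ / P.q₂) ^ 2) := by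
    rw [Data.s, Data.lam, ← hq1sq, ← hq2sq, show P.ρ * P.τ / 2 = P.q₂ ^ 2 - P.q₁ ^ 2 by
      rw [hq1sq, hq2sq]; ring]
    rw [show P.q₁ ^ 2 / P.q₂ ^ 2 * (P.q₂ ^ 2 - P.q₁ ^ 2) = P.q₁ ^ 2 * (1 - (P.q₁ / P.q₂) ^ 2) by
      field_simp, Real.sqrt_mul (sq_nonneg _), Real.sqrt_sq hq10]
  have hmom := X.mean_path hP hτ1 hq1 hq10
  have hmapG := X.map_gam hP hH hT hq1
  have haff : Measurable fun w : E d => c + P.q₁ • w := by fun_prop
  have hΦ1 : Measurable (X.Φ 0 P.q₁) := (X.continuous_Φ D.zero_mem hq1).measurable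
  have hbound : ∀ z, ‖c + P.q₁ • X.Φ 0 P.q₁ z‖ ≤ ‖c‖ + ‖X.Φ 0 P.q₁ z‖ := fun z => by
    refine (norm_add_le _ _).trans (add_le_add le_rfl ?_)
    rw [norm_smul, Real.norm_eq_abs, abs_of_nonneg hq10]
    exact mul_le_of_le_one_left (norm_nonneg _) hq11
  have hYm : lawY U P.ε P.τ (P.ρ * P.τ) c
      = (gam d).map (fun z => c + P.q₁ • X.Φ 0 P.q₁ z) := by
    rw [hY, ← hmapG, Measure.map_map haff hΦ1]
    rfl
  have hcm : Measurable fun z => c + P.q₁ • X.Φ 0 P.q₁ z := haff.comp hΦ1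
  have hib : Integrable (fun z => ‖c‖ + ‖X.Φ 0 P.q₁ z‖) (gam d) :=
    (integrable_const _).add hmom.1
  refine ⟨fun φ hφ => ?_, ?_, ?_⟩
  · have hGc : ∀ r, Continuous (Gt U g P.ε r) := fun r => by
      unfold Gt
      rcases em (0 < r) with h | h
      · simp only [if_pos h]; exact (D.contDiff_G hP h).continuous
      · simp only [if_neg h]; exact continuous_const
    set F : E d → E d := fun z => Expr.val (Gt U g P.ε)
      (fwd P (.var MIn.ctr) (.var MIn.seed) P.iter none) (mPoint c z)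
    have hRm : Measurable (fun z : E d => mPoint c z) := by
      refine measurable_pi_lambda _ fun i => ?_
      cases i
      · exact measurable_const
      · exact measurable_id
    have hFm : Measurable F := (Expr.continuous_val _ hGc _).measurable.comp hRm
    have herr := fwd_error P hP (D := D) rfl rfl hτ1 hρ hρ1.le hε10 hg hA hA0 hδ hq X
      (.var MIn.ctr) (.var MIn.seed) (fun z => mPoint c z) (fun z => rfl) (fun z => rfl) hRm
      P.iter none
    set B := (2 * P.ε * δ + 4 * (P.ε * A) ^ P.iter) * (Real.sqrt d + ‖c‖)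
    have hB : 0 ≤ B := by positivity
    have hΦ2 : Measurable (X.Φ 0 P.q₂) := (X.continuous_Φ D.zero_mem hq2).measurable
    have hmean : ∀ z, (stage P).mean.val (Gt U g P.ε) (mPoint c z)
        = c + (P.lam * P.q₂) • F z := fun z => by
      simp only [stage, Expr.val, mPoint, F]
      module
    set a : E d × E d → E d := fun p => c + (P.lam * P.q₂) • F p.1 + P.s • p.2
    set b : E d × E d → E d := fun p => c + (P.lam * P.q₂) • X.Φ 0 P.q₂ p.1 + P.s • p.2
    have ham : Measurable a :=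
      (((hFm.comp measurable_fst).const_smul (P.lam * P.q₂)).const_add c).add
        (measurable_snd.const_smul P.s)
    have hbm : Measurable b :=
      (((hΦ2.comp measurable_fst).const_smul (P.lam * P.q₂)).const_add c).add
        (measurable_snd.const_smul P.s)
    have hlaw : lawY U P.ε P.τ (P.ρ * P.τ) c = ((gam d).prod (gam d)).map b := by
      have hm2 : Measurable fun p : E d × E d => (P.q₁ / P.q₂) • X.Φ 0 P.q₂ p.1
          + Real.sqrt (1 - (P.q₁ / P.q₂) ^ 2) • p.2 :=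
        ((hΦ2.comp measurable_fst).const_smul (P.q₁ / P.q₂)).add
          (measurable_snd.const_smul (Real.sqrt (1 - (P.q₁ / P.q₂) ^ 2)))
      rw [hY, ← ExFlow.bridge_gam hP hH hT X hq10 h12 hq20 hq2, Measure.map_map haff hm2]
      congr 1
      funext p
      simp only [Function.comp_apply, b, hlam, hs, smul_add, smul_smul]
      abel
    obtain ⟨hz1, hz2⟩ := mean_norm_gam (d := d)
    have hlq : 0 ≤ P.lam * P.q₂ := by rw [hlam]; positivity
    have hlq1 : P.lam * P.q₂ ≤ Real.sqrt P.τ := by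
      rw [hlam]
      exact (mul_le_of_le_one_right hq10 ((div_le_one hq20).2 h12)).trans hq1.2.le
    have hs0 : 0 ≤ P.s := Real.sqrt_nonneg _
    have hFi : Integrable (fun z => ‖F z - X.Φ 0 P.q₂ z‖) (gam d) ∧
        ∫ z, ‖F z - X.Φ 0 P.q₂ z‖ ∂gam d ≤ B := by
      have hm : Measurable fun z => ‖F z - X.Φ 0 P.q₂ z‖ := (hFm.sub hΦ2).norm
      have hle : ∫⁻ z, ENNReal.ofReal ‖F z - X.Φ 0 P.q₂ z‖ ∂gam d ≤ ENNReal.ofReal B := by
        simpa [ofReal_norm_eq_enorm, F, Grid.at', D, B] using herr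
      have hi : Integrable (fun z => ‖F z - X.Φ 0 P.q₂ z‖) (gam d) :=
        (lintegral_ofReal_ne_top_iff_integrable hm.aestronglyMeasurable
          (Eventually.of_forall fun z => norm_nonneg _)).1 (ne_top_of_le_ne_top ENNReal.ofReal_ne_top hle)
      refine ⟨hi, ?_⟩
      rw [← ENNReal.ofReal_le_ofReal_iff hB, ofReal_integral_eq_lintegral_ofReal hi
        (Eventually.of_forall fun z => norm_nonneg _)]
      exact hle
    have hbi : Integrable (fun p => φ (b p)) ((gam d).prod (gam d)) := by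
      have hd : Integrable (fun p : E d × E d => |φ 0| + (‖c‖ + (P.lam * P.q₂) * ‖X.Φ 0 P.q₂ p.1‖
          + P.s * ‖p.2‖)) ((gam d).prod (gam d)) :=
        (integrable_const _).add (((integrable_const _).add
          (((X.mean_path hP hτ1 hq2 hq20.le).1.comp_fst _).const_mul _)).add
            ((hz1.comp_snd _).const_mul _))
      refine hd.mono' (hφ.continuous.measurable.comp hbm).aestronglyMeasurable
        (Eventually.of_forall fun p => ?_)
      have h := hφ.norm_sub_le (b p) 0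
      simp only [NNReal.coe_one, one_mul, sub_zero, Real.norm_eq_abs] at h
      rw [Real.norm_eq_abs]
      have h2 : ‖b p‖ ≤ ‖c‖ + (P.lam * P.q₂) * ‖X.Φ 0 P.q₂ p.1‖ + P.s * ‖p.2‖ := by
        refine (norm_add_le _ _).trans (add_le_add ((norm_add_le _ _).trans
          (add_le_add le_rfl ?_)) ?_) <;>
        · rw [norm_smul, Real.norm_eq_abs, abs_of_nonneg (by assumption)]
      linarith [abs_sub_abs_le_abs_sub (φ (b p)) (φ 0)]
    have hsub : ∀ p, |φ (a p) - φ (b p)| ≤ (P.lam * P.q₂) * ‖F p.1 - X.Φ 0 P.q₂ p.1‖ := fun p => by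
      have h := hφ.norm_sub_le (a p) (b p)
      simp only [NNReal.coe_one, one_mul, Real.norm_eq_abs] at h
      refine h.trans (le_of_eq ?_)
      simp only [a, b, add_sub_add_right_eq_sub, add_sub_add_left_eq_sub, ← smul_sub, norm_smul,
        Real.norm_eq_abs, abs_of_nonneg hlq]
    have hdi : Integrable (fun p : E d × E d =>
        (P.lam * P.q₂) * ‖F p.1 - X.Φ 0 P.q₂ p.1‖) ((gam d).prod (gam d)) :=
      (hFi.1.comp_fst _).const_mul _
    have hai : Integrable (fun p => φ (a p)) ((gam d).prod (gam d)) := by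
      have : Integrable (fun p => φ (a p) - φ (b p)) ((gam d).prod (gam d)) :=
        hdi.mono' ((hφ.continuous.measurable.comp ham).sub
          (hφ.continuous.measurable.comp hbm)).aestronglyMeasurable
          (Eventually.of_forall fun p => hsub p)
      simpa using this.fun_add hbi
    have hL : ∫ R, sm ((stage P).s ^ 2) φ ((stage P).mean.val (Gt U g P.ε) (mPoint c R)) ∂gam d
        = ∫ p, φ (a p) ∂(gam d).prod (gam d) := by
      rw [integral_prod _ hai]
      refine integral_congr_ae (Eventually.of_forall fun z => ?_)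
      simp only [sm, hmean, a, show (stage P).s = P.s from rfl, Real.sqrt_sq hs0]
    rw [hL, hlaw, integral_map hbm.aemeasurable hφ.continuous.aestronglyMeasurable,
      ← integral_sub hai hbi]
    refine abs_integral_le_integral_abs.trans ((integral_mono_of_nonneg
      (Eventually.of_forall fun p => abs_nonneg _) hdi (Eventually.of_forall hsub)).trans ?_)
    rw [integral_const_mul, integral_fun_fst (fun z : E d => ‖F z - X.Φ 0 P.q₂ z‖)]
    simp only [probReal_univ, one_smul]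
    refine (mul_le_mul hlq1 hFi.2 (integral_nonneg fun z => norm_nonneg _)
      (Real.sqrt_nonneg _)).trans (le_of_eq ?_)
    simp only [B]; ring
  · rw [hYm, integrable_map_measure (by fun_prop) hcm.aemeasurable]
    exact hib.mono' hcm.norm.aestronglyMeasurable
      (Eventually.of_forall fun z => by rw [Function.comp_apply, norm_norm]; exact hbound z)
  · rw [hYm, integral_map hcm.aemeasurable (by fun_prop)]
    refine (integral_mono_of_nonneg (Eventually.of_forall fun z => norm_nonneg _) hib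
      (Eventually.of_forall hbound)).trans ?_
    rw [integral_add (integrable_const _) hmom.1, integral_const, probReal_univ, one_smul]
    refine (add_le_add le_rfl hmom.2).trans ?_
    have hexp : Real.exp P.ε ≤ 5 / 4 := by
      have h2 := Real.exp_bound_div_one_sub_of_interval' (by norm_num : (0:ℝ) < 1/10) (by norm_num)
      have h3 := Real.exp_le_exp.2 hε10
      norm_num at h2
      linarith
    have h4 : (Real.sqrt d + P.ε * (‖c‖ + Real.sqrt d)) * Real.exp P.ε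
        ≤ (Real.sqrt d + 1 / 10 * (‖c‖ + Real.sqrt d)) * (5 / 4) :=
      mul_le_mul (add_le_add le_rfl (mul_le_mul_of_nonneg_right hε10 (by positivity))) hexp
        (Real.exp_pos _).le (by positivity)
    change ‖c‖ + (Real.sqrt d + P.ε * (‖c‖ + Real.sqrt d)) * Real.exp P.ε ≤ _
    linarith [norm_nonneg c, Real.sqrt_nonneg (d : ℝ)]

end Build

end Vale.Agent.P347.Gamma0
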