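import Vale.Agent.P347.Gamma0.Flatten

/-!
P347, towards `γ* = 0`, piece 1: expectations and covariances in the exponential family, the
integration by parts identity and the derivative in the parameter.
-/

namespace Vale.Agent.P347.Gamma0

open MeasureTheory Filter Topology
open scoped RealInnerProductSpace ContDiff

variable {d : ℕ} {U : E d → ℝ} {g : E d → E d} {ε : ℝ}

/-- The covariance. -/
noncomputable def cv (U : E d → ℝ) (ε : ℝ) (φ ψ : E d → ℝ) (p : E d × ℝ) : ℝ :=
  mean U ε (fun x => φ x * ψ x) p - mean U ε φ p * mean U ε ψ p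

/-- The derivative of `-pot` in the parameter, in direction `w`. -/
noncomputable def dir (w : E d × ℝ) (x : E d) : ℝ := ⟪w.1, x⟫ + w.2 * ((-1 / 2) * ‖x‖ ^ 2)

lemma obs_dir (w : E d × ℝ) : Obs (dir w) := by
  have h := (Obs.inner w.1).add ((Obs.const w.2).mul ((Obs.const (-1 / 2)).mul (Obs.sq (d := d))))
  exact h

lemma Obs.const_mul {φ : E d → ℝ} (a : ℝ) (hφ : Obs φ) : Obs fun x => a * φ x :=
  (Obs.const a).mul hφ

lemma inner_eq_sum (v x : E d) : ⟪v, x⟫ = ∑ j, v j * x j := by
  simp only [PiLp.inner_apply, RCLike.inner_apply, conj_trivial]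
  exact Finset.sum_congr rfl fun j _ => mul_comm _ _

variable (hU : Pot U g) (hε : 0 ≤ ε) {p : E d × ℝ} (hp : 0 < p.2)
include hU hε hp

lemma integrable_mean {φ : E d → ℝ} (hφ : Obs φ) : Integrable φ (gibbs (pot U ε p)) :=
  hφ.poly.integrable (logConc hU hε hp) hφ.cont

lemma mean_const (a : ℝ) : mean U ε (fun _ => a) p = a := by
  have := LogConcave.isProb (logConc hU hε hp)
  rw [mean_eq hU hε hp, integral_const]
  simp

lemma mean_add {φ ψ : E d → ℝ} (hφ : Obs φ) (hψ : Obs ψ) :
    mean U ε (fun x => φ x + ψ x) p = mean U ε φ p + mean U ε ψ p := by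
  simp only [mean_eq hU hε hp]
  exact integral_add (integrable_mean hU hε hp hφ) (integrable_mean hU hε hp hψ)

lemma mean_const_mul (a : ℝ) (φ : E d → ℝ) :
    mean U ε (fun x => a * φ x) p = a * mean U ε φ p := by
  simp only [mean_eq hU hε hp]
  exact integral_const_mul a φ

lemma mean_sub {φ ψ : E d → ℝ} (hφ : Obs φ) (hψ : Obs ψ) :
    mean U ε (fun x => φ x - ψ x) p = mean U ε φ p - mean U ε ψ p := by
  simp only [mean_eq hU hε hp]
  exact integral_sub (integrable_mean hU hε hp hφ) (integrable_mean hU hε hp hψ)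

lemma mean_sum {ι : Type*} (S : Finset ι) {φ : ι → E d → ℝ} (h : ∀ i ∈ S, Obs (φ i)) :
    mean U ε (fun x => ∑ i ∈ S, φ i x) p = ∑ i ∈ S, mean U ε (φ i) p := by
  simp only [mean_eq hU hε hp]
  exact integral_finset_sum S fun i hi => integrable_mean hU hε hp (h i hi)

lemma mean_mono {φ ψ : E d → ℝ} (hφ : Obs φ) (hψ : Obs ψ) (h : ∀ x, φ x ≤ ψ x) :
    mean U ε φ p ≤ mean U ε ψ p := by
  simp only [mean_eq hU hε hp]
  exact integral_mono (integrable_mean hU hε hp hφ) (integrable_mean hU hε hp hψ) h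

lemma cv_self_nonneg {φ : E d → ℝ} (hφ : Obs φ) : 0 ≤ cv U ε φ φ p := by
  set a := mean U ε φ p with ha
  have h : mean U ε (fun _ => (0:ℝ)) p ≤ mean U ε (fun x => (φ x + -a) * (φ x + -a)) p :=
    mean_mono hU hε hp (Obs.const 0) ((hφ.add (Obs.const _)).mul (hφ.add (Obs.const _)))
      fun x => mul_self_nonneg _
  rw [mean_const hU hε hp, show (fun x => (φ x + -a) * (φ x + -a))
      = fun x => φ x * φ x + ((-2 * a) * φ x + a * a) from funext fun x => by ring,
    mean_add hU hε hp (hφ.mul hφ) ((hφ.const_mul _).add (Obs.const _)),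
    mean_add hU hε hp (hφ.const_mul _) (Obs.const _),
    mean_const_mul hU hε hp, mean_const hU hε hp, ← ha] at h
  simp only [cv, ← ha]
  linarith

lemma sq_mean_le {φ : E d → ℝ} (hφ : Obs φ) :
    mean U ε φ p ^ 2 ≤ mean U ε (fun x => φ x * φ x) p := by
  have := cv_self_nonneg hU hε hp hφ
  unfold cv at this
  nlinarith

lemma cv_sum_right {ι : Type*} (S : Finset ι) {φ : E d → ℝ} (hφ : Obs φ) (a : ι → ℝ)
    {ψ : ι → E d → ℝ} (h : ∀ i ∈ S, Obs (ψ i)) :
    cv U ε φ (fun x => ∑ i ∈ S, a i * ψ i x) p = ∑ i ∈ S, a i * cv U ε φ (ψ i) p := by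
  have h1 : (fun x => φ x * ∑ i ∈ S, a i * ψ i x) = fun x => ∑ i ∈ S, a i * (φ x * ψ i x) :=
    funext fun x => by rw [Finset.mul_sum]; exact Finset.sum_congr rfl fun i _ => by ring
  simp only [cv]
  rw [h1, mean_sum hU hε hp S fun i hi => (hφ.mul (h i hi)).const_mul _,
    mean_sum hU hε hp S fun i hi => (h i hi).const_mul _, Finset.mul_sum, ← Finset.sum_sub_distrib]
  refine Finset.sum_congr rfl fun i _ => ?_
  rw [mean_const_mul hU hε hp, mean_const_mul hU hε hp]
  ring

lemma cv_add_right {φ ψ χ : E d → ℝ} (hφ : Obs φ) (hψ : Obs ψ) (hχ : Obs χ) :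
    cv U ε φ (fun x => ψ x + χ x) p = cv U ε φ ψ p + cv U ε φ χ p := by
  simp only [cv]
  rw [show (fun x => φ x * (ψ x + χ x)) = fun x => φ x * ψ x + φ x * χ x from
    funext fun x => mul_add _ _ _, mean_add hU hε hp (hφ.mul hψ) (hφ.mul hχ),
    mean_add hU hε hp hψ hχ]
  ring

lemma cv_const_mul_right (a : ℝ) (φ ψ : E d → ℝ) :
    cv U ε φ (fun x => a * ψ x) p = a * cv U ε φ ψ p := by
  simp only [cv]
  rw [show (fun x => φ x * (a * ψ x)) = fun x => a * (φ x * ψ x) from funext fun x => by ring,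
    mean_const_mul hU hε hp, mean_const_mul hU hε hp]
  ring

omit hU hε hp in
lemma cv_comm (φ ψ : E d → ℝ) : cv U ε φ ψ p = cv U ε ψ φ p := by
  simp only [cv, mul_comm]

/-- The covariance with a linear function, in coordinates. -/
lemma cv_inner {φ : E d → ℝ} (hφ : Obs φ) (v : E d) :
    cv U ε φ (fun x => ⟪v, x⟫) p = ∑ j, v j * cv U ε φ (fun x => x j) p := by
  rw [show (fun x : E d => ⟪v, x⟫) = fun x => ∑ j, v j * x j from funext fun x => inner_eq_sum v x]
  exact cv_sum_right hU hε hp _ hφ _ fun j _ => Obs.coord j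

/-- The covariance with the squared norm, in coordinates. -/
lemma cv_sq {φ : E d → ℝ} (hφ : Obs φ) :
    cv U ε φ (fun x => ‖x‖ ^ 2) p = ∑ j, cv U ε φ (fun x => x j * x j) p := by
  rw [show (fun x : E d => ‖x‖ ^ 2) = fun x => ∑ j, (1:ℝ) * (x j * x j) from funext fun x => by
    rw [EuclideanSpace.real_norm_sq_eq]; exact Finset.sum_congr rfl fun j _ => by ring]
  rw [cv_sum_right hU hε hp _ hφ _ fun j _ => (Obs.coord j).mul (Obs.coord j)]
  simp

/-! ### The derivative in the parameter -/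

lemma numDeriv_apply {φ : E d → ℝ} (hφ : Obs φ) (w : E d × ℝ) :
    numDeriv U ε φ p w = num U ε (fun x => φ x * dir w x) p := by
  have hj : ∀ j, Integrable fun x => w.1 j * (Real.exp (-pot U ε p x) * (φ x * x j)) :=
    fun j => (integrable_num hU hε hp (hφ.mul (Obs.coord j))).const_mul _
  have hs : Integrable fun x =>
      w.2 * (Real.exp (-pot U ε p x) * (φ x * ((-1 / 2) * ‖x‖ ^ 2))) :=
    (integrable_num hU hε hp (hφ.mul ((Obs.const _).mul Obs.sq))).const_mul _
  have e : (fun x => Real.exp (-pot U ε p x) * (φ x * dir w x)) = fun x =>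
      (∑ j, w.1 j * (Real.exp (-pot U ε p x) * (φ x * x j)))
        + w.2 * (Real.exp (-pot U ε p x) * (φ x * ((-1 / 2) * ‖x‖ ^ 2))) := funext fun x => by
    simp only [dir, inner_eq_sum, mul_add, Finset.mul_sum]
    congr 1
    · exact Finset.sum_congr rfl fun j _ => by ring
    · ring
  simp only [num]
  rw [e, integral_add (integrable_finset_sum _ fun j _ => hj j) hs,
    integral_finset_sum _ fun j _ => hj j]
  simp only [integral_const_mul, numDeriv, num, ContinuousLinearMap.add_apply,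
    ContinuousLinearMap.coe_sum', Finset.sum_apply, ContinuousLinearMap.smul_apply,
    ContinuousLinearMap.comp_apply, ContinuousLinearMap.coe_fst', PiLp.proj_apply,
    ContinuousLinearMap.coe_snd', smul_eq_mul]
  congr 1
  · exact Finset.sum_congr rfl fun j _ => mul_comm _ _
  · ring

/-- The derivative of an expectation is a covariance. -/
lemma fderiv_mean_apply {φ : E d → ℝ} (hφ : Obs φ) (w : E d × ℝ) :
    fderiv ℝ (mean U ε φ) p w = cv U ε φ (dir w) p := by
  have hZ := (num_one_pos hU hε hp).ne'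
  rw [(hasFDerivAt_mean hU hε hφ hp).fderiv]
  simp only [ContinuousLinearMap.smul_apply, ContinuousLinearMap.sub_apply, smul_eq_mul,
    numDeriv_apply hU hε hp hφ, numDeriv_apply hU hε hp Obs.one, cv, mean, one_mul]
  field_simp

lemma fderiv_mean_inl {φ : E d → ℝ} (hφ : Obs φ) (v : E d) :
    fderiv ℝ (mean U ε φ) p (v, 0) = cv U ε φ (fun x => ⟪v, x⟫) p := by
  rw [fderiv_mean_apply hU hε hp hφ]
  congr 1
  funext x
  simp [dir]

/-! ### Integration by parts -/

/-- `E ∂_v ψ = E ψ ⟨∇W, v⟩`. -/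
lemma ibp {ψ : E d → ℝ} (hd : Differentiable ℝ ψ) (v : E d) (hψ : Obs ψ)
    (hψ' : Obs fun x => fderiv ℝ ψ x v) :
    mean U ε (fun x => fderiv ℝ ψ x v) p
      = mean U ε (fun x => ψ x * ⟪potGrad g ε p x, v⟫) p := by
  have hW := logConc hU hε hp
  have hobs : Obs fun x => ψ x * ⟪potGrad g ε p x, v⟫ := by
    have h1 : Obs fun x => p.2 * ⟪v, x⟫ + (-⟪p.1, v⟫ + ε * ⟪v, g x⟫) :=
      ((Obs.inner v).const_mul _).add ((Obs.const _).add ((Obs.grad hU v).const_mul _))
    rw [show (fun x => ψ x * ⟪potGrad g ε p x, v⟫)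
        = fun x => ψ x * (p.2 * ⟪v, x⟫ + (-⟪p.1, v⟫ + ε * ⟪v, g x⟫)) from funext fun x => by
      rw [potGrad, inner_add_left, inner_sub_left, real_inner_smul_left, real_inner_smul_left,
        real_inner_comm v x, real_inner_comm v (g x)]
      ring]
    exact hψ.mul h1
  have hexp : ∀ x, HasFDerivAt (fun y => Real.exp (-pot U ε p y))
      (Real.exp (-pot U ε p x) • (-(InnerProductSpace.toDual ℝ (E d) (potGrad g ε p x) :
        E d →L[ℝ] ℝ))) x :=
    fun x => ((hW.grad x).hasFDerivAt.neg).exp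
  have e : ∀ x, fderiv ℝ (fun y => Real.exp (-pot U ε p y)) x v
      = -(Real.exp (-pot U ε p x) * ⟪potGrad g ε p x, v⟫) := fun x => by
    rw [(hexp x).fderiv]; simp [InnerProductSpace.toDual_apply_apply]
  have h := integral_mul_fderiv_eq_neg_fderiv_mul_of_integrable (𝕜 := ℝ)
    (μ := (volume : Measure (E d))) (f := ψ) (g := fun y => Real.exp (-pot U ε p y)) (v := v)
    ((integrable_num hU hε hp hψ').congr (ae_of_all _ fun x => mul_comm _ _))
    ((integrable_num hU hε hp hobs).neg.congr (ae_of_all _ fun x => by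
      simp only [Pi.neg_apply, e]; ring))
    ((integrable_num hU hε hp hψ).congr (ae_of_all _ fun x => mul_comm _ _))
    (fun x _ => hd x) (fun x _ => (hexp x).differentiableAt)
  simp only [e] at h
  simp only [mean]
  congr 1
  simp only [num]
  rw [show (fun x => Real.exp (-pot U ε p x) * fderiv ℝ ψ x v)
      = fun x => fderiv ℝ ψ x v * Real.exp (-pot U ε p x) from funext fun x => mul_comm _ _,
    show (fun x => ψ x * -(Real.exp (-pot U ε p x) * ⟪potGrad g ε p x, v⟫))
      = fun x => -(Real.exp (-pot U ε p x) * (ψ x * ⟪potGrad g ε p x, v⟫)) from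
      funext fun x => by ring, integral_neg] at *
  linarith

/-- The same, split along `∇W = p₂ x - p₁ + ε g`. -/
lemma ibp' {ψ : E d → ℝ} (hd : Differentiable ℝ ψ) (v : E d) (hψ : Obs ψ)
    (hψ' : Obs fun x => fderiv ℝ ψ x v) :
    mean U ε (fun x => fderiv ℝ ψ x v) p
      = p.2 * mean U ε (fun x => ψ x * ⟪v, x⟫) p - ⟪p.1, v⟫ * mean U ε ψ p
        + ε * mean U ε (fun x => ψ x * ⟪v, g x⟫) p := by
  rw [ibp hU hε hp hd v hψ hψ',
    show (fun x => ψ x * ⟪potGrad g ε p x, v⟫)
        = fun x => p.2 * (ψ x * ⟪v, x⟫) + ((-⟪p.1, v⟫) * ψ x + ε * (ψ x * ⟪v, g x⟫)) from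
      funext fun x => by
        rw [potGrad, inner_add_left, inner_sub_left, real_inner_smul_left, real_inner_smul_left,
          real_inner_comm v x, real_inner_comm v (g x)]
        ring,
    mean_add hU hε hp ((hψ.mul (Obs.inner v)).const_mul _)
      ((hψ.const_mul _).add ((hψ.mul (Obs.grad hU v)).const_mul _)),
    mean_add hU hε hp (hψ.const_mul _) ((hψ.mul (Obs.grad hU v)).const_mul _),
    mean_const_mul hU hε hp, mean_const_mul hU hε hp, mean_const_mul hU hε hp]
  ring

/-- The first order condition. -/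
lemma ibp_one (v : E d) :
    ε * mean U ε (fun x => ⟪v, g x⟫) p = ⟪p.1, v⟫ - p.2 * mean U ε (fun x => ⟪v, x⟫) p := by
  have h := ibp' hU hε hp (differentiable_const (1:ℝ)) v Obs.one (by simpa using Obs.const (d := d) 0)
  simp only [one_mul, mean_const hU hε hp, mul_one, fderiv_fun_const, Pi.zero_apply,
    ContinuousLinearMap.zero_apply] at h
  linarith

/-- Integration by parts for a centred observable. -/
lemma ibp_cv {ψ : E d → ℝ} (hd : Differentiable ℝ ψ) (v : E d) (hψ : Obs ψ)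
    (hψ' : Obs fun x => fderiv ℝ ψ x v) :
    mean U ε (fun x => fderiv ℝ ψ x v) p
      = p.2 * cv U ε ψ (fun x => ⟪v, x⟫) p + ε * cv U ε ψ (fun x => ⟪v, g x⟫) p := by
  rw [ibp' hU hε hp hd v hψ hψ']
  have h := ibp_one hU hε hp v
  simp only [cv]
  linear_combination -(mean U ε ψ p) * (-h)

end Vale.Agent.P347.Gamma0
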