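import Vale.Agent.P347.Gamma0.RegMul
import Vale.Agent.P347.Gamma0.Calc

/-!
P347, towards `γ_* = 0`: calculus of scaled multiplier bounds, at a point and everywhere: products,
tensoring with the identity, reindexing, composition with a smooth map, and integrals in a
parameter.
-/

namespace Vale.Agent.P347.Gamma0

namespace MulCalc

open Sobolev MeasureTheory
open scoped ContDiff

set_option linter.unusedSectionVars false

variable {ι ι' β β' γ γ' δ : Type} [Fintype ι] [DecidableEq ι] [Fintype ι'] [DecidableEq ι']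
  [Fintype β] [Fintype β'] [Fintype γ] [Fintype γ'] [Fintype δ] {κ B B' : ℝ}

/-! ### Smooth fields and the bound at a point -/

/-- All entries are smooth. -/
def Smo (M : β → γ → (EuclideanSpace ℝ ι) → ℝ) : Prop := ∀ b c, ContDiff ℝ ∞ (M b c)

lemma smo_of_tame {M : β → γ → (EuclideanSpace ℝ ι) → ℝ} (hM : ∀ b c, Tame (M b c)) : Smo M := fun b c => (hM b c).1

lemma Smo.diff {M : β → γ → (EuclideanSpace ℝ ι) → ℝ} (hM : Smo M) (b : β) (c : γ) : Differentiable ℝ (M b c) :=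
  (hM b c).differentiable (by simp)

lemma contDiff_pd {f : (EuclideanSpace ℝ ι) → ℝ} (hf : ContDiff ℝ ∞ f) (i : ι) : ContDiff ℝ ∞ (pd i f) :=
  (hf.fderiv_right (by simp)).clm_apply contDiff_const

lemma Smo.dMul {M : β → γ → (EuclideanSpace ℝ ι) → ℝ} (hM : Smo M) (κ : ℝ) : Smo (Sobolev.dMul κ M) := fun p c =>
  contDiff_const.mul (contDiff_pd (hM p.1 c) p.2)

lemma Smo.reindex {M : β → γ → (EuclideanSpace ℝ ι) → ℝ} (hM : Smo M) (e : β' → β) (f : γ' → γ) :
    Smo fun b c => M (e b) (f c) := fun b c => hM (e b) (f c)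

/-- All scaled derivatives up to order `m` of a field of flattenings, at the point `x`, have
operator norm at most `B`. -/
def MulAt (κ : ℝ) : ℕ → ∀ {β : Type} [Fintype β], (β → γ → (EuclideanSpace ℝ ι) → ℝ) → ℝ → (EuclideanSpace ℝ ι) → Prop
  | 0, _, _, M, B, x => OpLe (fun b c => M b c x) B
  | m + 1, _, _, M, B, x => OpLe (fun b c => M b c x) B ∧ MulAt κ m (dMul κ M) B x

lemma mulBound_iff (m : ℕ) : ∀ {β : Type} [Fintype β] {M : β → γ → (EuclideanSpace ℝ ι) → ℝ},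
    MulBound κ m M B ↔ ∀ x, MulAt κ m M B x := by
  induction m with
  | zero => intro β _ M; exact Iff.rfl
  | succ m ih =>
    intro β _ M
    exact ⟨fun h x => ⟨h.1 x, ih.1 h.2 x⟩, fun h => ⟨fun x => (h x).1, ih.2 fun x => (h x).2⟩⟩

lemma MulAt.op {m : ℕ} {M : β → γ → (EuclideanSpace ℝ ι) → ℝ} {x : (EuclideanSpace ℝ ι)} (h : MulAt κ m M B x) :
    OpLe (fun b c => M b c x) B := by
  cases m with
  | zero => exact h
  | succ m => exact h.1

lemma MulAt.lower (m : ℕ) : ∀ {β : Type} [Fintype β] {M : β → γ → (EuclideanSpace ℝ ι) → ℝ} {x : (EuclideanSpace ℝ ι)},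
    MulAt κ (m + 1) M B x → MulAt κ m M B x := by
  induction m with
  | zero => intro β _ M x h; exact h.1
  | succ m ih => intro β _ M x h; exact ⟨h.1, ih h.2⟩

lemma MulAt.le_order {m n : ℕ} (hmn : m ≤ n) {M : β → γ → (EuclideanSpace ℝ ι) → ℝ} {x : (EuclideanSpace ℝ ι)}
    (h : MulAt κ n M B x) : MulAt κ m M B x := by
  induction hmn with
  | refl => exact h
  | step _ ih => exact ih (MulAt.lower _ h)

lemma MulAt.mono (hB : 0 ≤ B) (hBB : B ≤ B') (m : ℕ) : ∀ {β : Type} [Fintype β]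
    {M : β → γ → (EuclideanSpace ℝ ι) → ℝ} {x : (EuclideanSpace ℝ ι)}, MulAt κ m M B x → MulAt κ m M B' x := by
  induction m with
  | zero => intro β _ M x h; exact OpLe.mono h hB hBB
  | succ m ih => intro β _ M x h; exact ⟨OpLe.mono h.1 hB hBB, ih h.2⟩

lemma mulAt_const {A : β → γ → ℝ} (hA : OpLe A B) (m : ℕ) (x : (EuclideanSpace ℝ ι)) :
    MulAt κ m (fun b c (_ : (EuclideanSpace ℝ ι)) => A b c) B x :=
  (mulBound_iff m).1 (Reg.mulBound_const hA m) x

lemma MulAt.add (hB : 0 ≤ B) (hB' : 0 ≤ B') (m : ℕ) : ∀ {β : Type} [Fintype β]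
    {M N : β → γ → (EuclideanSpace ℝ ι) → ℝ}, Smo M → Smo N → ∀ {x : (EuclideanSpace ℝ ι)}, MulAt κ m M B x → MulAt κ m N B' x →
      MulAt κ m (fun b c y => M b c y + N b c y) (B + B') x := by
  induction m with
  | zero => intro β _ M N _ _ x h h'; exact Reg.OpLe.add h h' hB hB'
  | succ m ih =>
    intro β _ M N hM hN x h h'
    refine ⟨Reg.OpLe.add h.1 h'.1 hB hB', ?_⟩
    convert ih (hM.dMul κ) (hN.dMul κ) h.2 h'.2 using 1
    funext p c y
    simp only [Sobolev.dMul, Sobolev.pd]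
    rw [fderiv_fun_add (hM.diff _ _ y) (hN.diff _ _ y)]
    simp only [add_apply, mul_add]

lemma MulAt.smul (s : ℝ) (m : ℕ) : ∀ {β : Type} [Fintype β] {M : β → γ → (EuclideanSpace ℝ ι) → ℝ}, Smo M →
    ∀ {x : (EuclideanSpace ℝ ι)}, MulAt κ m M B x → MulAt κ m (fun b c y => s * M b c y) (|s| * B) x := by
  induction m with
  | zero => intro β _ M _ x h; exact Reg.OpLe.smul h s
  | succ m ih =>
    intro β _ M hM x h
    refine ⟨Reg.OpLe.smul h.1 s, ?_⟩
    convert ih (hM.dMul κ) h.2 using 1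
    funext p c y
    simp only [Sobolev.dMul, Sobolev.pd]
    rw [fderiv_const_mul (hM.diff _ _ y)]
    simp only [smul_apply, smul_eq_mul]
    ring

/-- Reindexing of rows and columns. -/
lemma MulAt.reindex (f : γ' ≃ γ) (m : ℕ) : ∀ {β β' : Type} [Fintype β] [Fintype β']
    {M : β → γ → (EuclideanSpace ℝ ι) → ℝ} {x : (EuclideanSpace ℝ ι)}, MulAt κ m M B x → ∀ e : β' ≃ β,
      MulAt κ m (fun b c => M (e b) (f c)) B x := by
  induction m with
  | zero => intro β β' _ _ M x h e; exact OpLe.reindex h e f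
  | succ m ih =>
    intro β β' _ _ M x h e
    exact ⟨OpLe.reindex h.1 e f, ih h.2 (e.prodCongr (Equiv.refl ι))⟩

/-! ### Tensoring with the identity -/

/-- `id ⊗ M`. -/
def idT [DecidableEq δ] (M : β → γ → (EuclideanSpace ℝ ι) → ℝ) : δ × β → δ × γ → (EuclideanSpace ℝ ι) → ℝ :=
  fun p q x => if p.1 = q.1 then M p.2 q.2 x else 0

/-- `M ⊗ id`. -/
def tId [DecidableEq δ] (M : β → γ → (EuclideanSpace ℝ ι) → ℝ) : β × δ → γ × δ → (EuclideanSpace ℝ ι) → ℝ :=
  fun p q x => if p.2 = q.2 then M p.1 q.1 x else 0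

lemma Smo.idT [DecidableEq δ] {M : β → γ → (EuclideanSpace ℝ ι) → ℝ} (hM : Smo M) :
    Smo (MulCalc.idT (δ := δ) M) := fun p q => by
  unfold MulCalc.idT
  by_cases h : p.1 = q.1
  · simp only [h, if_true]; exact hM _ _
  · simp only [h, if_false]; exact contDiff_const

lemma Smo.tId [DecidableEq δ] {M : β → γ → (EuclideanSpace ℝ ι) → ℝ} (hM : Smo M) :
    Smo (MulCalc.tId (δ := δ) M) := fun p q => by
  unfold MulCalc.tId
  by_cases h : p.2 = q.2
  · simp only [h, if_true]; exact hM _ _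
  · simp only [h, if_false]; exact contDiff_const

lemma MulAt.idT [DecidableEq δ] (m : ℕ) : ∀ {β : Type} [Fintype β] {M : β → γ → (EuclideanSpace ℝ ι) → ℝ} {x : (EuclideanSpace ℝ ι)},
    MulAt κ m M B x → MulAt κ m (MulCalc.idT (δ := δ) M) B x := by
  induction m with
  | zero => intro β _ M x h; exact OpLe.tensor_id (δ := δ) (A := fun i c => M i c x) h
  | succ m ih =>
    intro β _ M x h
    refine ⟨OpLe.tensor_id (δ := δ) (A := fun i c => M i c x) h.1, ?_⟩
    have e : Sobolev.dMul κ (MulCalc.idT (δ := δ) M) = fun p q =>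
        MulCalc.idT (δ := δ) (Sobolev.dMul κ M) (Equiv.prodAssoc δ β ι p) (Equiv.refl (δ × γ) q) := by
      funext p q y
      simp only [Sobolev.dMul, MulCalc.idT, Equiv.prodAssoc_apply, Equiv.refl_apply]
      rw [show MulCalc.idT M p.1 q =
        fun z => if p.1.1 = q.1 then M p.1.2 q.2 z else 0 from rfl]
      by_cases hpq : p.1.1 = q.1 <;> simp [hpq, Reg.pd_const]
    rw [e]
    exact MulAt.reindex (Equiv.refl _) m (ih h.2) _

lemma MulAt.tId [DecidableEq δ] (m : ℕ) {M : β → γ → (EuclideanSpace ℝ ι) → ℝ} {x : (EuclideanSpace ℝ ι)} (h : MulAt κ m M B x) :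
    MulAt κ m (MulCalc.tId (δ := δ) M) B x :=
  MulAt.reindex (Equiv.prodComm γ δ) m (MulAt.idT (δ := δ) m h) (Equiv.prodComm β δ)

/-! ### Products -/

/-- The product of two fields. -/
def mulM (M : β → γ → (EuclideanSpace ℝ ι) → ℝ) (N : γ → δ → (EuclideanSpace ℝ ι) → ℝ) : β → δ → (EuclideanSpace ℝ ι) → ℝ :=
  fun b e x => ∑ c, M b c x * N c e x

lemma Smo.mulM {M : β → γ → (EuclideanSpace ℝ ι) → ℝ} {N : γ → δ → (EuclideanSpace ℝ ι) → ℝ} (hM : Smo M) (hN : Smo N) :
    Smo (MulCalc.mulM M N) := fun _ _ => ContDiff.sum fun _ _ => (hM _ _).mul (hN _ _)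

/-- `D (M N) = (D M) N + (M ⊗ id) D N`. -/
lemma dMul_mulM {M : β → γ → (EuclideanSpace ℝ ι) → ℝ} {N : γ → δ → (EuclideanSpace ℝ ι) → ℝ} (hM : Smo M) (hN : Smo N) :
    Sobolev.dMul κ (mulM M N) = fun p e x =>
      mulM (Sobolev.dMul κ M) N p e x + mulM (tId (δ := ι) M) (Sobolev.dMul κ N) p e x := by
  funext p e x
  simp only [Sobolev.dMul, mulM, tId, Sobolev.pd, Fintype.sum_prod_type, ite_mul, zero_mul,
    Finset.sum_ite_eq, Finset.mem_univ, if_true, ← Finset.sum_add_distrib]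
  rw [show MulCalc.mulM M N p.1 e = fun y => ∑ c, M p.1 c y * N c e y from rfl,
    fderiv_fun_sum fun c _ => (hM.diff _ c x).fun_mul (hN.diff c e x), sum_apply,
    Finset.mul_sum]
  refine Finset.sum_congr rfl fun c _ => ?_
  rw [fderiv_fun_mul (hM.diff _ c x) (hN.diff c e x)]
  simp only [add_apply, smul_apply, smul_eq_mul]
  ring

/-- `‖Dⁱ (M N)‖ ≤ 2^m B B'` for scaled derivatives. -/
theorem MulAt.mulM (hB : 0 ≤ B) (hB' : 0 ≤ B') (m : ℕ) : ∀ {β γ δ : Type} [Fintype β] [Fintype γ]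
    [Fintype δ] {M : β → γ → (EuclideanSpace ℝ ι) → ℝ} {N : γ → δ → (EuclideanSpace ℝ ι) → ℝ}, Smo M → Smo N → ∀ {x : (EuclideanSpace ℝ ι)},
      MulAt κ m M B x → MulAt κ m N B' x →
        MulAt κ m (MulCalc.mulM M N) (2 ^ m * (B * B')) x := by
  induction m with
  | zero =>
    intro β γ δ _ _ _ M N _ _ x h h'
    rw [pow_zero, one_mul]
    exact OpLe.comp h h'
  | succ m ih =>
    intro β γ δ _ _ _ M N hM hN x h h'
    have hBB : 0 ≤ B * B' := mul_nonneg hB hB'
    refine ⟨OpLe.mono (OpLe.comp h.1 h'.1) hBB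
      (le_mul_of_one_le_left hBB (one_le_pow₀ one_le_two)), ?_⟩
    have h1 := ih (hM.dMul κ) hN h.2 (MulAt.lower m h')
    have h2 := ih (hM.tId (δ := ι)) (hN.dMul κ) (MulAt.tId m (MulAt.lower m h)) h'.2
    have h3 := MulAt.add (by positivity) (by positivity) m ((hM.dMul κ).mulM hN)
      ((hM.tId (δ := ι)).mulM (hN.dMul κ)) h1 h2
    rw [dMul_mulM hM hN, show (2 : ℝ) ^ (m + 1) * (B * B') =
      2 ^ m * (B * B') + 2 ^ m * (B * B') by ring]
    exact h3

/-! ### Composition with a smooth map -/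

/-- The transposed Jacobian of `Φ`: rows for the inputs, columns for the outputs. -/
noncomputable def jacT (Φ : (EuclideanSpace ℝ ι) → (EuclideanSpace ℝ ι')) : ι → ι' → (EuclideanSpace ℝ ι) → ℝ := fun i j x => pd i (fun y => Φ y j) x

lemma smo_jacT {Φ : (EuclideanSpace ℝ ι) → (EuclideanSpace ℝ ι')} (hΦ : ContDiff ℝ ∞ Φ) : Smo (jacT Φ) := fun i j =>
  contDiff_pd ((EuclideanSpace.proj (𝕜 := ℝ) j).contDiff.comp hΦ) i

lemma Smo.comp {M : β → γ → (EuclideanSpace ℝ ι') → ℝ} (hM : Smo M) {Φ : (EuclideanSpace ℝ ι) → (EuclideanSpace ℝ ι')} (hΦ : ContDiff ℝ ∞ Φ) :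
    Smo fun b c x => M b c (Φ x) := fun b c => (hM b c).comp hΦ

/-- The chain rule. -/
lemma pd_comp {f : (EuclideanSpace ℝ ι') → ℝ} {Φ : (EuclideanSpace ℝ ι) → (EuclideanSpace ℝ ι')} (hf : Differentiable ℝ f) (hΦ : Differentiable ℝ Φ) (i : ι)
    (x : (EuclideanSpace ℝ ι)) : pd i (fun y => f (Φ y)) x = ∑ j, jacT Φ i j x * pd j f (Φ x) := by
  have h1 : fderiv ℝ (fun y => f (Φ y)) x = (fderiv ℝ f (Φ x)).comp (fderiv ℝ Φ x) :=
    fderiv_comp x (hf _) (hΦ x)
  simp only [Sobolev.pd]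
  rw [h1]
  set v := fderiv ℝ Φ x (EuclideanSpace.single i (1 : ℝ))
  have e : ∀ j, jacT Φ i j x = v j := fun j => by
    have h2 : HasFDerivAt (fun y => Φ y j)
        ((EuclideanSpace.proj (𝕜 := ℝ) j).comp (fderiv ℝ Φ x)) x :=
      (EuclideanSpace.proj (𝕜 := ℝ) j).hasFDerivAt.comp x (hΦ x).hasFDerivAt
    simp only [jacT, Sobolev.pd]
    rw [h2.fderiv]
    rfl
  have hv : v = ∑ j, v j • EuclideanSpace.single j (1 : ℝ) := by
    ext k
    simp [Pi.single_apply]
  rw [ContinuousLinearMap.comp_apply]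
  conv_lhs => rw [show fderiv ℝ Φ x (EuclideanSpace.single i (1 : ℝ)) = v from rfl, hv]
  simp only [map_sum, map_smul, smul_eq_mul, e]

/-- `D (M ∘ Φ) = (id ⊗ DΦᵀ) (D M ∘ Φ)`. -/
lemma dMul_comp [DecidableEq β] {M : β → γ → (EuclideanSpace ℝ ι') → ℝ} (hM : Smo M) {Φ : (EuclideanSpace ℝ ι) → (EuclideanSpace ℝ ι')}
    (hΦ : ContDiff ℝ ∞ Φ) :
    Sobolev.dMul κ (fun b c x => M b c (Φ x)) =
      mulM (idT (δ := β) (jacT Φ)) fun p c x => Sobolev.dMul κ M p c (Φ x) := by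
  funext p c x
  simp only [Sobolev.dMul, mulM, idT, Fintype.sum_prod_type, ite_mul, zero_mul]
  rw [Finset.sum_comm]
  simp only [Finset.sum_ite_eq, Finset.mem_univ, if_true]
  rw [pd_comp (hM.diff _ c) (hΦ.differentiable (by simp)), Finset.mul_sum]
  exact Finset.sum_congr rfl fun j _ => by ring

/-- Composition with `Φ` uses one order less of its Jacobian. -/
theorem MulAt.comp_succ {P : ℝ} {Φ : (EuclideanSpace ℝ ι) → (EuclideanSpace ℝ ι')} (hΦ : ContDiff ℝ ∞ Φ) {x : (EuclideanSpace ℝ ι)} (hB : 0 ≤ B)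
    (hP : 1 ≤ P) (m : ℕ) : ∀ {β : Type} [Fintype β] {M : β → γ → (EuclideanSpace ℝ ι') → ℝ}, Smo M →
      MulAt κ (m + 1) M B (Φ x) → MulAt κ m (jacT Φ) P x →
        MulAt κ (m + 1) (fun b c y => M b c (Φ y)) (2 ^ ((m + 1) ^ 2) * (B * P ^ (m + 1))) x := by
  have hP0 : 0 ≤ P := zero_le_one.trans hP
  have hbig : ∀ k, B ≤ 2 ^ (k ^ 2) * (B * P ^ k) := fun k =>
    (le_mul_of_one_le_right hB (one_le_pow₀ hP)).trans
      (le_mul_of_one_le_left (by positivity) (one_le_pow₀ one_le_two))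
  induction m with
  | zero =>
    intro β _ M hM h hJ
    classical
    refine ⟨OpLe.mono h.1 hB (hbig 1), ?_⟩
    rw [dMul_comp hM hΦ]
    refine OpLe.mono (OpLe.comp (OpLe.tensor_id (δ := β) (A := fun i j => jacT Φ i j x) hJ)
      (A' := fun p c => Sobolev.dMul κ M p c (Φ x)) h.2) (by positivity) ?_
    norm_num
    nlinarith [mul_nonneg hP0 hB]
  | succ m ih =>
    intro β _ M hM h hJ
    classical
    refine ⟨OpLe.mono h.1 hB (hbig _), ?_⟩
    rw [dMul_comp hM hΦ]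
    have h1 := ih (hM.dMul κ) h.2 (MulAt.lower m hJ)
    refine MulAt.mono (by positivity) ?_ (m + 1) (MulAt.mulM hP0 (by positivity) (m + 1)
      (smo_jacT hΦ).idT ((hM.dMul κ).comp hΦ) (MulAt.idT (m + 1) hJ) h1)
    calc (2 : ℝ) ^ (m + 1) * (P * (2 ^ ((m + 1) ^ 2) * (B * P ^ (m + 1))))
        = 2 ^ ((m + 1) + (m + 1) ^ 2) * (B * P ^ (m + 1 + 1)) := by rw [pow_add, pow_succ P]; ring
      _ ≤ _ := mul_le_mul_of_nonneg_right
          (pow_le_pow_right₀ one_le_two (by ring_nf; omega)) (by positivity)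

/-- Composition with `Φ`, all orders. -/
theorem MulAt.comp {P : ℝ} {Φ : (EuclideanSpace ℝ ι) → (EuclideanSpace ℝ ι')} (hΦ : ContDiff ℝ ∞ Φ) {x : (EuclideanSpace ℝ ι)} (hB : 0 ≤ B) (hP : 1 ≤ P)
    (m : ℕ) {M : β → γ → (EuclideanSpace ℝ ι') → ℝ} (hM : Smo M) (h : MulAt κ m M B (Φ x))
    (hJ : MulAt κ (m - 1) (jacT Φ) P x) :
    MulAt κ m (fun b c y => M b c (Φ y)) (2 ^ (m ^ 2) * (B * P ^ m)) x := by
  cases m with
  | zero =>
    show OpLe (fun b c => M b c (Φ x)) _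
    simpa using (show OpLe (fun b c => M b c (Φ x)) B from h)
  | succ m => exact MulAt.comp_succ hΦ hB hP m hM h hJ

/-! ### Integrals in a parameter -/

section Param

variable {I : Set ℝ} {a b : ℝ}

/-- The entries are smooth in `(q, x)` over `I`. -/
def SmoOn (I : Set ℝ) (M : ℝ → β → γ → (EuclideanSpace ℝ ι) → ℝ) : Prop :=
  ∀ i c, ContDiffOn ℝ ∞ (fun p : ℝ × (EuclideanSpace ℝ ι) => M p.1 i c p.2) (I ×ˢ Set.univ)

lemma SmoOn.smo {M : ℝ → β → γ → (EuclideanSpace ℝ ι) → ℝ} (hM : SmoOn I M) {q : ℝ} (hq : q ∈ I) : Smo (M q) :=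
  fun i c => contDiff_iff_contDiffAt.2 fun x =>
    ((hM i c).comp (f := fun y : (EuclideanSpace ℝ ι) => (q, y)) (contDiff_const.prodMk contDiff_id).contDiffOn
      (fun y (_ : y ∈ (Set.univ : Set (EuclideanSpace ℝ ι))) => (⟨hq, Set.mem_univ y⟩ : (q, y) ∈ I ×ˢ Set.univ))).contDiffAt
      Filter.univ_mem

lemma SmoOn.pd_eq (hI : IsOpen I) {M : ℝ → β → γ → (EuclideanSpace ℝ ι) → ℝ} (hM : SmoOn I M) {q : ℝ} (hq : q ∈ I)
    (i : ι) (j : β) (c : γ) (x : (EuclideanSpace ℝ ι)) :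
    pd i (M q j c) x =
      fderiv ℝ (fun p : ℝ × (EuclideanSpace ℝ ι) => M p.1 j c p.2) (q, x) (0, EuclideanSpace.single i 1) :=
  fderiv_partial (F := fun p : ℝ × (EuclideanSpace ℝ ι) => M p.1 j c p.2)
    (((hM j c).contDiffAt ((hI.prod isOpen_univ).mem_nhds ⟨hq, Set.mem_univ x⟩)).differentiableAt
      (by simp)) _

lemma SmoOn.dMul (hI : IsOpen I) {M : ℝ → β → γ → (EuclideanSpace ℝ ι) → ℝ} (hM : SmoOn I M) :
    SmoOn I fun q => Sobolev.dMul κ (M q) := fun p c => by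
  have h := ((hM p.1 c).fderiv_of_isOpen (hI.prod isOpen_univ) (m := ∞) (by simp)).clm_apply
    (g := fun _ => ((0 : ℝ), EuclideanSpace.single p.2 (1 : ℝ))) contDiffOn_const
  refine ((contDiffOn_const (c := κ)).mul h).congr fun z hz => ?_
  simp only [Sobolev.dMul]
  rw [hM.pd_eq hI hz.1]

lemma SmoOn.continuousOn {M : ℝ → β → γ → (EuclideanSpace ℝ ι) → ℝ} (hM : SmoOn I M) (i : β) (c : γ) (x : (EuclideanSpace ℝ ι)) :
    ContinuousOn (fun q => M q i c x) I :=
  (hM i c).continuousOn.comp (continuous_id.prodMk continuous_const).continuousOn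
    fun _ hq => ⟨hq, Set.mem_univ x⟩

/-- On a compact set of parameters the bound at a point is finite. -/
lemma exists_mulAt (hI : IsOpen I) {K : Set ℝ} (hK : IsCompact K) (hKI : K ⊆ I) (x : (EuclideanSpace ℝ ι)) (m : ℕ) :
    ∀ {β : Type} [Fintype β] {M : ℝ → β → γ → (EuclideanSpace ℝ ι) → ℝ}, SmoOn I M →
      ∃ B, 0 ≤ B ∧ ∀ q ∈ K, MulAt κ m (M q) B x := by
  have h0 : ∀ {β : Type} [Fintype β] {M : ℝ → β → γ → (EuclideanSpace ℝ ι) → ℝ}, SmoOn I M →
      ∃ B, 0 ≤ B ∧ ∀ q ∈ K, OpLe (fun i c => M q i c x) B := by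
    intro β _ M hM
    have hcont : ContinuousOn (fun q => ∑ i, ∑ c, M q i c x ^ 2) K :=
      continuousOn_finsetSum Finset.univ fun i _ => continuousOn_finsetSum Finset.univ fun c _ =>
        ((hM.continuousOn i c x).mono hKI).pow 2
    obtain ⟨C, hC⟩ := hK.exists_bound_of_continuousOn
      (f := fun q => Real.sqrt (∑ i, ∑ c, M q i c x ^ 2)) hcont.sqrt
    exact ⟨max C 0, le_max_right _ _, fun q hq => (opLe_of_hs _).mono (Real.sqrt_nonneg _)
      (((le_abs_self _).trans (hC q hq)).trans (le_max_left _ _))⟩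
  induction m with
  | zero => intro β _ M hM; exact h0 hM
  | succ m ih =>
    intro β _ M hM
    obtain ⟨B₀, hB₀, h₀⟩ := h0 hM
    obtain ⟨B₁, hB₁, h₁⟩ := ih (M := fun q => Sobolev.dMul κ (M q)) (hM.dMul hI)
    exact ⟨max B₀ B₁, hB₀.trans (le_max_left _ _), fun q hq =>
      ⟨(h₀ q hq).mono hB₀ (le_max_left _ _), MulAt.mono hB₁ (le_max_right _ _) m (h₁ q hq)⟩⟩

/-- The integral over the parameter. -/
noncomputable def intM (a b : ℝ) (M : ℝ → β → γ → (EuclideanSpace ℝ ι) → ℝ) : β → γ → (EuclideanSpace ℝ ι) → ℝ :=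
  fun i c x => ∫ q in a..b, M q i c x

lemma smo_intM (hI : IsOpen I) (hab : Set.uIcc a b ⊆ I) {M : ℝ → β → γ → (EuclideanSpace ℝ ι) → ℝ}
    (hM : SmoOn I M) : Smo (intM a b M) := fun i c =>
  contDiff_infty.2 fun n => contDiff_intervalIntegral hI hab n
    (fun p : ℝ × (EuclideanSpace ℝ ι) => M p.1 i c p.2) (hM i c)

lemma opLe_integral {M : ℝ → β → γ → ℝ} (hB : 0 ≤ B)
    (hc : ∀ i c, ContinuousOn (fun q => M q i c) (Set.uIcc a b))
    (h : ∀ q ∈ Set.uIoc a b, OpLe (M q) B) :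
    OpLe (fun i c => ∫ q in a..b, M q i c) (|b - a| * B) := by
  refine OpLe.of_bilin fun u v => ?_
  have hi : ∀ i c, IntervalIntegrable (fun q => M q i c * u i * v c) volume a b := fun i c =>
    (((hc i c).mul continuousOn_const).mul continuousOn_const).intervalIntegrable
  have e : ∑ i, ∑ c, (∫ q in a..b, M q i c) * u i * v c =
      ∫ q in a..b, ∑ i, ∑ c, M q i c * u i * v c := by
    have hsum : ∀ i, IntervalIntegrable (fun q => ∑ c, M q i c * u i * v c) volume a b := fun i =>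
      (continuousOn_finsetSum Finset.univ fun c _ =>
        ((hc i c).mul continuousOn_const).mul continuousOn_const).intervalIntegrable
    rw [intervalIntegral.integral_finsetSum fun i _ => hsum i]
    refine Finset.sum_congr rfl fun i _ => ?_
    rw [intervalIntegral.integral_finsetSum fun c _ => hi i c]
    exact Finset.sum_congr rfl fun c _ => by simp only [intervalIntegral.integral_mul_const]
  rw [e]
  set R := Real.sqrt (∑ i, u i ^ 2) * Real.sqrt (∑ c, v c ^ 2)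
  suffices hq : ∀ q ∈ Set.uIoc a b, ‖∑ i, ∑ c, M q i c * u i * v c‖ ≤ B * R by
    have h1 := intervalIntegral.norm_integral_le_of_norm_le_const hq
    calc _ ≤ B * R * |b - a| := (Real.le_norm_self _).trans h1
      _ = _ := by ring
  intro q hq
  rw [Real.norm_eq_abs, abs_le]
  refine ⟨?_, (h q hq).bilin hB u v⟩
  have := (h q hq).bilin hB (fun i => -u i) v
  simp only [neg_sq, mul_neg, neg_mul, Finset.sum_neg_distrib] at this
  linarith

lemma dMul_intM (hI : IsOpen I) (hab : Set.uIcc a b ⊆ I) {M : ℝ → β → γ → (EuclideanSpace ℝ ι) → ℝ}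
    (hM : SmoOn I M) :
    Sobolev.dMul κ (intM a b M) = intM a b fun q => Sobolev.dMul κ (M q) := by
  funext p c x
  simp only [Sobolev.dMul, intM]
  rw [intervalIntegral.integral_const_mul]
  congr 1
  set F : ℝ × (EuclideanSpace ℝ ι) → ℝ := fun z => M z.1 p.1 c z.2
  set v : (EuclideanSpace ℝ ι) := EuclideanSpace.single p.2 (1 : ℝ)
  have hF := hM p.1 c
  have hF' : ContDiffOn ℝ ∞ (fun z => (fderiv ℝ F z).comp
      ((0 : (EuclideanSpace ℝ ι) →L[ℝ] ℝ).prod (ContinuousLinearMap.id ℝ (EuclideanSpace ℝ ι)))) (I ×ˢ Set.univ) :=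
    (hF.fderiv_of_isOpen (hI.prod isOpen_univ) (by simp)).clm_comp contDiffOn_const
  obtain ⟨K, hK⟩ := ((isCompact_uIcc (a := a) (b := b)).prod
    (isCompact_closedBall x 1)).exists_bound_of_continuousOn
      (hF'.continuousOn.mono (Set.prod_mono hab (Set.subset_univ _)))
  have hcq : ∀ {Z : Type} [NormedAddCommGroup Z] (G : ℝ × (EuclideanSpace ℝ ι) → Z),
      ContinuousOn G (I ×ˢ Set.univ) → ∀ y, ContinuousOn (fun q => G (q, y)) (Set.uIcc a b) :=
    fun G hG y => hG.comp (continuous_id.prodMk continuous_const).continuousOn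
      fun q hq => ⟨hab hq, Set.mem_univ y⟩
  have hd := intervalIntegral.hasFDerivAt_integral_of_dominated_of_fderiv_le
    (μ := volume) (F := fun y q => F (q, y))
    (F' := fun y q => (fderiv ℝ F (q, y)).comp
      ((0 : (EuclideanSpace ℝ ι) →L[ℝ] ℝ).prod (ContinuousLinearMap.id ℝ (EuclideanSpace ℝ ι))))
    (bound := fun _ => K) (Metric.closedBall_mem_nhds x one_pos)
    (Filter.Eventually.of_forall fun y => ((hcq F hF.continuousOn y).mono
      Set.uIoc_subset_uIcc).aestronglyMeasurable measurableSet_uIoc)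
    (hcq F hF.continuousOn x).intervalIntegrable
    (((hcq _ hF'.continuousOn x).mono Set.uIoc_subset_uIcc).aestronglyMeasurable
      measurableSet_uIoc)
    (ae_of_all _ fun q hq y hy => hK (q, y) ⟨Set.uIoc_subset_uIcc hq, hy⟩)
    intervalIntegrable_const (ae_of_all _ fun q hq y _ =>
      (((hF.contDiffAt ((hI.prod isOpen_univ).mem_nhds
        ⟨hab (Set.uIoc_subset_uIcc hq), Set.mem_univ y⟩)).differentiableAt
          (by simp)).hasFDerivAt).comp y ((hasFDerivAt_const q y).prodMk (hasFDerivAt_id y)))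
  have hi : IntervalIntegrable (fun q => (fderiv ℝ F (q, x)).comp
      ((0 : (EuclideanSpace ℝ ι) →L[ℝ] ℝ).prod (ContinuousLinearMap.id ℝ (EuclideanSpace ℝ ι)))) volume a b :=
    (hcq _ hF'.continuousOn x).intervalIntegrable
  show fderiv ℝ (fun y => ∫ q in a..b, F (q, y)) x v = _
  rw [hd.fderiv, ContinuousLinearMap.intervalIntegral_apply hi]
  refine intervalIntegral.integral_congr fun q hq => ?_
  simp only [ContinuousLinearMap.comp_apply, ContinuousLinearMap.prod_apply,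
    zero_apply, ContinuousLinearMap.id_apply]
  exact (hM.pd_eq hI (hab hq) p.2 p.1 c x).symm

/-- The integral of a family bounded at `x` for every parameter. -/
theorem MulAt.intM (hI : IsOpen I) (hab : Set.uIcc a b ⊆ I) (hB : 0 ≤ B) {x : (EuclideanSpace ℝ ι)} (m : ℕ) :
    ∀ {β : Type} [Fintype β] {M : ℝ → β → γ → (EuclideanSpace ℝ ι) → ℝ}, SmoOn I M →
      (∀ q ∈ Set.uIoc a b, MulAt κ m (M q) B x) →
        MulAt κ m (MulCalc.intM a b M) (|b - a| * B) x := by
  induction m with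
  | zero =>
    intro β _ M hM h
    exact opLe_integral hB (fun i c => (hM.continuousOn i c x).mono hab) h
  | succ m ih =>
    intro β _ M hM h
    refine ⟨opLe_integral hB (fun i c => (hM.continuousOn i c x).mono hab) fun q hq => (h q hq).1,
      ?_⟩
    rw [dMul_intM hI hab hM]
    exact ih (hM.dMul hI) fun q hq => (h q hq).2

lemma opLe_integral_var {M : ℝ → β → γ → ℝ} {Bf : ℝ → ℝ} (hle : a ≤ b)
    (hBc : ContinuousOn Bf (Set.Icc a b)) (hB : ∀ q ∈ Set.Icc a b, 0 ≤ Bf q)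
    (hc : ∀ i c, ContinuousOn (fun q => M q i c) (Set.Icc a b))
    (h : ∀ q ∈ Set.Icc a b, OpLe (M q) (Bf q)) :
    OpLe (fun i c => ∫ q in a..b, M q i c) (∫ q in a..b, Bf q) := by
  refine OpLe.of_bilin fun u v => ?_
  rw [← Set.uIcc_of_le hle] at hBc hc
  have hi : ∀ i c, IntervalIntegrable (fun q => M q i c * u i * v c) volume a b := fun i c =>
    (((hc i c).mul continuousOn_const).mul continuousOn_const).intervalIntegrable
  have hsum : ∀ i, IntervalIntegrable (fun q => ∑ c, M q i c * u i * v c) volume a b := fun i =>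
    (continuousOn_finsetSum Finset.univ fun c _ =>
      ((hc i c).mul continuousOn_const).mul continuousOn_const).intervalIntegrable
  have hall : IntervalIntegrable (fun q => ∑ i, ∑ c, M q i c * u i * v c) volume a b :=
    (continuousOn_finsetSum Finset.univ fun i _ => continuousOn_finsetSum Finset.univ fun c _ =>
      ((hc i c).mul continuousOn_const).mul continuousOn_const).intervalIntegrable
  have hB' : IntervalIntegrable
      (fun q => Bf q * (Real.sqrt (∑ i, u i ^ 2) * Real.sqrt (∑ c, v c ^ 2))) volume a b :=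
    (hBc.mul continuousOn_const).intervalIntegrable
  rw [← intervalIntegral.integral_mul_const]
  refine le_trans (le_of_eq ?_) (intervalIntegral.integral_mono_on hle hall hB'
    fun q hq => (h q hq).bilin (hB q hq) u v)
  rw [intervalIntegral.integral_finsetSum fun i _ => hsum i]
  refine Finset.sum_congr rfl fun i _ => ?_
  rw [intervalIntegral.integral_finsetSum fun c _ => hi i c]
  exact Finset.sum_congr rfl fun c _ => by simp only [intervalIntegral.integral_mul_const]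

/-- The integral of a family bounded at `x` by a continuous function of the parameter. -/
theorem MulAt.intM_var (hI : IsOpen I) (hle : a ≤ b) (hab : Set.Icc a b ⊆ I) {Bf : ℝ → ℝ}
    (hBc : ContinuousOn Bf (Set.Icc a b)) (hB : ∀ q ∈ Set.Icc a b, 0 ≤ Bf q) {x : (EuclideanSpace ℝ ι)} (m : ℕ) :
    ∀ {β : Type} [Fintype β] {M : ℝ → β → γ → (EuclideanSpace ℝ ι) → ℝ}, SmoOn I M →
      (∀ q ∈ Set.Icc a b, MulAt κ m (M q) (Bf q) x) →
        MulAt κ m (MulCalc.intM a b M) (∫ q in a..b, Bf q) x := by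
  induction m with
  | zero =>
    intro β _ M hM h
    exact opLe_integral_var hle hBc hB (fun i c => (hM.continuousOn i c x).mono hab) h
  | succ m ih =>
    intro β _ M hM h
    refine ⟨opLe_integral_var hle hBc hB (fun i c => (hM.continuousOn i c x).mono hab)
      fun q hq => (h q hq).1, ?_⟩
    rw [dMul_intM hI (by rwa [Set.uIcc_of_le hle]) hM]
    exact ih (hM.dMul hI) fun q hq => (h q hq).2

end Param

/-! ### The bounds everywhere -/

theorem mulBound_mulM {M : β → γ → (EuclideanSpace ℝ ι) → ℝ} {N : γ → δ → (EuclideanSpace ℝ ι) → ℝ} (hB : 0 ≤ B) (hB' : 0 ≤ B')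
    (hM : Smo M) (hN : Smo N) (m : ℕ) (h : MulBound κ m M B) (h' : MulBound κ m N B') :
    MulBound κ m (mulM M N) (2 ^ m * (B * B')) :=
  (mulBound_iff m).2 fun x =>
    MulAt.mulM hB hB' m hM hN ((mulBound_iff m).1 h x) ((mulBound_iff m).1 h' x)

theorem mulBound_idT [DecidableEq δ] {M : β → γ → (EuclideanSpace ℝ ι) → ℝ} (m : ℕ) (h : MulBound κ m M B) :
    MulBound κ m (idT (δ := δ) M) B :=
  (mulBound_iff m).2 fun x => MulAt.idT m ((mulBound_iff m).1 h x)

theorem mulBound_tId [DecidableEq δ] {M : β → γ → (EuclideanSpace ℝ ι) → ℝ} (m : ℕ) (h : MulBound κ m M B) :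
    MulBound κ m (tId (δ := δ) M) B :=
  (mulBound_iff m).2 fun x => MulAt.tId m ((mulBound_iff m).1 h x)

theorem mulBound_reindex {M : β → γ → (EuclideanSpace ℝ ι) → ℝ} (e : β' ≃ β) (f : γ' ≃ γ) (m : ℕ)
    (h : MulBound κ m M B) : MulBound κ m (fun i c => M (e i) (f c)) B :=
  (mulBound_iff m).2 fun x => MulAt.reindex f m ((mulBound_iff m).1 h x) e

theorem mulBound_comp {P : ℝ} {Φ : (EuclideanSpace ℝ ι) → (EuclideanSpace ℝ ι')} (hΦ : ContDiff ℝ ∞ Φ) {M : β → γ → (EuclideanSpace ℝ ι') → ℝ} (hB : 0 ≤ B)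
    (hP : 1 ≤ P) (hM : Smo M) (m : ℕ) (h : MulBound κ m M B)
    (hJ : MulBound κ (m - 1) (jacT Φ) P) :
    MulBound κ m (fun i c x => M i c (Φ x)) (2 ^ (m ^ 2) * (B * P ^ m)) :=
  (mulBound_iff m).2 fun x =>
    MulAt.comp hΦ hB hP m hM ((mulBound_iff m).1 h (Φ x)) ((mulBound_iff _).1 hJ x)

theorem mulBound_intM {I : Set ℝ} {a b : ℝ} (hI : IsOpen I) (hab : Set.uIcc a b ⊆ I) (hB : 0 ≤ B)
    {M : ℝ → β → γ → (EuclideanSpace ℝ ι) → ℝ} (hM : SmoOn I M) (m : ℕ)
    (h : ∀ q ∈ Set.uIoc a b, MulBound κ m (M q) B) :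
    MulBound κ m (intM a b M) (|b - a| * B) :=
  (mulBound_iff m).2 fun x => MulAt.intM hI hab hB m hM fun q hq => (mulBound_iff m).1 (h q hq) x

end MulCalc

end Vale.Agent.P347.Gamma0
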