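import Vale.Agent.P347.Gamma0.Lift
import Vale.Agent.P347.Gamma0.MeanStage
import Vale.Agent.P157.Gauss

/-!
P347, towards `γ_* = 0`: the compiled output of a stage is accurate, given the accuracy and the
stability of the compiled linear field and the quadrature error in time along the exact field.
-/

namespace Vale.Agent.P347.Gamma0

open MeasureTheory ProbabilityTheory Set Filter
open scoped RealInnerProductSpace ContDiff ENNReal

variable {d : ℕ}

namespace Build

variable {na : ℕ} (P : Data na) {ι ι' : Type} (Gr : ℝ → E d → E d) {x : ι → E d} {x' : ι' → E d}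

lemma val_ham_congr {ec ew eD : Expr ι} {ec' ew' eD' : Expr ι'}
    (hc : ec.val Gr x = ec'.val Gr x') (hw : ew.val Gr x = ew'.val Gr x')
    (hD : eD.val Gr x = eD'.val Gr x') (q : ℝ) (k : Fin P.nr) :
    ∀ p o, (ham P ec q ew eD k p o).val Gr x = (ham P ec' q ew' eD' k p o).val Gr x'
  | 0, o => by simp [ham, Expr.val, hw, hD]
  | p + 1, o => by
    simp only [ham, gateAt, Expr.val, Expr.val_sum, hw, hD, hc, val_ham_congr hc hw hD q k p]

lemma val_est_congr {ec ew eD : Expr ι} {ec' ew' eD' : Expr ι'}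
    (hc : ec.val Gr x = ec'.val Gr x') (hw : ew.val Gr x = ew'.val Gr x')
    (hD : eD.val Gr x = eD'.val Gr x') (q : ℝ) :
    (est P ec q ew eD).val Gr x = (est P ec' q ew' eD').val Gr x' := by
  simp only [est, gateAt, Expr.val, Expr.val_sum, hc, val_ham_congr P Gr hc hw hD q]

lemma val_bwd_congr {ec ew : Expr ι} {ec' ew' : Expr ι'}
    (hc : ec.val Gr x = ec'.val Gr x') (hw : ew.val Gr x = ew'.val Gr x') :
    ∀ p i, (bwd P ec ew p i).val Gr x = (bwd P ec' ew' p i).val Gr x'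
  | 0, _ => hw
  | p + 1, i => by
    simp only [bwd, gateAt, Expr.val, Expr.val_sum, hw, hc, val_bwd_congr hc hw p]

lemma val_sys_congr {ec : Expr ι} {ec' : Expr ι'} {wb : Fin P.M₁ → Expr ι}
    {wb' : Fin P.M₁ → Expr ι'} {init : ℕ → Expr ι} {init' : ℕ → Expr ι'}
    (hc : ec.val Gr x = ec'.val Gr x') (hw : ∀ i, (wb i).val Gr x = (wb' i).val Gr x')
    (hi : ∀ m, (init m).val Gr x = (init' m).val Gr x') (n : ℕ) (s : ℝ) :
    ∀ p o m, (sys P ec wb n s init p o m).val Gr x = (sys P ec' wb' n s init' p o m).val Gr x'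
  | 0, _, m => hi m
  | p + 1, o, m => by
    have ih := val_sys_congr hc hw hi n s p
    simp only [sys, Expr.val, Expr.val_sum, hi m]
    congr 1
    refine Finset.sum_congr rfl fun j _ => ?_
    congr 1 <;> split_ifs <;>
      simp only [Expr.val, val_est_congr P Gr hc (hw j) (ih (some j) _)]

lemma val_eta_congr {ec ew eZ : Expr ι} {ec' ew' eZ' : Expr ι'} {au : Fin na → Expr ι}
    {au' : Fin na → Expr ι'} (hc : ec.val Gr x = ec'.val Gr x') (hw : ew.val Gr x = ew'.val Gr x')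
    (hZ : eZ.val Gr x = eZ'.val Gr x') (ha : ∀ k, (au k).val Gr x = (au' k).val Gr x') :
    (eta P ec ew eZ au).val Gr x = (eta P ec' ew' eZ' au').val Gr x' := by
  have hi : ∀ σ m, (sysInit au eZ σ m).val Gr x = (sysInit au' eZ' σ m).val Gr x' := fun σ m => by
    cases m with
    | zero => exact hZ
    | succ m =>
      simp only [sysInit]
      split_ifs <;> simp [Expr.val, ha]
  have hb := val_bwd_congr P Gr hc hw P.iter
  simp only [eta, Expr.val, Expr.val_sum, val_est_congr P Gr hc (hb _) hZ,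
    val_sys_congr P Gr hc hb (hi 1), val_sys_congr P Gr hc hb (hi (-1))]

/-- The value of the compiled linear field. -/
noncomputable def etaVal (c w Z : E d) (u : Fin na → E d) : E d :=
  (eta P (.var .ctr) (.var .pt) (.var .noi) fun k => .var (.aux k)).val Gr (oPoint c w Z u)

/-- The node of the time rule, or the end. -/
def tAt (o : Option (Fin P.nt)) : ℝ := o.elim 1 P.time.x

/-- The time rule lives in `[0, 1]`, is exact on constants and has bounded weights. -/
structure TimeOK (A : ℝ) : Prop where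
  mem : ∀ i, P.time.x i ∈ Icc (0 : ℝ) 1
  sum : ∀ o, ∑ j, |P.time.W o j| ≤ A
  const : ∀ o, ∑ j, P.time.W o j = tAt P o

/-- The compiled linear field is Lipschitz in the point and the direction. -/
def EtaLip (d : ℕ) (P : Data na) (Le : ℝ) : Prop :=
  ∀ U : E d → ℝ, ∀ g : E d → E d, Pot U g → g 0 = 0 → ∀ (c w w' Z Z' : E d) (u : Fin na → E d),
    ‖etaVal P (Gt U g P.ε) c w Z u - etaVal P (Gt U g P.ε) c w' Z' u‖
      ≤ Real.sqrt P.τ * Le * (‖w - w'‖ + ‖Z - Z'‖)

/-- The compiled linear field is close to `k` at exact points, in mean. -/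
def EtaApprox (d : ℕ) (P : Data na) (δe : ℝ) : Prop :=
  ∀ D : Gamma0.Data d, D.ε = P.ε → D.τ = P.τ → ∀ X : ExFlow D,
    ∫⁻ q, ‖etaVal P (Gt D.U D.g D.ε) D.c q.1.1 q.1.2 q.2 - X.kOp P.q₁ q.1.1 q.1.2‖ₑ
        ∂((ExFlow.law D P.q₁).prod (gam d)).prod (Measure.pi fun _ : Fin na => gam d)
      ≤ ENNReal.ofReal (Real.sqrt P.τ * δe * (Real.sqrt d + ‖D.c‖))

/-- A trajectory of the exact field. -/
noncomputable def path (Ψ : ℝ → ℝ → E (d + d) → E (d + d)) (t : ℝ) (p : E d × E d) : E d × E d :=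
  split d (Ψ 0 t ((split d).symm p))

/-- The error of the time rule on one trajectory. -/
noncomputable def timeErr {D : Gamma0.Data d} (X : ExFlow D)
    (Ψ : ℝ → ℝ → E (d + d) → E (d + d)) (o : Option (Fin P.nt)) (p : E d × E d) : ℝ≥0∞ :=
  ‖(∫ t in (0 : ℝ)..tAt P o, X.kOp P.q₁ (path Ψ t p).1 (path Ψ t p).2)
      - ∑ j, P.time.W o j •
          X.kOp P.q₁ (path Ψ (P.time.x j) p).1 (path Ψ (P.time.x j) p).2‖ₑ
    + ‖(∫ t in (0 : ℝ)..tAt P o, D.Gq P.q₁ (path Ψ t p).1)
      - ∑ j, P.time.W o j • D.Gq P.q₁ (path Ψ (P.time.x j) p).1‖ₑ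

/-- The error of the time rule along the exact field, in mean. -/
def QuadTime (d : ℕ) (P : Data na) (δ : ℝ) : Prop :=
  ∀ D : Gamma0.Data d, D.ε = P.ε → D.τ = P.τ → ∀ X : ExFlow D, ∀ Ψ,
    IsFlow (X.liftVel (Real.sqrt 2 * P.γ) P.q₁) (Ioo (-1 : ℝ) 2) Ψ → ∀ o : Option (Fin P.nt),
      ∫⁻ p, timeErr P X Ψ o p ∂(ExFlow.law D P.q₁).prod (gam d)
        ≤ ENNReal.ofReal (Real.sqrt P.τ * δ * (Real.sqrt d + ‖D.c‖))

/-- Bounds in mean of a recursion. -/
lemma lintegral_step {Ω : Type*} [MeasurableSpace Ω] {μ : Measure Ω} {n : ℕ} {e : Ω → ℝ}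
    {H : Ω → ℝ≥0∞} {h : Fin n → Ω → ℝ} {g a b A : ℝ} {W : Fin n → ℝ} (hg : 0 ≤ g) (ha : 0 ≤ a)
    (hb : 0 ≤ b) (hh : ∀ j, Measurable (h j)) (hh0 : ∀ j z, 0 ≤ h j z)
    (he : ∀ z, ENNReal.ofReal (e z) ≤ ENNReal.ofReal g * H z
      + ∑ j, ENNReal.ofReal (g * |W j| * h j z))
    (hH : ∫⁻ z, H z ∂μ ≤ ENNReal.ofReal a)
    (hI : ∀ j, ∫⁻ z, ENNReal.ofReal (h j z) ∂μ ≤ ENNReal.ofReal b) (hA : ∑ j, |W j| ≤ A) :
    ∫⁻ z, ENNReal.ofReal (e z) ∂μ ≤ ENNReal.ofReal (g * a + g * A * b) := by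
  have hm : ∀ j, Measurable fun z => ENNReal.ofReal (g * |W j| * h j z) := fun j =>
    ((hh j).const_mul _).ennreal_ofReal
  have hA0 : 0 ≤ A := (Finset.sum_nonneg fun j _ => abs_nonneg _).trans hA
  refine (lintegral_mono he).trans ?_
  rw [lintegral_add_right _ (Finset.measurable_sum _ fun j _ => hm j),
    lintegral_const_mul' _ _ ENNReal.ofReal_ne_top, lintegral_finsetSum _ fun j _ => hm j,
    ENNReal.ofReal_add (by positivity) (by positivity), ENNReal.ofReal_mul hg]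
  refine add_le_add (mul_le_mul_right hH _) ?_
  calc ∑ j, ∫⁻ z, ENNReal.ofReal (g * |W j| * h j z) ∂μ
      ≤ ∑ j, ENNReal.ofReal (g * |W j| * b) := Finset.sum_le_sum fun j _ => by
        simp only [ENNReal.ofReal_mul (show 0 ≤ g * |W j| by positivity)]
        rw [lintegral_const_mul' _ _ ENNReal.ofReal_ne_top]
        exact mul_le_mul_right (hI j) _
    _ = ENNReal.ofReal (g * (∑ j, |W j|) * b) := by
        rw [← ENNReal.ofReal_sum_of_nonneg fun j _ => by positivity, Finset.mul_sum, Finset.sum_mul]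
    _ ≤ _ := ENNReal.ofReal_le_ofReal (by gcongr)

end Build

/-- Half of the unit noise, added to half of it. -/
lemma sm_half {φ : E d → ℝ} (hφ : Lip1 φ) (a : E d) :
    ∫ z, sm (1 / 2) φ ((Real.sqrt 2)⁻¹ • z + a) ∂gam d = sm 1 φ a := by
  have h2 : (Real.sqrt 2)⁻¹ = Real.sqrt (1 / 2) := by rw [one_div, Real.sqrt_inv]
  have h := P157.gauss_add (E := E d) (a := Real.sqrt (1 / 2)) (b := Real.sqrt (1 / 2)) (c := 1)
    (by rw [Real.sq_sqrt (by norm_num)]; norm_num)
  have hc : Continuous fun v : E d => φ (a + v) := hφ.continuous.comp (by fun_prop)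
  simp only [sm, Real.sqrt_one, one_smul, h2]
  unfold gam
  have hi : Integrable (fun v : E d => φ (a + v)) ((stdGaussian (E d)).map fun g => (1 : ℝ) • g) := by
    simp only [one_smul, Measure.map_id']
    refine ((integrable_const |φ a|).add ((mean_norm_gam (d := d)).1)).mono' hc.aestronglyMeasurable
      (Eventually.of_forall fun v => ?_)
    have := hφ.norm_sub_le (a + v) a
    simp only [NNReal.coe_one, one_mul, add_sub_cancel_left, Real.norm_eq_abs] at this
    simp only [Real.norm_eq_abs, Pi.add_apply]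
    linarith [abs_sub_abs_le_abs_sub (φ (a + v)) (φ a)]
  have e := congrArg (fun μ => ∫ v, φ (a + v) ∂μ) h
  simp only [one_smul, Measure.map_id'] at e
  rw [← e, integral_map (Measurable.aemeasurable (by fun_prop)) hc.aestronglyMeasurable, integral_prod]
  · refine integral_congr_ae (Eventually.of_forall fun z => ?_)
    refine integral_congr_ae (Eventually.of_forall fun v => congrArg φ ?_)
    abel
  · rw [← h] at hi
    exact (integrable_map_measure hc.aestronglyMeasurable (Measurable.aemeasurable (by fun_prop))).1 hi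

lemma lip_sm {φ : E d → ℝ} (hφ : Lip1 φ) (τ : ℝ) : Lip1 (sm τ φ) := by
  have : IsProbabilityMeasure (gam d) := by unfold gam; infer_instance
  have hi : ∀ x, Integrable (fun w => φ (x + Real.sqrt τ • w)) (gam d) := fun x => by
    refine ((integrable_const |φ x|).add ((mean_norm_gam (d := d)).1.const_mul (Real.sqrt τ))).mono'
      (hφ.continuous.comp (by fun_prop)).aestronglyMeasurable (Eventually.of_forall fun w => ?_)
    have := hφ.norm_sub_le (x + Real.sqrt τ • w) x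
    simp only [NNReal.coe_one, one_mul, add_sub_cancel_left, Real.norm_eq_abs, norm_smul,
      abs_of_nonneg (Real.sqrt_nonneg τ)] at this
    simp only [Real.norm_eq_abs, Pi.add_apply]
    linarith [abs_sub_abs_le_abs_sub (φ (x + Real.sqrt τ • w)) (φ x)]
  refine LipschitzWith.of_dist_le_mul fun a b => ?_
  rw [NNReal.coe_one, one_mul, dist_eq_norm, dist_eq_norm, sm, sm, ← integral_sub (hi a) (hi b)]
  refine (norm_integral_le_of_norm_le_const (C := ‖a - b‖) (Eventually.of_forall fun w => ?_)).trans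
    (by simp)
  have := hφ.norm_sub_le (a + Real.sqrt τ • w) (b + Real.sqrt τ • w)
  simpa using this

namespace ExFlow

attribute [local irreducible] G nW psi

variable {D : Data d} (X : ExFlow D)

/-- The exact field is small at the scale `√τ`, in mean. -/
lemma field_size (hP : PostFacts) (hH : NWHeat) (hT : LawTransport) (hτ : D.τ ≤ 1)
    (hε : D.ε ≤ 1 / 10) {q₁ : ℝ} (h1 : q₁ ∈ D.I) (h0 : 0 ≤ q₁) :
    ∫⁻ p, ENNReal.ofReal (‖X.kOp q₁ p.1 p.2‖ + ‖D.Gq q₁ p.1 - G D.U D.g D.ε D.τ D.c‖)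
        ∂(law D q₁).prod (gam d)
      ≤ ENNReal.ofReal (9 * Real.sqrt D.τ * (Real.sqrt d + ‖D.c‖)) := by
  have := isProb_law hP hH hT h1 X
  have : IsProbabilityMeasure (gam d) := by unfold gam; infer_instance
  set M := Real.sqrt d + ‖D.c‖
  set s := Real.sqrt D.τ
  have hs : 0 ≤ s := Real.sqrt_nonneg _
  have hs1 : s ≤ 1 := Real.sqrt_le_one.2 hτ
  have hqs : q₁ ≤ s := h1.2.le
  have hts : D.τ ≤ s := Real.le_sqrt_of_sq_le (by nlinarith [D.τ0])
  obtain ⟨hw, hw'⟩ := X.mean_path hP hτ h1 h0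
  rw [show (fun R => ‖X.Φ 0 q₁ R‖) = (fun w => ‖w‖) ∘ X.Φ 0 q₁ from rfl] at hw
  rw [← integrable_map_measure (f := X.Φ 0 q₁) (g := fun w : E d => ‖w‖) (by fun_prop)
    (X.continuous_Φ D.zero_mem h1).aemeasurable, X.map_gam hP hH hT h1] at hw
  rw [← X.integral_law hP hH hT h1 (f := fun w => ‖w‖) continuous_norm] at hw'
  obtain ⟨hz, hz'⟩ := mean_norm_gam (d := d)
  have hb : ∀ p : E d × E d, ‖X.kOp q₁ p.1 p.2‖ + ‖D.Gq q₁ p.1 - G D.U D.g D.ε D.τ D.c‖
      ≤ s * (3 * ‖p.2‖ + 2 * M + 2 * ‖p.1‖) := fun p => by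
    obtain ⟨w, z⟩ := p
    have hk : ‖X.kOp q₁ w z‖ ≤ 3 * s * ‖z‖ := by
      refine ((X.kOp q₁ w).le_of_opNorm_le (X.norm_kOp_le hP h1 h0 w) z).trans ?_
      refine mul_le_mul_of_nonneg_right ?_ (norm_nonneg z)
      refine mul_le_mul ((Real.exp_le_exp.2 (mul_le_one₀ hs1 h0 (hqs.trans hs1))).trans ?_) hqs h0
        (by norm_num)
      exact Real.exp_one_lt_three.le
    have f0 := (hP d D.U D.g D.pot D.g0 D.ε D.ε0 D.ε1).2.2
    have f1 := (f0 _ (D.r_pos h1) (D.c + q₁ • w)).2.2.2.2.2.2.2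
    have f2 := (f0 _ D.τ0 D.c).2.2.2.2.2.2.2
    have hg := fun a b => D.pot.lip.norm_sub_le a b
    simp only [NNReal.coe_one, one_mul] at hg
    have hgc : ‖D.g D.c‖ ≤ ‖D.c‖ := by simpa [D.g0] using hg D.c 0
    have hqw : ‖q₁ • w‖ ≤ s * ‖w‖ := by
      rw [norm_smul, Real.norm_eq_abs, abs_of_nonneg h0]; gcongr
    have hy : ‖D.g (D.c + q₁ • w)‖ ≤ ‖D.c‖ + s * ‖w‖ := by
      have := (hg (D.c + q₁ • w) 0)
      simp only [D.g0, sub_zero] at this
      exact this.trans ((norm_add_le _ _).trans (add_le_add le_rfl hqw))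
    have hyc : ‖D.g (D.c + q₁ • w) - D.g D.c‖ ≤ s * ‖w‖ :=
      (hg _ _).trans (by simpa using hqw)
    have hr : D.r q₁ ≤ D.τ := by simp only [Data.r]; nlinarith
    have hr0 := D.r_pos h1
    have hsq : ∀ r, 0 ≤ r → r ≤ D.τ → Real.sqrt (r * d) ≤ s * Real.sqrt d := fun r h0 h1 => by
      rw [Real.sqrt_mul h0]; exact mul_le_mul_of_nonneg_right (Real.sqrt_le_sqrt h1) (Real.sqrt_nonneg _)
    have hG : ‖D.Gq q₁ w - G D.U D.g D.ε D.τ D.c‖
        ≤ (s * Real.sqrt d + s * (‖D.c‖ + ‖w‖)) + s * ‖w‖ + (s * Real.sqrt d + s * ‖D.c‖) := by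
      refine (norm_sub_le_norm_sub_add_norm_sub _ (D.g D.c) _).trans (add_le_add
        ((norm_sub_le_norm_sub_add_norm_sub _ (D.g (D.c + q₁ • w)) _).trans
          (add_le_add (f1.trans (add_le_add (hsq _ hr0.le hr) ?_)) hyc)) ?_)
      · refine mul_le_mul ((mul_le_of_le_one_right hr0.le D.ε1).trans (hr.trans hts))
          (hy.trans ?_) (norm_nonneg _) hs
        exact add_le_add le_rfl (mul_le_of_le_one_left (norm_nonneg _) hs1)
      · rw [norm_sub_rev]
        exact f2.trans (add_le_add (hsq _ D.τ0.le le_rfl)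
          (mul_le_mul ((mul_le_of_le_one_right D.τ0.le D.ε1).trans hts) hgc (norm_nonneg _) hs))
    simp only [M]
    nlinarith
  have hzi : Integrable (fun p : E d × E d => 3 * ‖p.2‖) ((law D q₁).prod (gam d)) :=
    (hz.comp_snd _).const_mul 3
  have hwi : Integrable (fun p : E d × E d => 2 * ‖p.1‖) ((law D q₁).prod (gam d)) :=
    (hw.comp_fst _).const_mul 2
  have hi : Integrable (fun p : E d × E d => s * (3 * ‖p.2‖ + 2 * M + 2 * ‖p.1‖))
      ((law D q₁).prod (gam d)) := ((hzi.add (integrable_const _)).add hwi).const_mul s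
  refine (lintegral_mono fun p => ENNReal.ofReal_le_ofReal (hb p)).trans ?_
  rw [← ofReal_integral_eq_lintegral_ofReal hi (Eventually.of_forall fun p => by positivity)]
  refine ENNReal.ofReal_le_ofReal ?_
  rw [integral_const_mul, integral_add (by exact hzi.add (integrable_const _)) hwi,
    integral_add hzi (integrable_const _), integral_const, probReal_univ, one_smul,
    integral_const_mul, integral_const_mul, integral_fun_fst (fun w : E d => ‖w‖),
    integral_fun_snd (fun w : E d => ‖w‖), probReal_univ, one_smul]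
  simp only [probReal_univ, one_smul]
  have hexp : Real.exp D.ε ≤ 5 / 4 := by
    have h2 := Real.exp_bound_div_one_sub_of_interval' (by norm_num : (0:ℝ) < 1/10) (by norm_num)
    have h3 := Real.exp_le_exp.2 hε
    norm_num at h2
    linarith
  have hd' : Real.sqrt d ≤ M := le_add_of_nonneg_right (norm_nonneg _)
  have h4 : ∫ w, ‖w‖ ∂law D q₁ ≤ 2 * M := by
    refine hw'.trans ?_
    calc (Real.sqrt d + D.ε * (‖D.c‖ + Real.sqrt d)) * Real.exp D.ε
        ≤ (M + 1 / 10 * M) * (5 / 4) := by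
          refine mul_le_mul (add_le_add hd' ?_) hexp (Real.exp_pos _).le (by positivity)
          simp only [M, add_comm (Real.sqrt d)]; gcongr
      _ ≤ _ := by nlinarith [norm_nonneg D.c, Real.sqrt_nonneg (d : ℝ)]
  nlinarith [hz'.trans hd']

end ExFlow

namespace Build

variable {na : ℕ} (P : Data na)

/-- The law of the point at scale `ρ τ` from the law at time `q₁`. -/
lemma lawY_eq_law {D : Gamma0.Data d} {τ r q : ℝ} (hq : 0 < q) (hsq : q ^ 2 = τ - r)
    (hτ : D.τ = τ) :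
    lawY D.U D.ε τ r D.c = (ExFlow.law D q).map (fun w => D.c + q • w) := by
  have hn : Measurable fun y => nW D.U D.ε r y := by
    have h : (fun y => nW D.U D.ε r y) = fun y => -Real.log (sm r D.expU y) := rfl
    rw [h]
    exact (Real.measurable_log.comp (Per.measurable_sm _ D.continuous_expU.measurable)).neg
  have hW : Measurable fun y : E d => ‖y - D.c‖ ^ 2 / (2 * (τ - r)) + nW D.U D.ε r y :=
    (by fun_prop : Measurable fun y : E d => ‖y - D.c‖ ^ 2 / (2 * (τ - r))).add hn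
  rw [lawY, ← gibbs_map_affine _ hW D.c hq, ExFlow.law]
  congr 2
  funext w
  simp only [Gamma0.Data.ψ, psi, add_sub_cancel_left, norm_smul, Real.norm_eq_abs, mul_pow,
    sq_abs]
  have hne : τ - r ≠ 0 := by rw [← hsq]; positivity
  rw [hτ, show τ - q ^ 2 = r by rw [hsq]; ring, hsq, ← mul_comm (‖w‖ ^ 2),
    mul_comm 2 (τ - r), ← div_div, mul_div_cancel_right₀ _ hne]

/-- Bounds in mean of a function of the first factor. -/
lemma lintegral_fst_le {α β : Type*} [MeasurableSpace α] [MeasurableSpace β] (μ : Measure α)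
    (ν : Measure β) [IsProbabilityMeasure ν] (f : α → ℝ≥0∞) :
    ∫⁻ q, f q.1 ∂μ.prod ν ≤ ∫⁻ p, f p ∂μ := by
  refine (lintegral_prod_le fun q : α × β => f q.1).trans ?_
  simp

/-- The inputs of the output at a point and a direction. -/
noncomputable def inPt (D : Gamma0.Data d) (q : (E d × E d) × (Fin na → E d)) : OIn na → E d :=
  oPoint D.c (D.c + P.q₁ • q.1.1) q.1.2 q.2

/-- The iterate of the point. -/
noncomputable def wIt (D : Gamma0.Data d) (p : ℕ) (o : Option (Fin P.nt))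
    (q : (E d × E d) × (Fin na → E d)) : E d :=
  (wAt P (lift P p o).1).val (Gt D.U D.g D.ε) (inPt P D q)

/-- The iterate of the noise. -/
noncomputable def zIt (D : Gamma0.Data d) (p : ℕ) (o : Option (Fin P.nt))
    (q : (E d × E d) × (Fin na → E d)) : E d :=
  ((lift P p o).2).val (Gt D.U D.g D.ε) (inPt P D q)

/-- The distance of an iterate from the exact field. -/
noncomputable def itErr (D : Gamma0.Data d) (Ψ : ℝ → ℝ → E (d + d) → E (d + d)) (p : ℕ)
    (o : Option (Fin P.nt)) (q : (E d × E d) × (Fin na → E d)) : ℝ :=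
  ‖wIt P D p o q - (path Ψ (tAt P o) q.1).1‖ + ‖zIt P D p o q - (path Ψ (tAt P o) q.1).2‖

/-- What the analysis of the output uses. -/
structure Ctx {D : Gamma0.Data d} (X : ExFlow D) (Ψ : ℝ → ℝ → E (d + d) → E (d + d)) : Prop where
  post : PostFacts
  transport : LawTransport
  eps : D.ε = P.ε
  tau : D.τ = P.τ
  tau_le : D.τ ≤ 1
  eps_le : D.ε ≤ 1 / 10
  rho : 0 < P.ρ
  q_mem : P.q₁ ∈ D.I
  q_pos : 0 < P.q₁
  r_eq : D.r P.q₁ = P.ρ * P.τ
  flow : IsFlow (X.liftVel (Real.sqrt 2 * P.γ) P.q₁) (Ioo (-1 : ℝ) 2) Ψ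
  inv : ∀ t ∈ Icc (0 : ℝ) 1,
    ((ExFlow.law D P.q₁).prod (gam d)).map (path Ψ t) = (ExFlow.law D P.q₁).prod (gam d)

section ctx

attribute [local irreducible] G nW psi

variable {P} {D : Gamma0.Data d} {X : ExFlow D} {Ψ : ℝ → ℝ → E (d + d) → E (d + d)}

lemma TimeOK.tAt_mem {A : ℝ} (hW : TimeOK P A) : ∀ o, tAt P o ∈ Icc (0 : ℝ) 1
  | none => ⟨zero_le_one, le_rfl⟩
  | some i => hW.mem i

variable (hC : Ctx P X Ψ)
include hC

lemma Ctx.continuous_path {t : ℝ} (ht : t ∈ Icc (0 : ℝ) 1) : Continuous (path Ψ t) :=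
  (split d).continuous.comp ((hC.flow.smooth 0 (by norm_num) t
    ⟨by linarith [ht.1], by linarith [ht.2]⟩).continuous.comp (split d).symm.continuous)

lemma Ctx.ftc {T : ℝ} (hT : T ∈ Icc (0 : ℝ) 1) (p : E d × E d) :
    (path Ψ T p).1 = p.1 - (Real.sqrt 2 * P.γ) •
        ∫ t in (0 : ℝ)..T, X.kOp P.q₁ (path Ψ t p).1 (path Ψ t p).2 ∧
      (path Ψ T p).2 = p.2 + (Real.sqrt 2 * P.γ) •
        ((∫ t in (0 : ℝ)..T, D.Gq P.q₁ (path Ψ t p).1) - T • G D.U D.g D.ε D.τ D.c) := by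
  set Γ := Real.sqrt 2 * P.γ
  set m := G D.U D.g D.ε D.τ D.c with hm
  have hsub : uIcc (0 : ℝ) T ⊆ Ioo (-1 : ℝ) 2 := fun t ht => by
    rw [uIcc_of_le hT.1] at ht
    exact ⟨by linarith [ht.1], by linarith [ht.2, hT.2]⟩
  have hd : ∀ t ∈ uIcc (0 : ℝ) T, HasDerivAt (fun u => path Ψ u p)
      (-(Γ • X.kOp P.q₁ (path Ψ t p).1 (path Ψ t p).2), Γ • (D.Gq P.q₁ (path Ψ t p).1 - m)) t :=
    fun t ht => by
    refine ((split d : E (d + d) →L[ℝ] E d × E d).hasFDerivAt.comp_hasDerivAt t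
      (hC.flow.deriv 0 (by norm_num) t (hsub ht) ((split d).symm p))).congr_deriv ?_
    simp [ExFlow.liftVel, path, m, Γ]
  have hcS : ContinuousOn (fun t => path Ψ t p) (uIcc (0 : ℝ) T) := fun t ht =>
    (hd t ht).continuousAt.continuousWithinAt
  have hk : ContinuousOn (fun t => X.kOp P.q₁ (path Ψ t p).1 (path Ψ t p).2) (uIcc 0 T) :=
    ((X.contDiff_kOp hC.post hC.q_mem).continuous.comp_continuousOn hcS.fst).clm_apply hcS.snd
  have hG : ContinuousOn (fun t => D.Gq P.q₁ (path Ψ t p).1) (uIcc 0 T) :=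
    (D.contDiff_Gq hC.post hC.q_mem).continuous.comp_continuousOn hcS.fst
  have e0 : path Ψ 0 p = p := by simp [path, hC.flow.refl 0 (by norm_num)]
  have e1 := intervalIntegral.integral_eq_sub_of_hasDerivAt
    (f := fun t => (path Ψ t p).1) (f' := fun t => -(Γ • X.kOp P.q₁ (path Ψ t p).1 (path Ψ t p).2))
    (fun t ht => (ContinuousLinearMap.fst ℝ (E d) (E d)).hasFDerivAt.comp_hasDerivAt t (hd t ht))
    ((hk.const_smul Γ).neg.intervalIntegrable)
  have e2 := intervalIntegral.integral_eq_sub_of_hasDerivAt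
    (f := fun t => (path Ψ t p).2) (f' := fun t => Γ • (D.Gq P.q₁ (path Ψ t p).1 - m))
    (fun t ht => (ContinuousLinearMap.snd ℝ (E d) (E d)).hasFDerivAt.comp_hasDerivAt t (hd t ht))
    (((hG.sub continuousOn_const).const_smul Γ).intervalIntegrable)
  rw [intervalIntegral.integral_neg, intervalIntegral.integral_smul, e0] at e1
  rw [intervalIntegral.integral_smul, intervalIntegral.integral_sub hG.intervalIntegrable
    intervalIntegrable_const, intervalIntegral.integral_const, sub_zero, e0] at e2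
  exact ⟨by rw [sub_eq_add_neg, e1]; abel, by rw [e2]; abel⟩

lemma Ctx.lintegral_inv {t : ℝ} (ht : t ∈ Icc (0 : ℝ) 1)
    {f : (E d × E d) × (Fin na → E d) → ℝ≥0∞} (hf : Measurable f) :
    ∫⁻ q, f (path Ψ t q.1, q.2)
        ∂((ExFlow.law D P.q₁).prod (gam d)).prod (Measure.pi fun _ : Fin na => gam d)
      = ∫⁻ q, f q ∂((ExFlow.law D P.q₁).prod (gam d)).prod (Measure.pi fun _ : Fin na => gam d) := by
  have := ExFlow.isProb_law hC.post (nwHeat_of_post hC.post) hC.transport hC.q_mem X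
  have : IsProbabilityMeasure (gam d) := by unfold gam; infer_instance
  set μ := (ExFlow.law D P.q₁).prod (gam d)
  set ν := Measure.pi fun _ : Fin na => gam d
  have hm := (hC.continuous_path ht).measurable
  have e : (μ.prod ν).map (Prod.map (path Ψ t) id) = μ.prod ν := by
    rw [← Measure.map_prod_map μ ν hm measurable_id, Measure.map_id, hC.inv t ht]
  conv_rhs => rw [← e, lintegral_map hf (hm.prodMap measurable_id)]
  rfl

lemma Ctx.continuous_Gt (r : ℝ) : Continuous (Gt D.U D.g D.ε r) := by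
  unfold Gt
  rcases em (0 < r) with h | h
  · simp only [if_pos h]; exact (D.contDiff_G hC.post h).continuous
  · simp only [if_neg h]; exact continuous_const

omit hC in
lemma continuous_inPt : Continuous (inPt P D) := continuous_pi fun i => by
  cases i <;> simp only [inPt, oPoint] <;> fun_prop

lemma Ctx.measurable_itErr {A : ℝ} (hW : TimeOK P A) (p : ℕ) (o : Option (Fin P.nt)) :
    Measurable (itErr P D Ψ p o) := by
  have hp := (hC.continuous_path (hW.tAt_mem o)).comp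
    (continuous_fst (X := E d × E d) (Y := Fin na → E d))
  exact ((((Expr.continuous_val _ hC.continuous_Gt _).comp continuous_inPt).sub hp.fst).norm.add
    (((Expr.continuous_val _ hC.continuous_Gt _).comp continuous_inPt).sub hp.snd).norm).measurable

lemma Ctx.wIt_eq (p : ℕ) (o : Option (Fin P.nt)) (q : (E d × E d) × (Fin na → E d)) :
    wIt P D p o q = q.1.1 + P.q₁⁻¹ • ((lift P p o).1).val (Gt D.U D.g D.ε) (inPt P D q) := by
  simp only [wIt, wAt, Expr.val]
  rw [show inPt P D q .pt = D.c + P.q₁ • q.1.1 from rfl, show inPt P D q .ctr = D.c from rfl,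
    show ∀ v : E d, D.c + P.q₁ • q.1.1 + v + (-1 : ℝ) • D.c = P.q₁ • q.1.1 + v from
      fun v => by module, smul_add, inv_smul_smul₀ hC.q_pos.ne']

lemma Ctx.gate_eq (p : ℕ) (o : Option (Fin P.nt)) (q : (E d × E d) × (Fin na → E d)) :
    Gt D.U D.g D.ε (P.ρ * P.τ)
        (inPt P D q .pt + ((lift P p o).1).val (Gt D.U D.g D.ε) (inPt P D q))
      = D.Gq P.q₁ (wIt P D p o q) := by
  have hpos : 0 < P.ρ * P.τ := mul_pos hC.rho (hC.tau ▸ D.τ0)
  rw [Gt, if_pos hpos, Gamma0.Data.Gq, hC.r_eq, hC.wIt_eq, smul_add,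
    smul_inv_smul₀ hC.q_pos.ne', show inPt P D q .pt = D.c + P.q₁ • q.1.1 from rfl, add_assoc]

lemma Ctx.gate_top (q : (E d × E d) × (Fin na → E d)) :
    Gt D.U D.g D.ε P.τ (inPt P D q .ctr) = G D.U D.g D.ε D.τ D.c := by
  rw [Gt, if_pos (hC.tau ▸ D.τ0), hC.tau]
  rfl

lemma Ctx.q_le : P.q₁ ≤ Real.sqrt P.τ := hC.tau ▸ hC.q_mem.2.le

lemma Ctx.lip_Gq (w w' : E d) :
    ‖D.Gq P.q₁ w - D.Gq P.q₁ w'‖ ≤ Real.sqrt P.τ * ‖w - w'‖ := by
  refine le_trans (convex_univ.norm_image_sub_le_of_norm_hasFDerivWithin_le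
    (C := P.q₁) (fun z _ => (D.hasFDerivAt_Gq hC.post hC.q_mem z).hasFDerivWithinAt) (fun z _ => by
      rw [norm_smul, Real.norm_eq_abs, abs_of_nonneg hC.q_pos.le]
      exact mul_le_of_le_one_right hC.q_pos.le (ExFlow.norm_aq_le hC.post hC.q_mem z))
    (mem_univ w') (mem_univ w)) (mul_le_mul_of_nonneg_right hC.q_le (norm_nonneg _))

/-- One trajectory at the start. -/
lemma Ctx.err_zero {A : ℝ} (hW : TimeOK P A) (o : Option (Fin P.nt))
    (q : (E d × E d) × (Fin na → E d)) :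
    ENNReal.ofReal (itErr P D Ψ 0 o q)
      ≤ ENNReal.ofReal |Real.sqrt 2 * P.γ| * timeErr P X Ψ o q.1
        + ∑ j, ENNReal.ofReal (|Real.sqrt 2 * P.γ| * |P.time.W o j| *
          (‖X.kOp P.q₁ (path Ψ (P.time.x j) q.1).1 (path Ψ (P.time.x j) q.1).2‖
            + ‖D.Gq P.q₁ (path Ψ (P.time.x j) q.1).1 - G D.U D.g D.ε D.τ D.c‖)) := by
  obtain ⟨e1, e2⟩ := hC.ftc (hW.tAt_mem o) q.1
  set Γ := Real.sqrt 2 * P.γ
  set m := G D.U D.g D.ε D.τ D.c
  set I1 := ∫ t in (0 : ℝ)..tAt P o, X.kOp P.q₁ (path Ψ t q.1).1 (path Ψ t q.1).2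
  set I2 := ∫ t in (0 : ℝ)..tAt P o, D.Gq P.q₁ (path Ψ t q.1).1
  set f := fun j => X.kOp P.q₁ (path Ψ (P.time.x j) q.1).1 (path Ψ (P.time.x j) q.1).2
  set g' := fun j => D.Gq P.q₁ (path Ψ (P.time.x j) q.1).1
  have hs : ∑ j, P.time.W o j • (g' j - m) = (∑ j, P.time.W o j • g' j) - tAt P o • m := by
    simp only [smul_sub, Finset.sum_sub_distrib, ← Finset.sum_smul, hW.const]
  have h1 : wIt P D 0 o q - (path Ψ (tAt P o) q.1).1
      = Γ • ((I1 - ∑ j, P.time.W o j • f j) + ∑ j, P.time.W o j • f j) := by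
    rw [hC.wIt_eq, e1, sub_add_cancel]
    simp only [lift, Expr.val, smul_zero, add_zero]
    abel
  have h2 : zIt P D 0 o q - (path Ψ (tAt P o) q.1).2
      = -(Γ • ((I2 - ∑ j, P.time.W o j • g' j) + ∑ j, P.time.W o j • (g' j - m))) := by
    rw [hs, zIt, e2]
    simp only [lift, Expr.val, inPt, oPoint]
    module
  have b1 := norm_sum_le Finset.univ fun j => P.time.W o j • f j
  have b2 := norm_sum_le Finset.univ fun j => P.time.W o j • (g' j - m)
  simp only [norm_smul, Real.norm_eq_abs] at b1 b2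
  have hle : itErr P D Ψ 0 o q
      ≤ |Γ| * (‖I1 - ∑ j, P.time.W o j • f j‖ + ‖I2 - ∑ j, P.time.W o j • g' j‖)
        + ∑ j, |Γ| * |P.time.W o j| * (‖f j‖ + ‖g' j - m‖) := by
    simp only [itErr, h1, h2, norm_neg, norm_smul, Real.norm_eq_abs, mul_assoc, ← Finset.mul_sum,
      ← mul_add]
    refine mul_le_mul_of_nonneg_left ?_ (abs_nonneg _)
    refine (add_le_add (norm_add_le _ _) (norm_add_le _ _)).trans ?_
    simp only [mul_add, Finset.sum_add_distrib]
    linarith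
  refine (ENNReal.ofReal_le_ofReal hle).trans (le_of_eq ?_)
  rw [ENNReal.ofReal_add (by positivity) (Finset.sum_nonneg fun j _ => by positivity),
    ENNReal.ofReal_sum_of_nonneg fun j _ => by positivity, ENNReal.ofReal_mul (abs_nonneg _),
    ENNReal.ofReal_add (norm_nonneg _) (norm_nonneg _), ofReal_norm, ofReal_norm]
  rfl

/-- One trajectory, one more iterate. -/
lemma Ctx.err_succ {A Le : ℝ} (hW : TimeOK P A) (hLe : 0 ≤ Le) (hlip : EtaLip d P Le) (p : ℕ)
    (o : Option (Fin P.nt)) (q : (E d × E d) × (Fin na → E d)) :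
    ENNReal.ofReal (itErr P D Ψ (p + 1) o q)
      ≤ ENNReal.ofReal |Real.sqrt 2 * P.γ| * timeErr P X Ψ o q.1
        + ∑ j, ENNReal.ofReal (|Real.sqrt 2 * P.γ| * |P.time.W o j| *
          (Real.sqrt P.τ * (Le + 1) * itErr P D Ψ p (some j) q
            + ‖etaVal P (Gt D.U D.g D.ε) D.c (path Ψ (P.time.x j) q.1).1
                (path Ψ (P.time.x j) q.1).2 q.2
              - X.kOp P.q₁ (path Ψ (P.time.x j) q.1).1 (path Ψ (P.time.x j) q.1).2‖)) := by
  obtain ⟨e1, e2⟩ := hC.ftc (hW.tAt_mem o) q.1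
  set Γ := Real.sqrt 2 * P.γ
  set s := Real.sqrt P.τ
  have hs : 0 ≤ s := Real.sqrt_nonneg _
  set Gr := Gt D.U D.g D.ε
  set m := G D.U D.g D.ε D.τ D.c
  set I1 := ∫ t in (0 : ℝ)..tAt P o, X.kOp P.q₁ (path Ψ t q.1).1 (path Ψ t q.1).2
  set I2 := ∫ t in (0 : ℝ)..tAt P o, D.Gq P.q₁ (path Ψ t q.1).1
  set f := fun j => X.kOp P.q₁ (path Ψ (P.time.x j) q.1).1 (path Ψ (P.time.x j) q.1).2
  set g' := fun j => D.Gq P.q₁ (path Ψ (P.time.x j) q.1).1
  set η := fun j => etaVal P Gr D.c (wIt P D p (some j) q) (zIt P D p (some j) q) q.2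
  set gw := fun j => D.Gq P.q₁ (wIt P D p (some j) q)
  have hev : ∀ j, (eta P (.var .ctr) (wAt P (lift P p (some j)).1) (lift P p (some j)).2
      fun k => .var (.aux k)).val Gr (inPt P D q) = η j := fun j =>
    val_eta_congr P Gr rfl rfl rfl fun k => rfl
  have hc : ∀ j, P.q₁⁻¹ * -(P.q₁ * Γ * P.time.W o j) = -(Γ * P.time.W o j) := fun j => by
    field_simp [hC.q_pos.ne']
  have h1 : wIt P D (p + 1) o q - (path Ψ (tAt P o) q.1).1
      = Γ • ((I1 - ∑ j, P.time.W o j • f j) - ∑ j, P.time.W o j • (η j - f j)) := by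
    rw [hC.wIt_eq, e1]
    simp only [lift, Expr.val, Expr.val_sum, Gr, hev, smul_sub, Finset.smul_sum, smul_smul,
      Finset.sum_sub_distrib]
    simp only [show ∀ j, P.q₁⁻¹ * -(P.q₁ * (Real.sqrt 2 * P.γ) * P.time.W o j)
      = -(Γ * P.time.W o j) from hc, neg_smul, Finset.sum_neg_distrib]
    abel
  have h2 : zIt P D (p + 1) o q - (path Ψ (tAt P o) q.1).2
      = Γ • ((∑ j, P.time.W o j • (gw j - g' j)) - (I2 - ∑ j, P.time.W o j • g' j)) := by
    rw [zIt, e2]
    simp only [lift, Expr.val, Expr.val_sum, hC.gate_eq, hC.gate_top, Gr]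
    simp only [show inPt P D q .noi = q.1.2 from rfl, neg_smul, one_smul, smul_add, smul_neg,
      smul_sub, Finset.smul_sum, smul_smul, Finset.sum_sub_distrib, Finset.sum_add_distrib,
      Finset.sum_neg_distrib, ← Finset.sum_smul, ← hW.const o, Finset.mul_sum, gw, g', Γ, m]
    abel
  have b1 := norm_sum_le Finset.univ fun j => P.time.W o j • (η j - f j)
  have b2 := norm_sum_le Finset.univ fun j => P.time.W o j • (gw j - g' j)
  simp only [norm_smul, Real.norm_eq_abs] at b1 b2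
  set a := fun j => ‖etaVal P Gr D.c (path Ψ (P.time.x j) q.1).1 (path Ψ (P.time.x j) q.1).2 q.2
    - f j‖
  set er := fun j => itErr P D Ψ p (some j) q
  have b3 : ∀ j, |P.time.W o j| * ‖η j - f j‖ + |P.time.W o j| * ‖gw j - g' j‖
      ≤ |P.time.W o j| * (s * (Le + 1) * er j + a j) := by
    intro j
    rw [← mul_add]
    refine mul_le_mul_of_nonneg_left ?_ (abs_nonneg _)
    have a1 := hlip D.U D.g D.pot D.g0 D.c (wIt P D p (some j) q) (path Ψ (P.time.x j) q.1).1
      (zIt P D p (some j) q) (path Ψ (P.time.x j) q.1).2 q.2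
    rw [← hC.eps] at a1
    have a2 := hC.lip_Gq (wIt P D p (some j) q) (path Ψ (P.time.x j) q.1).1
    have a3 := norm_sub_le_norm_sub_add_norm_sub (η j)
      (etaVal P Gr D.c (path Ψ (P.time.x j) q.1).1 (path Ψ (P.time.x j) q.1).2 q.2) (f j)
    have a4 : er j = ‖wIt P D p (some j) q - (path Ψ (P.time.x j) q.1).1‖
        + ‖zIt P D p (some j) q - (path Ψ (P.time.x j) q.1).2‖ := rfl
    have a5 : 0 ≤ s * ‖zIt P D p (some j) q - (path Ψ (P.time.x j) q.1).2‖ := by positivity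
    simp only [η, gw, g', a, Gr] at a1 a3 ⊢
    rw [a4]
    nlinarith
  have b4 := Finset.sum_le_sum fun j (_ : j ∈ Finset.univ) => b3 j
  simp only [Finset.sum_add_distrib] at b4
  have hle : itErr P D Ψ (p + 1) o q
      ≤ |Γ| * (‖I1 - ∑ j, P.time.W o j • f j‖ + ‖I2 - ∑ j, P.time.W o j • g' j‖)
        + ∑ j, |Γ| * |P.time.W o j| * (s * (Le + 1) * er j + a j) := by
    rw [itErr, h1, h2]
    simp only [norm_smul, Real.norm_eq_abs, mul_assoc |Γ|, ← Finset.mul_sum, ← mul_add]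
    refine mul_le_mul_of_nonneg_left ?_ (abs_nonneg _)
    refine (add_le_add (norm_sub_le _ _) (norm_sub_le _ _)).trans ?_
    linarith
  refine (ENNReal.ofReal_le_ofReal hle).trans (le_of_eq ?_)
  have hn : ∀ j, 0 ≤ |Γ| * |P.time.W o j| * (s * (Le + 1) * er j + a j) := fun j =>
    mul_nonneg (by positivity) (add_nonneg (mul_nonneg (by positivity)
      (add_nonneg (norm_nonneg _) (norm_nonneg _))) (norm_nonneg _))
  rw [ENNReal.ofReal_add (by positivity) (Finset.sum_nonneg fun j _ => hn j),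
    ENNReal.ofReal_sum_of_nonneg fun j _ => hn j, ENNReal.ofReal_mul (abs_nonneg _),
    ENNReal.ofReal_add (norm_nonneg _) (norm_nonneg _), ofReal_norm, ofReal_norm]
  rfl

/-- The iterates at the start. -/
lemma Ctx.iter_zero {A δ δe Le : ℝ} (hW : TimeOK P A) (hA0 : 0 ≤ A) (hδ : 0 ≤ δ)
    (hδe : 0 ≤ δe) (hLe : 0 ≤ Le)
    (hθ : Real.sqrt 2 * |P.γ| * Real.sqrt P.τ * A * (Le + 1) ≤ 1 / 2)
    (hquad : QuadTime d P δ) (o : Option (Fin P.nt)) :
    ∫⁻ q, ENNReal.ofReal (itErr P D Ψ 0 o q)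
        ∂((ExFlow.law D P.q₁).prod (gam d)).prod (Measure.pi fun _ : Fin na => gam d)
      ≤ ENNReal.ofReal ((2 * (|Real.sqrt 2 * P.γ| * Real.sqrt P.τ) * (A * δe + δ)
          + 5 * (Real.sqrt 2 * |P.γ| * Real.sqrt P.τ * A * (Le + 1)) ^ 0)
          * (Real.sqrt d + ‖D.c‖)) := by
  have hH := nwHeat_of_post hC.post
  have := ExFlow.isProb_law hC.post hH hC.transport hC.q_mem X
  have : IsProbabilityMeasure (gam d) := by unfold gam; infer_instance
  set Γ := Real.sqrt 2 * P.γ with hΓ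
  set s := Real.sqrt P.τ
  have hs : 0 ≤ s := Real.sqrt_nonneg _
  set M := Real.sqrt d + ‖D.c‖
  have hM : 0 ≤ M := by positivity
  have habs : |Γ| = Real.sqrt 2 * |P.γ| := by
    rw [hΓ, abs_mul, abs_of_nonneg (Real.sqrt_nonneg _)]
  set θ := Real.sqrt 2 * |P.γ| * s * A * (Le + 1)
  have hθ0 : 0 ≤ θ := by positivity
  have hq : ∀ o, ∫⁻ q, timeErr P X Ψ o q.1
      ∂((ExFlow.law D P.q₁).prod (gam d)).prod (Measure.pi fun _ : Fin na => gam d)
      ≤ ENNReal.ofReal (s * δ * M) := fun o =>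
    (lintegral_fst_le _ _ _).trans (hquad D hC.eps hC.tau X Ψ hC.flow o)
  have hk : Continuous fun x : E d × E d => X.kOp P.q₁ x.1 x.2 :=
    ((X.contDiff_kOp hC.post hC.q_mem).continuous.comp continuous_fst).clm_apply continuous_snd
  set f : E d × E d → ℝ := fun x =>
    ‖X.kOp P.q₁ x.1 x.2‖ + ‖D.Gq P.q₁ x.1 - G D.U D.g D.ε D.τ D.c‖
  have hfm : Measurable f := (hk.norm.add ((((D.contDiff_Gq hC.post hC.q_mem).continuous.comp
    continuous_fst).sub continuous_const).norm)).measurable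
  refine (lintegral_step (μ := ((ExFlow.law D P.q₁).prod (gam d)).prod
      (Measure.pi fun _ : Fin na => gam d))
    (e := fun q => itErr P D Ψ 0 o q) (g := |Γ|) (a := s * δ * M) (b := 9 * s * M) (A := A)
    (H := fun q => timeErr P X Ψ o q.1) (h := fun j q => f (path Ψ (P.time.x j) q.1))
    (W := P.time.W o) (abs_nonneg _) (by positivity) (by positivity)
    (fun j => hfm.comp ((hC.continuous_path (hW.mem j)).measurable.comp measurable_fst))
    (fun j q => by positivity) (fun q => hC.err_zero hW o q) (hq o)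
    (fun j => ?_) (hW.sum o)).trans ?_
  · rw [hC.lintegral_inv (hW.mem j) (f := fun q => ENNReal.ofReal (f q.1))
      (hfm.comp measurable_fst).ennreal_ofReal]
    refine (lintegral_fst_le _ _ (fun x => ENNReal.ofReal (f x))).trans ?_
    have := X.field_size hC.post hH hC.transport hC.tau_le hC.eps_le hC.q_mem hC.q_pos.le
    simpa only [s, ← hC.tau] using this
  · refine ENNReal.ofReal_le_ofReal ?_
    rw [pow_zero]
    have h1 : |Γ| * s * A ≤ 1 / 2 := by
      refine le_trans ?_ hθ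
      rw [habs]
      exact le_mul_of_one_le_right (by positivity) (by linarith)
    have h2 : 0 ≤ |Γ| * s * (A * δe) * M := by positivity
    have h3 : 0 ≤ |Γ| * s * δ * M := by positivity
    nlinarith [mul_le_mul_of_nonneg_right h1 hM]

/-- One more iterate. -/
lemma Ctx.iter_succ {A δ δe Le : ℝ} (hW : TimeOK P A) (hA0 : 0 ≤ A) (hδ : 0 ≤ δ)
    (hδe : 0 ≤ δe) (hLe : 0 ≤ Le)
    (hθ : Real.sqrt 2 * |P.γ| * Real.sqrt P.τ * A * (Le + 1) ≤ 1 / 2)
    (hlip : EtaLip d P Le) (happ : EtaApprox d P δe) (hquad : QuadTime d P δ) (p : ℕ)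
    (ih : ∀ o, ∫⁻ q, ENNReal.ofReal (itErr P D Ψ p o q)
        ∂((ExFlow.law D P.q₁).prod (gam d)).prod (Measure.pi fun _ : Fin na => gam d)
      ≤ ENNReal.ofReal ((2 * (|Real.sqrt 2 * P.γ| * Real.sqrt P.τ) * (A * δe + δ)
          + 5 * (Real.sqrt 2 * |P.γ| * Real.sqrt P.τ * A * (Le + 1)) ^ p)
          * (Real.sqrt d + ‖D.c‖))) (o : Option (Fin P.nt)) :
    ∫⁻ q, ENNReal.ofReal (itErr P D Ψ (p + 1) o q)
        ∂((ExFlow.law D P.q₁).prod (gam d)).prod (Measure.pi fun _ : Fin na => gam d)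
      ≤ ENNReal.ofReal ((2 * (|Real.sqrt 2 * P.γ| * Real.sqrt P.τ) * (A * δe + δ)
          + 5 * (Real.sqrt 2 * |P.γ| * Real.sqrt P.τ * A * (Le + 1)) ^ (p + 1))
          * (Real.sqrt d + ‖D.c‖)) := by
  have hH := nwHeat_of_post hC.post
  have := ExFlow.isProb_law hC.post hH hC.transport hC.q_mem X
  have : IsProbabilityMeasure (gam d) := by unfold gam; infer_instance
  set Γ := Real.sqrt 2 * P.γ with hΓ
  set s := Real.sqrt P.τ
  have hs : 0 ≤ s := Real.sqrt_nonneg _
  set M := Real.sqrt d + ‖D.c‖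
  have hM : 0 ≤ M := by positivity
  have habs : |Γ| = Real.sqrt 2 * |P.γ| := by
    rw [hΓ, abs_mul, abs_of_nonneg (Real.sqrt_nonneg _)]
  set θ := Real.sqrt 2 * |P.γ| * s * A * (Le + 1)
  have hθ0 : 0 ≤ θ := by positivity
  have hq : ∀ o, ∫⁻ q, timeErr P X Ψ o q.1
      ∂((ExFlow.law D P.q₁).prod (gam d)).prod (Measure.pi fun _ : Fin na => gam d)
      ≤ ENNReal.ofReal (s * δ * M) := fun o =>
    (lintegral_fst_le _ _ _).trans (hquad D hC.eps hC.tau X Ψ hC.flow o)
  have hk : Continuous fun x : E d × E d => X.kOp P.q₁ x.1 x.2 :=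
    ((X.contDiff_kOp hC.post hC.q_mem).continuous.comp continuous_fst).clm_apply continuous_snd
  set B := (2 * (|Γ| * s) * (A * δe + δ) + 5 * θ ^ p) * M
  have hB : 0 ≤ B := by positivity
  set ae : (E d × E d) × (Fin na → E d) → ℝ := fun q =>
    ‖etaVal P (Gt D.U D.g D.ε) D.c q.1.1 q.1.2 q.2 - X.kOp P.q₁ q.1.1 q.1.2‖
  have haem : Measurable ae := by
    refine (((Expr.continuous_val _ hC.continuous_Gt _).comp (continuous_pi fun i => ?_)).sub
      (hk.comp continuous_fst)).norm.measurable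
    cases i <;> simp only [oPoint] <;> fun_prop
  refine (lintegral_step (g := |Γ|) (a := s * δ * M)
    (b := s * (Le + 1) * B + s * δe * M) (A := A) (H := fun q => timeErr P X Ψ o q.1)
    (h := fun j q => s * (Le + 1) * itErr P D Ψ p (some j) q
      + ae (path Ψ (P.time.x j) q.1, q.2))
    (W := P.time.W o) (abs_nonneg _) (by positivity) (by positivity)
    (fun j => ((hC.measurable_itErr hW _ _).const_mul _).add (haem.comp
      (((hC.continuous_path (hW.mem j)).measurable.comp measurable_fst).prodMk measurable_snd)))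
    (fun j q => add_nonneg (mul_nonneg (by positivity)
      (add_nonneg (norm_nonneg _) (norm_nonneg _))) (norm_nonneg _))
    (fun q => hC.err_succ hW hLe hlip p o q) (hq o) (fun j => ?_) (hW.sum o)).trans ?_
  · have hn : ∀ q, 0 ≤ s * (Le + 1) * itErr P D Ψ p (some j) q := fun q =>
      mul_nonneg (by positivity) (add_nonneg (norm_nonneg _) (norm_nonneg _))
    refine (lintegral_mono fun q => ENNReal.ofReal_add_le).trans ?_
    rw [lintegral_add_left ((hC.measurable_itErr hW _ _).const_mul _).ennreal_ofReal,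
      hC.lintegral_inv (hW.mem j) (f := fun q => ENNReal.ofReal (ae q)) haem.ennreal_ofReal,
      ENNReal.ofReal_add (by positivity) (by positivity)]
    refine add_le_add ?_ ?_
    · simp only [ENNReal.ofReal_mul (show 0 ≤ s * (Le + 1) by positivity)]
      rw [lintegral_const_mul' _ _ ENNReal.ofReal_ne_top]
      exact mul_le_mul_right (ih (some j)) _
    · simpa only [ae, ofReal_norm] using happ D hC.eps hC.tau X
  · refine ENNReal.ofReal_le_ofReal ?_
    have e : |Γ| * A * (s * (Le + 1)) = θ := by simp only [θ, habs]; ring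
    have h5 : θ * (2 * (|Γ| * s) * (A * δe + δ) * M)
        ≤ 1 / 2 * (2 * (|Γ| * s) * (A * δe + δ) * M) :=
      mul_le_mul_of_nonneg_right hθ (by positivity)
    have e' : |Γ| * A * (s * (Le + 1) * B + s * δe * M) = θ * B + |Γ| * s * (A * δe) * M := by
      rw [← e]; ring
    rw [e']
    simp only [B]
    rw [pow_succ]
    nlinarith


/-- The iterates against the exact field. -/
theorem Ctx.iter_error {A δ δe Le : ℝ} (hW : TimeOK P A) (hA0 : 0 ≤ A) (hδ : 0 ≤ δ)
    (hδe : 0 ≤ δe) (hLe : 0 ≤ Le)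
    (hθ : Real.sqrt 2 * |P.γ| * Real.sqrt P.τ * A * (Le + 1) ≤ 1 / 2)
    (hlip : EtaLip d P Le) (happ : EtaApprox d P δe) (hquad : QuadTime d P δ) :
    ∀ p o, ∫⁻ q, ENNReal.ofReal (itErr P D Ψ p o q)
        ∂((ExFlow.law D P.q₁).prod (gam d)).prod (Measure.pi fun _ : Fin na => gam d)
      ≤ ENNReal.ofReal ((2 * (|Real.sqrt 2 * P.γ| * Real.sqrt P.τ) * (A * δe + δ)
          + 5 * (Real.sqrt 2 * |P.γ| * Real.sqrt P.τ * A * (Le + 1)) ^ p)
          * (Real.sqrt d + ‖D.c‖))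
:= by
  intro p
  induction p with
  | zero => exact fun o => hC.iter_zero hW hA0 hδ hδe hLe hθ hquad o
  | succ p ih => exact fun o => hC.iter_succ hW hA0 hδ hδe hLe hθ hlip happ hquad p ih o

/-- The output on one trajectory. -/
lemma Ctx.out_diff {A : ℝ} (hW : TimeOK P A) (q : (E d × E d) × (Fin na → E d)) :
    ENNReal.ofReal ‖outMean (Gt D.U D.g D.ε) (stage P) P.γ (P.ρ * P.τ) (inPt P D q)
        - (Real.sqrt 2)⁻¹ • (q.1.2 + (Real.sqrt 2 * P.γ) •
            ∫ t in (0 : ℝ)..1, D.Gq P.q₁ (path Ψ t q.1).1)‖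
      ≤ ENNReal.ofReal |P.γ| * timeErr P X Ψ none q.1
        + ∑ j, ENNReal.ofReal (|P.γ| * |P.time.W none j| *
            (Real.sqrt P.τ * itErr P D Ψ P.iter (some j) q)) := by
  set s := Real.sqrt P.τ
  have hs : 0 ≤ s := Real.sqrt_nonneg _
  set I2 := ∫ t in (0 : ℝ)..1, D.Gq P.q₁ (path Ψ t q.1).1
  set g' := fun j => D.Gq P.q₁ (path Ψ (P.time.x j) q.1).1
  set gw := fun j => D.Gq P.q₁ (wIt P D P.iter (some j) q)
  have e : outMean (Gt D.U D.g D.ε) (stage P) P.γ (P.ρ * P.τ) (inPt P D q)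
      - (Real.sqrt 2)⁻¹ • (q.1.2 + (Real.sqrt 2 * P.γ) • I2)
      = P.γ • ((∑ j, P.time.W none j • (gw j - g' j)) - (I2 - ∑ j, P.time.W none j • g' j)) := by
    simp only [outMean, stage, hC.gate_eq, show inPt P D q .noi = q.1.2 from rfl, smul_add,
      smul_smul, inv_mul_cancel_left₀ (Real.sqrt_ne_zero'.2 two_pos), smul_sub,
      Finset.sum_sub_distrib, gw]
    abel
  have b := norm_sum_le Finset.univ fun j => P.time.W none j • (gw j - g' j)
  simp only [norm_smul, Real.norm_eq_abs] at b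
  have hn : ∀ j, 0 ≤ |P.γ| * |P.time.W none j| * (s * itErr P D Ψ P.iter (some j) q) := fun j =>
    mul_nonneg (by positivity) (mul_nonneg hs (add_nonneg (norm_nonneg _) (norm_nonneg _)))
  have hle : |P.γ| * ‖(∑ j, P.time.W none j • (gw j - g' j))
        - (I2 - ∑ j, P.time.W none j • g' j)‖
      ≤ |P.γ| * ‖I2 - ∑ j, P.time.W none j • g' j‖
        + ∑ j, |P.γ| * |P.time.W none j| * (s * itErr P D Ψ P.iter (some j) q) := by
    simp only [mul_assoc, ← Finset.mul_sum, ← mul_add]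
    refine mul_le_mul_of_nonneg_left ((norm_sub_le _ _).trans ?_) (abs_nonneg _)
    rw [add_comm]
    refine add_le_add le_rfl (b.trans (Finset.sum_le_sum fun j _ =>
      mul_le_mul_of_nonneg_left ((hC.lip_Gq _ _).trans ?_) (abs_nonneg _)))
    exact mul_le_mul_of_nonneg_left (le_add_of_nonneg_right (norm_nonneg _)) hs
  rw [e, norm_smul, Real.norm_eq_abs]
  refine (ENNReal.ofReal_le_ofReal hle).trans ?_
  rw [ENNReal.ofReal_add (by positivity) (Finset.sum_nonneg fun j _ => hn j),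
    ENNReal.ofReal_sum_of_nonneg fun j _ => hn j, ENNReal.ofReal_mul (abs_nonneg _), ofReal_norm]
  exact add_le_add (mul_le_mul_right le_add_self _) le_rfl

end ctx

attribute [local irreducible] G nW psi in
/-- The integral of a test of the exact output. -/
lemma exact_out {μ : Measure (E d × E d)} [IsProbabilityMeasure μ] {ν : Measure (Fin na → E d)}
    [IsProbabilityMeasure ν] {T : E d × E d → E d} {γ : ℝ} {m : E d}
    (hT : μ.map T = (gam d).map fun z => z + (Real.sqrt 2 * γ) • m) {φ : E d → ℝ} (hφ : Lip1 φ) :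
    AEMeasurable T μ ∧
      Integrable (fun q : (E d × E d) × (Fin na → E d) =>
        sm (1 / 2) φ ((Real.sqrt 2)⁻¹ • T q.1)) (μ.prod ν) ∧
      ∫ q, sm (1 / 2) φ ((Real.sqrt 2)⁻¹ • T q.1) ∂μ.prod ν = sm 1 φ (γ • m) := by
  have : IsProbabilityMeasure (gam d) := by unfold gam; infer_instance
  set h := sm (1 / 2) φ
  have hh : Lip1 h := lip_sm hφ _
  set b := (Real.sqrt 2 * γ) • m
  have hb : Measurable fun z : E d => z + b := by fun_prop
  have hTm : AEMeasurable T μ := by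
    by_contra hn
    rw [Measure.map_of_not_aemeasurable hn] at hT
    exact (Measure.isProbabilityMeasure_map hb.aemeasurable).ne_zero _ hT.symm
  have hhc : Continuous fun y : E d => h ((Real.sqrt 2)⁻¹ • y) := hh.continuous.comp (by fun_prop)
  refine ⟨hTm, ?_, ?_⟩
  · have h1 : Integrable (fun y : E d => h ((Real.sqrt 2)⁻¹ • y)) ((gam d).map fun z => z + b) := by
      rw [integrable_map_measure hhc.aestronglyMeasurable hb.aemeasurable]
      refine ((integrable_const (|h 0| + ‖b‖)).add (mean_norm_gam (d := d)).1).mono'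
        (hhc.comp (by fun_prop)).aestronglyMeasurable (Eventually.of_forall fun z => ?_)
      have h2 := hh.norm_sub_le ((Real.sqrt 2)⁻¹ • (z + b)) 0
      simp only [NNReal.coe_one, one_mul, sub_zero, norm_smul, Real.norm_eq_abs,
        abs_of_nonneg (inv_nonneg.2 (Real.sqrt_nonneg 2))] at h2
      have h3 : (Real.sqrt 2)⁻¹ ≤ 1 := inv_le_one_of_one_le₀ (Real.one_le_sqrt.2 one_le_two)
      have h4 : ‖z + b‖ ≤ ‖z‖ + ‖b‖ := norm_add_le _ _
      simp only [Function.comp_apply, Real.norm_eq_abs, Pi.add_apply]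
      have h5 := mul_le_of_le_one_left (norm_nonneg (z + b)) h3
      linarith [abs_sub_abs_le_abs_sub (h ((Real.sqrt 2)⁻¹ • (z + b))) (h 0)]
    rw [← hT] at h1
    exact (h1.comp_aemeasurable hTm).comp_fst ν
  · rw [integral_fun_fst (fun p => h ((Real.sqrt 2)⁻¹ • T p)), probReal_univ, one_smul,
      ← integral_map hTm (f := fun y => h ((Real.sqrt 2)⁻¹ • y)) hhc.aestronglyMeasurable, hT,
      integral_map hb.aemeasurable hhc.aestronglyMeasurable, ← sm_half hφ (γ • m)]
    refine integral_congr_ae (Eventually.of_forall fun z => congrArg h ?_)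
    rw [smul_add, smul_smul, inv_mul_cancel_left₀ (Real.sqrt_ne_zero'.2 two_pos)]

attribute [local irreducible] G nW psi in
/-- The compiled output of a stage is accurate. -/
theorem out_acc_of_eta (hP : PostFacts) (hF : FlowExists) (hT : LawTransport) (hτ0 : 0 < P.τ)
    (hτ1 : P.τ ≤ 1) (hε0 : 0 ≤ P.ε) (hε10 : P.ε ≤ 1 / 10) (hρ : 0 < P.ρ) (hρ1 : P.ρ < 1)
    {A δ δe Le : ℝ} (hW : TimeOK P A) (hA0 : 0 ≤ A) (hδ : 0 ≤ δ) (hδe : 0 ≤ δe) (hLe : 0 ≤ Le)
    (hθ : Real.sqrt 2 * |P.γ| * Real.sqrt P.τ * A * (Le + 1) ≤ 1 / 2)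
    (hlip : EtaLip d P Le) (happ : EtaApprox d P δe) (hquad : QuadTime d P δ)
    (U : E d → ℝ) (g : E d → E d) (hU : Pot U g) (hg0 : g 0 = 0) (c : E d)
    (φ : E d → ℝ) (hφ : Lip1 φ) :
    |(∫ y, (∫ z, (∫ u, sm (1 / 2) φ
          (outMean (Gt U g P.ε) (stage P) P.γ (P.ρ * P.τ) (oPoint c y z u))
            ∂Measure.pi fun _ : Fin na => gam d) ∂gam d) ∂lawY U P.ε P.τ (P.ρ * P.τ) c)
        - sm 1 φ (P.γ • G U g P.ε P.τ c)|
      ≤ |P.γ| * Real.sqrt P.τ * (A * δe + 2 * δ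
          + 5 * A * (Real.sqrt 2 * |P.γ| * Real.sqrt P.τ * A * (Le + 1)) ^ P.iter)
        * (Real.sqrt d + ‖c‖) := by
  let D : Gamma0.Data d := ⟨U, g, hU, hg0, P.ε, hε0, hε10.trans (by norm_num), P.τ, hτ0, c⟩
  obtain ⟨X⟩ := exists_exFlow hP D
  have hH := nwHeat_of_post hP
  have : IsProbabilityMeasure (gam d) := by unfold gam; infer_instance
  have h10 : 0 < P.τ - P.ρ * P.τ := by nlinarith
  have hq1sq : P.q₁ ^ 2 = P.τ - P.ρ * P.τ := Real.sq_sqrt h10.le
  have hq1p : 0 < P.q₁ := Real.sqrt_pos.2 h10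
  have hq1 : P.q₁ ∈ D.I :=
    ⟨D.zero_mem.1.trans hq1p, Real.sqrt_lt_sqrt h10.le (by show _ < P.τ; nlinarith)⟩
  have hr1 : D.r P.q₁ = P.ρ * P.τ := by
    show P.τ - P.q₁ ^ 2 = _
    rw [hq1sq]; ring
  have := ExFlow.isProb_law hP hH hT hq1 X
  obtain ⟨Ψ, hΨ, hinv, hlaw⟩ := X.lift_law hP hH hF hT hq1 hq1p.le (Real.sqrt 2 * P.γ)
  have hC : Ctx P X Ψ := ⟨hP, hT, rfl, rfl, hτ1, hε10, hρ, hq1, hq1p, hr1, hΨ, hinv⟩
  set μ := (ExFlow.law D P.q₁).prod (gam d)
  set ν := Measure.pi fun _ : Fin na => gam d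
  set T : E d × E d → E d := fun p =>
    p.2 + (Real.sqrt 2 * P.γ) • ∫ t in (0 : ℝ)..1, D.Gq P.q₁ (path Ψ t p).1
  obtain ⟨hTm, hTi, hTv⟩ := exact_out (μ := μ) (ν := ν) (T := T) (γ := P.γ)
    (m := G U g P.ε P.τ c) hlaw hφ
  set s := Real.sqrt P.τ
  have hs : 0 ≤ s := Real.sqrt_nonneg _
  set M := Real.sqrt d + ‖c‖
  set Γ := Real.sqrt 2 * P.γ with hΓ
  set θ := Real.sqrt 2 * |P.γ| * s * A * (Le + 1)
  have hθ0 : 0 ≤ θ := by positivity
  set a := fun q => outMean (Gt U g P.ε) (stage P) P.γ (P.ρ * P.τ) (inPt P D q)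
  have ham : Continuous a := by
    simp only [a, outMean]
    exact (((continuous_apply (A := fun _ => E d) OIn.noi).comp continuous_inPt).const_smul ((Real.sqrt 2)⁻¹ : ℝ)).add
      ((continuous_finsetSum _ fun i _ => ((hC.continuous_Gt _).comp
        (((continuous_apply (A := fun _ => E d) OIn.pt).comp continuous_inPt).add
          ((Expr.continuous_val _ hC.continuous_Gt _).comp continuous_inPt))).const_smul ((stage P).w i)).const_smul P.γ)
  have hd : ∫⁻ q, ENNReal.ofReal ‖a q - (Real.sqrt 2)⁻¹ • T q.1‖ ∂μ.prod ν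
      ≤ ENNReal.ofReal (|P.γ| * (s * δ * M)
        + |P.γ| * A * (s * ((2 * (|Γ| * s) * (A * δe + δ) + 5 * θ ^ P.iter) * M))) := by
    refine lintegral_step (g := |P.γ|) (W := P.time.W none) (H := fun q => timeErr P X Ψ none q.1)
      (h := fun j q => s * itErr P D Ψ P.iter (some j) q) (abs_nonneg _) (by positivity)
      (by positivity) (fun j => (hC.measurable_itErr hW _ _).const_mul _)
      (fun j q => mul_nonneg hs (add_nonneg (norm_nonneg _) (norm_nonneg _)))
      (fun q => hC.out_diff hW q)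
      ((lintegral_fst_le _ _ _).trans (hquad D rfl rfl X Ψ hΨ none)) (fun j => ?_) (hW.sum none)
    simp only [ENNReal.ofReal_mul hs]
    rw [lintegral_const_mul' _ _ ENNReal.ofReal_ne_top]
    exact mul_le_mul_right (hC.iter_error hW hA0 hδ hδe hLe hθ hlip happ hquad _ _) _
  have hB : |P.γ| * (s * δ * M)
        + |P.γ| * A * (s * ((2 * (|Γ| * s) * (A * δe + δ) + 5 * θ ^ P.iter) * M))
      ≤ |P.γ| * s * (A * δe + 2 * δ + 5 * A * θ ^ P.iter) * M := by
    have h1 : A * (|Γ| * s) ≤ 1 / 2 := by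
      refine le_trans ?_ hθ
      rw [hΓ, abs_mul, abs_of_nonneg (Real.sqrt_nonneg 2), mul_comm A]
      exact le_mul_of_one_le_right (by positivity) (by linarith)
    have h2 := mul_le_mul_of_nonneg_right h1
      (show 0 ≤ |P.γ| * s * (2 * (A * δe + δ)) * M by positivity)
    nlinarith
  set B := |P.γ| * s * (A * δe + 2 * δ + 5 * A * θ ^ P.iter) * M
  have hB0 : 0 ≤ B := by positivity
  replace hd := hd.trans (ENNReal.ofReal_le_ofReal hB)
  set h := sm (1 / 2) φ
  have hh : Lip1 h := lip_sm hφ _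
  have hdm : AEStronglyMeasurable (fun q => a q - (Real.sqrt 2)⁻¹ • T q.1) (μ.prod ν) :=
    ham.aestronglyMeasurable.sub ((hTm.comp_fst (ν := ν)).aestronglyMeasurable.const_smul (Real.sqrt 2)⁻¹)
  have hdi : Integrable (fun q => ‖a q - (Real.sqrt 2)⁻¹ • T q.1‖) (μ.prod ν) :=
    (lintegral_ofReal_ne_top_iff_integrable hdm.norm
      (Eventually.of_forall fun q => norm_nonneg _)).1 (ne_top_of_le_ne_top ENNReal.ofReal_ne_top hd)
  have hsub : ∀ q, |h (a q) - h ((Real.sqrt 2)⁻¹ • T q.1)| ≤ ‖a q - (Real.sqrt 2)⁻¹ • T q.1‖ :=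
    fun q => by simpa using hh.norm_sub_le (a q) ((Real.sqrt 2)⁻¹ • T q.1)
  have hai : Integrable (fun q => h (a q)) (μ.prod ν) := by
    have : Integrable (fun q => h (a q) - h ((Real.sqrt 2)⁻¹ • T q.1)) (μ.prod ν) :=
      hdi.mono' ((hh.continuous.comp ham).aestronglyMeasurable.sub hTi.aestronglyMeasurable)
        (Eventually.of_forall hsub)
    simpa using this.fun_add hTi
  have hL : ∫ y, (∫ z, (∫ u, sm (1 / 2) φ
          (outMean (Gt U g P.ε) (stage P) P.γ (P.ρ * P.τ) (oPoint c y z u)) ∂ν) ∂gam d)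
            ∂lawY U P.ε P.τ (P.ρ * P.τ) c = ∫ q, h (a q) ∂μ.prod ν := by
    rw [show lawY U P.ε P.τ (P.ρ * P.τ) c = _ from lawY_eq_law (D := D) hq1p hq1sq rfl,
      integral_prod _ hai, integral_prod _ hai.integral_prod_left]
    exact MeasurableEmbedding.integral_map
      ((Homeomorph.smulOfNeZero P.q₁ hq1p.ne').trans (Homeomorph.addLeft c)).measurableEmbedding _
  rw [hL, ← hTv, ← integral_sub hai hTi]
  refine abs_integral_le_integral_abs.trans ((integral_mono_of_nonneg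
    (Eventually.of_forall fun q => abs_nonneg _) hdi (Eventually.of_forall hsub)).trans ?_)
  rw [← ENNReal.ofReal_le_ofReal_iff hB0, ofReal_integral_eq_lintegral_ofReal hdi
    (Eventually.of_forall fun q => norm_nonneg _)]
  exact hd

end Build

end Vale.Agent.P347.Gamma0
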