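import Vale.Agent.P347.Gamma0.Interface

/-!
P347, towards `γ_* = 0`, piece 3: Taylor remainders in quadratic mean, integration matrices and
extraction of Taylor coefficients.
-/

namespace Vale.Agent.P347.Gamma0

open MeasureTheory Finset
open scoped ENNReal

/-- Weights on distinct nodes with prescribed moments. -/
lemma exists_weights {n : ℕ} {x : Fin n → ℝ} (hx : Function.Injective x) (b : Fin n → ℝ) :
    ∃ w : Fin n → ℝ, ∀ k : Fin n, ∑ j, w j * x j ^ (k : ℕ) = b k := by
  have hu : IsUnit (Matrix.vandermonde x).transpose := by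
    rw [Matrix.isUnit_iff_isUnit_det, Matrix.det_transpose, isUnit_iff_ne_zero]
    exact Matrix.det_vandermonde_ne_zero_iff.2 hx
  obtain ⟨w, hw⟩ := Matrix.mulVec_surjective_iff_isUnit.2 hu b
  refine ⟨w, fun k => ?_⟩
  rw [← hw]
  simp [Matrix.mulVec, dotProduct, Matrix.vandermonde, mul_comm]

lemma diffAt_iteratedDeriv {d n k : ℕ} {f : ℝ → E d} {t : ℝ} (hf : ContDiffAt ℝ n f t)
    (hk : k < n) : DifferentiableAt ℝ (iteratedDeriv k f) t := by
  rw [iteratedDeriv_eq_equiv_comp]
  exact (LinearIsometryEquiv.comp_differentiableAt_iff _).2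
    (hf.differentiableAt_iteratedFDeriv (by exact_mod_cast hk))

lemma contAt_iteratedDeriv {d n k : ℕ} {f : ℝ → E d} {t : ℝ} (hf : ContDiffAt ℝ n f t)
    (hk : k ≤ n) : ContinuousAt (iteratedDeriv k f) t := by
  rw [iteratedDeriv_eq_equiv_comp]
  exact (LinearIsometryEquiv.continuous _).continuousAt.comp
    (hf.continuousAt_iteratedFDeriv (by exact_mod_cast hk))

/-- Taylor's remainder on an interval is bounded by one function that is small in quadratic mean. -/
lemma taylor_ms {Ω : Type*} [MeasurableSpace Ω] (μ : Measure Ω) [SFinite μ] {d : ℕ}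
    {f : ℝ → Ω → E d} {a b M : ℝ} (hab : a < b) (m : ℕ)
    (hf : ∀ z, ∀ t ∈ Set.Icc a b, ContDiffAt ℝ (m + 1 : ℕ) (fun u => f u z) t)
    (hfm : Measurable (fun p : ℝ × Ω => f p.1 p.2))
    (hM : ∀ t ∈ Set.Icc a b, ∫⁻ z, ‖iteratedDeriv (m + 1) (fun u => f u z) t‖ₑ ^ 2 ∂μ
      ≤ ENNReal.ofReal (M ^ 2)) :
    ∃ D : Ω → ℝ, (∀ z, 0 ≤ D z) ∧
      (∫⁻ z, ENNReal.ofReal (D z ^ 2) ∂μ ≤ ENNReal.ofReal (((b - a) * M) ^ 2)) ∧
      ∀ z, ∀ t ∈ Set.Icc a b,
        ‖f t z - ∑ k ∈ range (m + 1),
          ((t - a) ^ k / (k.factorial : ℝ)) • iteratedDeriv k (fun u => f u z) a‖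
          ≤ (b - a) ^ m * D z := by
  -- every derivative is measurable in `z` at every point of the interval
  have hmeas : ∀ k ≤ m + 1, ∀ t ∈ Set.Icc a b,
      Measurable fun z => iteratedDeriv k (fun u => f u z) t := by
    intro k
    induction k with
    | zero =>
      intro _ t _
      have h := hfm.comp ((measurable_const (a := t)).prodMk (measurable_id (α := Ω)))
      simpa only [iteratedDeriv_zero, Function.comp_def, id] using h
    | succ k ih =>
      intro hk t ht
      obtain ⟨e, he, hne, hin⟩ : ∃ e : ℕ → ℝ, Filter.Tendsto e Filter.atTop (nhds t) ∧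
          (∀ j, e j ≠ t) ∧ ∀ j, e j ∈ Set.Icc a b := by
        have hz : Filter.Tendsto (fun j : ℕ => (b - a) / 2 * (1 / ((j : ℝ) + 1))) Filter.atTop
            (nhds 0) := by simpa using tendsto_one_div_add_atTop_nhds_zero_nat.const_mul ((b - a) / 2)
        have hp : ∀ j : ℕ, 0 < (b - a) / 2 * (1 / ((j : ℝ) + 1)) ∧
            (b - a) / 2 * (1 / ((j : ℝ) + 1)) ≤ (b - a) / 2 := fun j => by
          have : 1 / ((j : ℝ) + 1) ≤ 1 := by rw [div_le_one (by positivity)]; simp
          exact ⟨mul_pos (by linarith) (by positivity),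
            mul_le_of_le_one_right (by linarith) this⟩
        rcases le_total t ((a + b) / 2) with h | h
        · exact ⟨fun j => t + (b - a) / 2 * (1 / ((j : ℝ) + 1)), by simpa using hz.const_add t,
            fun j => by linarith [(hp j).1],
            fun j => ⟨by linarith [(hp j).1, ht.1], by linarith [(hp j).2]⟩⟩
        · exact ⟨fun j => t - (b - a) / 2 * (1 / ((j : ℝ) + 1)), by simpa using hz.const_sub t,
            fun j => by linarith [(hp j).1],
            fun j => ⟨by linarith [(hp j).2], by linarith [(hp j).1, ht.2]⟩⟩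
      have hsl : ∀ z, Filter.Tendsto (fun j => slope (iteratedDeriv k (fun u => f u z)) t (e j))
          Filter.atTop (nhds (iteratedDeriv (k + 1) (fun u => f u z) t)) := fun z => by
        rw [iteratedDeriv_succ]
        refine (hasDerivAt_iff_tendsto_slope.1 ?_).comp
          (tendsto_nhdsWithin_iff.2 ⟨he, Filter.Eventually.of_forall hne⟩)
        exact (diffAt_iteratedDeriv (hf z t ht) (by omega)).hasDerivAt
      refine measurable_of_tendsto_metrizable (fun j => ?_) (tendsto_pi_nhds.2 hsl)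
      simp only [slope, vsub_eq_sub]
      exact ((ih (by omega) (e j) (hin j)).sub (ih (by omega) t ht)).fun_const_smul (e j - t)⁻¹
  -- the top derivative, extended continuously outside the interval
  obtain ⟨G, hG⟩ : ∃ G : ℝ → Ω → E d, G = fun u z =>
      iteratedDeriv (m + 1) (fun u => f u z) (Set.projIcc a b hab.le u : ℝ) := ⟨_, rfl⟩
  have hGc : ∀ z, Continuous fun u => G u z := fun z => by
    have hc : ContinuousOn (iteratedDeriv (m + 1) fun u => f u z) (Set.Icc a b) := fun t ht =>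
      (contAt_iteratedDeriv (hf z t ht) le_rfl).continuousWithinAt
    rw [hG]
    exact hc.comp_continuous (continuous_subtype_val.comp continuous_projIcc) fun u =>
      (Set.projIcc a b hab.le u).2
  have hGm : Measurable fun p : ℝ × Ω => G p.1 p.2 :=
    measurable_uncurry_of_continuous_of_measurable (u := G) hGc fun u => by
      rw [hG]; exact hmeas _ le_rfl _ (Set.projIcc a b hab.le u).2
  have hGv : ∀ z, ∀ u ∈ Set.Icc a b, G u z = iteratedDeriv (m + 1) (fun u => f u z) u :=
    fun z u hu => by rw [hG]; simp only [Set.projIcc_of_mem hab.le hu]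
  refine ⟨fun z => ∫ u in a..b, ‖G u z‖, fun z =>
    intervalIntegral.integral_nonneg hab.le fun u _ => norm_nonneg _, ?_, ?_⟩
  · have hsq : ∀ z, ENNReal.ofReal ((∫ u in a..b, ‖G u z‖) ^ 2)
        ≤ ENNReal.ofReal (b - a) * ∫⁻ u in Set.Ioc a b, ‖G u z‖ₑ ^ 2 := by
      intro z
      obtain ⟨I, hI⟩ : ∃ I, I = ∫ u in a..b, ‖G u z‖ := ⟨_, rfl⟩
      have h1 : 0 ≤ ∫ u in a..b, (‖G u z‖ - I / (b - a)) ^ 2 :=
        intervalIntegral.integral_nonneg hab.le fun u _ => sq_nonneg _
      have hc : Continuous fun u => ‖G u z‖ := (hGc z).norm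
      simp only [sub_sq] at h1
      have i1 : IntervalIntegrable (fun u => ‖G u z‖ ^ 2) volume a b :=
        (hc.pow 2).intervalIntegrable _ _
      have i2 : IntervalIntegrable (fun u => 2 * ‖G u z‖ * (I / (b - a))) volume a b :=
        ((continuous_const.mul hc).mul continuous_const).intervalIntegrable _ _
      rw [intervalIntegral.integral_add (i1.sub i2) intervalIntegrable_const,
        intervalIntegral.integral_sub i1 i2,
        intervalIntegral.integral_mul_const, intervalIntegral.integral_const_mul,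
        intervalIntegral.integral_const, ← hI, smul_eq_mul] at h1
      have h2 : I ^ 2 ≤ (b - a) * ∫ u in a..b, ‖G u z‖ ^ 2 := by
        have hb : b - a ≠ 0 := by linarith
        have e : 2 * I * (I / (b - a)) - (b - a) * (I / (b - a)) ^ 2 = I ^ 2 / (b - a) := by
          field_simp; ring
        have : I ^ 2 / (b - a) ≤ ∫ u in a..b, ‖G u z‖ ^ 2 := by linarith
        rwa [div_le_iff₀' (by linarith)] at this
      rw [hI] at h2
      refine (ENNReal.ofReal_le_ofReal h2).trans (le_of_eq ?_)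
      rw [ENNReal.ofReal_mul (by linarith), intervalIntegral.integral_of_le hab.le,
        ofReal_integral_eq_lintegral_ofReal (f := fun u => ‖G u z‖ ^ 2) i1.1
          (ae_of_all _ fun u => sq_nonneg _)]
      simp [ENNReal.ofReal_pow, ofReal_norm]
    have hm2 : Measurable fun p : ℝ × Ω => ‖G p.1 p.2‖ₑ ^ 2 := hGm.enorm.pow_const 2
    calc ∫⁻ z, ENNReal.ofReal ((∫ u in a..b, ‖G u z‖) ^ 2) ∂μ
        ≤ ∫⁻ z, ENNReal.ofReal (b - a) * (∫⁻ u in Set.Ioc a b, ‖G u z‖ₑ ^ 2) ∂μ :=
          lintegral_mono hsq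
      _ = ENNReal.ofReal (b - a) * ∫⁻ u in Set.Ioc a b, ∫⁻ z, ‖G u z‖ₑ ^ 2 ∂μ := by
          rw [lintegral_const_mul' _ _ ENNReal.ofReal_ne_top, lintegral_lintegral_swap]
          exact (hm2.comp measurable_swap).aemeasurable
      _ ≤ ENNReal.ofReal (b - a) * ∫⁻ _ in Set.Ioc a b, ENNReal.ofReal (M ^ 2) := by
          gcongr 1
          refine setLIntegral_mono measurable_const fun u hu => ?_
          simp only [hGv _ u (Set.Ioc_subset_Icc_self hu)]
          exact hM u (Set.Ioc_subset_Icc_self hu)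
      _ = ENNReal.ofReal (((b - a) * M) ^ 2) := by
          rw [setLIntegral_const, Real.volume_Ioc, ← ENNReal.ofReal_mul (sq_nonneg M),
            ← ENNReal.ofReal_mul (by linarith)]
          congr 1; ring
  · intro z t ht
    rcases eq_or_lt_of_le ht.1 with h | h
    · subst h
      rw [sum_range_succ']
      simpa using mul_nonneg (pow_nonneg (sub_nonneg.2 hab.le) m)
        (intervalIntegral.integral_nonneg hab.le fun u _ => norm_nonneg (G u z))
    have hu : Set.uIcc a t = Set.Icc a t := Set.uIcc_of_le ht.1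
    have hsub : Set.Icc a t ⊆ Set.Icc a b := Set.Icc_subset_Icc_right ht.2
    have hw : ∀ k ≤ m + 1, ∀ u ∈ Set.Icc a t, iteratedDerivWithin k (fun u => f u z) (Set.Icc a t) u
        = iteratedDeriv k (fun u => f u z) u := fun k hk u hu' =>
      iteratedDerivWithin_eq_iteratedDeriv (uniqueDiffOn_Icc h)
        ((hf z u (hsub hu')).of_le (by exact_mod_cast hk)) hu'
    have hrem := taylor_integral_remainder (f := fun u => f u z) (x := t) (x₀ := a) (n := m)
      (by rw [hu]; exact fun u hu' => (hf z u (hsub hu')).contDiffWithinAt)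
    rw [taylor_within_apply, hu] at hrem
    have e : ∑ k ∈ range (m + 1), ((k.factorial : ℝ)⁻¹ * (t - a) ^ k) •
          iteratedDerivWithin k (fun u => f u z) (Set.Icc a t) a
        = ∑ k ∈ range (m + 1),
          ((t - a) ^ k / (k.factorial : ℝ)) • iteratedDeriv k (fun u => f u z) a :=
      sum_congr rfl fun k hk => by
        rw [hw k (by simp at hk; omega) a ⟨le_rfl, ht.1⟩, div_eq_inv_mul]
    rw [e] at hrem
    rw [hrem]
    have hc : Continuous fun u => ‖G u z‖ := (hGc z).norm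
    refine (intervalIntegral.norm_integral_le_of_norm_le ht.1 (g := fun u => (b - a) ^ m * ‖G u z‖)
      (ae_of_all _ fun u hu' => ?_) ((continuous_const.mul hc).intervalIntegrable _ _)).trans ?_
    · have hu2 : u ∈ Set.Icc a t := Set.Ioc_subset_Icc_self hu'
      rw [norm_smul, hw _ le_rfl u hu2, ← hGv z u (hsub hu2), Real.norm_eq_abs, abs_div, abs_pow,
        Nat.abs_cast, abs_of_nonneg (sub_nonneg.2 hu2.2)]
      refine mul_le_mul_of_nonneg_right ((div_le_self (pow_nonneg (sub_nonneg.2 hu2.2) m)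
        (by exact_mod_cast Nat.factorial_pos m)).trans ?_) (norm_nonneg _)
      exact pow_le_pow_left₀ (sub_nonneg.2 hu2.2) (by linarith [hu2.1, ht.2]) m
    · rw [intervalIntegral.integral_const_mul]
      refine mul_le_mul_of_nonneg_left ?_ (pow_nonneg (sub_nonneg.2 hab.le) m)
      exact intervalIntegral.integral_mono_interval le_rfl ht.1 ht.2
        (ae_of_all _ fun u => norm_nonneg _) (hc.intervalIntegrable _ _)

lemma lintegral_sq_le {Ω : Type*} [MeasurableSpace Ω] (μ : Measure Ω) {d : ℕ} {F : Ω → E d}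
    {D : Ω → ℝ} {c B : ℝ} (_hc : 0 ≤ c) (hF : ∀ z, ‖F z‖ ≤ c * D z)
    (hB : ∫⁻ z, ENNReal.ofReal (D z ^ 2) ∂μ ≤ ENNReal.ofReal (B ^ 2)) :
    ∫⁻ z, ‖F z‖ₑ ^ 2 ∂μ ≤ ENNReal.ofReal ((c * B) ^ 2) := by
  calc ∫⁻ z, ‖F z‖ₑ ^ 2 ∂μ ≤ ∫⁻ z, ENNReal.ofReal (c ^ 2) * ENNReal.ofReal (D z ^ 2) ∂μ :=
        lintegral_mono fun z => by
          rw [← ENNReal.ofReal_mul (sq_nonneg c), ← mul_pow, ← ofReal_norm,
            ← ENNReal.ofReal_pow (norm_nonneg _)]
          exact ENNReal.ofReal_le_ofReal (pow_le_pow_left₀ (norm_nonneg _) (hF z) 2)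
    _ = ENNReal.ofReal (c ^ 2) * ∫⁻ z, ENNReal.ofReal (D z ^ 2) ∂μ :=
        lintegral_const_mul' _ _ ENNReal.ofReal_ne_top
    _ ≤ ENNReal.ofReal (c ^ 2) * ENNReal.ofReal (B ^ 2) := by gcongr
    _ = _ := by rw [← ENNReal.ofReal_mul (sq_nonneg c), mul_pow]

lemma node_injective (n : ℕ) : Function.Injective fun i : Fin n => ((i : ℕ) : ℝ) / n := by
  intro i j h
  have hn : (n : ℝ) ≠ 0 := by exact_mod_cast (lt_of_le_of_lt (Nat.zero_le _) i.2).ne'
  have h' : ((i : ℕ) : ℝ) = ((j : ℕ) : ℝ) := by simpa [hn] using h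
  exact Fin.ext (by exact_mod_cast h')

lemma node_mem (n : ℕ) (i : Fin n) : ((i : ℕ) : ℝ) / n ∈ Set.Icc (0 : ℝ) 1 :=
  ⟨by positivity, div_le_one_of_le₀ (by exact_mod_cast i.2.le) (by positivity)⟩

theorem intMatrix : IntMatrix := by
  intro n hn
  obtain ⟨m, rfl⟩ : ∃ m, n = m + 1 := ⟨n - 1, by omega⟩
  obtain ⟨x, hx⟩ : ∃ x : Fin (m + 1) → ℝ, x = fun i : Fin (m + 1) => ((i : ℕ) : ℝ) / ((m + 1 : ℕ) : ℝ) :=
    ⟨_, rfl⟩
  have hxm : ∀ i, x i ∈ Set.Icc (0 : ℝ) 1 := fun i => by rw [hx]; exact node_mem _ i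
  have hw : ∀ o : Option (Fin (m + 1)), ∃ w : Fin (m + 1) → ℝ, ∀ k : Fin (m + 1),
      ∑ j, w j * x j ^ (k : ℕ) = o.elim 1 x ^ ((k : ℕ) + 1) / ((k : ℕ) + 1) := fun o =>
    exists_weights (by rw [hx]; exact node_injective _) _
  choose w hw using hw
  have hW : ∀ o, ∑ j, |w o j| ≤ ∑ o', ∑ j, |w o' j| := fun o =>
    single_le_sum (f := fun o' => ∑ j, |w o' j|) (fun o' _ => by positivity) (mem_univ o)
  refine ⟨1 + ∑ o, ∑ j, |w o j|, by positivity, x, w, hxm,
    fun o => (hW o).trans (le_add_of_nonneg_left zero_le_one), ?_⟩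
  intro Ω _ μ _ d f s h M hh hM0 hf hfm hM o
  rcases eq_or_lt_of_le hh with rfl | hh'
  · simp
  obtain ⟨D, hD0, hD2, hT⟩ := taylor_ms μ (lt_add_of_pos_right s hh') m hf hfm hM
  simp only [add_sub_cancel_left] at hD2 hT
  obtain ⟨y, hy⟩ : ∃ y, y = o.elim 1 x := ⟨_, rfl⟩
  have hy01 : y ∈ Set.Icc (0 : ℝ) 1 := by
    rw [hy]; cases o with
    | none => simp
    | some i => exact hxm i
  refine (lintegral_sq_le μ (c := (1 + ∑ o', ∑ j, |w o' j|) * h ^ (m + 1)) (B := h * M)
    (by positivity) (fun z => ?_) hD2).trans (le_of_eq (by ring_nf))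
  obtain ⟨P, hP⟩ : ∃ P : ℝ → E d, P = fun t => ∑ k ∈ range (m + 1),
      ((t - s) ^ k / (k.factorial : ℝ)) • iteratedDeriv k (fun u => f u z) s := ⟨_, rfl⟩
  have hPc : Continuous P := by rw [hP]; fun_prop
  have hsy : s ≤ s + h * y := le_add_of_nonneg_right (mul_nonneg hh hy01.1)
  have hsub : Set.Icc s (s + h * y) ⊆ Set.Icc s (s + h) :=
    Set.Icc_subset_Icc_right (by nlinarith [hy01.2])
  have hfi : IntervalIntegrable (fun t => f t z) volume s (s + h * y) :=
    ContinuousOn.intervalIntegrable_of_Icc hsy fun t ht =>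
      (hf z t (hsub ht)).continuousAt.continuousWithinAt
  have hex : (∫ t in s..(s + h * y), P t) = h • ∑ j, w o j • P (s + h * x j) := by
    have hci : ∀ k : ℕ, IntervalIntegrable
        (fun t => ((t - s) ^ k / (k.factorial : ℝ)) • iteratedDeriv k (fun u => f u z) s)
        volume s (s + h * y) := fun k => (Continuous.intervalIntegrable (by fun_prop) _ _)
    simp only [hP, add_sub_cancel_left]
    rw [intervalIntegral.integral_finsetSum fun k _ => hci k]
    simp only [smul_sum, smul_smul]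
    rw [sum_comm (s := univ)]
    refine sum_congr rfl fun k hk => ?_
    rw [intervalIntegral.integral_smul_const, ← sum_smul]
    congr 1
    rw [intervalIntegral.integral_div,
      intervalIntegral.integral_comp_sub_right (fun t => t ^ k) s]
    have e := hw o ⟨k, mem_range.1 hk⟩
    rw [← hy] at e
    have e2 : ∑ j, h * (w o j * ((h * x j) ^ k / (k.factorial : ℝ)))
        = h ^ (k + 1) / (k.factorial : ℝ) * ∑ j, w o j * x j ^ k := by
      rw [mul_sum]; exact sum_congr rfl fun j _ => by ring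
    rw [e2, e]
    simp only [sub_self, add_sub_cancel_left, integral_pow]
    rw [zero_pow (Nat.succ_ne_zero k)]
    ring
  have hint : ‖∫ t in s..(s + h * y), (f t z - P t)‖ ≤ h ^ (m + 1) * D z := by
    refine (intervalIntegral.norm_integral_le_of_norm_le_const (C := h ^ m * D z)
      fun t ht => ?_).trans ?_
    · rw [Set.uIoc_of_le hsy] at ht
      rw [hP]; exact hT z t (hsub (Set.Ioc_subset_Icc_self ht))
    · rw [add_sub_cancel_left, abs_of_nonneg (mul_nonneg hh hy01.1)]
      calc h ^ m * D z * (h * y) ≤ h ^ m * D z * (h * 1) := by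
            have := hD0 z; gcongr; exact hy01.2
        _ = _ := by ring
  have hsum : ‖h • ∑ j, w o j • (f (s + h * x j) z - P (s + h * x j))‖
      ≤ (∑ o', ∑ j, |w o' j|) * (h ^ (m + 1) * D z) := by
    rw [norm_smul, Real.norm_of_nonneg hh]
    calc h * ‖∑ j, w o j • (f (s + h * x j) z - P (s + h * x j))‖
        ≤ h * ∑ j, |w o j| * (h ^ m * D z) := by
          gcongr
          refine (norm_sum_le _ _).trans (sum_le_sum fun j _ => ?_)
          rw [norm_smul, Real.norm_eq_abs]
          refine mul_le_mul_of_nonneg_left ?_ (abs_nonneg _)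
          rw [hP]
          exact hT z _ ⟨le_add_of_nonneg_right (mul_nonneg hh (hxm j).1),
            by nlinarith [(hxm j).2]⟩
      _ = (∑ j, |w o j|) * (h ^ (m + 1) * D z) := by rw [← sum_mul]; ring
      _ ≤ _ := by gcongr; · exact mul_nonneg (by positivity) (hD0 z)
                  · exact hW o
  simp only [← hy]
  have esplit : (∫ t in s..(s + h * y), f t z) - h • ∑ j, w o j • f (s + h * x j) z
      = (∫ t in s..(s + h * y), (f t z - P t))
        - h • ∑ j, w o j • (f (s + h * x j) z - P (s + h * x j)) := by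
    rw [intervalIntegral.integral_sub hfi (hPc.intervalIntegrable _ _), hex]
    simp only [smul_sub, sum_sub_distrib]
    abel
  rw [esplit]
  calc _ ≤ _ := norm_sub_le _ _
    _ ≤ h ^ (m + 1) * D z + (∑ o', ∑ j, |w o' j|) * (h ^ (m + 1) * D z) := add_le_add hint hsum
    _ = _ := by ring

theorem richardson : Richardson := by
  intro n N hnN
  obtain ⟨m, rfl⟩ : ∃ m, N = m + 1 := ⟨N - 1, by omega⟩
  obtain ⟨x, hx⟩ : ∃ x : Fin (m + 1) → ℝ, x = fun i : Fin (m + 1) => ((i : ℕ) : ℝ) / ((m + 1 : ℕ) : ℝ) :=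
    ⟨_, rfl⟩
  have hxm : ∀ i, x i ∈ Set.Icc (0 : ℝ) 1 := fun i => by rw [hx]; exact node_mem _ i
  obtain ⟨w, hw⟩ := exists_weights (x := x) (by rw [hx]; exact node_injective _)
    fun k : Fin (m + 1) => if (k : ℕ) = n then 1 else 0
  refine ⟨∑ i, |w i|, by positivity, x, w,
    fun i => abs_le.2 ⟨by linarith [(hxm i).1], (hxm i).2⟩, le_rfl, ?_⟩
  intro Ω _ μ _ d f θ M hθ hM0 hf hfm hM
  have hs : Set.Icc (0 : ℝ) θ ⊆ Set.Icc (-θ) θ := Set.Icc_subset_Icc_left (by linarith)
  obtain ⟨D, hD0, hD2, hT⟩ :=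
    taylor_ms μ hθ m (fun z t ht => hf z t (hs ht)) hfm (fun t ht => hM t (hs ht))
  simp only [sub_zero] at hD2 hT
  refine (lintegral_sq_le μ (c := (∑ i, |w i|) * θ ^ m) (B := θ * M)
    (by positivity) (fun z => ?_) hD2).trans (le_of_eq (by ring_nf))
  have hex : (θ ^ n / (n.factorial : ℝ)) • iteratedDeriv n (fun u => f u z) 0
      = ∑ i, w i • ∑ k ∈ range (m + 1),
        ((θ * x i) ^ k / (k.factorial : ℝ)) • iteratedDeriv k (fun u => f u z) 0 := by
    simp only [smul_sum, smul_smul]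
    rw [sum_comm]
    simp only [← sum_smul]
    have e : ∀ k ∈ range (m + 1), ∑ i, w i * ((θ * x i) ^ k / (k.factorial : ℝ))
        = if k = n then θ ^ k / (k.factorial : ℝ) else 0 := fun k hk => by
      have e2 : ∑ i, w i * ((θ * x i) ^ k / (k.factorial : ℝ))
          = θ ^ k / (k.factorial : ℝ) * ∑ i, w i * x i ^ k := by
        rw [mul_sum]; exact sum_congr rfl fun i _ => by ring
      rw [e2, hw ⟨k, mem_range.1 hk⟩]
      simp
    rw [sum_congr rfl fun k hk => by rw [e k hk]]
    simp [ite_smul, hnN]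
  rw [hex, ← sum_sub_distrib]
  refine (norm_sum_le _ _).trans ?_
  calc ∑ i, ‖w i • f (θ * x i) z - w i • ∑ k ∈ range (m + 1),
        ((θ * x i) ^ k / (k.factorial : ℝ)) • iteratedDeriv k (fun u => f u z) 0‖
      ≤ ∑ i, |w i| * (θ ^ m * D z) := sum_le_sum fun i _ => by
        rw [← smul_sub, norm_smul, Real.norm_eq_abs]
        exact mul_le_mul_of_nonneg_left (hT z _ ⟨mul_nonneg hθ.le (hxm i).1,
          by nlinarith [(hxm i).2]⟩) (abs_nonneg _)
    _ = _ := by rw [← sum_mul]; ring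


end Vale.Agent.P347.Gamma0
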