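import Vale.Agent.P347.Gamma0.Build
import Vale.Agent.P347.Gamma0.Quad

/-!
P347, Gamma0: a composite grid geometric towards the end of `[0, sqrt (τ - σ τ)]`, with positive
nodes, and the abstract compiled Picard lemma.
-/

namespace Vale.Agent.P347.Gamma0.Picard

open MeasureTheory Finset
open scoped ENNReal

/-- The nodes `(i + 1) / (n + 1)`. -/
noncomputable def posNode (n : ℕ) (i : Fin n) : ℝ := ((i : ℕ) + 1 : ℝ) / ((n : ℝ) + 1)

theorem posNode_mem (n : ℕ) (i : Fin n) : posNode n i ∈ Set.Icc (0 : ℝ) 1 := by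
  refine ⟨by unfold posNode; positivity, ?_⟩
  rw [posNode, div_le_one (by positivity)]
  have : ((i : ℕ) : ℝ) ≤ (n : ℝ) := by exact_mod_cast i.2.le
  linarith

theorem le_posNode (n : ℕ) (i : Fin n) : 1 / ((n : ℝ) + 1) ≤ posNode n i := by
  rw [posNode]
  gcongr
  simp

theorem posNode_injective (n : ℕ) : Function.Injective (posNode n) := by
  intro i j h
  have hn : (n : ℝ) + 1 ≠ 0 := by positivity
  have h' : ((i : ℕ) : ℝ) = ((j : ℕ) : ℝ) := by simpa [posNode, hn] using h
  exact Fin.ext (by exact_mod_cast h')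

/-- `IntMatrix` with nodes bounded away from zero. -/
theorem intMatrix_pos : ∀ n : ℕ, 1 ≤ n → ∃ C : ℝ, 0 ≤ C ∧
    ∃ (x : Fin n → ℝ) (w : Option (Fin n) → Fin n → ℝ),
    (∀ i, x i ∈ Set.Icc (0 : ℝ) 1) ∧ (∀ i, 1 / ((n : ℝ) + 1) ≤ x i) ∧ (∀ o, ∑ j, |w o j| ≤ C) ∧
    ∀ (Ω : Type) [MeasurableSpace Ω] (μ : Measure Ω) [IsProbabilityMeasure μ] (d : ℕ)
      (f : ℝ → Ω → E d) (s h M : ℝ), 0 ≤ h → 0 ≤ M →
      (∀ z, ∀ t ∈ Set.Icc s (s + h), ContDiffAt ℝ n (fun u => f u z) t) →
      Measurable (fun p : ℝ × Ω => f p.1 p.2) →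
      (∀ t ∈ Set.Icc s (s + h), ∫⁻ z, ‖iteratedDeriv n (fun u => f u z) t‖ₑ ^ 2 ∂μ
        ≤ ENNReal.ofReal (M ^ 2)) →
      ∀ o, ∫⁻ z, ‖(∫ t in s..(s + h * o.elim 1 x), f t z)
          - h • ∑ j, w o j • f (s + h * x j) z‖ₑ ^ 2 ∂μ
        ≤ ENNReal.ofReal ((C * h ^ (n + 1) * M) ^ 2) := by
  intro n hn
  obtain ⟨m, rfl⟩ : ∃ m, n = m + 1 := ⟨n - 1, by omega⟩
  obtain ⟨x, hx⟩ : ∃ x : Fin (m + 1) → ℝ, x = posNode (m + 1) := ⟨_, rfl⟩
  have hxm : ∀ i, x i ∈ Set.Icc (0 : ℝ) 1 := fun i => by rw [hx]; exact posNode_mem _ i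
  have hw : ∀ o : Option (Fin (m + 1)), ∃ w : Fin (m + 1) → ℝ, ∀ k : Fin (m + 1),
      ∑ j, w j * x j ^ (k : ℕ) = o.elim 1 x ^ ((k : ℕ) + 1) / ((k : ℕ) + 1) := fun o =>
    exists_weights (by rw [hx]; exact posNode_injective _) _
  choose w hw using hw
  have hW : ∀ o, ∑ j, |w o j| ≤ ∑ o', ∑ j, |w o' j| := fun o =>
    single_le_sum (f := fun o' => ∑ j, |w o' j|) (fun o' _ => by positivity) (mem_univ o)
  refine ⟨1 + ∑ o, ∑ j, |w o j|, by positivity, x, w, hxm,
    fun i => by rw [hx]; exact le_posNode _ i, fun o => (hW o).trans (le_add_of_nonneg_left zero_le_one), ?_⟩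
  intro Ω _ μ _ d f s h M hh hM0 hf hfm hM o
  rcases eq_or_lt_of_le hh with rfl | hh'
  · simp
  obtain ⟨D, hD0, hD2, hT⟩ := taylor_ms μ (lt_add_of_pos_right s hh') m hf hfm hM
  simp only [add_sub_cancel_left] at hD2 hT
  obtain ⟨y, hy⟩ : ∃ y, y = o.elim 1 x := ⟨_, rfl⟩
  have hy01 : y ∈ Set.Icc (0 : ℝ) 1 := by
    rw [hy]; cases o with
    | none => simp
    | some i => exact hxm i
  refine (lintegral_sq_le μ (c := (1 + ∑ o', ∑ j, |w o' j|) * h ^ (m + 1)) (B := h * M)
    (by positivity) (fun z => ?_) hD2).trans (le_of_eq (by ring_nf))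
  obtain ⟨P, hP⟩ : ∃ P : ℝ → E d, P = fun t => ∑ k ∈ range (m + 1),
      ((t - s) ^ k / (k.factorial : ℝ)) • iteratedDeriv k (fun u => f u z) s := ⟨_, rfl⟩
  have hPc : Continuous P := by rw [hP]; fun_prop
  have hsy : s ≤ s + h * y := le_add_of_nonneg_right (mul_nonneg hh hy01.1)
  have hsub : Set.Icc s (s + h * y) ⊆ Set.Icc s (s + h) :=
    Set.Icc_subset_Icc_right (by nlinarith [hy01.2])
  have hfi : IntervalIntegrable (fun t => f t z) volume s (s + h * y) :=
    ContinuousOn.intervalIntegrable_of_Icc hsy fun t ht =>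
      (hf z t (hsub ht)).continuousAt.continuousWithinAt
  have hex : (∫ t in s..(s + h * y), P t) = h • ∑ j, w o j • P (s + h * x j) := by
    have hci : ∀ k : ℕ, IntervalIntegrable
        (fun t => ((t - s) ^ k / (k.factorial : ℝ)) • iteratedDeriv k (fun u => f u z) s)
        volume s (s + h * y) := fun k => (Continuous.intervalIntegrable (by fun_prop) _ _)
    simp only [hP, add_sub_cancel_left]
    rw [intervalIntegral.integral_finsetSum fun k _ => hci k]
    simp only [smul_sum, smul_smul]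
    rw [sum_comm (s := univ)]
    refine sum_congr rfl fun k hk => ?_
    rw [intervalIntegral.integral_smul_const, ← sum_smul]
    congr 1
    rw [intervalIntegral.integral_div,
      intervalIntegral.integral_comp_sub_right (fun t => t ^ k) s]
    have e := hw o ⟨k, mem_range.1 hk⟩
    rw [← hy] at e
    have e2 : ∑ j, h * (w o j * ((h * x j) ^ k / (k.factorial : ℝ)))
        = h ^ (k + 1) / (k.factorial : ℝ) * ∑ j, w o j * x j ^ k := by
      rw [mul_sum]; exact sum_congr rfl fun j _ => by ring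
    rw [e2, e]
    simp only [sub_self, add_sub_cancel_left, integral_pow]
    rw [zero_pow (Nat.succ_ne_zero k)]
    ring
  have hint : ‖∫ t in s..(s + h * y), (f t z - P t)‖ ≤ h ^ (m + 1) * D z := by
    refine (intervalIntegral.norm_integral_le_of_norm_le_const (C := h ^ m * D z)
      fun t ht => ?_).trans ?_
    · rw [Set.uIoc_of_le hsy] at ht
      rw [hP]; exact hT z t (hsub (Set.Ioc_subset_Icc_self ht))
    · rw [add_sub_cancel_left, abs_of_nonneg (mul_nonneg hh hy01.1)]
      calc h ^ m * D z * (h * y) ≤ h ^ m * D z * (h * 1) := by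
            have := hD0 z; gcongr; exact hy01.2
        _ = _ := by ring
  have hsum : ‖h • ∑ j, w o j • (f (s + h * x j) z - P (s + h * x j))‖
      ≤ (∑ o', ∑ j, |w o' j|) * (h ^ (m + 1) * D z) := by
    rw [norm_smul, Real.norm_of_nonneg hh]
    calc h * ‖∑ j, w o j • (f (s + h * x j) z - P (s + h * x j))‖
        ≤ h * ∑ j, |w o j| * (h ^ m * D z) := by
          gcongr
          refine (norm_sum_le _ _).trans (sum_le_sum fun j _ => ?_)
          rw [norm_smul, Real.norm_eq_abs]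
          refine mul_le_mul_of_nonneg_left ?_ (abs_nonneg _)
          rw [hP]
          exact hT z _ ⟨le_add_of_nonneg_right (mul_nonneg hh (hxm j).1),
            by nlinarith [(hxm j).2]⟩
      _ = (∑ j, |w o j|) * (h ^ (m + 1) * D z) := by rw [← sum_mul]; ring
      _ ≤ _ := by gcongr; · exact mul_nonneg (by positivity) (hD0 z)
                  · exact hW o
  simp only [← hy]
  have esplit : (∫ t in s..(s + h * y), f t z) - h • ∑ j, w o j • f (s + h * x j) z
      = (∫ t in s..(s + h * y), (f t z - P t))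
        - h • ∑ j, w o j • (f (s + h * x j) z - P (s + h * x j)) := by
    rw [intervalIntegral.integral_sub hfi (hPc.intervalIntegrable _ _), hex]
    simp only [smul_sub, sum_sub_distrib]
    abel
  rw [esplit]
  calc _ ≤ _ := norm_sub_le _ _
    _ ≤ h ^ (m + 1) * D z + (∑ o', ∑ j, |w o' j|) * (h ^ (m + 1) * D z) := add_le_add hint hsum
    _ = _ := by ring

/-- A bound of the mean square. -/
def L2le {Ω : Type*} [MeasurableSpace Ω] {V : Type*} [NormedAddCommGroup V] (μ : Measure Ω)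
    (F : Ω → V) (B : ℝ) : Prop :=
  ∫⁻ z, ‖F z‖ₑ ^ 2 ∂μ ≤ ENNReal.ofReal (B ^ 2)

variable {Ω : Type*} [MeasurableSpace Ω] {μ : Measure Ω} {V : Type*} [NormedAddCommGroup V]

theorem L2le.mono {F : Ω → V} {A B : ℝ} (h : L2le μ F A) (hA : 0 ≤ A) (hAB : A ≤ B) :
    L2le μ F B :=
  le_trans h (ENNReal.ofReal_le_ofReal (pow_le_pow_left₀ hA hAB 2))

theorem L2le.congr_norm_le {V' : Type*} [NormedAddCommGroup V'] {F : Ω → V} {G : Ω → V'} {A : ℝ}
    (h : L2le μ F A) (hle : ∀ z, ‖G z‖ ≤ ‖F z‖) : L2le μ G A := by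
  refine le_trans (lintegral_mono fun z => ?_) h
  gcongr
  exact enorm_le_iff_norm_le.2 (hle z)

/-- Minkowski's inequality for finitely many functions, with weights. -/
theorem L2le.sum {ι : Type*} [Fintype ι] {F : ι → Ω → V} {b : ι → ℝ} {c : ℝ}
    (hF : ∀ i, AEStronglyMeasurable (F i) μ) (hb : ∀ i, 0 < b i) (_hc : 0 ≤ c)
    (h : ∀ i, L2le μ (F i) (c * b i)) : L2le μ (fun z => ∑ i, F i z) (c * ∑ i, b i) := by
  rcases isEmpty_or_nonempty ι with hι | hι
  · simp [L2le]
  have hS : 0 < ∑ i, b i := sum_pos (fun i _ => hb i) univ_nonempty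
  unfold L2le
  calc ∫⁻ z, ‖∑ i, F i z‖ₑ ^ 2 ∂μ
      ≤ ∫⁻ z, ∑ i, ENNReal.ofReal ((∑ k, b k) / b i) * ‖F i z‖ₑ ^ 2 ∂μ := by
        refine lintegral_mono fun z => ?_
        simp only [← ofReal_norm, ← ENNReal.ofReal_pow (norm_nonneg _)]
        simp only [← ENNReal.ofReal_mul (div_nonneg hS.le (hb _).le)]
        rw [← ENNReal.ofReal_sum_of_nonneg fun i _ =>
          mul_nonneg (div_nonneg hS.le (hb i).le) (sq_nonneg _)]
        refine ENNReal.ofReal_le_ofReal ?_
        calc ‖∑ i, F i z‖ ^ 2 ≤ (∑ i, ‖F i z‖) ^ 2 :=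
              pow_le_pow_left₀ (norm_nonneg _) (norm_sum_le _ _) 2
          _ ≤ (∑ k, b k) * ∑ i, ‖F i z‖ ^ 2 / b i := by
              have := sq_sum_div_le_sum_sq_div univ (fun i => ‖F i z‖) fun i _ => hb i
              rw [div_le_iff₀ hS] at this
              linarith
          _ = ∑ i, (∑ k, b k) / b i * ‖F i z‖ ^ 2 := by
              rw [mul_sum]
              exact sum_congr rfl fun i _ => by ring
    _ = ∑ i, ENNReal.ofReal ((∑ k, b k) / b i) * ∫⁻ z, ‖F i z‖ₑ ^ 2 ∂μ := by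
        rw [lintegral_finsetSum' _ fun i _ => ((hF i).enorm.pow_const 2).const_mul _]
        exact sum_congr rfl fun i _ => lintegral_const_mul' _ _ ENNReal.ofReal_ne_top
    _ ≤ ∑ i, ENNReal.ofReal ((∑ k, b k) / b i) * ENNReal.ofReal ((c * b i) ^ 2) := by
        gcongr with i
        exact h i
    _ = ENNReal.ofReal ((c * ∑ i, b i) ^ 2) := by
        simp only [← ENNReal.ofReal_mul (div_nonneg hS.le (hb _).le)]
        rw [← ENNReal.ofReal_sum_of_nonneg fun i _ =>
          mul_nonneg (div_nonneg hS.le (hb i).le) (sq_nonneg _)]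
        congr 1
        rw [show (c * ∑ i, b i) ^ 2 = ∑ i, c ^ 2 * (∑ k, b k) * b i by
          rw [← mul_sum]; ring]
        refine sum_congr rfl fun i _ => ?_
        field_simp [(hb i).ne']

theorem L2le.add {F G : Ω → V} {A B : ℝ} (hF : AEStronglyMeasurable F μ)
    (hG : AEStronglyMeasurable G μ) (hA : 0 < A) (hB : 0 < B) (h1 : L2le μ F A) (h2 : L2le μ G B) :
    L2le μ (fun z => F z + G z) (A + B) := by
  have := L2le.sum (μ := μ) (F := fun i : Bool => if i then F else G) (c := 1)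
    (b := fun i : Bool => if i then A else B) (fun i => by cases i <;> simp [hF, hG])
    (fun i => by cases i <;> simp [hA, hB]) zero_le_one (fun i => by cases i <;> simp [h1, h2])
  simpa [Fintype.sum_bool] using this

/-- Sum over panels: the full ones, the partial one, and nothing beyond it. -/
theorem sum_panels {A : Type*} [AddCommMonoid A] {P k : ℕ} (hk : k < P) (f : ℕ → A) (g : A) :
    (∑ i : Fin P, if (i : ℕ) < k then f i else if (i : ℕ) = k then g else 0)
      = (∑ i ∈ range k, f i) + g := by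
  rw [Fin.sum_univ_eq_sum_range fun i => if i < k then f i else if i = k then g else 0]
  rw [← sum_range_add_sum_Ico _ hk.le]
  congr 1
  · exact sum_congr rfl fun i hi => if_pos (mem_range.1 hi)
  · rw [sum_eq_single k]
    · simp
    · intro i hi hne
      simp at hi
      simp [hne, hi.1.not_gt]
    · intro h
      simp [hk] at h

/-- Error of the composite rule against a smooth family. -/
def GridAcc (n : ℕ) {M : ℕ} (G : Build.Grid M) (T : ℝ) (P : ℕ) (p : ℕ → ℝ) (C : ℝ) : Prop :=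
  ∀ (Ω : Type) [MeasurableSpace Ω] (μ : Measure Ω) [IsProbabilityMeasure μ] (d : ℕ)
    (f : ℝ → Ω → E d) (D : ℕ → ℝ) (η : ℝ), 0 ≤ η →
    (∀ z, ∀ t ∈ Set.Icc 0 T, ContDiffAt ℝ n (fun u => f u z) t) →
    Measurable (fun q : ℝ × Ω => f q.1 q.2) →
    (∀ k < P, 0 ≤ D k ∧ (p (k + 1) - p k) ^ n * D k ≤ η ∧ ∀ t ∈ Set.Icc (p k) (p (k + 1)),
      L2le μ (fun z => iteratedDeriv n (fun u => f u z) t) (D k)) →
    ∀ o, L2le μ (fun z => (∫ t in (0 : ℝ)..(G.at' T o), f t z) - ∑ j, G.W o j • f (G.q j) z)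
      (C * η * T)

/-- The error of one rule on `[s, s + h]`, up to a node or the end. -/
noncomputable def panelErr {Ω : Type} {d n : ℕ} (xs : Fin n → ℝ)
    (ws : Option (Fin n) → Fin n → ℝ) (f : ℝ → Ω → E d) (s h : ℝ) (o : Option (Fin n))
    (z : Ω) : E d :=
  (∫ t in s..(s + h * o.elim 1 xs), f t z) - h • ∑ j, ws o j • f (s + h * xs j) z

theorem panelErr_meas {Ω : Type} [MeasurableSpace Ω] {μ : Measure Ω} {d n : ℕ} (xs : Fin n → ℝ)
    (ws : Option (Fin n) → Fin n → ℝ) {f : ℝ → Ω → E d}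
    (hfm : Measurable fun q : ℝ × Ω => f q.1 q.2) (s h : ℝ) (o : Option (Fin n)) :
    AEStronglyMeasurable (panelErr xs ws f s h o) μ := by
  refine StronglyMeasurable.aestronglyMeasurable ?_
  have hs : StronglyMeasurable fun q : Ω × ℝ => f q.2 q.1 :=
    (hfm.comp measurable_swap).stronglyMeasurable
  refine StronglyMeasurable.sub ?_ ?_
  · exact StronglyMeasurable.sub hs.integral_prod_right' hs.integral_prod_right'
  · exact (Measurable.stronglyMeasurable ((Finset.measurable_sum _ fun j _ =>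
      (hfm.comp (measurable_const.prodMk measurable_id)).const_smul (ws o j)).const_smul h))

/-- The composite grid of `n` positive nodes in each panel. -/
noncomputable def composite {n : ℕ} (xs : Fin n → ℝ) (ws : Option (Fin n) → Fin n → ℝ) (P : ℕ)
    (p : ℕ → ℝ) : Build.Grid (P * n) where
  q j := p (finProdFinEquiv.symm j).1 + (p ((finProdFinEquiv.symm j).1 + 1)
    - p (finProdFinEquiv.symm j).1) * xs (finProdFinEquiv.symm j).2
  W o j := (p ((finProdFinEquiv.symm j).1 + 1) - p (finProdFinEquiv.symm j).1) *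
    o.elim (ws none (finProdFinEquiv.symm j).2) fun i =>
      if ((finProdFinEquiv.symm j).1 : ℕ) < (finProdFinEquiv.symm i).1 then
        ws none (finProdFinEquiv.symm j).2
      else if ((finProdFinEquiv.symm j).1 : ℕ) = (finProdFinEquiv.symm i).1 then
        ws (some (finProdFinEquiv.symm i).2) (finProdFinEquiv.symm j).2 else 0

theorem p_mem {P : ℕ} {p : ℕ → ℝ} (hp0 : p 0 = 0) (hp : ∀ k < P, p k < p (k + 1)) {k : ℕ}
    (hk : k ≤ P) : p k ∈ Set.Icc 0 (p P) := by
  have mono : ∀ i j, i ≤ j → j ≤ P → p i ≤ p j := by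
    intro i j hij hj
    induction j, hij using Nat.le_induction with
    | base => rfl
    | succ j _ ih => exact (ih (by omega)).trans (hp j (by omega)).le
  exact ⟨hp0 ▸ mono 0 k (Nat.zero_le k) hk, mono k P hk le_rfl⟩

theorem composite_ok {n : ℕ} {xs : Fin n → ℝ} {ws : Option (Fin n) → Fin n → ℝ} {C₀ : ℝ}
    (hC₀ : 0 ≤ C₀) (hxs : ∀ i, xs i ∈ Set.Icc (0 : ℝ) 1) (hlow : ∀ i, 1 / ((n : ℝ) + 1) ≤ xs i)
    (hws : ∀ o, ∑ j, |ws o j| ≤ C₀) {P : ℕ} {p : ℕ → ℝ} (hp0 : p 0 = 0)
    (hp : ∀ k < P, p k < p (k + 1)) :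
    (∀ j, 0 < (composite xs ws P p).q j ∧ (composite xs ws P p).q j ≤ p P) ∧
      (∀ o, ∑ j, |(composite xs ws P p).W o j| ≤ C₀ * p P) ∧
      ∀ o, ∑ j, |(composite xs ws P p).W o j| / (composite xs ws P p).q j
        ≤ (P : ℝ) * (((n : ℝ) + 1) * C₀) := by
  have hh : ∀ k : Fin P, 0 < p (k + 1) - p k := fun k => sub_pos.2 (hp k k.2)
  have hnode : ∀ (k : Fin P) i, (p (k + 1) - p k) / ((n : ℝ) + 1)
      ≤ p k + (p (k + 1) - p k) * xs i := fun k i => by
    have h1 : (p (k + 1) - p k) / ((n : ℝ) + 1) = (p (k + 1) - p k) * (1 / ((n : ℝ) + 1)) := by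
      ring
    have h3 := mul_le_mul_of_nonneg_left (hlow i) (hh k).le
    linarith [(p_mem hp0 hp k.2.le).1]
  have hW : ∀ o (k : Fin P), ∑ i, |(composite xs ws P p).W o (finProdFinEquiv (k, i))|
      ≤ (p (k + 1) - p k) * C₀ := fun o k => by
    simp only [composite, Equiv.symm_apply_apply, abs_mul, abs_of_pos (hh k), ← mul_sum]
    refine mul_le_mul_of_nonneg_left ?_ (hh k).le
    cases o with
    | none => exact hws none
    | some i =>
      simp only [Option.elim]
      split_ifs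
      · exact hws none
      · exact hws _
      · simpa using hC₀
  refine ⟨fun j => ⟨?_, ?_⟩, fun o => ?_, fun o => ?_⟩
  · exact lt_of_lt_of_le (div_pos (hh _) (by positivity)) (hnode _ _)
  · have h1 := (p_mem hp0 hp (finProdFinEquiv.symm j).1.2).2
    have h2 := mul_le_of_le_one_right (hh (finProdFinEquiv.symm j).1).le
      (hxs (finProdFinEquiv.symm j).2).2
    simp only [composite] at h1 h2 ⊢
    linarith
  · rw [← finProdFinEquiv.sum_comp, Fintype.sum_prod_type]
    refine (sum_le_sum fun k _ => hW o k).trans (le_of_eq ?_)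
    rw [← sum_mul, Fin.sum_univ_eq_sum_range fun k => p (k + 1) - p k, sum_range_sub p, hp0,
      sub_zero, mul_comm]
  · rw [← finProdFinEquiv.sum_comp, Fintype.sum_prod_type]
    calc ∑ k, ∑ i, |(composite xs ws P p).W o (finProdFinEquiv (k, i))|
          / (composite xs ws P p).q (finProdFinEquiv (k, i))
        ≤ ∑ _k : Fin P, ((n : ℝ) + 1) * C₀ := sum_le_sum fun k _ => by
          calc ∑ i, |(composite xs ws P p).W o (finProdFinEquiv (k, i))|
                / (composite xs ws P p).q (finProdFinEquiv (k, i))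
              ≤ ∑ i, |(composite xs ws P p).W o (finProdFinEquiv (k, i))|
                  / ((p (k + 1) - p k) / ((n : ℝ) + 1)) := sum_le_sum fun i _ => by
                refine div_le_div_of_nonneg_left (abs_nonneg _)
                  (div_pos (hh k) (by positivity)) ?_
                simp only [composite, Equiv.symm_apply_apply]
                exact hnode k i
            _ ≤ (p (k + 1) - p k) * C₀ / ((p (k + 1) - p k) / ((n : ℝ) + 1)) := by
                rw [← sum_div]
                exact div_le_div_of_nonneg_right (hW o k) (div_pos (hh k) (by positivity)).le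
            _ = ((n : ℝ) + 1) * C₀ := by
                have := (hh k).ne'
                field_simp
      _ = _ := by simp

/-- The one panel rule as a hypothesis. -/
def PanelRule (n : ℕ) (C₀ : ℝ) (xs : Fin n → ℝ) (ws : Option (Fin n) → Fin n → ℝ) : Prop :=
  ∀ (Ω : Type) [MeasurableSpace Ω] (μ : Measure Ω) [IsProbabilityMeasure μ] (d : ℕ)
    (f : ℝ → Ω → E d) (s h M : ℝ), 0 ≤ h → 0 ≤ M →
    (∀ z, ∀ t ∈ Set.Icc s (s + h), ContDiffAt ℝ n (fun u => f u z) t) →
    Measurable (fun p : ℝ × Ω => f p.1 p.2) →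
    (∀ t ∈ Set.Icc s (s + h), ∫⁻ z, ‖iteratedDeriv n (fun u => f u z) t‖ₑ ^ 2 ∂μ
      ≤ ENNReal.ofReal (M ^ 2)) →
    ∀ o, ∫⁻ z, ‖(∫ t in s..(s + h * o.elim 1 xs), f t z)
        - h • ∑ j, ws o j • f (s + h * xs j) z‖ₑ ^ 2 ∂μ
      ≤ ENNReal.ofReal ((C₀ * h ^ (n + 1) * M) ^ 2)

theorem composite_acc {n : ℕ} {xs : Fin n → ℝ} {ws : Option (Fin n) → Fin n → ℝ} {C₀ : ℝ}
    (hC₀ : 0 ≤ C₀) (hxs : ∀ i, xs i ∈ Set.Icc (0 : ℝ) 1) (hint : PanelRule n C₀ xs ws)
    {P : ℕ} {p : ℕ → ℝ} (hp0 : p 0 = 0) (hp : ∀ k < P, p k < p (k + 1)) :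
    GridAcc n (composite xs ws P p) (p P) P p C₀ := by
  intro Ω _ μ _ d f D η hη hf hfm hD o
  have hh : ∀ k : Fin P, 0 < p (k + 1) - p k := fun k => sub_pos.2 (hp k k.2)
  have hpanel : ∀ k < P, Set.Icc (p k) (p (k + 1)) ⊆ Set.Icc 0 (p P) := fun k hk =>
    Set.Icc_subset_Icc (p_mem hp0 hp hk.le).1 (p_mem hp0 hp hk).2
  let err : Option (Fin n) → ℕ → Ω → E d := fun a k =>
    panelErr xs ws f (p k) (p (k + 1) - p k) a
  have herr : ∀ a (k : Fin P), L2le μ (err a k) (C₀ * η * (p (k + 1) - p k)) := by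
    intro a k
    obtain ⟨hD0, hDη, hDt⟩ := hD k k.2
    refine L2le.mono (hint Ω μ d f (p k) (p (k + 1) - p k) (D k) (hh k).le hD0
      (fun z t ht => hf z t (hpanel k k.2 (by rwa [add_sub_cancel] at ht))) hfm
      (fun t ht => hDt t (by rwa [add_sub_cancel] at ht)) a)
      (mul_nonneg (mul_nonneg hC₀ (pow_nonneg (hh k).le _)) hD0) ?_
    calc C₀ * (p (k + 1) - p k) ^ (n + 1) * D k
        = C₀ * ((p (k + 1) - p k) ^ n * D k) * (p (k + 1) - p k) := by ring
      _ ≤ C₀ * η * (p (k + 1) - p k) := by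
          have := (hh k).le
          gcongr
  have hfi : ∀ z a b, a ∈ Set.Icc 0 (p P) → b ∈ Set.Icc 0 (p P) →
      IntervalIntegrable (fun t => f t z) volume a b := fun z a b ha hb =>
    (ContinuousOn.mono (fun t ht => (hf z t ht).continuousAt.continuousWithinAt)
      (Set.ordConnected_Icc.uIcc_subset ha hb)).intervalIntegrable
  have hadj : ∀ z k, k ≤ P →
      (∫ t in (0 : ℝ)..p k, f t z) = ∑ i ∈ range k, ∫ t in p i..p (i + 1), f t z := by
    intro z k hk
    rw [intervalIntegral.sum_integral_adjacent_intervals fun i hi =>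
      hfi z _ _ (p_mem hp0 hp (by omega)) (p_mem hp0 hp (by omega)), hp0]
  have hsum : ∑ k : Fin P, (p (k + 1) - p k) = p P := by
    rw [Fin.sum_univ_eq_sum_range fun k => p (k + 1) - p k, sum_range_sub p, hp0, sub_zero]
  suffices hsuff : L2le μ (fun z => (∫ t in (0 : ℝ)..((composite xs ws P p).at' (p P) o), f t z)
      - ∑ j, (composite xs ws P p).W o j • f ((composite xs ws P p).q j) z)
      (C₀ * η * ∑ k : Fin P, (p (k + 1) - p k)) by rwa [hsum] at hsuff
  cases o with
  | none =>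
    have key : (fun z => (∫ t in (0 : ℝ)..((composite xs ws P p).at' (p P) none), f t z)
        - ∑ j, (composite xs ws P p).W none j • f ((composite xs ws P p).q j) z)
          = fun z => ∑ k : Fin P, err none k z := by
      funext z
      simp only [err, panelErr, sum_sub_distrib, Build.Grid.at', Option.elim, mul_one,
        add_sub_cancel]
      rw [Fin.sum_univ_eq_sum_range fun k => ∫ t in p k..p (k + 1), f t z, ← hadj z P le_rfl]
      congr 1
      rw [← finProdFinEquiv.sum_comp, Fintype.sum_prod_type]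
      refine sum_congr rfl fun k _ => ?_
      simp only [composite, Equiv.symm_apply_apply, Option.elim, smul_sum, smul_smul]
    rw [key]
    exact L2le.sum (fun k => panelErr_meas xs ws hfm _ _ _) hh (by positivity)
      fun k => herr none k
  | some i =>
    obtain ⟨⟨k₀, i₀⟩, rfl⟩ := finProdFinEquiv.surjective i
    have key : (fun z =>
        (∫ t in (0 : ℝ)..((composite xs ws P p).at' (p P) (some (finProdFinEquiv (k₀, i₀)))), f t z)
        - ∑ j, (composite xs ws P p).W (some (finProdFinEquiv (k₀, i₀))) j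
            • f ((composite xs ws P p).q j) z) = fun z => ∑ k : Fin P,
          (if (k : ℕ) < k₀ then err none k
            else if (k : ℕ) = k₀ then err (some i₀) k else 0) z := by
      funext z
      have hrw : ∀ k : Fin P,
          (if (k : ℕ) < k₀ then err none k
            else if (k : ℕ) = k₀ then err (some i₀) k else 0) z
          = (if (k : ℕ) < k₀ then ∫ t in p k..p (k + 1), f t z
              else if (k : ℕ) = k₀ then
                ∫ t in p k₀..(p k₀ + (p (k₀ + 1) - p k₀) * xs i₀), f t z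
              else 0)
            - ∑ j, (composite xs ws P p).W (some (finProdFinEquiv (k₀, i₀))) (finProdFinEquiv (k, j))
                • f ((composite xs ws P p).q (finProdFinEquiv (k, j))) z := by
        intro k
        simp only [composite, Equiv.symm_apply_apply, Option.elim]
        split_ifs with h1 h2
        · simp only [err, panelErr, Option.elim, mul_one, add_sub_cancel, smul_sum, smul_smul]
        · simp only [err, panelErr, Option.elim, smul_sum, smul_smul, h2]
        · simp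
      simp only [hrw, sum_sub_distrib]
      congr 1
      · rw [sum_panels k₀.2 (fun k => ∫ t in p k..p (k + 1), f t z), ← hadj z _ k₀.2.le,
          intervalIntegral.integral_add_adjacent_intervals]
        · simp only [Build.Grid.at', composite, Equiv.symm_apply_apply]
        · exact hfi z _ _ (hp0 ▸ p_mem hp0 hp (Nat.zero_le _)) (p_mem hp0 hp k₀.2.le)
        · refine hfi z _ _ (p_mem hp0 hp k₀.2.le) (hpanel k₀ k₀.2 ⟨?_, ?_⟩)
          · linarith [mul_nonneg (hh k₀).le (hxs i₀).1]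
          · linarith [mul_le_of_le_one_right (hh k₀).le (hxs i₀).2]
      · rw [← finProdFinEquiv.sum_comp, Fintype.sum_prod_type]
    rw [key]
    refine L2le.sum (fun k => ?_) hh (by positivity) fun k => ?_
    · split_ifs
      exacts [panelErr_meas xs ws hfm _ _ _, panelErr_meas xs ws hfm _ _ _,
        aestronglyMeasurable_const]
    · split_ifs
      · exact herr none k
      · exact herr _ k
      · simp [L2le]

/-- Points of a geometric subdivision of `[0, T]` towards `S > T`. -/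
theorem exists_points {S T : ℝ} (hT0 : 0 < T) (hTS : T < S) {m : ℕ} (hm : 1 ≤ m) :
    ∃ (P : ℕ) (p : ℕ → ℝ), (P : ℝ) ≤ m * Real.log (S / (S - T)) + 2 ∧ p 0 = 0 ∧ p P = T ∧
      ∀ k < P, p k < p (k + 1) ∧ p (k + 1) - p k ≤ 2 / m * (S - p (k + 1)) := by
  obtain ⟨L, hL⟩ : ∃ L, L = Real.log (S / (S - T)) := ⟨_, rfl⟩
  have hS0 : 0 < S := hT0.trans hTS
  have hL0 : 0 < L := hL ▸ Real.log_pos ((one_lt_div (by linarith)).2 (by linarith))
  obtain ⟨P, hP⟩ : ∃ P, P = ⌈(m : ℝ) * L⌉₊ + 1 := ⟨_, rfl⟩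
  have hm1 : (1 : ℝ) ≤ m := by exact_mod_cast hm
  have hmL : 0 < (m : ℝ) * L := mul_pos (by linarith) hL0
  have hP1 : (m : ℝ) * L ≤ P := by rw [hP]; push_cast; linarith [Nat.le_ceil ((m : ℝ) * L)]
  have hPpos : (0 : ℝ) < P := hmL.trans_le hP1
  have hx0 : 0 < L / P := div_pos hL0 hPpos
  have hxm : L / P ≤ 1 / m := by rw [div_le_div_iff₀ hPpos (by linarith)]; linarith
  refine ⟨P, fun k => S - S * Real.exp (-(L / P * k)), ?_, by simp, ?_, fun k _ => ?_⟩
  · rw [← hL, hP]; push_cast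
    linarith [(Nat.ceil_lt_add_one hmL.le).le]
  · have : L / P * P = L := div_mul_cancel₀ _ hPpos.ne'
    simp only [this]
    rw [hL, Real.exp_neg, Real.exp_log (div_pos hS0 (by linarith : (0 : ℝ) < S - T)), inv_div]
    field_simp
    ring
  · obtain ⟨v, hv⟩ : ∃ v, v = S * Real.exp (-(L / P * ((k + 1 : ℕ) : ℝ))) := ⟨_, rfl⟩
    have hv0 : 0 < v := hv ▸ by positivity
    have hu : S * Real.exp (-(L / P * k)) = v * Real.exp (L / P) := by
      rw [hv, mul_assoc, ← Real.exp_add]; push_cast; ring_nf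
    simp only [← hv, hu]
    have habs : |L / (P : ℝ)| ≤ 1 := by
      rw [abs_of_pos hx0]
      linarith [(div_le_one (by linarith : (0 : ℝ) < m)).2 hm1]
    have he : Real.exp (L / P) - 1 ≤ 2 / m := by
      have h1 := (abs_le.1 (Real.abs_exp_sub_one_le habs)).2
      rw [abs_of_pos hx0] at h1
      have h2 : 2 * (1 / (m : ℝ)) = 2 / m := by ring
      linarith
    have h3 := mul_le_mul_of_nonneg_right he hv0.le
    have h4 := mul_lt_mul_of_pos_left (Real.one_lt_exp_iff.2 hx0) hv0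
    constructor <;> linarith

/-- A grid of `[0, sqrt (τ - σ τ)]` whose error is small against the rate `sqrt τ / (τ - t²)`. -/
theorem exists_grid (n : ℕ) (hn : 1 ≤ n) : ∃ C : ℝ, 0 ≤ C ∧
    ∀ τ σ : ℝ, 0 < τ → 0 < σ → σ < 1 → ∀ m : ℕ, 1 ≤ m →
      ∃ (M : ℕ) (G : Build.Grid M),
        (M : ℝ) ≤ C * (m * Real.log (2 / σ) + 2) ∧
        Build.GridOK G (Real.sqrt (τ - σ * τ)) (C * (m * Real.log (2 / σ) + 2)) ∧
        (∀ o, ∑ j, |G.W o j| ≤ C * Real.sqrt (τ - σ * τ)) ∧
        ∀ (Ω : Type) [MeasurableSpace Ω] (μ : Measure Ω) [IsProbabilityMeasure μ] (d : ℕ)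
          (f : ℝ → Ω → E d) (B : ℝ), 0 ≤ B →
          (∀ z, ∀ t ∈ Set.Icc 0 (Real.sqrt (τ - σ * τ)), ContDiffAt ℝ n (fun u => f u z) t) →
          Measurable (fun p : ℝ × Ω => f p.1 p.2) →
          (∀ t ∈ Set.Icc 0 (Real.sqrt (τ - σ * τ)),
            L2le μ (fun z => iteratedDeriv n (fun u => f u z) t)
              ((Real.sqrt τ / (τ - t ^ 2)) ^ n * B)) →
          ∀ o, L2le μ (fun z => (∫ t in (0 : ℝ)..(G.at' (Real.sqrt (τ - σ * τ)) o), f t z)
              - ∑ j, G.W o j • f (G.q j) z)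
            (C * (2 / (m : ℝ)) ^ n * Real.sqrt (τ - σ * τ) * B) := by
  obtain ⟨C₀, hC₀, xs, ws, hxs, hlow, hws, hint⟩ := intMatrix_pos n hn
  refine ⟨((n : ℝ) + 1) * (C₀ + 1), by positivity, ?_⟩
  intro τ σ hτ hσ hσ1 m hm
  obtain ⟨T, hTdef⟩ : ∃ T, T = Real.sqrt (τ - σ * τ) := ⟨_, rfl⟩
  rw [← hTdef]
  obtain ⟨S, hS⟩ : ∃ S, S = Real.sqrt τ := ⟨_, rfl⟩
  rw [← hS]
  have hS0 : 0 < S := hS ▸ Real.sqrt_pos.2 hτ
  have hT2 : T ^ 2 = τ - σ * τ := by rw [hTdef, Real.sq_sqrt (by nlinarith)]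
  have hS2 : S ^ 2 = τ := by rw [hS, Real.sq_sqrt hτ.le]
  have hT0 : 0 < T := hTdef ▸ Real.sqrt_pos.2 (by nlinarith)
  have hTS : T < S := by nlinarith [mul_pos hσ hτ]
  obtain ⟨P, p, hP, hp0, hpP, hp⟩ := exists_points hT0 hTS hm
  have hlog : Real.log (S / (S - T)) ≤ Real.log (2 / σ) := by
    refine Real.log_le_log (div_pos hS0 (by linarith)) ?_
    rw [div_le_div_iff₀ (by linarith) hσ]
    have h' : σ * S ^ 2 = (S - T) * (S + T) := by
      linear_combination σ * hS2 + hT2 - hS2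
    refine le_of_mul_le_mul_right ?_ hS0
    calc S * σ * S = (S - T) * (S + T) := by rw [← h']; ring
      _ ≤ (S - T) * (2 * S) := mul_le_mul_of_nonneg_left (by linarith) (by linarith)
      _ = 2 * (S - T) * S := by ring
  have hP' : (P : ℝ) ≤ m * Real.log (2 / σ) + 2 := by
    linarith [mul_le_mul_of_nonneg_left hlog (m.cast_nonneg (α := ℝ))]
  have hlog0 : 0 ≤ Real.log (2 / σ) := Real.log_nonneg ((one_le_div hσ).2 (by linarith))
  obtain ⟨hq, hW, hdiv⟩ := composite_ok hC₀ hxs hlow hws hp0 fun k hk => (hp k hk).1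
  have hacc := composite_acc hC₀ hxs hint hp0 fun k hk => (hp k hk).1
  rw [hpP] at hq hW hacc
  have hn0 : (0 : ℝ) ≤ n := n.cast_nonneg
  have hCC : C₀ ≤ ((n : ℝ) + 1) * (C₀ + 1) := by nlinarith
  have hb : 0 ≤ (m : ℝ) * Real.log (2 / σ) + 2 := by positivity
  refine ⟨P * n, composite xs ws P p, ?_, ⟨fun j => (hq j).1, fun j => (hq j).2, fun o => ?_,
    fun o => ?_⟩, fun o => ?_, ?_⟩
  · push_cast
    calc (P : ℝ) * n ≤ (m * Real.log (2 / σ) + 2) * (((n : ℝ) + 1) * (C₀ + 1)) :=
          mul_le_mul hP' (by nlinarith) hn0 hb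
      _ = _ := mul_comm _ _
  · refine (hW o).trans (mul_le_mul_of_nonneg_right (hCC.trans ?_) hT0.le)
    exact le_mul_of_one_le_right (by positivity)
      (by linarith [mul_nonneg (m.cast_nonneg (α := ℝ)) hlog0])
  · refine (hdiv o).trans ?_
    calc (P : ℝ) * (((n : ℝ) + 1) * C₀)
        ≤ (m * Real.log (2 / σ) + 2) * (((n : ℝ) + 1) * (C₀ + 1)) :=
          mul_le_mul hP' (by gcongr; linarith) (by positivity) hb
      _ = _ := mul_comm _ _
  · exact (hW o).trans (mul_le_mul_of_nonneg_right hCC hT0.le)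
  intro Ω _ μ _ d f B hB hf hfm hder o
  have hDnn : ∀ k < P, 0 < S - p (k + 1) := fun k hk => by
    have := (p_mem hp0 (fun k hk => (hp k hk).1) hk).2
    rw [hpP] at this
    linarith
  refine L2le.mono (hacc Ω μ d f (fun k => (1 / (S - p (k + 1))) ^ n * B)
    ((2 / (m : ℝ)) ^ n * B) (by positivity) hf hfm (fun k hk => ⟨?_, ?_, ?_⟩) o) (by positivity) ?_
  · have := hDnn k hk; positivity
  · have := hDnn k hk
    have h0 : 0 ≤ p (k + 1) - p k := (sub_pos.2 (hp k hk).1).le
    rw [← mul_assoc, ← mul_pow]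
    gcongr
    rw [mul_one_div, div_le_iff₀ this]
    exact (hp k hk).2
  · intro t ht
    have hk0 := (p_mem hp0 (fun k hk => (hp k hk).1) hk.le).1
    have hk1 := (p_mem hp0 (fun k hk => (hp k hk).1) hk).2
    rw [hpP] at hk1
    have ht' : t ∈ Set.Icc 0 T := ⟨hk0.trans ht.1, ht.2.trans hk1⟩
    have hst : 0 < S - t := by linarith [ht'.2]
    have hden : 0 < τ - t ^ 2 := by rw [← hS2]; nlinarith [ht'.1]
    refine (hder t ht').mono (by positivity) ?_
    refine mul_le_mul_of_nonneg_right (pow_le_pow_left₀ (by positivity) ?_ n) hB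
    rw [div_le_div_iff₀ hden (hDnn k hk), ← hS2]
    have e1 : S * (S - p (k + 1)) ≤ S * (S - t) := by gcongr; exact ht.2
    have e2 : 0 ≤ t * (S - t) := mul_nonneg ht'.1 hst.le
    linarith
  · calc C₀ * ((2 / (m : ℝ)) ^ n * B) * T = C₀ * ((2 / (m : ℝ)) ^ n * T * B) := by ring
      _ ≤ ((n : ℝ) + 1) * (C₀ + 1) * ((2 / (m : ℝ)) ^ n * T * B) := by gcongr
      _ = _ := by ring

/-- Picard iterates of a finite system. -/
def iterate {I J : Type*} [Fintype J] {V : Type*} [AddCommGroup V] [Module ℝ V] (x : I → V)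
    (W : I → J → ℝ) (F : J → V → V) (src : J → I) (y₀ : I → V) : ℕ → I → V
  | 0 => y₀
  | p + 1 => fun i => x i + ∑ j, W i j • F j (iterate x W F src y₀ p (src j))

/-- The compiled Picard lemma at one sample point. -/
theorem iterate_sub_le {I J : Type*} [Fintype J] [Nonempty I] {V : Type*} [NormedAddCommGroup V]
    [NormedSpace ℝ V] {x : I → V} {W : I → J → ℝ} {F : J → V → V} {src : J → I} {y₀ Y : I → V}
    {Lam : J → ℝ} {q R I₀ : ℝ} (hq : q ≤ 1 / 2)
    (hlip : ∀ j y y', ‖F j y - F j y'‖ ≤ Lam j * ‖y - y'‖)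
    (hW : ∀ i, ∑ j, |W i j| * Lam j ≤ q) (hLam : ∀ j, 0 ≤ Lam j)
    (hres : ∀ i, ‖Y i - (x i + ∑ j, W i j • F j (Y (src j)))‖ ≤ R)
    (h0 : ∀ i, ‖y₀ i - Y i‖ ≤ I₀) (p : ℕ) (i : I) :
    ‖iterate x W F src y₀ p i - Y i‖ ≤ q ^ p * I₀ + 2 * R := by
  have i₀ := Classical.arbitrary I
  have hR : 0 ≤ R := (norm_nonneg _).trans (hres i₀)
  have hI : 0 ≤ I₀ := (norm_nonneg _).trans (h0 i₀)
  have hq0 : 0 ≤ q :=
    (sum_nonneg fun j _ => mul_nonneg (abs_nonneg _) (hLam j)).trans (hW i₀)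
  induction p generalizing i with
  | zero => simp only [iterate, pow_zero, one_mul]; linarith [h0 i]
  | succ p ih =>
    have hsplit : iterate x W F src y₀ (p + 1) i - Y i
        = (∑ j, W i j • (F j (iterate x W F src y₀ p (src j)) - F j (Y (src j))))
          - (Y i - (x i + ∑ j, W i j • F j (Y (src j)))) := by
      simp only [iterate, smul_sub, sum_sub_distrib]; abel
    rw [hsplit]
    have h1 : ‖∑ j, W i j • (F j (iterate x W F src y₀ p (src j)) - F j (Y (src j)))‖
        ≤ q * (q ^ p * I₀ + 2 * R) := by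
      refine (norm_sum_le _ _).trans ?_
      calc ∑ j, ‖W i j • (F j (iterate x W F src y₀ p (src j)) - F j (Y (src j)))‖
          ≤ ∑ j, |W i j| * Lam j * (q ^ p * I₀ + 2 * R) := sum_le_sum fun j _ => by
            rw [norm_smul, Real.norm_eq_abs, mul_assoc]
            exact mul_le_mul_of_nonneg_left ((hlip j _ _).trans
              (mul_le_mul_of_nonneg_left (ih (src j)) (hLam j))) (abs_nonneg _)
        _ ≤ q * (q ^ p * I₀ + 2 * R) := by
            rw [← sum_mul]; exact mul_le_mul_of_nonneg_right (hW i) (by positivity)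
    refine (norm_sub_le _ _).trans ((add_le_add h1 (hres i)).trans ?_)
    rw [pow_succ]
    nlinarith

/-- The compiled Picard lemma in mean square: the loss is the square root of the number of nodes. -/
theorem iterate_l2le {I J : Type*} [Fintype I] [Fintype J] [Nonempty I] {V : Type*}
    [NormedAddCommGroup V] [NormedSpace ℝ V] {x : I → Ω → V} {W : I → J → ℝ}
    {F : J → Ω → V → V} {src : J → I} {y₀ Y : I → Ω → V} {Lam : J → ℝ} {q δ A : ℝ}
    (hq : q ≤ 1 / 2) (hδ : 0 < δ) (hA : 0 < A)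
    (hlip : ∀ j z y y', ‖F j z y - F j z y'‖ ≤ Lam j * ‖y - y'‖)
    (hW : ∀ i, ∑ j, |W i j| * Lam j ≤ q) (hLam : ∀ j, 0 ≤ Lam j)
    (hrm : ∀ i, AEStronglyMeasurable
      (fun z => Y i z - (x i z + ∑ j, W i j • F j z (Y (src j) z))) μ)
    (hres : ∀ i, L2le μ (fun z => Y i z - (x i z + ∑ j, W i j • F j z (Y (src j) z))) δ)
    (h0m : ∀ i, AEStronglyMeasurable (fun z => y₀ i z - Y i z) μ)
    (h0 : ∀ i, L2le μ (fun z => y₀ i z - Y i z) A) (p : ℕ) (i : I) :
    L2le μ (fun z => iterate (fun i => x i z) W (fun j => F j z) src (fun i => y₀ i z) p i - Y i z)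
      ((Fintype.card I : ℝ) * (q ^ p * A + 2 * δ)) := by
  have hq0 : 0 ≤ q :=
    (sum_nonneg fun j _ => mul_nonneg (abs_nonneg _) (hLam j)).trans (hW i)
  set a : I → Ω → ℝ := fun i z => q ^ p * ‖y₀ i z - Y i z‖
  set r : I → Ω → ℝ := fun i z =>
    2 * ‖Y i z - (x i z + ∑ j, W i j • F j z (Y (src j) z))‖
  have hle : ∀ z, ‖iterate (fun i => x i z) W (fun j => F j z) src (fun i => y₀ i z) p i - Y i z‖
      ≤ ‖(∑ k, a k z) + ∑ k, r k z‖ := fun z => by
    refine (iterate_sub_le hq (hlip · z) hW hLam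
      (fun k => single_le_sum
        (f := fun k => ‖Y k z - (x k z + ∑ j, W k j • F j z (Y (src j) z))‖)
        (fun k _ => norm_nonneg _) (mem_univ k))
      (fun k => single_le_sum (f := fun k => ‖y₀ k z - Y k z‖)
        (fun k _ => norm_nonneg _) (mem_univ k)) p i).trans ?_
    simp only [a, r, ← mul_sum]
    exact le_abs_self _
  refine L2le.congr_norm_le ?_ hle
  have hcard : (∑ _k : I, (1 : ℝ)) = Fintype.card I := by simp
  have hr : L2le μ (fun z => ∑ k, r k z) ((2 * δ) * ∑ _k : I, (1 : ℝ)) := by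
    refine L2le.sum (fun k => (hrm k).norm.const_mul 2) (fun _ => one_pos) (by positivity)
      fun k => ?_
    rw [mul_one]
    unfold L2le
    simp only [r, enorm_mul, mul_pow, enorm_norm]
    rw [lintegral_const_mul' _ _ (by simp), ENNReal.ofReal_mul (by norm_num)]
    gcongr
    · rw [← ofReal_norm, ← ENNReal.ofReal_pow (norm_nonneg _)]; norm_num
    · exact hres k
  rcases eq_or_lt_of_le (pow_nonneg hq0 p) with hz | hz
  · simp only [a, ← hz, zero_mul, sum_const_zero, zero_add]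
    rw [hcard] at hr
    exact hr.mono (by positivity) (le_of_eq (by ring))
  · have ha : L2le μ (fun z => ∑ k, a k z) ((q ^ p * A) * ∑ _k : I, (1 : ℝ)) := by
      refine L2le.sum (fun k => (h0m k).norm.const_mul _) (fun _ => one_pos) (by positivity)
        fun k => ?_
      rw [mul_one]
      unfold L2le
      simp only [a, enorm_mul, mul_pow, enorm_norm]
      rw [lintegral_const_mul' _ _ (by simp), ENNReal.ofReal_mul (by positivity)]
      gcongr
      · simp [Real.enorm_eq_ofReal hz.le, ← ENNReal.ofReal_pow hz.le]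
      · exact h0 k
    have hm1 : AEStronglyMeasurable (fun z => ∑ k, a k z) μ :=
      Finset.aestronglyMeasurable_fun_sum _ fun k _ => (h0m k).norm.const_mul _
    have hm2 : AEStronglyMeasurable (fun z => ∑ k, r k z) μ :=
      Finset.aestronglyMeasurable_fun_sum _ fun k _ => (hrm k).norm.const_mul 2
    have hpos : (0 : ℝ) < ∑ _k : I, (1 : ℝ) := by simp [Fintype.card_pos]
    have h := L2le.add hm1 hm2 (by positivity) (by positivity) ha hr
    rw [hcard] at h
    exact h.mono (by positivity) (le_of_eq (by ring))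

/-- The forward compiled iterates are iterates of a finite system. -/
theorem val_fwd {d na : ℕ} {ι : Type} (P : Build.Data na) (Gr : ℝ → E d → E d) (c R : Expr ι)
    (xv : ι → E d) (p : ℕ) (o : Option (Fin P.M₂)) :
    Expr.val Gr (Build.fwd P c R p o) xv
      = iterate (fun _ => Expr.val Gr R xv) (fun o j => -(P.ε * P.g₂.W o j))
        (fun j v => Gr (P.rs (P.g₂.q j)) (Expr.val Gr c xv + P.g₂.q j • v)) some
        (fun _ => Expr.val Gr R xv) p o := by
  induction p generalizing o with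
  | zero => rfl
  | succ p ih => simp [Build.fwd, Build.gateAt, iterate, Expr.val, Expr.val_sum, ih]

/-- The backward compiled iterates are iterates of a finite system. -/
theorem val_bwd {d na : ℕ} {ι : Type} (P : Build.Data na) (Gr : ℝ → E d → E d) (c w : Expr ι)
    (xv : ι → E d) (p : ℕ) (i : Fin P.M₁) :
    Expr.val Gr (Build.bwd P c w p i) xv
      = iterate (fun _ => Expr.val Gr w xv)
        (fun i j => P.ε * (P.g₁.W none j - P.g₁.W (some i) j))
        (fun j v => Gr (P.rs (P.g₁.q j)) (Expr.val Gr c xv + P.g₁.q j • v)) id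
        (fun _ => Expr.val Gr w xv) p i := by
  induction p generalizing i with
  | zero => rfl
  | succ p ih => simp [Build.bwd, Build.gateAt, iterate, Expr.val, Expr.val_sum, ih]

end Vale.Agent.P347.Gamma0.Picard
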