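import Vale.Agent.P347.Gamma0.Moments
import Vale.Agent.P347.Gamma0.Interface

/-!
P347, towards `γ* = 0`, piece 1: the posterior as a member of the exponential family, the
coordinates of its mean gradient, the closed form of `nW` and smoothness.
-/

namespace Vale.Agent.P347.Gamma0

open MeasureTheory Filter Topology
open scoped RealInnerProductSpace ContDiff

variable {d : ℕ} {U : E d → ℝ} {g : E d → E d} {ε : ℝ}

/-- The parameter of the posterior. -/
noncomputable def pp (r : ℝ) (c : E d) : E d × ℝ := (r⁻¹ • c, r⁻¹)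

/-- Adding a constant to the potential does not change the Gibbs law. -/
lemma gibbs_add_const (W : E d → ℝ) (a : ℝ) : gibbs (fun x => W x + a) = gibbs W := by
  have h : (fun x => ENNReal.ofReal (Real.exp (-(W x + a))))
      = ENNReal.ofReal (Real.exp (-a)) • fun x => ENNReal.ofReal (Real.exp (-W x)) := by
    funext x
    simp only [Pi.smul_apply, smul_eq_mul, ← ENNReal.ofReal_mul (Real.exp_pos _).le, ← Real.exp_add]
    ring_nf
  have hne : ENNReal.ofReal (Real.exp (-a)) ≠ 0 := by simp [Real.exp_pos]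
  have hm : (∫⁻ x, ENNReal.ofReal (Real.exp (-(W x + a))))
      = ENNReal.ofReal (Real.exp (-a)) * ∫⁻ x, ENNReal.ofReal (Real.exp (-W x)) := by
    rw [h]
    exact lintegral_const_mul' _ _ ENNReal.ofReal_ne_top
  rw [gibbs, gibbs, hm, h, withDensity_smul' _ _ ENNReal.ofReal_ne_top, smul_smul]
  congr 1
  rw [ENNReal.mul_inv (Or.inl hne) (Or.inl ENNReal.ofReal_ne_top), mul_right_comm,
    ENNReal.inv_mul_cancel hne ENNReal.ofReal_ne_top, one_mul]

lemma post_pot_eq {r : ℝ} (hr : 0 < r) (c x : E d) :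
    ‖x - c‖ ^ 2 / (2 * r) + ε * U x = pot U ε (pp r c) x + ‖c‖ ^ 2 / (2 * r) := by
  simp only [pot, pp, norm_sub_sq_real, real_inner_smul_left, real_inner_comm c x]
  field_simp
  ring

lemma post_eq {r : ℝ} (hr : 0 < r) (c : E d) : post U ε r c = gibbs (pot U ε (pp r c)) := by
  rw [post, funext (post_pot_eq hr c), gibbs_add_const]

lemma pp_pos {r : ℝ} (hr : 0 < r) (c : E d) : 0 < (pp r c).2 := inv_pos.2 hr

variable (hU : Pot U g) (hε : 0 ≤ ε)
include hU hε

lemma integrable_grad {r : ℝ} (hr : 0 < r) (c : E d) : Integrable g (post U ε r c) := by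
  rw [post_eq hr]
  refine (integrable_mean hU hε (pp_pos hr c) (φ := fun x => ‖g x‖) ⟨hU.lip.continuous.norm,
    LogConcave.Poly.of_le (A := ‖g 0‖ + 1) (N := 1) fun x => ?_⟩).mono'
    hU.lip.continuous.aestronglyMeasurable (ae_of_all _ fun x => le_rfl)
  rw [abs_of_nonneg (norm_nonneg _), pow_one]
  nlinarith [Tilt.norm_grad_le hU x, norm_nonneg (g 0), norm_nonneg x]

lemma inner_G {r : ℝ} (hr : 0 < r) (c u : E d) :
    ⟪u, G U g ε r c⟫ = mean U ε (fun x => ⟪u, g x⟫) (pp r c) := by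
  rw [G, ← integral_inner (integrable_grad hU hε hr c), post_eq hr,
    mean_eq hU hε (pp_pos hr c)]

lemma G_apply {r : ℝ} (hr : 0 < r) (c : E d) (i : Fin d) :
    G U g ε r c i = mean U ε (fun x => g x i) (pp r c) := by
  have h := inner_G hU hε hr c (bv i)
  simpa [bv, EuclideanSpace.inner_single_left] using h

omit hU hε in
lemma contDiffOn_pp : ContDiffOn ℝ ∞ (fun q : ℝ × E d => pp q.1 q.2) (Set.Ioi 0 ×ˢ Set.univ) := by
  have h : ContDiffOn ℝ ∞ (fun q : ℝ × E d => q.1⁻¹) (Set.Ioi 0 ×ˢ Set.univ) :=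
    contDiff_fst.contDiffOn.inv fun q hq => (Set.mem_Ioi.1 hq.1).ne'
  exact (h.smul contDiff_snd.contDiffOn).prodMk h

omit hU hε in
lemma mapsTo_pp : Set.MapsTo (fun q : ℝ × E d => pp q.1 q.2) (Set.Ioi 0 ×ˢ Set.univ) (params d) :=
  fun _ hq => pp_pos (Set.mem_Ioi.1 hq.1) _

lemma contDiffOn_mean_pp {φ : E d → ℝ} (hφ : Obs φ) :
    ContDiffOn ℝ ∞ (fun q : ℝ × E d => mean U ε φ (pp q.1 q.2)) (Set.Ioi 0 ×ˢ Set.univ) :=
  (contDiffOn_mean hU hε hφ).comp contDiffOn_pp mapsTo_pp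

lemma contDiffOn_G :
    ContDiffOn ℝ ∞ (fun q : ℝ × E d => G U g ε q.1 q.2) (Set.Ioi 0 ×ˢ Set.univ) := by
  rw [contDiffOn_euclidean]
  exact fun i => (contDiffOn_mean_pp hU hε (obs_comp hU i)).congr fun q hq =>
    G_apply hU hε (Set.mem_Ioi.1 hq.1) q.2 i

lemma contDiff_G_apply {r : ℝ} (hr : 0 < r) : ContDiff ℝ ∞ (G U g ε r) := by
  refine contDiff_euclidean.2 fun i => ?_
  have h1 : ContDiff ℝ ∞ fun c : E d => r⁻¹ • c := contDiff_id.const_smul r⁻¹
  rw [show (fun c : E d => G U g ε r c i)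
      = (meanT U ε r⁻¹ fun x => g x i) ∘ fun c => r⁻¹ • c from funext fun c => G_apply hU hε hr c i]
  exact (contDiff_mean_theta hU hε (inv_pos.2 hr) (obs_comp hU i)).comp h1

/-- The normalising constant of the standard Gaussian. -/
noncomputable def gz (d : ℕ) : ℝ := ∫ u : E d, Real.exp (-(‖u‖ ^ 2 / 2))

omit hε in
lemma gz_pos : 0 < gz d := by
  simpa [num, pot, gz] using num_one_pos hU (le_refl (0:ℝ)) (p := ((0 : E d), (1:ℝ))) one_pos

/-- `nW` in the parameters. -/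
noncomputable def nWf (U : E d → ℝ) (ε : ℝ) (q : ℝ × E d) : ℝ :=
  -Real.log (num U ε (fun _ => 1) (pp q.1 q.2)) + ‖q.2‖ ^ 2 / (2 * q.1)
    + ((d : ℝ) / 2) * Real.log q.1 + Real.log (gz d)

omit hε in
lemma gauss_integral (F : E d → ℝ) :
    ∫ u, F u ∂gam d = (∫ u, Real.exp (-(‖u‖ ^ 2 / 2)) * F u) / gz d := by
  have hW : LogConc (pot U 0 ((0 : E d), (1:ℝ))) (potGrad g 0 ((0 : E d), (1:ℝ))) 1 :=
    logConc hU le_rfl one_pos
  rw [← Tilt.tilt_zero U, tilt,
    show (fun z => ‖z‖ ^ 2 / 2 + 0 * U z) = pot U 0 ((0 : E d), (1:ℝ)) from funext fun z => by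
      simp [pot],
    LogConcave.integral_gibbs hW]
  simp [pot, gz]

lemma nW_eq {r : ℝ} (hr : 0 < r) (c : E d) : nW U ε r c = nWf U ε (r, c) := by
  have hs : 0 < Real.sqrt r := Real.sqrt_pos.2 hr
  set Z := num U ε (fun _ => 1) (pp r c) with hZ
  have hZp : 0 < Z := num_one_pos hU hε (pp_pos hr c)
  have h1 : (fun u : E d => Real.exp (-(‖u‖ ^ 2 / 2)) * Real.exp (-(ε * U (c + Real.sqrt r • u))))
      = fun u => (fun y : E d =>
          Real.exp (-(‖y‖ ^ 2 / (2 * r))) * Real.exp (-(ε * U (c + y)))) (Real.sqrt r • u) := by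
    funext u
    simp only [norm_smul, Real.norm_eq_abs, abs_of_pos hs, mul_pow, Real.sq_sqrt hr.le]
    field_simp
  have h2 : (∫ y : E d, Real.exp (-(‖y‖ ^ 2 / (2 * r))) * Real.exp (-(ε * U (c + y))))
      = Real.exp (-(‖c‖ ^ 2 / (2 * r))) * Z := by
    rw [← integral_add_left_eq_self (μ := (volume : Measure (E d)))
      (fun y : E d => Real.exp (-(‖y‖ ^ 2 / (2 * r))) * Real.exp (-(ε * U (c + y)))) (-c)]
    simp only [hZ, num, mul_one, add_neg_cancel_left]
    rw [← integral_const_mul]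
    refine integral_congr_ae (ae_of_all _ fun y => ?_)
    simp only []
    rw [← Real.exp_add, ← Real.exp_add]
    congr 1
    have h := post_pot_eq (U := U) (ε := ε) hr c y
    rw [show -c + y = y - c by abel]
    linarith
  rw [nW, gauss_integral hU, h1, Measure.integral_comp_smul (volume : Measure (E d))
      (fun y : E d => Real.exp (-(‖y‖ ^ 2 / (2 * r))) * Real.exp (-(ε * U (c + y)))), h2, finrank_euclideanSpace,
    Fintype.card_fin, smul_eq_mul, abs_of_pos (by positivity)]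
  have hpow : 0 < Real.sqrt r ^ d := by positivity
  rw [Real.log_div (by positivity) (gz_pos hU).ne', Real.log_mul (by positivity) (by positivity),
    Real.log_inv, Real.log_pow, Real.log_sqrt hr.le, Real.log_mul (by positivity) hZp.ne',
    Real.log_exp]
  simp only [nWf, ← hZ]
  ring

lemma contDiffOn_nWf : ContDiffOn ℝ ∞ (nWf U ε) (Set.Ioi 0 ×ˢ Set.univ) := by
  have hne : ∀ q ∈ Set.Ioi (0:ℝ) ×ˢ (Set.univ : Set (E d)), (2 : ℝ) * q.1 ≠ 0 :=
    fun q hq => mul_ne_zero two_ne_zero (Set.mem_Ioi.1 hq.1).ne'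
  exact (((((contDiffOn_num hU hε Obs.one).comp contDiffOn_pp mapsTo_pp).log fun q hq =>
      (num_one_pos hU hε (pp_pos (Set.mem_Ioi.1 hq.1) q.2)).ne').neg).add
    ((((contDiff_norm_sq ℝ).comp contDiff_snd).contDiffOn).div
      (contDiffOn_const.mul contDiff_fst.contDiffOn) hne)).add
    (contDiffOn_const.mul (contDiff_fst.contDiffOn.log fun q hq => (Set.mem_Ioi.1 hq.1).ne'))
    |>.add contDiffOn_const

lemma contDiffOn_nW :
    ContDiffOn ℝ ∞ (fun q : ℝ × E d => nW U ε q.1 q.2) (Set.Ioi 0 ×ˢ Set.univ) :=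
  (contDiffOn_nWf hU hε).congr fun q hq => nW_eq hU hε (Set.mem_Ioi.1 hq.1) q.2

end Vale.Agent.P347.Gamma0
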