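import Vale.Agent.P347.Gamma0.Step
import Vale.Agent.P347.Gamma0.Bridge

/-!
P347, towards `γ_* = 0`: a draw from the posterior through the chain of bridge means.
-/

namespace Vale.Agent.P347.Gamma0

open MeasureTheory ProbabilityTheory
open scoped RealInnerProductSpace

variable {d : ℕ}

local instance (m : ℕ) : IsProbabilityMeasure (gam m) := by unfold gam; infer_instance

/-- The posterior at a small scale is concentrated at its centre. -/
lemma post_near {U : E d → ℝ} {g : E d → E d} (hU : Pot U g) (hg : g 0 = 0) {ε τ : ℝ}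
    (hε : 0 ≤ ε) (hε1 : ε ≤ 1) (hτ : 0 < τ) (hτ1 : τ ≤ 1) (c : E d) {φ : E d → ℝ} (hφ : Lip1 φ) :
    |φ c - ∫ x, φ x ∂post U ε τ c| ≤ Real.sqrt τ * (Real.sqrt d + ‖c‖) := by
  have hp := pp_pos (d := d) hτ c
  have := LogConcave.isProb (logConc hU hε hp)
  have hi := integrable_mean hU hε hp (obs_norm_sub c)
  have hb : ∀ x, |φ c - φ x| ≤ ‖x - c‖ := fun x => by
    simpa [Real.dist_eq, dist_eq_norm, norm_sub_rev] using hφ.dist_le_mul c x
  have hφi : Integrable φ (gibbs (pot U ε (pp τ c))) :=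
    ((integrable_const |φ c|).add hi).mono' hφ.continuous.aestronglyMeasurable
      (ae_of_all _ fun x => by
        simp only [Real.norm_eq_abs, Pi.add_apply]
        linarith [hb x, abs_sub_abs_le_abs_sub (φ x) (φ c), abs_sub_comm (φ c) (φ x)])
  rw [post_eq hτ, show φ c = ∫ _x, φ c ∂gibbs (pot U ε (pp τ c)) by simp,
    ← integral_sub (integrable_const _) hφi]
  refine (abs_integral_le_integral_abs.trans
    (integral_mono ((integrable_const _).sub hφi).abs hi hb)).trans ?_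
  rw [← mean_eq hU hε hp]
  refine (mean_norm_le hU hε hτ c c (b := τ * ε * ‖g c‖) (by positivity) fun x => ?_).trans ?_
  · have hm := hU.mono x c
    rw [inner_sub_left, real_inner_comm (x - c) (g x), real_inner_comm (x - c) (g c)] at hm
    have h2 := (abs_le.1 (abs_real_inner_le_norm (x - c) (g c))).1
    simp only [inner_add_right, real_inner_smul_right, real_inner_self_eq_norm_sq]
    nlinarith [mul_nonneg (mul_nonneg hτ.le hε) hm,
      mul_le_mul_of_nonneg_left h2 (mul_nonneg hτ.le hε)]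
  have hgc : ‖g c‖ ≤ ‖c‖ := by simpa [hg] using hU.lip.norm_sub_le c 0
  have h2 : τ * ε ≤ Real.sqrt τ :=
    (mul_le_of_le_one_right hτ.le hε1).trans
      (Real.le_sqrt_of_sq_le (by nlinarith))
  rw [Real.sqrt_mul hτ.le, mul_add]
  linarith [mul_le_mul h2 hgc (norm_nonneg _) (Real.sqrt_nonneg τ)]

lemma measurable_post {U : E d → ℝ} {g : E d → E d} (hU : Pot U g) {ε r : ℝ} (hε : 0 ≤ ε)
    (hr : 0 < r) {φ : E d → ℝ} (hφ : Measurable φ) :
    Measurable fun y => ∫ x, φ x ∂post U ε r y := by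
  have hUc := hU.contDiff.continuous
  simp only [integral_post hU hε hr]
  refine Measurable.div ?_ ?_
  · exact (StronglyMeasurable.integral_prod_right' (ν := (volume : Measure (E d)))
      (f := fun p : E d × E d => Real.exp (-(‖p.2 - p.1‖ ^ 2 / (2 * r) + ε * U p.2)) * φ p.2)
      ((Continuous.measurable (by fun_prop)).mul (hφ.comp measurable_snd)).stronglyMeasurable).measurable
  · exact (StronglyMeasurable.integral_prod_right' (ν := (volume : Measure (E d)))
      (f := fun p : E d × E d => Real.exp (-(‖p.2 - p.1‖ ^ 2 / (2 * r) + ε * U p.2)))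
      (Continuous.stronglyMeasurable (by fun_prop))).measurable

lemma isProb_post {U : E d → ℝ} {g : E d → E d} (hU : Pot U g) {ε r : ℝ} (hε : 0 ≤ ε)
    (hr : 0 < r) (c : E d) : IsProbabilityMeasure (post U ε r c) := by
  rw [post_eq hr]; exact LogConcave.isProb (logConc hU hε (pp_pos hr c))

lemma isProb_lawY {U : E d → ℝ} {g : E d → E d} (hU : Pot U g) {ε r τ : ℝ} (hε : 0 ≤ ε)
    (hr : 0 < r) (hrτ : r < τ) (c : E d) : IsProbabilityMeasure (lawY U ε τ r c) := by
  have h := bridgeFact d U g hU ε hε r τ hr hrτ c (fun _ => 1) measurable_const (by simp)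
  have := isProb_post hU hε (hr.trans hrτ) c
  have e : ∀ y, ∫ _x, (1 : ℝ) ∂post U ε r y = 1 := fun y => by
    have := isProb_post hU hε hr y; simp
  simp only [e, integral_const, probReal_univ, smul_eq_mul, mul_one] at h
  exact ⟨(ENNReal.toReal_eq_one_iff _).1 h.symm⟩

lemma integrable_lipK {Ω : Type*} [MeasurableSpace Ω] {μ : Measure Ω} [IsFiniteMeasure μ]
    {ψ : E d → ℝ} {K : ℝ} (hψ : ∀ a b, |ψ a - ψ b| ≤ K * ‖a - b‖) (hψc : Continuous ψ)
    {X : Ω → E d} (hX : Measurable X) (hi : Integrable (fun w => ‖X w‖) μ) :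
    Integrable (fun w => ψ (X w)) μ :=
  ((integrable_const |ψ 0|).add (hi.const_mul K)).mono'
    (hψc.measurable.comp hX).aestronglyMeasurable (ae_of_all _ fun w => by
      have := hψ (X w) 0
      rw [sub_zero] at this
      simp only [Real.norm_eq_abs, Pi.add_apply]
      linarith [abs_sub_abs_le_abs_sub (ψ (X w)) (ψ 0)])

lemma continuous_lipK {α : Type*} [SeminormedAddCommGroup α] {ψ : α → ℝ} {K : ℝ}
    (hψ : ∀ a b, |ψ a - ψ b| ≤ K * ‖a - b‖) : Continuous ψ :=
  (LipschitzWith.of_dist_le_mul (K := K.toNNReal) fun a b => by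
    rw [Real.dist_eq, dist_eq_norm]
    exact (hψ a b).trans (mul_le_mul_of_nonneg_right (Real.le_coe_toNNReal K) (norm_nonneg _))).continuous

lemma integrable_norm_affine (a : E d) (s : ℝ) : Integrable (fun w => ‖a + s • w‖) (gam d) :=
  integrable_lip_gam (φ := fun u => ‖u‖) Lip1.norm a s

lemma lipK_sm {ψ : E d → ℝ} {K : ℝ} (hψ : ∀ a b, |ψ a - ψ b| ≤ K * ‖a - b‖) (v : ℝ) (a b : E d) :
    |sm v ψ a - sm v ψ b| ≤ K * ‖a - b‖ := by
  have hc := continuous_lipK hψ
  have i : ∀ a : E d, Integrable (fun w => ψ (a + Real.sqrt v • w)) (gam d) := fun a =>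
    integrable_lipK hψ hc (by fun_prop) (integrable_norm_affine a _)
  rw [sm, sm, ← integral_sub (i a) (i b)]
  refine abs_integral_le_integral_abs.trans
    ((integral_mono ((i a).sub (i b)).abs (integrable_const (K * ‖a - b‖)) fun w => ?_).trans (le_of_eq (by simp)))
  simpa using hψ (a + Real.sqrt v • w) (b + Real.sqrt v • w)

/-- A semantic kernel. -/
abbrev Sem (d : ℕ) := (E d → ℝ) → (E d → E d) → E d → ((E d → ℝ) → ℝ)

/-- One more bridge mean in front of a kernel. -/
noncomputable def semStep {na N : ℕ} (St : Stage na N) (ε : ℝ) (S : Sem d) : Sem d :=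
  fun U g c φ => ∫ R, sm (St.s ^ 2) (fun C => S U g C φ)
    (St.mean.val (Gt U g ε) (mPoint c R)) ∂gam d

section

variable {na N : ℕ} {St : Stage na N} {amp L τ ρ w₀ ε : ℝ}

lemma mean_lip_two (hs : StageShape St ε amp L τ ρ w₀) (hf : GradFacts d ε) {U : E d → ℝ}
    {g : E d → E d} (hU : Pot U g) (hg : g 0 = 0) (c c' R R' : E d) :
    ‖St.mean.val (Gt U g ε) (mPoint c R) - St.mean.val (Gt U g ε) (mPoint c' R')‖
      ≤ 2 * ‖c - c'‖ + 2 * ‖R - R'‖ := by
  refine (Expr.norm_val_sub_le (Gt U g ε) (hf.lip U g hU hg) St.mean _ _).trans ?_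
  rw [Layer.sum_MIn]
  simp only [mPoint]
  gcongr <;> exact hs.mean_lip _

lemma mean_norm_two (hs : StageShape St ε amp L τ ρ w₀) (hf : GradFacts d ε) {U : E d → ℝ}
    {g : E d → E d} (hU : Pot U g) (hg : g 0 = 0) (c R : E d) :
    ‖St.mean.val (Gt U g ε) (mPoint c R)‖ ≤ 2 * (Real.sqrt d + ‖c‖ + ‖R‖) := by
  refine (Expr.norm_val_le (Gt U g ε) (hf.lip U g hU hg) (hf.zero U g hU hg) St.mean _).trans ?_
  rw [Layer.sum_MIn]
  simp only [mPoint]
  have h1 := mul_le_mul_of_nonneg_right (hs.mean_lip .ctr) (norm_nonneg c)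
  have h2 := mul_le_mul_of_nonneg_right (hs.mean_lip .seed) (norm_nonneg R)
  have h3 := mul_le_mul_of_nonneg_right hs.mean_offset (Real.sqrt_nonneg (d : ℝ))
  linarith

lemma semStep_facts (hs : StageShape St ε amp L τ ρ w₀) (hf : GradFacts d ε) {U : E d → ℝ}
    {g : E d → E d} (hU : Pot U g) (hg : g 0 = 0) {K : ℝ} (hK : 0 ≤ K) {S : Sem d}
    {φ : E d → ℝ} (hS : ∀ a b, |S U g a φ - S U g b φ| ≤ K * ‖a - b‖) :
    (∀ c, Integrable (fun R => sm (St.s ^ 2) (fun C => S U g C φ)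
      (St.mean.val (Gt U g ε) (mPoint c R))) (gam d)) ∧
    ∀ c c', |semStep St ε S U g c φ - semStep St ε S U g c' φ| ≤ 2 * K * ‖c - c'‖ := by
  have hl := lipK_sm (v := St.s ^ 2) hS
  have i : ∀ c, Integrable (fun R => sm (St.s ^ 2) (fun C => S U g C φ)
      (St.mean.val (Gt U g ε) (mPoint c R))) (gam d) := fun c => by
    refine integrable_lipK (X := fun R : E d => R)
      (ψ := fun R => sm (St.s ^ 2) (fun C => S U g C φ) (St.mean.val (Gt U g ε) (mPoint c R)))
      (K := K * 2) (fun a b => ?_) ?_ measurable_id (Mean.integrable_norm d)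
    · refine (hl _ _).trans ((mul_le_mul_of_nonneg_left (mean_lip_two hs hf hU hg c c a b) hK).trans ?_)
      simp [mul_assoc]
    · refine continuous_lipK (K := K * 2) fun a b => ?_
      refine (hl _ _).trans ((mul_le_mul_of_nonneg_left (mean_lip_two hs hf hU hg c c a b) hK).trans ?_)
      simp [mul_assoc]
  refine ⟨i, fun c c' => ?_⟩
  rw [semStep, semStep, ← integral_sub (i c) (i c')]
  refine abs_integral_le_integral_abs.trans
    ((integral_mono ((i c).sub (i c')).abs (integrable_const (2 * K * ‖c - c'‖)) fun R => ?_).trans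
      (le_of_eq (by simp)))
  refine (hl _ _).trans ((mul_le_mul_of_nonneg_left (mean_lip_two hs hf hU hg c c' R R) hK).trans ?_)
  simp only [sub_self, norm_zero, mul_zero, add_zero]
  linarith

/-- One more step of the chain, semantically. -/
lemma semStep_near {γ err : ℝ} (hs : StageShape St ε amp L τ ρ w₀)
    (hacc : StageAccurate d St ε γ τ ρ err) (hε : 0 ≤ ε) (hτ : 0 < τ) (hρ : 0 < ρ) (hρ1 : ρ < 1)
    (herr : 0 ≤ err) {U : E d → ℝ} {g : E d → E d} (hU : Pot U g) (hg : g 0 = 0)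
    {φ : E d → ℝ} (hφ : Lip1 φ) (hb : ∀ x, |φ x| ≤ 1) {K a : ℝ} (hK : 0 ≤ K) (ha : 0 ≤ a)
    {S : Sem d} (hS : ∀ x y, |S U g x φ - S U g y φ| ≤ K * ‖x - y‖)
    (hn : ∀ y, |S U g y φ - ∫ x, φ x ∂post U ε (ρ * τ) y| ≤ a * (Real.sqrt d + ‖y‖)) (c : E d) :
    |semStep St ε S U g c φ - ∫ x, φ x ∂post U ε τ c|
      ≤ (K * (Real.sqrt τ * err) + 3 * a) * (Real.sqrt d + ‖c‖) := by
  have hr : 0 < ρ * τ := mul_pos hρ hτ
  have hrτ : ρ * τ < τ := mul_lt_of_lt_one_left hτ hρ1
  have := isProb_lawY hU hε hr hrτ c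
  have hsq := Real.sqrt_nonneg (d : ℝ)
  obtain ⟨him, hmom⟩ := hacc.moment U g hU hg c
  have e1 : |semStep St ε S U g c φ - ∫ y, S U g y φ ∂lawY U ε τ (ρ * τ) c|
      ≤ K * (Real.sqrt τ * err * (Real.sqrt d + ‖c‖)) :=
    abs_le_of_lip_scale (ψ := fun y => S U g y φ) hK (by positivity)
      (fun f => (∫ R, sm (St.s ^ 2) f (St.mean.val (Gt U g ε) (mPoint c R)) ∂gam d)
        - ∫ y, f y ∂lawY U ε τ (ρ * τ) c)
      (fun a f => by simp only [sm, integral_const_mul, mul_sub]) hS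
      fun f hf => hacc.mean_acc U g hU hg c f hf
  have hpb : ∀ y, |∫ x, φ x ∂post U ε (ρ * τ) y| ≤ 1 := fun y => by
    have := isProb_post hU hε hr y
    refine abs_integral_le_integral_abs.trans ?_
    exact (integral_mono_of_nonneg (ae_of_all _ fun x => abs_nonneg _) (integrable_const (1 : ℝ))
      (ae_of_all _ hb)).trans (le_of_eq (by simp))
  have iS : Integrable (fun y => S U g y φ) (lawY U ε τ (ρ * τ) c) :=
    integrable_lipK (X := fun y => y) hS (continuous_lipK hS) measurable_id him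
  have iP : Integrable (fun y => ∫ x, φ x ∂post U ε (ρ * τ) y) (lawY U ε τ (ρ * τ) c) :=
    (integrable_const (1 : ℝ)).mono'
      (measurable_post hU hε hr hφ.continuous.measurable).aestronglyMeasurable
      (ae_of_all _ fun y => by rw [Real.norm_eq_abs]; exact hpb y)
  have e2 : |(∫ y, S U g y φ ∂lawY U ε τ (ρ * τ) c) - ∫ x, φ x ∂post U ε τ c|
      ≤ 3 * a * (Real.sqrt d + ‖c‖) := by
    rw [show ∫ x, φ x ∂post U ε τ c
      = ∫ y, (∫ x, φ x ∂post U ε (ρ * τ) y) ∂lawY U ε τ (ρ * τ) c from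
      bridgeFact d U g hU ε hε _ τ hr hrτ c φ hφ.continuous.measurable hb, ← integral_sub iS iP]
    refine abs_integral_le_integral_abs.trans ((integral_mono (iS.sub iP).abs
      (((integrable_const (Real.sqrt d)).add him).const_mul a) fun y => hn y).trans ?_)
    rw [integral_const_mul, integral_add' (integrable_const _) him, integral_const]
    simp only [probReal_univ, smul_eq_mul, one_mul]
    nlinarith [mul_le_mul_of_nonneg_left hmom ha, norm_nonneg c]
  linarith [abs_sub_le (semStep St ε S U g c φ) (∫ y, S U g y φ ∂lawY U ε τ (ρ * τ) c)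
    (∫ x, φ x ∂post U ε τ c)]

end

namespace Draws

/-- A change of the inputs. -/
lemma reindex {ι κ : Type} [Fintype ι] [Fintype κ] {cost : ℕ} {T : Dep d κ ((E d → ℝ) → ℝ)}
    {B : Dep d κ ℝ} (h : Draws d cost T B) (σ : κ → ι) :
    Draws (ι := ι) d cost (fun U g x φ => T U g (fun k => x (σ k)) φ)
      fun U g x => B U g fun k => x (σ k) := by
  obtain ⟨Ω, _, μ, _, F, hG, hF, h⟩ := h
  exact ⟨Ω, inferInstance, μ, inferInstance, fun g p => F g (p.1, fun k => p.2 (σ k)), hG,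
    hF.precomp (φ := fun p : Ω × (ι → E d) => (p.1, fun k => p.2 (σ k))) (by fun_prop),
    fun U g hU hg x => h U g hU hg fun k => x (σ k)⟩

end Draws

/-- A draw from the posterior, up to `u ^ T` and the last scale `u ^ k`. -/
def ChainDraw (T b J na k : ℕ) (w₀ : ℝ) : Prop :=
  ∃ (A : ℝ) (e : ℕ), 0 ≤ A ∧ ∀ (d X : ℕ) (ε amp u μ κ : ℝ), Par d T b J na X w₀ ε amp u μ κ →
    u < 1 → ∀ τ : ℝ, 0 < τ → τ ≤ 1 → ∃ S : Sem d,
      (∀ U g, Pot U g → g 0 = 0 → ∀ φ, Lip1 φ →
        (∀ c c', |S U g c φ - S U g c' φ| ≤ 2 ^ k * ‖c - c'‖) ∧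
        ((∀ x, |φ x| ≤ 1) → ∀ c, |S U g c φ - ∫ x, φ x ∂post U ε τ c|
          ≤ A * (u ^ k * Real.sqrt τ + u ^ T) * (Real.sqrt d + ‖c‖))) ∧
      Draws (ι := Unit) d ((X + 5) ^ e) (fun U g x φ => S U g (x ()) φ)
        fun _ _ x => A * u ^ T * (Real.sqrt d + ‖x ()‖)

theorem chainDraw_zero (T b J na : ℕ) (w₀ : ℝ) : ChainDraw T b J na 0 w₀ := by
  refine ⟨1, 0, zero_le_one, fun d X ε amp u μ κ hp _ τ hτ hτ1 =>
    ⟨fun _ _ c φ => φ c, fun U g hU hg φ hφ => ⟨fun c c' => ?_, fun _ c => ?_⟩, ?_⟩⟩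
  · simpa [Real.dist_eq, dist_eq_norm] using hφ.dist_le_mul c c'
  · refine (post_near hU hg hp.eps_pos.le hp.eps_le hτ hτ1 c hφ).trans ?_
    refine mul_le_mul_of_nonneg_right ?_ (by positivity)
    have := pow_nonneg hp.u_pos.le T
    linarith
  · refine (Draws.const (d := d) (e := Expr.var ()) 0).mono (by simp [Expr.nodes]) ?_
    intro U g _ _ x φ _
    have := pow_nonneg hp.u_pos.le T
    simp only [sm, Expr.val, zero_pow two_ne_zero, Real.sqrt_zero, zero_smul, add_zero,
      integral_const, probReal_univ, smul_eq_mul, one_mul, sub_self, abs_zero]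
    positivity

theorem chainDraw_succ {n b J na k : ℕ} {w₀ : ℝ}
    (hP : GateDraw (n + 1) b J na (n + 1 - b) w₀) (hk : ChainDraw (n + 1) b J na k w₀) :
    ChainDraw (n + 1) b J na (k + 1) w₀ := by
  obtain ⟨PP, eP, hPP, hP⟩ := hP
  obtain ⟨A, e, hA, hk⟩ := hk
  refine ⟨2 * (A + A * (3 + 9 * PP) + 2 ^ k * (9 * PP)) + 3 * A + 2 ^ k,
    2 * (n + 1) + 6 + max eP e, by positivity, fun d X ε amp u μ κ hp hu1 τ hτ hτ1 => ?_⟩
  have hu := hp.u_pos
  obtain ⟨N, St, hN, hmn, hsn, hsh, hacc⟩ := hp.stages τ 0 hτ hτ1 (by simp)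
  have hr1 : u ^ 2 < 1 := pow_lt_one₀ hu.le hu1 two_ne_zero
  obtain ⟨S, hSf, hSd⟩ := hk d X ε amp u μ κ hp hu1 (u ^ 2 * τ) (by positivity)
    ((mul_le_of_le_one_left hτ.le hr1.le).trans hτ1)
  have hsq : Real.sqrt (u ^ 2 * τ) = u * Real.sqrt τ := by
    rw [Real.sqrt_mul (sq_nonneg u), Real.sqrt_sq hu.le]
  refine ⟨semStep St ε S, fun U g hU hg φ hφ => ⟨fun c c' => ?_, fun hb c => ?_⟩, ?_⟩
  · refine ((semStep_facts hsh hp.grad hU hg (by positivity)
      (hSf U g hU hg φ hφ).1).2 c c').trans (le_of_eq ?_)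
    ring
  · obtain ⟨hl, hn⟩ := hSf U g hU hg φ hφ
    refine (semStep_near hsh hacc hp.eps_pos.le hτ (by positivity) hr1 (by positivity) hU hg hφ hb
      (K := 2 ^ k) (a := A * (u ^ k * Real.sqrt (u ^ 2 * τ) + u ^ (n + 1))) (by positivity)
      (by positivity) hl (hn hb) c).trans (mul_le_mul_of_nonneg_right ?_ (by positivity))
    rw [hsq, ← mul_assoc (u ^ k), ← pow_succ]
    have hE : 0 ≤ u ^ (k + 1) * Real.sqrt τ + u ^ (n + 1) := by positivity
    have h1 : (2 : ℝ) ^ k * (Real.sqrt τ * u ^ (n + 1))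
        ≤ 2 ^ k * (u ^ (k + 1) * Real.sqrt τ + u ^ (n + 1)) :=
      mul_le_mul_of_nonneg_left (le_trans (mul_le_of_le_one_left (by positivity)
        (Real.sqrt_le_one.2 hτ1)) (le_add_of_nonneg_left (by positivity))) (by positivity)
    have h2 : 0 ≤ 2 * (A + A * (3 + 9 * PP) + 2 ^ k * (9 * PP))
        * (u ^ (k + 1) * Real.sqrt τ + u ^ (n + 1)) := by positivity
    linarith
  have hstep : StepHyp d (n + 1) b J na X N n w₀ ε amp u μ κ τ 0 (Expr.var ()) St :=
    ⟨hp, le_rfl, ⟨hτ, hτ1, by simpa using (hp.lvlM_pos _).le, by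
      simp only [Expr.size]; positivity [hp.amp_pos, hp.lvlM_pos (n + 1)],
      fun p h => by simp [Expr.gates] at h, Nat.one_le_pow _ _ (by omega)⟩, hN, hmn, hsn, hsh, hacc⟩
  have hs1 : St.s ≤ 1 := hsh.s_hi.trans (Real.sqrt_le_one.2 hτ1)
  have hs0 : 0 ≤ St.s := hstep.s_pos.le
  have hm := (hstep.draw_mean hPP
    fun κ' _ a t g h => hP d X ε amp u μ κ hp κ' a t g h).mono (le_refl _)
    (T' := gT (St.s ^ 2) fun U g x => St.mean.val (Gt U g ε) (mPoint (x (some ())) (x none)))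
    (B' := fun _ _ x => 9 * PP * u ^ (n + 1) * (Real.sqrt d + ‖x (some ())‖ + ‖x none‖))
    (fun U g _ _ x φ _ => by
      simp only [Expr.val, Expr.rad, sub_self, abs_zero, add_zero]
      refine mul_le_mul_of_nonneg_right (le_trans ?_ (le_of_eq (mul_one _))) (by positivity)
      rw [mul_right_comm (9 * PP) κ, mul_assoc]
      exact mul_le_mul_of_nonneg_left (mul_le_one₀ (hp.kappa_le.trans (by norm_num))
        (Real.sqrt_nonneg τ) (Real.sqrt_le_one.2 hτ1)) (by positivity))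
  have hb := Draws.bind (α := fun _ _ _ => A * u ^ (n + 1) * Real.sqrt d)
    (β := fun _ _ _ => A * u ^ (n + 1)) (L := fun _ _ _ => 2 ^ k) hm
    (hSd.reindex fun _ => (none : Option (Option Unit)))
    (fun U g _ _ x => ⟨by positivity, by positivity, fun C => le_of_eq (by simp [cons]; ring)⟩)
    (fun U g hU hg x φ hφ C C' => by simpa [cons] using (hSf U g hU hg φ hφ).1 C C')
  have hb2 := hb.mono (le_refl _)
    (T' := fun U g x φ => sm (St.s ^ 2) (fun C => S U g C φ)
      (St.mean.val (Gt U g ε) (mPoint (x (some ())) (x none))))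
    (B' := fun _ _ x => (A + A * (3 + 9 * PP) + 2 ^ k * (9 * PP)) * u ^ (n + 1)
      * (Real.sqrt d + ‖x (some ())‖ + ‖x none‖))
    (fun U g hU hg x φ _ => by
      simp only [cons, Option.elim_none, sub_self, abs_zero, add_zero, Real.sqrt_sq hs0]
      set Q := Real.sqrt d + ‖x (some ())‖ + ‖x none‖ with hQdef
      have hsd := Real.sqrt_nonneg (d : ℝ)
      have hQ : Real.sqrt d ≤ Q := by linarith [norm_nonneg (x (some ())), norm_nonneg (x none)]
      have hm := mean_norm_two hsh hp.grad hU hg (x (some ())) (x none)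
      have hU1 : u ^ (n + 1) ≤ 1 := hp.u_pow_le _
      have hB : 9 * PP * u ^ (n + 1) * Q ≤ 9 * PP * Q :=
        mul_le_mul_of_nonneg_right (mul_le_of_le_one_right (by positivity) hU1) (by linarith)
      have h1 : A * u ^ (n + 1) * (‖St.mean.val (Gt U g ε) (mPoint (x (some ())) (x none))‖
          + St.s * Real.sqrt d + 9 * PP * u ^ (n + 1) * Q)
          ≤ A * u ^ (n + 1) * (2 * Q + Q + 9 * PP * Q) :=
        mul_le_mul_of_nonneg_left (add_le_add (add_le_add hm
          ((mul_le_of_le_one_left hsd hs1).trans hQ)) hB) (by positivity)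
      have h2 : A * u ^ (n + 1) * Real.sqrt d ≤ A * u ^ (n + 1) * Q :=
        mul_le_mul_of_nonneg_left hQ (by positivity)
      linarith)
  have hfr := hb2.fresh (gam d) (AlgoRun.gen_gam d)
    (f := fun p : E d × (Unit → E d) => cons p.1 p.2) measurable_cons
    (fun U g hU hg x φ hφ => by
      simpa [cons] using (semStep_facts hsh hp.grad hU hg (by positivity)
        (hSf U g hU hg φ hφ).1).1 (x ()))
    (fun U g _ _ x => by
      simp only [cons, Option.elim_some, Option.elim_none]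
      exact ((integrable_const _).add (Mean.integrable_norm d)).const_mul _)
  refine hfr.mono ?_ ?_
  · refine (Nat.add_le_add
      (Nat.pow_le_pow_right (show 0 < X + 5 by omega)
        (show 2 * (n + 1) + 5 + eP ≤ 2 * (n + 1) + 5 + max eP e by omega))
      (Nat.pow_le_pow_right (show 0 < X + 5 by omega)
        (show e ≤ 2 * (n + 1) + 5 + max eP e by omega))).trans ?_
    rw [show 2 * (n + 1) + 6 + max eP e = (2 * (n + 1) + 5 + max eP e) + 1 by omega,
      pow_succ' _ (2 * (n + 1) + 5 + max eP e), ← two_mul]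
    exact Nat.mul_le_mul_right _ (by omega)
  · intro U g _ _ x φ _
    simp only [cons, Option.elim_some, Option.elim_none, semStep, sub_self, abs_zero, add_zero]
    rw [integral_const_mul, integral_add (integrable_const _) (Mean.integrable_norm d),
      integral_const]
    simp only [probReal_univ, smul_eq_mul, one_mul]
    set A1 := A + A * (3 + 9 * PP) + 2 ^ k * (9 * PP) with hA1
    have hA1' : 0 ≤ A1 := by positivity
    have h1 : A1 * u ^ (n + 1) * (Real.sqrt d + ‖x ()‖ + ∫ R, ‖R‖ ∂gam d)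
        ≤ A1 * u ^ (n + 1) * (2 * (Real.sqrt d + ‖x ()‖)) :=
      mul_le_mul_of_nonneg_left (by
        linarith [Mean.integral_norm_le d, norm_nonneg (x ())]) (by positivity)
    have h2 : 0 ≤ (3 * A + 2 ^ k) * u ^ (n + 1) * (Real.sqrt d + ‖x ()‖) := by positivity
    linarith

theorem chainDraw {T b J na : ℕ} {w₀ : ℝ} (hT : 1 ≤ T) (hw : 1 ≤ w₀) (hb : 1 ≤ b) :
    ∀ k, ChainDraw T b J na k w₀
  | 0 => chainDraw_zero T b J na w₀
  | k + 1 => by
    obtain ⟨n, rfl⟩ : ∃ n, T = n + 1 := ⟨T - 1, by omega⟩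
    exact chainDraw_succ (gateDraw hw hb _ (Nat.sub_le _ _)) (chainDraw (by omega) hw hb k)

end Vale.Agent.P347.Gamma0
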