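import Vale.Agent.P347.Gamma0.PostBase

/-!
P347, towards `γ* = 0`, piece 1: derivatives of the posterior mean gradient and of `nW`, the bounds
`0 ≤ DG ≤ 1`, the heat equations and the size bounds.
-/

namespace Vale.Agent.P347.Gamma0

open MeasureTheory Filter Topology
open scoped RealInnerProductSpace ContDiff

variable {d : ℕ} {U : E d → ℝ} {g : E d → E d} {ε : ℝ}

lemma inner_bv (j : Fin d) (x : E d) : ⟪bv j, x⟫ = x j := by
  simp [bv, EuclideanSpace.inner_single_left]

lemma dir_snd (c x : E d) (a : ℝ) :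
    dir (a • c, a) x = a * (⟪c, x⟫ + (-1 / 2) * ‖x‖ ^ 2) := by
  simp only [dir, real_inner_smul_left]; ring

variable (hU : Pot U g) (hε : 0 ≤ ε) {r : ℝ} (hr : 0 < r)
include hU hε hr

lemma hasFDerivAt_mean_pp {φ : E d → ℝ} (hφ : Obs φ) (c : E d) :
    ∃ D : E d →L[ℝ] ℝ, HasFDerivAt (fun y => mean U ε φ (pp r y)) D c ∧
      ∀ v, D v = r⁻¹ * cv U ε φ (fun x => ⟪v, x⟫) (pp r c) := by
  have h1 : HasFDerivAt (fun y : E d => pp r y)
      ((r⁻¹ • ContinuousLinearMap.id ℝ (E d)).prod 0) c :=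
    ((hasFDerivAt_id c).const_smul r⁻¹).prodMk (hasFDerivAt_const r⁻¹ c)
  have h2 := ((hasFDerivAt_mean hU hε hφ (pp_pos hr c)).differentiableAt.hasFDerivAt).comp c h1
  refine ⟨_, h2, fun v => ?_⟩
  simp only [ContinuousLinearMap.comp_apply, ContinuousLinearMap.prod_apply,
    ContinuousLinearMap.smul_apply, ContinuousLinearMap.id_apply, ContinuousLinearMap.zero_apply]
  rw [fderiv_mean_inl hU hε (pp_pos hr c) hφ, ← cv_const_mul_right hU hε (pp_pos hr c)]
  simp [real_inner_smul_left]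

lemma inner_fderiv_G (c u v : E d) :
    ⟪u, fderiv ℝ (G U g ε r) c v⟫
      = r⁻¹ * cv U ε (fun x => ⟪u, g x⟫) (fun x => ⟪v, x⟫) (pp r c) := by
  obtain ⟨D, hD, hv⟩ := hasFDerivAt_mean_pp hU hε hr (Obs.grad hU u) c
  have hG : HasFDerivAt (G U g ε r) (fderiv ℝ (G U g ε r) c) c :=
    ((contDiff_G_apply hU hε hr).differentiable (by simp) c).hasFDerivAt
  have h := (innerSL ℝ u).hasFDerivAt.comp c hG
  have h' : HasFDerivAt (fun y => mean U ε (fun x => ⟪u, g x⟫) (pp r y))
      ((innerSL ℝ u).comp (fderiv ℝ (G U g ε r) c)) c :=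
    h.congr_of_eventuallyEq (Eventually.of_forall fun y => (inner_G hU hε hr y u).symm)
  rw [← hv v, ← h'.unique hD]
  rfl

omit hr in
lemma fderiv_grad_inner (x u v : E d) :
    fderiv ℝ (fun y => ⟪u, g y⟫) x v = ⟪u, fderiv ℝ g x v⟫ := by
  have h : HasFDerivAt (fun y => ⟪u, g y⟫) ((innerSL ℝ u).comp (fderiv ℝ g x)) x :=
    (innerSL ℝ u).hasFDerivAt.comp x ((differentiable_grad hU hε).1 x).hasFDerivAt
  rw [h.fderiv]
  rfl

omit hr in
lemma obs_fderiv_grad (u v : E d) : Obs fun x => fderiv ℝ (fun y => ⟪u, g y⟫) x v := by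
  simp only [fderiv_grad_inner hU hε]
  refine ⟨continuous_const.inner ((differentiable_grad hU hε).2.clm_apply continuous_const),
    LogConcave.Poly.of_bound (B := ‖u‖ * ‖v‖) fun x => ?_⟩
  refine (abs_real_inner_le_norm u _).trans (mul_le_mul_of_nonneg_left ?_ (norm_nonneg u))
  calc ‖fderiv ℝ g x v‖ ≤ ‖fderiv ℝ g x‖ * ‖v‖ := (fderiv ℝ g x).le_opNorm v
    _ ≤ 1 * ‖v‖ := by gcongr; exact norm_fderiv_grad_le hU x
    _ = ‖v‖ := one_mul _

omit hr in
lemma differentiable_grad_inner (u : E d) : Differentiable ℝ fun y => ⟪u, g y⟫ :=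
  (differentiable_const u).inner ℝ (differentiable_grad hU hε).1

omit hr in
lemma fderiv_grad_symm (x u v : E d) : ⟪u, fderiv ℝ g x v⟫ = ⟪v, fderiv ℝ g x u⟫ := by
  have hs := (hU.contDiff.contDiffAt (x := x)).isSymmSndFDerivAt (by simp)
  have e : fderiv ℝ U = fun y => (InnerProductSpace.toDual ℝ (E d) (g y) : E d →L[ℝ] ℝ) :=
    funext fun y => (hU.grad y).hasFDerivAt.fderiv
  have h : HasFDerivAt (fun y => (innerSL ℝ (g y) : E d →L[ℝ] ℝ))
      ((innerSL ℝ).comp (fderiv ℝ g x)) x :=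
    (innerSL ℝ).hasFDerivAt.comp x ((differentiable_grad hU hε).1 x).hasFDerivAt
  have e' : fderiv ℝ (fderiv ℝ U) x = (innerSL ℝ).comp (fderiv ℝ g x) := by
    rw [e]; exact h.fderiv
  have h2 := hs.eq v u
  rw [e'] at h2
  simpa [real_inner_comm] using h2

omit hr in
lemma fderiv_grad_nonneg (x v : E d) : 0 ≤ ⟪v, fderiv ℝ g x v⟫ := by
  have h : HasDerivAt (fun t : ℝ => ⟪v, g (x + t • v)⟫) ⟪v, fderiv ℝ g x v⟫ 0 := by
    have h1 : HasDerivAt (fun t : ℝ => x + t • v) v 0 := by
      simpa using ((hasDerivAt_id (0:ℝ)).smul_const v).const_add x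
    have h2 := ((innerSL ℝ v).hasFDerivAt.comp x
      ((differentiable_grad hU hε).1 x).hasFDerivAt).comp_hasDerivAt_of_eq (0:ℝ) h1 (by simp)
    simpa [Function.comp_def] using h2
  have hm : Monotone fun t : ℝ => ⟪v, g (x + t • v)⟫ := fun s t hst => by
    rcases hst.eq_or_lt with rfl | hlt
    · exact le_rfl
    have := hU.mono (x + t • v) (x + s • v)
    rw [show x + t • v - (x + s • v) = (t - s) • v by module, real_inner_smul_right,
      inner_sub_left, real_inner_comm v (g (x + t • v)), real_inner_comm v (g (x + s • v))] at this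
    have := nonneg_of_mul_nonneg_right (a := t - s) this (by linarith)
    simp only
    linarith
  exact h.deriv ▸ hm.deriv_nonneg

/-- `⟨u, DG v⟩ = E ⟨u, Dg v⟩ - ε Cov (⟨u, g⟩, ⟨v, g⟩)`. -/
lemma inner_fderiv_G' (c u v : E d) :
    ⟪u, fderiv ℝ (G U g ε r) c v⟫ = mean U ε (fun x => ⟪u, fderiv ℝ g x v⟫) (pp r c)
      - ε * cv U ε (fun x => ⟪u, g x⟫) (fun x => ⟪v, g x⟫) (pp r c) := by
  have h := ibp_cv hU hε (pp_pos hr c) (differentiable_grad_inner hU hε u) v (Obs.grad hU u)
    (obs_fderiv_grad hU hε u v)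
  simp only [fderiv_grad_inner hU hε] at h
  rw [inner_fderiv_G hU hε hr, h, show (pp r c).2 = r⁻¹ from rfl]
  ring

lemma fderiv_G_symm (c v u : E d) :
    ⟪fderiv ℝ (G U g ε r) c v, u⟫ = ⟪fderiv ℝ (G U g ε r) c u, v⟫ := by
  rw [real_inner_comm u, real_inner_comm v, inner_fderiv_G' hU hε hr, inner_fderiv_G' hU hε hr,
    cv_comm]
  simp only [fderiv_grad_symm hU hε _ u v]

lemma fderiv_G_bounds (c v : E d) :
    0 ≤ ⟪fderiv ℝ (G U g ε r) c v, v⟫ ∧ ⟪fderiv ℝ (G U g ε r) c v, v⟫ ≤ ‖v‖ ^ 2 := by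
  set p := pp r c with hp'
  have hp : 0 < p.2 := pp_pos hr c
  have hobs : Obs fun x => ⟪v, fderiv ℝ g x v⟫ := by
    simpa only [fderiv_grad_inner hU hε] using obs_fderiv_grad hU hε v v
  rw [real_inner_comm]
  constructor
  · rcases hε.eq_or_lt with h0 | hpos
    · rw [inner_fderiv_G' hU hε hr, ← h0, zero_mul, sub_zero]
      have h1 : mean U 0 (fun _ => (0:ℝ)) (pp r c) ≤ mean U 0 (fun x => ⟪v, fderiv ℝ g x v⟫) (pp r c) :=
        mean_mono hU le_rfl hp (Obs.const 0) hobs fun x => fderiv_grad_nonneg hU hε x v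
      rwa [mean_const hU le_rfl hp] at h1
    · -- Poincaré for a linear function
      have hlin : ∀ x, HasGradientAt (fun y : E d => ⟪v, y⟫) v x := fun x => by
        rw [hasGradientAt_iff_hasFDerivAt]
        exact ((InnerProductSpace.toDual ℝ (E d) v).hasFDerivAt).congr_of_eventuallyEq
          (Eventually.of_forall fun y => by simp [InnerProductSpace.toDual_apply_apply])
      have hP := poincare d _ _ _ (logConc hU hε hp) _ (fun _ => v) continuous_const hlin ‖v‖ 0
        (fun x => by simp)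
      have := LogConcave.isProb (logConc hU hε hp)
      rw [integral_const, show cov' (gibbs (pot U ε p)) (fun y : E d => ⟪v, y⟫) (fun y => ⟪v, y⟫)
        = cv U ε (fun y => ⟪v, y⟫) (fun y => ⟪v, y⟫) p by
          simp only [cov', cv, mean_eq hU hε hp]] at hP
      simp only [probReal_univ, smul_eq_mul, one_mul] at hP
      have hP' : p.2 * cv U ε (fun y => ⟪v, y⟫) (fun y => ⟪v, y⟫) p ≤ ‖v‖ ^ 2 := by
        rw [le_div_iff₀ hp] at hP; linarith
      have hd : Differentiable ℝ fun y : E d => ⟪v, y⟫ := fun x => (hlin x).hasFDerivAt.differentiableAt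
      have e : ∀ x, fderiv ℝ (fun y : E d => ⟪v, y⟫) x v = ‖v‖ ^ 2 := fun x => by
        rw [(hlin x).hasFDerivAt.fderiv, InnerProductSpace.toDual_apply_apply,
          real_inner_self_eq_norm_sq]
      have h := ibp_cv hU hε hp hd v (Obs.inner v) (by simp only [e]; exact Obs.const _)
      simp only [e, mean_const hU hε hp] at h
      rw [cv_comm (φ := fun x => ⟪v, x⟫) (ψ := fun x => ⟪v, g x⟫)] at h
      rw [inner_fderiv_G hU hε hr]
      have h3 : 0 ≤ ε * cv U ε (fun x => ⟪v, g x⟫) (fun x => ⟪v, x⟫) p := by linarith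
      have := (mul_nonneg_iff_of_pos_left hpos).1 h3
      positivity
  · rw [inner_fderiv_G' hU hε hr]
    have h1 : mean U ε (fun x => ⟪v, fderiv ℝ g x v⟫) p ≤ mean U ε (fun _ => ‖v‖ ^ 2) p := by
      refine mean_mono hU hε hp hobs (Obs.const _) fun x => ?_
      calc ⟪v, fderiv ℝ g x v⟫ ≤ ‖v‖ * ‖fderiv ℝ g x v‖ := real_inner_le_norm _ _
        _ ≤ ‖v‖ * (1 * ‖v‖) := by
            gcongr
            exact ((fderiv ℝ g x).le_opNorm v).trans
              (by gcongr; exact norm_fderiv_grad_le hU x)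
        _ = _ := by ring
    rw [mean_const hU hε hp] at h1
    have h2 := mul_nonneg hε (cv_self_nonneg hU hε hp (Obs.grad hU v))
    linarith

/-! ### The mean position -/

/-- `ε G = (c - m) / r`. -/
lemma mean_inner_self (c v : E d) :
    mean U ε (fun x => ⟪v, x⟫) (pp r c) = ⟪v, c⟫ - r * (ε * ⟪v, G U g ε r c⟫) := by
  have h := ibp_one hU hε (pp_pos hr c) v
  rw [← inner_G hU hε hr c v] at h
  simp only [pp, real_inner_smul_left] at h
  rw [h, real_inner_comm c v]
  simp only [pp]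
  field_simp
  ring

lemma mean_coord (c : E d) (j : Fin d) :
    mean U ε (fun x => x j) (pp r c) = c j - r * (ε * G U g ε r c j) := by
  simpa only [inner_bv] using mean_inner_self hU hε hr c (bv j)

/-! ### Second derivatives -/

lemma fderiv_fderiv_mean (c : E d) {φ : E d → ℝ} (hφ : Obs φ) (j : Fin d) :
    ∃ D : E d →L[ℝ] ℝ, HasFDerivAt (fun y => r⁻¹ * cv U ε φ (fun x => x j) (pp r y)) D c ∧
      D (bv j) = r⁻¹ * r⁻¹ * (cv U ε φ (fun x => x j * x j) (pp r c)
        - 2 * mean U ε (fun x => x j) (pp r c) * cv U ε φ (fun x => x j) (pp r c)) := by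
  obtain ⟨D1, h1, e1⟩ := hasFDerivAt_mean_pp hU hε hr (hφ.mul (Obs.coord j)) c
  obtain ⟨D2, h2, e2⟩ := hasFDerivAt_mean_pp hU hε hr hφ c
  obtain ⟨D3, h3, e3⟩ := hasFDerivAt_mean_pp hU hε hr (Obs.coord j) c
  refine ⟨r⁻¹ • (D1 - (mean U ε φ (pp r c) • D3 + mean U ε (fun x => x j) (pp r c) • D2)),
    ((h1.sub (h2.mul h3)).const_mul r⁻¹), ?_⟩
  simp only [ContinuousLinearMap.smul_apply, ContinuousLinearMap.sub_apply,
    ContinuousLinearMap.add_apply, smul_eq_mul, e1, e2, e3, inner_bv, cv, mul_assoc]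
  ring

lemma inner_lap (c u : E d) :
    ⟪u, lap (G U g ε r) c⟫ = r⁻¹ * r⁻¹ *
      (cv U ε (fun x => ⟪u, g x⟫) (fun x => ‖x‖ ^ 2) (pp r c)
        - 2 * ∑ j, mean U ε (fun x => x j) (pp r c)
          * cv U ε (fun x => ⟪u, g x⟫) (fun x => x j) (pp r c)) := by
  have hG := contDiff_G_apply hU hε hr
  have hj : ∀ j, ⟪u, iteratedFDeriv ℝ 2 (G U g ε r) c ![bv j, bv j]⟫ = r⁻¹ * r⁻¹ *
      (cv U ε (fun x => ⟪u, g x⟫) (fun x => x j * x j) (pp r c)
        - 2 * mean U ε (fun x => x j) (pp r c)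
          * cv U ε (fun x => ⟪u, g x⟫) (fun x => x j) (pp r c)) := by
    intro j
    obtain ⟨D, hD, eD⟩ := fderiv_fderiv_mean hU hε hr c (Obs.grad hU u) j
    rw [← eD, iteratedFDeriv_two_apply]
    have h2 : HasFDerivAt (fun y => fderiv ℝ (G U g ε r) y) (fderiv ℝ (fderiv ℝ (G U g ε r)) c) c :=
      (((contDiff_infty_iff_fderiv.1 hG).2).differentiable (by simp) c).hasFDerivAt
    have h3 := (innerSL ℝ u).hasFDerivAt.comp c
      ((ContinuousLinearMap.apply ℝ (E d) (bv j)).hasFDerivAt.comp c h2)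
    have h4 : HasFDerivAt
        (fun y => r⁻¹ * cv U ε (fun x => ⟪u, g x⟫) (fun x => x j) (pp r y)) _ c :=
      h3.congr_of_eventuallyEq (Eventually.of_forall fun y => by
        have h := inner_fderiv_G hU hε hr y u (bv j)
        simp only [inner_bv] at h
        exact h.symm)
    rw [← h4.unique hD]
    simp
  simp only [lap, inner_sum, hj]
  rw [cv_sq hU hε (pp_pos hr c) (Obs.grad hU u), Finset.mul_sum, ← Finset.sum_sub_distrib,
    Finset.mul_sum]
  exact Finset.sum_congr rfl fun j _ => by ring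

/-! ### The derivatives in `r` -/

lemma hasDerivAt_mean_pp {φ : E d → ℝ} (hφ : Obs φ) (c : E d) :
    HasDerivAt (fun s => mean U ε φ (pp s c))
      (-(r ^ 2)⁻¹ * (cv U ε φ (fun x => ⟪c, x⟫) (pp r c)
        + (-1 / 2) * cv U ε φ (fun x => ‖x‖ ^ 2) (pp r c))) r := by
  have h1 : HasDerivAt (fun s : ℝ => pp s c) ((-(r ^ 2)⁻¹) • c, -(r ^ 2)⁻¹) r :=
    ((hasDerivAt_inv hr.ne').smul_const c).prodMk (hasDerivAt_inv hr.ne')
  have h2 := (hasFDerivAt_mean hU hε hφ (pp_pos hr c)).differentiableAt.hasFDerivAt.comp_hasDerivAt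
    r h1
  refine h2.congr_deriv ?_
  have hp := pp_pos (d := d) hr c
  rw [fderiv_mean_apply hU hε hp hφ, show dir ((-(r ^ 2)⁻¹) • c, -(r ^ 2)⁻¹) = fun x => -(r ^ 2)⁻¹ * (⟪c, x⟫ + (-1 / 2) * ‖x‖ ^ 2)
      from funext fun x => dir_snd c x _, cv_const_mul_right hU hε hp,
    cv_add_right hU hε hp hφ (Obs.inner c) (Obs.sq.const_mul _), cv_const_mul_right hU hε hp]

lemma hasDerivAt_G (c : E d) :
    HasDerivAt (fun s => G U g ε s c)
      ((1 / 2 : ℝ) • lap (G U g ε r) c - ε • fderiv ℝ (G U g ε r) c (G U g ε r c)) r := by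
  have hd : DifferentiableAt ℝ (fun s => G U g ε s c) r := by
    refine differentiableAt_euclidean.2 fun i => ?_
    refine (hasDerivAt_mean_pp hU hε hr (obs_comp hU i) c).differentiableAt.congr_of_eventuallyEq ?_
    filter_upwards [Ioi_mem_nhds hr] with s hs using G_apply hU hε hs c i
  refine hd.hasDerivAt.congr_deriv (ext_inner_left ℝ fun u => ?_)
  have h := (innerSL ℝ u).hasFDerivAt.comp_hasDerivAt r hd.hasDerivAt
  have h' : HasDerivAt (fun s => mean U ε (fun x => ⟪u, g x⟫) (pp s c))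
      (innerSL ℝ u (deriv (fun s => G U g ε s c) r)) r :=
    h.congr_of_eventuallyEq (by
      filter_upwards [Ioi_mem_nhds hr] with s hs using (inner_G hU hε hs c u).symm)
  have hp := pp_pos (d := d) hr c
  rw [← innerSL_apply_apply (𝕜 := ℝ), h'.unique (hasDerivAt_mean_pp hU hε hr (Obs.grad hU u) c),
    inner_sub_right, real_inner_smul_right, real_inner_smul_right, inner_lap hU hε hr,
    inner_fderiv_G hU hε hr, cv_inner hU hε hp (Obs.grad hU u) c,
    cv_inner hU hε hp (Obs.grad hU u) (G U g ε r c)]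
  simp only [mean_coord hU hε hr, sub_mul, Finset.sum_sub_distrib, mul_assoc, ← Finset.mul_sum]
  field_simp
  ring

lemma hasGradientAt_nW (c : E d) : HasGradientAt (nW U ε r) (ε • G U g ε r c) c := by
  have hp := pp_pos (d := d) hr c
  have h1 : HasFDerivAt (fun y : E d => pp r y)
      ((r⁻¹ • ContinuousLinearMap.id ℝ (E d)).prod 0) c :=
    ((hasFDerivAt_id c).const_smul r⁻¹).prodMk (hasFDerivAt_const r⁻¹ c)
  have h2 := (((hasFDerivAt_num hU hε Obs.one hp).comp c h1).log
    (num_one_pos hU hε hp).ne').neg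
  have h3 : HasFDerivAt (fun y : E d => ‖y‖ ^ 2 / (2 * r)) _ c :=
    ((hasFDerivAt_id c).norm_sq).mul_const (2 * r)⁻¹
  rw [hasGradientAt_iff_hasFDerivAt]
  refine ((((h2.add h3).add_const (((d : ℝ) / 2) * Real.log r)).add_const
    (Real.log (gz d))).congr_fderiv ?_).congr_of_eventuallyEq
    (Eventually.of_forall fun y => nW_eq hU hε hr y)
  refine ContinuousLinearMap.ext fun v => ?_
  simp only [ContinuousLinearMap.add_apply, ContinuousLinearMap.neg_apply,
    ContinuousLinearMap.smul_apply, ContinuousLinearMap.comp_apply, ContinuousLinearMap.prod_apply,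
    ContinuousLinearMap.id_apply, ContinuousLinearMap.zero_apply, smul_eq_mul, id,
    numDeriv_apply hU hε hp Obs.one, innerSL_apply_apply, InnerProductSpace.toDual_apply_apply,
    real_inner_smul_left, Function.comp_apply, one_mul]
  have hdir : num U ε (fun x => dir (r⁻¹ • v, 0) x) (pp r c)
      = mean U ε (fun x => r⁻¹ * ⟪v, x⟫) (pp r c) * num U ε (fun _ => 1) (pp r c) := by
    rw [mean, div_mul_cancel₀ _ (num_one_pos hU hε hp).ne']
    congr 1; funext x; simp [dir, real_inner_smul_left]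
  rw [hdir, mean_const_mul hU hε hp, mean_inner_self hU hε hr, real_inner_comm v (G U g ε r c),
    real_inner_comm v c]
  field_simp [(num_one_pos hU hε hp).ne', hr.ne']
  ring

lemma dvg_G (c : E d) :
    dvg (G U g ε r) c = ∑ i, r⁻¹ * cv U ε (fun x => x i) (fun x => g x i) (pp r c) := by
  refine Finset.sum_congr rfl fun i _ => ?_
  have h := inner_fderiv_G hU hε hr c (bv i) (bv i)
  simp only [inner_bv] at h
  rw [h, cv_comm]

lemma hasDerivAt_nW (c : E d) :
    HasDerivAt (fun s => nW U ε s c)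
      (ε / 2 * dvg (G U g ε r) c - ε ^ 2 / 2 * ‖G U g ε r c‖ ^ 2) r := by
  have hp := pp_pos (d := d) hr c
  have hZ := (num_one_pos hU hε hp).ne'
  have h1 : HasDerivAt (fun s : ℝ => pp s c) ((-(r ^ 2)⁻¹) • c, -(r ^ 2)⁻¹) r :=
    ((hasDerivAt_inv hr.ne').smul_const c).prodMk (hasDerivAt_inv hr.ne')
  have h2' : HasDerivAt (fun s => num U ε (fun _ => 1) (pp s c)) _ r :=
    HasFDerivAt.comp_hasDerivAt (l := num U ε fun _ => 1) r (hasFDerivAt_num hU hε Obs.one hp) h1
  have h2 := (h2'.log hZ).neg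
  have h3 : HasDerivAt (fun s : ℝ => ‖c‖ ^ 2 / (2 * s)) _ r :=
    (hasDerivAt_const r (‖c‖ ^ 2)).div ((hasDerivAt_id r).const_mul 2) (by positivity)
  refine ((((h2.add h3).add ((Real.hasDerivAt_log hr.ne').const_mul ((d : ℝ) / 2))).add_const
    (Real.log (gz d))).congr_deriv ?_).congr_of_eventuallyEq
    (by filter_upwards [Ioi_mem_nhds hr] with s hs using nW_eq hU hε hs c)
  set M2 := ∑ i, mean U ε (fun x => x i * x i) (pp r c) with hM2
  -- the integration by parts identity, one coordinate at a time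
  have hi : ∀ i : Fin d, (1:ℝ) = r⁻¹ * cv U ε (fun x => x i) (fun x => x i) (pp r c)
      + ε * cv U ε (fun x => x i) (fun x => g x i) (pp r c) := by
    intro i
    have e : ∀ x : E d, fderiv ℝ (fun y : E d => y i) x (bv i) = 1 := fun x => by
      rw [show (fun y : E d => y i) = ⇑(PiLp.proj 2 (fun _ : Fin d => ℝ) i : E d →L[ℝ] ℝ) from rfl,
        ContinuousLinearMap.fderiv]
      simp [bv]
    have h := ibp_cv hU hε hp (ψ := fun x : E d => x i) (by fun_prop) (bv i) (Obs.coord i)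
      (by simp only [e]; exact Obs.const _)
    simp only [e, mean_const hU hε hp, inner_bv] at h
    exact h
  have hdvg : ε * dvg (G U g ε r) c
      = (∑ i : Fin d, (1 - r⁻¹ * (mean U ε (fun x => x i * x i) (pp r c)
          - mean U ε (fun x => x i) (pp r c) * mean U ε (fun x => x i) (pp r c)))) / r := by
    rw [dvg_G hU hε hr, Finset.mul_sum, Finset.sum_div]
    refine Finset.sum_congr rfl fun i _ => ?_
    have h := hi i
    rw [show cv U ε (fun x => x i) (fun x => x i) (pp r c)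
      = mean U ε (fun x => x i * x i) (pp r c)
        - mean U ε (fun x => x i) (pp r c) * mean U ε (fun x => x i) (pp r c) from rfl] at h
    linear_combination -h / r
  have hnum : numDeriv U ε (fun _ => 1) (pp r c) ((-(r ^ 2)⁻¹) • c, -(r ^ 2)⁻¹)
      = num U ε (fun _ => 1) (pp r c) * (-(r ^ 2)⁻¹ *
        ((∑ i, c i * mean U ε (fun x => x i) (pp r c)) + (-1 / 2) * M2)) := by
    rw [numDeriv_apply hU hε hp Obs.one, show num U ε (fun x => 1 * dir ((-(r ^ 2)⁻¹) • c,
      -(r ^ 2)⁻¹) x) (pp r c) = num U ε (fun _ => 1) (pp r c)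
        * mean U ε (dir ((-(r ^ 2)⁻¹) • c, -(r ^ 2)⁻¹)) (pp r c) by
      simp only [one_mul, mean]; field_simp]
    have e : dir ((-(r ^ 2)⁻¹) • c, -(r ^ 2)⁻¹)
        = fun x => ∑ i, -(r ^ 2)⁻¹ * (c i * x i + (-1 / 2) * (x i * x i)) := funext fun x => by
      rw [dir_snd, inner_eq_sum, EuclideanSpace.real_norm_sq_eq, Finset.mul_sum,
        ← Finset.sum_add_distrib, Finset.mul_sum]
      exact Finset.sum_congr rfl fun i _ => by ring
    rw [e, mean_sum hU hε hp _ fun i _ => Obs.const_mul _ (((Obs.coord i).const_mul _).add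
      (((Obs.coord i).mul (Obs.coord i)).const_mul _)), hM2, Finset.mul_sum Finset.univ _ (-1/2:ℝ),
      ← Finset.sum_add_distrib, Finset.mul_sum Finset.univ _ (-(r^2)⁻¹)]
    congr 1
    refine Finset.sum_congr rfl fun i _ => ?_
    rw [mean_const_mul hU hε hp, mean_add hU hε hp ((Obs.coord i).const_mul _)
      (((Obs.coord i).mul (Obs.coord i)).const_mul _), mean_const_mul hU hε hp,
      mean_const_mul hU hε hp]
  simp only [hnum]
  rw [show ε / 2 * dvg (G U g ε r) c = (ε * dvg (G U g ε r) c) / 2 by ring, hdvg,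
    show ‖c‖ ^ 2 = ∑ i, c i ^ 2 from EuclideanSpace.real_norm_sq_eq c,
    EuclideanSpace.real_norm_sq_eq]
  simp only [Finset.sum_sub_distrib, Finset.sum_const, Finset.card_univ, Fintype.card_fin,
    nsmul_eq_mul, mul_one, ← Finset.mul_sum, ← hM2]
  have e1 : ∀ i, mean U ε (fun x => x i) (pp r c) * mean U ε (fun x => x i) (pp r c)
      = c i ^ 2 - 2 * r * ε * (c i * G U g ε r c i) + r ^ 2 * ε ^ 2 * G U g ε r c i ^ 2 := fun i => by
    rw [mean_coord hU hε hr]; ring
  have e2 : ∀ i, c i * mean U ε (fun x => x i) (pp r c)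
      = c i ^ 2 - r * ε * (c i * G U g ε r c i) := fun i => by
    rw [mean_coord hU hε hr]; ring
  simp only [e1, e2, Finset.sum_sub_distrib, Finset.sum_add_distrib, ← Finset.mul_sum]
  field_simp
  ring

/-! ### Sizes -/

omit hU hε hr in
lemma le_of_sq_le_add {S a b : ℝ} (hS : 0 ≤ S) (ha : 0 ≤ a) (hb : 0 ≤ b)
    (h : S ^ 2 ≤ a ^ 2 + b * S) : S ≤ a + b := by
  by_contra hc
  nlinarith [mul_nonneg ha hS, mul_lt_mul_of_pos_right (not_le.1 hc) (by linarith : 0 < S)]

omit hU hε hr in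
lemma sum_coord_mul_inner (a : E d) (F : E d → E d) (x : E d) :
    ∑ i, (x i - a i) * F x i = ⟪x - a, F x⟫ := by
  rw [inner_eq_sum]; rfl

/-- `r d = E ⟨x - a, x - c + r ε g⟩`. -/
lemma virial (c a : E d) :
    r * d = mean U ε (fun x => ⟪x - a, x - c + (r * ε) • g x⟫) (pp r c) := by
  have hp := pp_pos (d := d) hr c
  have hF : ∀ i, Obs fun x : E d => (x i - a i) * (x - c + (r * ε) • g x) i := fun i => by
    have h := ((Obs.coord i).add (Obs.const (-a i))).mul
      (((Obs.coord i).add (Obs.const (-c i))).add ((obs_comp hU i).const_mul (r * ε)))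
    simpa [sub_eq_add_neg] using h
  rw [← funext (sum_coord_mul_inner a fun x => x - c + (r * ε) • g x),
    mean_sum hU hε hp _ fun i _ => hF i]
  have hi : ∀ i, mean U ε (fun x => (x i - a i) * (x - c + (r * ε) • g x) i) (pp r c) = r := by
    intro i
    have hd : Differentiable ℝ fun x : E d => x i - a i := by fun_prop
    have e : ∀ x : E d, fderiv ℝ (fun y : E d => y i - a i) x (bv i) = 1 := fun x => by
      rw [fderiv_sub_const, show (fun y : E d => y i)
          = ⇑(PiLp.proj 2 (fun _ : Fin d => ℝ) i : E d →L[ℝ] ℝ) from rfl,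
        ContinuousLinearMap.fderiv]
      simp [bv]
    have hψ : Obs fun x : E d => x i - a i := by
      simpa [sub_eq_add_neg] using (Obs.coord i).add (Obs.const (-a i))
    have h := ibp hU hε hp hd (bv i) hψ (by simp only [e]; exact Obs.const _)
    simp only [e, mean_const hU hε hp] at h
    conv_rhs => rw [← mul_one r, h, ← mean_const_mul hU hε hp]
    congr 1
    funext x
    simp only [pp, potGrad, real_inner_comm (bv i), inner_bv, PiLp.add_apply, PiLp.sub_apply, PiLp.smul_apply, smul_eq_mul]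
    field_simp
  rw [Finset.sum_congr rfl fun i _ => hi i]
  simp [mul_comm]

omit hU hε hr in
lemma obs_norm_sub (a : E d) : Obs fun x => ‖x - a‖ :=
  ⟨by fun_prop, LogConcave.Poly.of_le (A := 1 + ‖a‖) (N := 1) fun x => by
    rw [abs_of_nonneg (norm_nonneg _), pow_one]
    nlinarith [norm_sub_le x a, norm_nonneg x, norm_nonneg a]⟩

/-- `E ‖x - a‖` from the virial identity. -/
lemma mean_norm_le (c a : E d) {b : ℝ} (hb : 0 ≤ b)
    (h : ∀ x, ‖x - a‖ ^ 2 - b * ‖x - a‖ ≤ ⟪x - a, x - c + (r * ε) • g x⟫) :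
    mean U ε (fun x => ‖x - a‖) (pp r c) ≤ Real.sqrt (r * d) + b := by
  have hp := pp_pos (d := d) hr c
  have hn := obs_norm_sub a
  have hsq : Obs fun x => ‖x - a‖ * ‖x - a‖ := hn.mul hn
  have hV : Obs fun x => ⟪x - a, x - c + (r * ε) • g x⟫ := by
    refine ⟨by have := hU.lip.continuous; fun_prop, LogConcave.Poly.mono
      (hn.poly.mul ((obs_norm_sub c).poly.add ((LogConcave.Poly.const (r * ε)).mul
        (LogConcave.Poly.of_le (f := fun x => ‖g x‖) (A := ‖g 0‖ + 1) (N := 1) fun x => by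
          rw [abs_of_nonneg (norm_nonneg _), pow_one]
          nlinarith [Tilt.norm_grad_le hU x, norm_nonneg (g 0), norm_nonneg x])))) fun x => ?_⟩
    refine (abs_real_inner_le_norm _ _).trans (le_trans ?_ (le_abs_self _))
    refine mul_le_mul_of_nonneg_left ((norm_add_le _ _).trans (le_of_eq ?_)) (norm_nonneg _)
    rw [norm_smul, Real.norm_of_nonneg (by positivity)]
  have h1 : mean U ε (fun x => ‖x - a‖ * ‖x - a‖ + (-b) * ‖x - a‖) (pp r c) ≤ r * d := by
    rw [virial hU hε hr c a]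
    exact mean_mono hU hε hp (hsq.add (hn.const_mul _)) hV fun x => by linarith [h x]
  rw [mean_add hU hε hp hsq (hn.const_mul _), mean_const_mul hU hε hp] at h1
  have h2 := sq_mean_le hU hε hp hn
  have h0 : mean U ε (fun _ => (0:ℝ)) (pp r c) ≤ mean U ε (fun x => ‖x - a‖) (pp r c) :=
    mean_mono hU hε hp (Obs.const 0) hn fun x => norm_nonneg _
  rw [mean_const hU hε hp] at h0
  refine le_of_sq_le_add h0 (Real.sqrt_nonneg _) hb ?_
  rw [Real.sq_sqrt (by positivity)]
  linarith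

lemma norm_G_sub_le (c a : E d) :
    ‖G U g ε r c - g a‖ ≤ mean U ε (fun x => ‖x - a‖) (pp r c) := by
  have hp := pp_pos (d := d) hr c
  have := LogConcave.isProb (logConc hU hε hp)
  have hi : Integrable g (gibbs (pot U ε (pp r c))) := post_eq hr c ▸ integrable_grad hU hε hr c
  rw [G, post_eq hr, mean_eq hU hε hp, show g a = ∫ _x, g a ∂gibbs (pot U ε (pp r c)) by simp,
    ← integral_sub hi (integrable_const _)]
  refine (norm_integral_le_integral_norm _).trans (integral_mono (hi.sub (integrable_const _)).norm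
    (integrable_mean hU hε hp (obs_norm_sub a)) fun x => ?_)
  simpa [dist_eq_norm] using hU.lip.dist_le_mul x a

lemma norm_G_le (hg : g 0 = 0) (c : E d) : ‖G U g ε r c‖ ≤ ‖c‖ + Real.sqrt (r * d) := by
  have h1 := norm_G_sub_le hU hε hr c 0
  rw [hg, sub_zero] at h1
  refine h1.trans ((mean_norm_le hU hε hr c 0 (norm_nonneg c) fun x => ?_).trans (le_of_eq (add_comm _ _)))
  have hm := hU.mono x 0
  rw [hg, sub_zero, sub_zero, real_inner_comm] at hm
  have h2 := real_inner_le_norm x c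
  simp only [sub_zero, inner_add_right, inner_sub_right, real_inner_smul_right,
    real_inner_self_eq_norm_sq]
  nlinarith [mul_nonneg (mul_nonneg hr.le hε) hm]

lemma norm_G_sub_grad_le (c : E d) :
    ‖G U g ε r c - g c‖ ≤ Real.sqrt (r * d) + r * ε * ‖g c‖ := by
  refine (norm_G_sub_le hU hε hr c c).trans
    (mean_norm_le hU hε hr c c (by positivity) fun x => ?_)
  have hm := hU.mono x c
  rw [inner_sub_left, real_inner_comm (x - c) (g x), real_inner_comm (x - c) (g c)] at hm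
  have h2 := (abs_le.1 (abs_real_inner_le_norm (x - c) (g c))).1
  simp only [inner_add_right, real_inner_smul_right, real_inner_self_eq_norm_sq]
  nlinarith [mul_nonneg (mul_nonneg hr.le hε) hm, mul_le_mul_of_nonneg_left h2 (mul_nonneg hr.le hε)]

omit hU hε hr in
theorem postFacts : PostFacts := by
  intro d U g hU hg ε hε _
  refine ⟨contDiffOn_G hU hε, contDiffOn_nW hU hε, fun r hr c => ⟨?_, hasGradientAt_nW hU hε hr c,
    hasDerivAt_nW hU hε hr c, hasDerivAt_G hU hε hr c, fderiv_G_symm hU hε hr c,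
    fderiv_G_bounds hU hε hr c, norm_G_le hU hε hr hg c, norm_G_sub_grad_le hU hε hr c⟩⟩
  rw [post_eq hr]
  exact LogConcave.isProb (logConc hU hε (pp_pos hr c))

end Vale.Agent.P347.Gamma0
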