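import Vale.Agent.P347.Gamma0.Comb
import Vale.Agent.P347.Gamma0.Interface

/-!
P347, towards `γ_* = 0`: the recursion.  A gate is replaced by a numeric draw from the bridge mean
(one level of position error, `b` levels lower) and by residual gates at the scale `u² τ`
(one level lower).
-/

namespace Vale.Agent.P347.Gamma0

open MeasureTheory ProbabilityTheory
open scoped RealInnerProductSpace

variable {d : ℕ}

local instance (m : ℕ) : IsProbabilityMeasure (gam m) := by unfold gam; infer_instance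

/-- The facts about the gradients used by the recursion. -/
structure GradFacts (d : ℕ) (ε : ℝ) : Prop where
  lip : ∀ U g, Pot U g → g 0 = 0 → ∀ r, LipschitzWith 1 (Gt U g ε r : E d → E d)
  zero : ∀ U g, Pot U g → g 0 = 0 → ∀ r,
    ‖Gt U g ε r (0 : E d)‖ ≤ Real.sqrt r * Real.sqrt d
  near : ∀ U g, Pot U g → g 0 = 0 → ∀ r, 0 < r → r ≤ 1 → ∀ c : E d,
    ‖Gt U g ε r c - g c‖ ≤ Real.sqrt r * (Real.sqrt d + ‖c‖)

lemma norm_le_one_of_symm (A : E d →L[ℝ] E d) (hs : ∀ v u, ⟪A v, u⟫ = ⟪A u, v⟫)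
    (hb : ∀ v, 0 ≤ ⟪A v, v⟫ ∧ ⟪A v, v⟫ ≤ ‖v‖ ^ 2) : ‖A‖ ≤ 1 := by
  refine ContinuousLinearMap.opNorm_le_bound _ zero_le_one fun v => ?_
  have key : ‖A v‖ ^ 2 * ‖A v‖ ^ 2 ≤ ‖v‖ ^ 2 * ‖A v‖ ^ 2 := by
    have hq : ∀ t : ℝ, 0 ≤ ⟪A (A v), A v⟫ * (t * t) + 2 * ‖A v‖ ^ 2 * t + ⟪A v, v⟫ := fun t => by
      have h := (hb (t • A v + v)).1
      simp only [map_add, map_smul, inner_add_left, inner_add_right, real_inner_smul_left,
        real_inner_smul_right, hs (A v) v, real_inner_self_eq_norm_sq] at h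
      linarith
    have hd := discrim_le_zero hq
    rw [discrim] at hd
    have h1 := hb v
    have h2 := hb (A v)
    nlinarith [mul_le_mul h2.2 h1.2 h1.1 (sq_nonneg ‖A v‖)]
  rcases eq_or_ne ‖A v‖ 0 with h0 | h0
  · rw [h0]; positivity
  · have h3 : ‖A v‖ ^ 2 ≤ ‖v‖ ^ 2 := le_of_mul_le_mul_right key (by positivity)
    rw [one_mul]
    exact (pow_le_pow_iff_left₀ (norm_nonneg _) (norm_nonneg _) two_ne_zero).1 h3

lemma gradFacts (hP : PostFacts) {ε : ℝ} (h0 : 0 ≤ ε) (h1 : ε ≤ 1) : GradFacts d ε where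
  lip U g hU hg r := by
    obtain ⟨hG, -, h⟩ := hP d U g hU hg ε h0 h1
    unfold Gt
    rcases le_or_gt r 0 with hr | hr
    · simp only [not_lt.2 hr, if_false]
      exact LipschitzWith.const' 0
    · simp only [hr, if_true]
      refine lipschitzWith_of_nnnorm_fderiv_le (𝕜 := ℝ) (fun c => ?_) fun c => ?_
      · have hd : DifferentiableAt ℝ (fun p : ℝ × E d => G U g ε p.1 p.2) (r, c) :=
          ((hG.differentiableOn (by norm_num)) (r, c) ⟨hr, trivial⟩).differentiableAt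
            ((isOpen_Ioi.prod isOpen_univ).mem_nhds ⟨hr, trivial⟩)
        exact hd.comp c ((differentiableAt_const r).prodMk differentiableAt_id)
      · obtain ⟨-, -, -, -, hs, hb, -⟩ := h r hr c
        exact_mod_cast norm_le_one_of_symm _ hs hb
  zero U g hU hg r := by
    obtain ⟨-, -, h⟩ := hP d U g hU hg ε h0 h1
    unfold Gt
    rcases le_or_gt r 0 with hr | hr
    · simp [not_lt.2 hr, mul_nonneg, Real.sqrt_nonneg]
    · simp only [hr, if_true]
      obtain ⟨-, -, -, -, -, -, hb, -⟩ := h r hr (0 : E d)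
      simpa [Real.sqrt_mul hr.le] using hb
  near U g hU hg r hr hr1 c := by
    obtain ⟨-, -, h⟩ := hP d U g hU hg ε h0 h1
    obtain ⟨-, -, -, -, -, -, -, hb⟩ := h r hr c
    unfold Gt
    simp only [hr, if_true]
    refine hb.trans ?_
    have hgc : ‖g c‖ ≤ ‖c‖ := by simpa [hg] using hU.lip.norm_sub_le c 0
    have h2 : r * ε ≤ Real.sqrt r := by
      have h3 : Real.sqrt r ≤ 1 := Real.sqrt_le_one.2 hr1
      nlinarith [Real.sq_sqrt hr.le, Real.sqrt_nonneg r, mul_le_mul_of_nonneg_left h1 hr.le]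
    rw [Real.sqrt_mul hr.le, mul_add]
    linarith [mul_le_mul h2 hgc (norm_nonneg _) (Real.sqrt_nonneg r)]

/-- The parameters: levels of gain `u`, at most `T` of them, `b` for a position. -/
structure Par (d T b J na X : ℕ) (w₀ ε amp u μ κ : ℝ) : Prop where
  w_ge : 1 ≤ w₀
  eps_pos : 0 < ε
  eps_le : ε ≤ 1
  u_pos : 0 < u
  u_le : u ≤ 1
  amp_ge : 12 ≤ amp
  rho : 8 / u ^ 2 ≤ amp ^ 2
  nodes_amp : ((X : ℝ) + 5) ^ (2 * T + 6) ≤ amp ^ 2
  nodes_rho : 2 * w₀ ^ 2 * u ^ 2 * ((X : ℝ) + 5) ^ (2 * T + 6) ≤ 1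
  mu_ge : Real.sqrt ε ≤ μ
  kappa_nonneg : 0 ≤ κ
  kappa_amp : κ * amp ≤ 1
  small : amp ^ (4 * J + 16) * μ ≤ κ * u ^ b
  small' : amp ^ (4 * J + 16) * μ ≤ Real.sqrt (Real.sqrt ε)
  b_pos : 1 ≤ b
  T_le : T ≤ b * J
  grad : GradFacts d ε
  stages : ∀ τ γ : ℝ, 0 < τ → τ ≤ 1 → |γ| * Real.sqrt τ ≤ Real.sqrt (Real.sqrt ε) →
    ∃ (N : ℕ) (S : Stage na N), N ≤ X ∧ S.mean.nodes ≤ X ∧ (∀ j, (S.shift j).nodes ≤ X) ∧
      StageShape S ε amp (|γ| * Real.sqrt τ) τ (u ^ 2) w₀ ∧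
      StageAccurate d S ε γ τ (u ^ 2) (u ^ T)

/-- The size allowed at level `n`. -/
noncomputable def lvlM (amp μ : ℝ) (b J n : ℕ) : ℝ := μ * amp ^ (4 * (J - (n + b - 1) / b))

/-- The number of nodes allowed at level `n`. -/
def lvlW (X T n : ℕ) : ℕ := (X + 5) ^ (2 * (T - n) + 2)

/-- The invariant of a gate. -/
structure GateInv {ι : Type} (amp M : ℝ) (W : ℕ) (arg : Expr ι) (τ γ : ℝ) : Prop where
  tau_pos : 0 < τ
  tau_le : τ ≤ 1
  gain : |γ| * Real.sqrt τ ≤ M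
  load : arg.size ≤ amp * M * Real.sqrt τ
  good : Expr.Good (amp ^ 4 * M) arg
  nodes : arg.nodes ≤ W

/-- The reference size of a gate. -/
noncomputable def gateRef (κ ε : ℝ) {ι : Type} (arg : Expr ι) : Dep d ι ℝ :=
  fun U g x => Real.sqrt d + ‖arg.val (Gt U g ε) x‖ + κ * arg.rad (Gt U g ε) x

/-- A gate with unit noise can be drawn up to `u ^ n`. -/
def GateDraw (T b J na n : ℕ) (w₀ : ℝ) : Prop :=
  ∃ (P : ℝ) (e : ℕ), 0 ≤ P ∧ ∀ (d X : ℕ) (ε amp u μ κ : ℝ), Par d T b J na X w₀ ε amp u μ κ →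
    ∀ (ι : Type) [Fintype ι] (arg : Expr ι) (τ γ : ℝ),
      GateInv amp (lvlM amp μ b J n) (lvlW X T n) arg τ γ →
      Draws d ((X + 5) ^ e) (gT 1 fun U g x => γ • Gt U g ε τ (arg.val (Gt U g ε) x))
        fun U g x => |γ| * Real.sqrt τ * u ^ n * P * gateRef κ ε arg U g x

namespace Par

variable {T b J na X : ℕ} {w₀ ε amp u μ κ : ℝ} (hp : Par d T b J na X w₀ ε amp u μ κ)
include hp

lemma amp_pos : 0 < amp := by linarith [hp.amp_ge]

lemma one_le_amp : 1 ≤ amp := by linarith [hp.amp_ge]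

lemma mu_pos : 0 < μ := (Real.sqrt_pos.2 hp.eps_pos).trans_le hp.mu_ge

lemma lvlM_pos (n : ℕ) : 0 < lvlM amp μ b J n :=
  mul_pos hp.mu_pos (pow_pos hp.amp_pos _)

lemma amp_lvlM (k n : ℕ) (hk : k ≤ 16) : amp ^ k * lvlM amp μ b J n ≤ amp ^ (4 * J + 16) * μ := by
  rw [lvlM, mul_left_comm, ← pow_add, mul_comm μ]
  refine mul_le_mul_of_nonneg_right (pow_le_pow_right₀ hp.one_le_amp ?_) hp.mu_pos.le
  generalize (n + b - 1) / b = j
  omega

lemma lvlM_le (n : ℕ) : lvlM amp μ b J n ≤ Real.sqrt (Real.sqrt ε) := by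
  simpa using (hp.amp_lvlM 0 n (by omega)).trans hp.small'

lemma kappa_le : κ ≤ 1 / 12 := by
  rw [le_div_iff₀ (by norm_num : (0 : ℝ) < 12)]
  exact (mul_le_mul_of_nonneg_left hp.amp_ge hp.kappa_nonneg).trans hp.kappa_amp

lemma u_pow_le (n : ℕ) : u ^ n ≤ 1 := pow_le_one₀ hp.u_pos.le hp.u_le

lemma small_kappa (k n : ℕ) (hk : k ≤ 16) : amp ^ k * lvlM amp μ b J n ≤ κ * u ^ b :=
  (hp.amp_lvlM k n hk).trans hp.small

lemma small_kappa' (k n : ℕ) (hk : k ≤ 16) : amp ^ k * lvlM amp μ b J n ≤ κ :=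
  (hp.small_kappa k n hk).trans (mul_le_of_le_one_right hp.kappa_nonneg (hp.u_pow_le b))

lemma lvlM_residual (n : ℕ) : lvlM amp μ b J (n + 1) ≤ lvlM amp μ b J n := by
  refine mul_le_mul_of_nonneg_left (pow_le_pow_right₀ hp.one_le_amp ?_) hp.mu_pos.le
  have : (n + b - 1) / b ≤ (n + 1 + b - 1) / b := Nat.div_le_div_right (by omega)
  revert this
  generalize (n + b - 1) / b = i
  generalize (n + 1 + b - 1) / b = j
  omega

lemma lvlM_position {n : ℕ} (hn : n + 1 ≤ T) :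
    amp ^ 4 * lvlM amp μ b J (n + 1) ≤ lvlM amp μ b J (n + 1 - b) := by
  rw [lvlM, lvlM, mul_left_comm, ← pow_add]
  refine mul_le_mul_of_nonneg_left (pow_le_pow_right₀ hp.one_le_amp ?_) hp.mu_pos.le
  have hb : 1 ≤ b := hp.b_pos
  have hJ : (n + 1 + b - 1) / b ≤ J := by
    rw [Nat.div_le_iff_le_mul_add_pred (by omega)]
    have := hp.T_le
    omega
  have h1 : 1 ≤ (n + 1 + b - 1) / b := by rw [Nat.one_le_div_iff (by omega)]; omega
  rcases le_total (n + 1) b with h | h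
  · rw [Nat.sub_eq_zero_of_le h, Nat.zero_add, Nat.div_eq_of_lt (a := b - 1) (by omega)]
    omega
  · rw [show n + 1 - b + b - 1 = n from by omega,
      show n + 1 + b - 1 = n + b from by omega] at *
    have : (n + b) / b = n / b + 1 := Nat.add_div_right n (by omega)
    omega

omit hp in
lemma lvlW_le (n : ℕ) : (lvlW X T n : ℝ) * ((X : ℝ) + 5) ^ 4 ≤ ((X : ℝ) + 5) ^ (2 * T + 6) := by
  simp only [lvlW, Nat.cast_pow, Nat.cast_add, Nat.cast_ofNat, ← pow_add]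
  exact pow_le_pow_right₀ (by linarith [Nat.cast_nonneg (α := ℝ) X]) (by omega)

omit hp in
lemma lvlW_step {m n : ℕ} (hm : m ≤ n) (hn : n + 1 ≤ T) :
    (X + 3) * (lvlW X T (n + 1) + 3) ≤ lvlW X T m := by
  have h1 : 1 ≤ lvlW X T (n + 1) := Nat.one_le_pow _ _ (by omega)
  calc (X + 3) * (lvlW X T (n + 1) + 3) ≤ (X + 5) * (4 * lvlW X T (n + 1)) :=
        Nat.mul_le_mul (by omega) (by omega)
    _ ≤ (X + 5) * ((X + 5) * lvlW X T (n + 1)) :=
        Nat.mul_le_mul_left _ (Nat.mul_le_mul_right _ (by omega))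
    _ = (X + 5) ^ (2 * (T - (n + 1)) + 2 + 2) := by rw [lvlW]; ring
    _ ≤ lvlW X T m := Nat.pow_le_pow_right (by omega) (by omega)

end Par

/-- Level zero: evaluate the argument with the field in place of every gate. -/
theorem gateDraw_zero (T b J na : ℕ) (w₀ : ℝ) : GateDraw T b J na 0 w₀ := by
  refine ⟨3, 2 * T + 6, by norm_num, fun d X ε amp u μ κ hp ι _ arg τ γ h => ?_⟩
  have hM := hp.lvlM_pos 0
  have h4 : amp ^ 4 * lvlM amp μ b J 0 ≤ 1 / 2 := by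
    linarith [hp.small_kappa' 4 0 (by norm_num), hp.kappa_le]
  refine ((Draws.const (d := d) (e := Expr.smul γ (Expr.gate τ arg)) 1).mono ?_ ?_)
  · have h1 : arg.nodes + 2 ≤ (X + 5) ^ (2 * T + 6) :=
      calc arg.nodes + 2 ≤ lvlW X T 0 * 3 := by
            have := h.nodes
            have : 1 ≤ lvlW X T 0 := Nat.one_le_pow _ _ (by omega)
            omega
        _ ≤ lvlW X T 0 * (X + 5) := Nat.mul_le_mul_left _ (by omega)
        _ = (X + 5) ^ (2 * T + 3) := by rw [lvlW, Nat.sub_zero]; ring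
        _ ≤ _ := Nat.pow_le_pow_right (by omega) (by omega)
    simp only [Expr.nodes]
    omega
  intro U g hU hg x φ hφ
  simp only [gT, Expr.val, one_pow, pow_zero, mul_one, zero_add, gateRef]
  have e := ((lip_sm hφ 1).dist_le_mul (γ • g (arg.val (fun _ => g) x))
    (γ • Gt U g ε τ (arg.val (Gt U g ε) x)))
  rw [Real.dist_eq, NNReal.coe_one, one_mul, dist_eq_norm, ← smul_sub, norm_smul,
    Real.norm_eq_abs] at e
  refine e.trans ?_
  rw [mul_assoc |γ|, mul_assoc |γ|]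
  refine mul_le_mul_of_nonneg_left ?_ (abs_nonneg γ)
  have a1 : ‖Gt U g ε τ (arg.val (Gt U g ε) x) - g (arg.val (Gt U g ε) x)‖
      ≤ Real.sqrt τ * (Real.sqrt d + ‖arg.val (Gt U g ε) x‖) :=
    hp.grad.near U g hU hg τ h.tau_pos h.tau_le _
  have a2 := Expr.norm_val_field_sub (Gt U g ε) g hU.lip arg x h4 h.good
    (hp.grad.near U g hU hg)
  have a3 : ‖g (arg.val (Gt U g ε) x) - g (arg.val (fun _ => g) x)‖
      ≤ ‖arg.val (Gt U g ε) x - arg.val (fun _ => g) x‖ := by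
    simpa using hU.lip.norm_sub_le _ _
  have hR := Expr.rad_nonneg (Gt U g ε) arg x
  have hd := Real.sqrt_nonneg (d : ℝ)
  have hs := Real.sqrt_nonneg τ
  have a4 : arg.size * (2 * (Real.sqrt d + arg.rad (Gt U g ε) x))
      ≤ Real.sqrt τ * (2 * (Real.sqrt d + κ * arg.rad (Gt U g ε) x)) := by
    have h1 : amp * lvlM amp μ b J 0 ≤ κ := by simpa using hp.small_kappa' 1 0 (by norm_num)
    refine (mul_le_mul_of_nonneg_right
      (h.load.trans (mul_le_mul_of_nonneg_right h1 hs)) (by positivity)).trans ?_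
    rw [mul_comm κ, mul_assoc]
    refine mul_le_mul_of_nonneg_left ?_ hs
    nlinarith [hp.kappa_le, mul_nonneg hp.kappa_nonneg hR]
  rw [norm_sub_rev]
  have a5 := norm_sub_le_norm_sub_add_norm_sub (Gt U g ε τ (arg.val (Gt U g ε) x))
    (g (arg.val (Gt U g ε) x)) (g (arg.val (fun _ => g) x))
  nlinarith [mul_nonneg hs (norm_nonneg (arg.val (Gt U g ε) x)),
    mul_nonneg hs (mul_nonneg hp.kappa_nonneg hR), mul_nonneg hs hd]

end Vale.Agent.P347.Gamma0
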