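import Vale.Agent.P347.Gamma0.WordSys
import Vale.Agent.P157.Gauss

/-!
P347, towards `γ_* = 0`, piece Reg: second moments of a linear image of the Gaussian laws `gam`
and `gamB`, the sum of the squared coefficients.
-/

namespace Vale.Agent.P347.Gamma0.Reg

open MeasureTheory ProbabilityTheory
open scoped RealInnerProductSpace

section General

variable {H : Type*} [NormedAddCommGroup H] [InnerProductSpace ℝ H] [FiniteDimensional ℝ H]
  [MeasurableSpace H] [BorelSpace H]

lemma integrable_inner_sq (u : H) : Integrable (fun x : H => ⟪x, u⟫ ^ 2) (stdGaussian H) := by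
  refine Integrable.mono' ((P157.integrable_norm_pow (E := H) 2).mul_const (‖u‖ ^ 2))
    (Continuous.aestronglyMeasurable (by fun_prop)) (Filter.Eventually.of_forall fun x => ?_)
  rw [Real.norm_eq_abs, abs_pow, ← mul_pow]
  exact pow_le_pow_left₀ (abs_nonneg _) (abs_real_inner_le_norm x u) 2

/-- The second moment of a linear image of the standard Gaussian law. -/
lemma lintegral_sum_inner_sq {β : Type*} [Fintype β] (u : β → H) :
    ∫⁻ x, ENNReal.ofReal (∑ b, ⟪x, u b⟫ ^ 2) ∂stdGaussian H =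
      ENNReal.ofReal (∑ b, ‖u b‖ ^ 2) := by
  rw [← ofReal_integral_eq_lintegral_ofReal
      (integrable_finsetSum _ fun b _ => integrable_inner_sq (u b))
      (Filter.Eventually.of_forall fun x => Finset.sum_nonneg fun b _ => sq_nonneg _),
    integral_finsetSum _ fun b _ => integrable_inner_sq (u b)]
  simp only [P157.integral_inner_sq]

end General

variable {d na : ℕ}

/-- The second moment of a matrix applied to `gam`. -/
lemma lintegral_matvec_gam {β : Type*} [Fintype β] (c : β → Fin d → ℝ) :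
    ∫⁻ z, ENNReal.ofReal (∑ b, (∑ a, c b a * z a) ^ 2) ∂(gam d) =
      ENNReal.ofReal (∑ b, ∑ a, c b a ^ 2) := by
  have h := lintegral_sum_inner_sq (H := E d) (fun b => (WithLp.toLp 2 (c b) : E d))
  have hn : ∀ b, ‖(WithLp.toLp 2 (c b) : E d)‖ ^ 2 = ∑ a, c b a ^ 2 := fun b => by
    simp [EuclideanSpace.norm_sq_eq]
  have hi : ∀ (z : E d) b, ⟪z, (WithLp.toLp 2 (c b) : E d)⟫ = ∑ a, c b a * z a := fun z b => by
    simp [PiLp.inner_apply]
  simpa only [gam, hn, hi] using h

/-- The second moment of a matrix applied to `gamB`. -/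
lemma lintegral_matvec_gamB {β : Type*} [Fintype β] (c : β → Fin (na + 1) → Fin d → ℝ) :
    ∫⁻ x : Words.Blk d na, ENNReal.ofReal (∑ b, (∑ p, ∑ a, c b p a * x p a) ^ 2)
        ∂(Words.gamB d na) =
      ENNReal.ofReal (∑ b, ∑ p, ∑ a, c b p a ^ 2) := by
  have h := lintegral_sum_inner_sq (H := Words.Blk d na)
    (fun b => (WithLp.toLp 2 fun p => (WithLp.toLp 2 (c b p) : E d) : Words.Blk d na))
  have hn : ∀ b, ‖(WithLp.toLp 2 fun p => (WithLp.toLp 2 (c b p) : E d) : Words.Blk d na)‖ ^ 2 =
      ∑ p, ∑ a, c b p a ^ 2 := fun b => by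
    simp [PiLp.norm_sq_eq_of_L2]
  have hi : ∀ (x : Words.Blk d na) b,
      ⟪x, (WithLp.toLp 2 fun p => (WithLp.toLp 2 (c b p) : E d) : Words.Blk d na)⟫ =
        ∑ p, ∑ a, c b p a * x p a := fun x b => by
    simp [PiLp.inner_apply]
  simpa only [Words.gamB, hn, hi] using h

end Vale.Agent.P347.Gamma0.Reg
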