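import Vale.Agent.P347.Gamma0.WordErr

/-!
P347, towards `γ_* = 0`, piece 4 (regularity): the word system along the exact flow on an interval
around `[0, q₁]`, with its law at every time.
-/

namespace Vale.Agent.P347.Gamma0.Reg

open MeasureTheory ProbabilityTheory Filter Topology Set
open scoped RealInnerProductSpace ContDiff

attribute [local irreducible] G nW psi

/-- Found at once, instead of through a slow search. -/
theorem blk_csmul (d na : ℕ) : ContinuousSMul ℝ (Words.Blk d na) :=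
  @IsBoundedSMul.continuousSMul ℝ (Words.Blk d na) _ _ _ _ _ _

attribute [local instance 10000] blk_csmul

/-- Time clamped to `[a, b]`. -/
noncomputable def clamp (a b r : ℝ) : ℝ := max a (min b r)

lemma clamp_mem {a b : ℝ} (hab : a ≤ b) (r : ℝ) : clamp a b r ∈ Icc a b :=
  ⟨le_max_left _ _, max_le hab (min_le_left _ _)⟩

lemma clamp_eq {a b r : ℝ} (hr : r ∈ Icc a b) : clamp a b r = r := by
  rw [clamp, min_eq_right hr.2, max_eq_right hr.1]

lemma continuous_clamp (a b : ℝ) : Continuous (clamp a b) :=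
  continuous_const.max (continuous_const.min continuous_id)

lemma term_congr {H : Type*} [NormedAddCommGroup H] [InnerProductSpace ℝ H] [CompleteSpace H]
    {B B' : ℝ → H →L[ℝ] H} {T : ℝ} (h : ∀ r ∈ Icc 0 T, B r = B' r) :
    ∀ (k : ℕ) {q : ℝ}, q ∈ Icc 0 T → Words.term B k q = Words.term B' k q
  | 0, _, _ => rfl
  | k + 1, q, hq => by
    rw [Words.term, Words.term]
    refine intervalIntegral.integral_congr fun r hr => ?_
    rw [uIcc_of_le hq.1] at hr
    have hr' : r ∈ Icc 0 T := ⟨hr.1, hr.2.trans hq.2⟩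
    simp only [h r hr', term_congr h k hr']

variable {d na : ℕ} {D : Gamma0.Data d} (X : ExFlow D) {q₁ a b : ℝ}

/-- The flow seen from `q₁`, in clamped time. -/
noncomputable def flowC (q₁ a b r : ℝ) (w : E d) : E d := X.Φ q₁ (clamp a b r) w

/-- The generator of the word system, in clamped time. -/
noncomputable def genC (k : ℕ) (q₁ a b : ℝ) (w : E d) (r : ℝ) :
    Words.Blk d na →L[ℝ] Words.Blk d na :=
  Words.blk (fun i : Fin na => Words.phiC k i (clamp a b r))
    (D.aq (clamp a b r) (flowC X q₁ a b r w))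

/-- The solution of the word system, in clamped time. -/
noncomputable def solC (k : ℕ) (q₁ a b s r : ℝ) (w : E d) : Words.Blk d na →L[ℝ] Words.Blk d na :=
  Words.sol (genC X k q₁ a b w) s (clamp a b r)

lemma flowC_eq {r : ℝ} (hr : r ∈ Icc a b) (w : E d) : flowC X q₁ a b r w = X.Φ q₁ r w := by
  rw [flowC, clamp_eq hr]

lemma continuous_flowC (h1 : q₁ ∈ D.I) (hab : a ≤ b) (hI : Icc a b ⊆ D.I) :
    Continuous fun p : ℝ × E d => flowC X q₁ a b p.1 p.2 :=
  X.joint.continuousOn.comp_continuous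
    (continuous_const.prodMk (((continuous_clamp a b).comp continuous_fst).prodMk continuous_snd))
    fun _ => ⟨h1, hI (clamp_mem hab _), mem_univ _⟩

lemma hasDerivAt_flowC (h1 : q₁ ∈ D.I) (hI : Icc a b ⊆ D.I) {r : ℝ} (hr : r ∈ Ioo a b) (w : E d) :
    HasDerivAt (fun u => flowC X q₁ a b u w) (D.v r (flowC X q₁ a b r w)) r := by
  rw [flowC_eq X ⟨hr.1.le, hr.2.le⟩]
  refine (X.flow.deriv q₁ h1 r (hI ⟨hr.1.le, hr.2.le⟩) w).congr_of_eventuallyEq ?_
  filter_upwards [Ioo_mem_nhds hr.1 hr.2] with u hu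
  exact flowC_eq X ⟨hu.1.le, hu.2.le⟩ w

variable (hP : PostFacts)
include hP

lemma continuous_genC (h1 : q₁ ∈ D.I) (hab : a ≤ b) (hI : Icc a b ⊆ D.I) (k : ℕ) :
    Continuous fun p : E d × ℝ => genC (na := na) X k q₁ a b p.1 p.2 :=
  Words.continuous_gen_param k ((continuous_clamp a b).comp continuous_snd)
    ((ExFlow.contDiffOn_aq hP).continuousOn.comp_continuous
      (((continuous_clamp a b).comp continuous_snd).prodMk
        ((continuous_flowC X h1 hab hI).comp (continuous_snd.prodMk continuous_fst)))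
      fun _ => ⟨hI (clamp_mem hab _), mem_univ _⟩)

lemma norm_genC_le (hab : a ≤ b) (hI : Icc a b ⊆ D.I) (hone : ∀ r ∈ Icc a b, |r| ≤ 1)
    (k : ℕ) (w : E d) (r : ℝ) : ‖genC (na := na) X k q₁ a b w r‖ ≤ 2 := by
  have hφ : ∀ i : Fin na, |Words.phiC k i (clamp a b r)| ≤ 1 := fun i => by
    simp only [Words.phiC, Build.phi]
    split_ifs <;> simp [hone _ (clamp_mem hab r)]
  exact Words.norm_blk_le hφ (ExFlow.norm_aq_le hP (hI (clamp_mem hab r)) _)

lemma gen_genC (h1 : q₁ ∈ D.I) (hab : a ≤ b) (hI : Icc a b ⊆ D.I) (hone : ∀ r ∈ Icc a b, |r| ≤ 1)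
    (k : ℕ) (w : E d) : Words.Gen (genC (na := na) X k q₁ a b w) 2 := by
  have hpair : Continuous fun r : ℝ => (w, r) := continuous_const.prodMk continuous_id
  have hg2 := continuous_genC (na := na) X hP h1 hab hI k
  have hc := Continuous.comp hg2 hpair
  simp only [Function.comp_def] at hc
  exact Words.Gen.mk hc zero_le_two (norm_genC_le X hP hab hI hone k w)

lemma skew_genC (hab : a ≤ b) (hI : Icc a b ⊆ D.I) (k : ℕ) (w : E d) (r : ℝ)
    (x : Words.Blk d na) : ⟪x, genC X k q₁ a b w r x⟫ = 0 :=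
  Words.inner_blk (fun u v => D.fderiv_Gq_symm hP (hI (clamp_mem hab r)) _ u v) x

lemma continuous_solC (h1 : q₁ ∈ D.I) (hab : a ≤ b) (hI : Icc a b ⊆ D.I)
    (hone : ∀ r ∈ Icc a b, |r| ≤ 1) (k : ℕ) (s : ℝ) :
    Continuous fun p : E d × ℝ => solC (na := na) X k q₁ a b s p.2 p.1 :=
  continuous_tsum
    (fun j => ((Words.continuous_term_param (continuous_genC X hP h1 hab hI k) j).comp
      (continuous_fst.prodMk ((continuous_clamp a b).comp continuous_snd))).const_smul (s ^ j))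
    (Words.summable_bound (|s| * 2)) fun j p => by
      refine (Words.norm_smul_term_le (gen_genC X hP h1 hab hI hone k p.1) s _ j).trans ?_
      exact div_le_div_of_nonneg_right (pow_le_pow_left₀ (by positivity)
        (mul_le_of_le_one_right (by positivity) (hone _ (clamp_mem hab _))) j) (Nat.cast_nonneg _)

lemma hasDerivAt_solC (h1 : q₁ ∈ D.I) (hab : a ≤ b) (hI : Icc a b ⊆ D.I)
    (hone : ∀ r ∈ Icc a b, |r| ≤ 1) (k : ℕ) (s : ℝ) (w : E d) (x : Words.Blk d na) {r : ℝ}
    (hr : r ∈ Ioo a b) :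
    HasDerivAt (fun u => solC X k q₁ a b s u w x)
      (s • Words.blk (fun i : Fin na => Words.phiC k i r) (D.aq r (flowC X q₁ a b r w))
        (solC X k q₁ a b s r w x)) r := by
  have e : clamp a b r = r := clamp_eq ⟨hr.1.le, hr.2.le⟩
  have h : HasDerivAt (fun u => Words.sol (genC X k q₁ a b w) s u x)
      (s • genC X k q₁ a b w r (Words.sol (genC X k q₁ a b w) s r x)) r :=
    (ContinuousLinearMap.apply ℝ (Words.Blk d na) x).hasFDerivAt.comp_hasDerivAt r
      (Words.hasDerivAt_sol (gen_genC X hP h1 hab hI hone k w) s r)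
  have h2 := h.congr_of_eventuallyEq (f₁ := fun u => solC X k q₁ a b s u w x) (by
    filter_upwards [Ioo_mem_nhds hr.1 hr.2] with u hu
    rw [solC, clamp_eq ⟨hu.1.le, hu.2.le⟩])
  have e2 : Words.sol (genC (na := na) X k q₁ a b w) s r = solC X k q₁ a b s r w := by
    rw [solC, e]
  have e3 : genC (na := na) X k q₁ a b w r = Words.blk (fun i : Fin na => Words.phiC k i r)
      (D.aq r (flowC X q₁ a b r w)) := by rw [genC, e]
  rwa [e2, e3] at h2

omit hP in
lemma solC_eq (hsub : Icc 0 q₁ ⊆ Icc a b) (k : ℕ) (s : ℝ) (w : E d) {r : ℝ} (hr : r ∈ Icc 0 q₁) :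
    solC (na := na) X k q₁ a b s r w = Words.sysX X k q₁ w s r := by
  rw [solC, clamp_eq (hsub hr), Words.sysX, Words.sol, Words.sol]
  refine tsum_congr fun j => ?_
  rw [term_congr (B' := Words.gen (na := na) k q₁ (Words.apath X q₁ w)) (fun u hu => ?_) j hr]
  simp only [genC, flowC, Words.gen, Words.apath, clamp_eq (hsub hu), Words.cl_eq hu]

omit hP in
/-- The word system along the exact flow, on an interval around `[0, q₁]`. -/
theorem exists_sysPath (hP : PostFacts) (hH : NWHeat) (hT : LawTransport) (X : ExFlow D) {q₁ : ℝ}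
    (h1 : q₁ ∈ D.I) (h0 : 0 ≤ q₁) (hτ : D.τ ≤ 1) (k : ℕ) (s : ℝ) :
    ∃ a b : ℝ, ∃ Y : ℝ → E d × Words.Blk d na → Words.Blk d na, ∃ W : ℝ → E d → E d,
      a < 0 ∧ q₁ < b ∧ Icc a b ⊆ D.I ∧ Continuous (Function.uncurry Y) ∧
      Continuous (Function.uncurry W) ∧
      (∀ r ∈ Ioo a b, ∀ w, W r w = X.Φ q₁ r w ∧
        HasDerivAt (fun u => W u w) (D.v r (W r w)) r) ∧
      (∀ z, ∀ r ∈ Ioo a b, HasDerivAt (fun u => Y u z)
        (s • Words.blk (fun i : Fin na => Words.phiC k i r) (D.aq r (W r z.1)) (Y r z)) r) ∧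
      (∀ r ∈ Icc 0 q₁, ∀ z, Y r z = Words.sysX X k q₁ z.1 s r z.2) ∧
      (∀ r ∈ Icc 0 q₁, MeasurePreserving (fun z => (W r z.1, Y r z))
        ((ExFlow.law D q₁).prod (Words.gamB d na))
        ((ExFlow.law D r).prod (Words.gamB d na))) := by
  have hs1 : Real.sqrt D.τ ≤ 1 := Real.sqrt_le_one.2 hτ
  have hlo : -Real.sqrt D.τ < 0 := D.zero_mem.1
  have hhi : q₁ < Real.sqrt D.τ := h1.2
  obtain ⟨a, ha⟩ : ∃ a, a = -Real.sqrt D.τ / 2 := ⟨_, rfl⟩
  obtain ⟨b, hb⟩ : ∃ b, b = (q₁ + Real.sqrt D.τ) / 2 := ⟨_, rfl⟩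
  have hab : a ≤ b := by rw [ha, hb]; linarith
  have hI : Icc a b ⊆ D.I := fun r hr =>
    ⟨by linarith [hr.1], by linarith [hr.2]⟩
  have hsub : Icc 0 q₁ ⊆ Icc a b := fun r hr =>
    ⟨by linarith [hr.1], by linarith [hr.2]⟩
  have hone : ∀ r ∈ Icc a b, |r| ≤ 1 := fun r hr => by
    rw [abs_le]
    constructor <;> linarith [hr.1, hr.2]
  refine ⟨a, b, fun r z => solC X k q₁ a b s r z.1 z.2, flowC X q₁ a b, by linarith, by linarith,
    hI, ((continuous_solC X hP h1 hab hI hone k s).comp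
      ((continuous_fst.comp continuous_snd).prodMk continuous_fst)).clm_apply
      (continuous_snd.comp continuous_snd), continuous_flowC X h1 hab hI,
    fun r hr w => ⟨flowC_eq X ⟨hr.1.le, hr.2.le⟩ w, hasDerivAt_flowC X h1 hI hr w⟩,
    fun z r hr => hasDerivAt_solC X hP h1 hab hI hone k s z.1 z.2 hr,
    fun r hr z => by simp only [solC_eq X hsub k s z.1 hr], fun r hr => ?_⟩
  have hrI : r ∈ D.I := hI (hsub hr)
  have := ExFlow.isProb_law hP hH hT h1 X
  have hf : MeasurePreserving (flowC X q₁ a b r) (ExFlow.law D q₁) (ExFlow.law D r) := by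
    rw [show flowC X q₁ a b r = X.Φ q₁ r from funext fun w => flowC_eq X (hsub hr) w]
    exact ⟨(X.continuous_Φ h1 hrI).measurable, Words.map_law_back X hP hH hT hrI h1⟩
  refine hf.skew_product (g := fun w x => solC X k q₁ a b s r w x) ?_ (ae_of_all _ fun w => ?_)
  · exact (((continuous_solC X hP h1 hab hI hone k s).comp
      (continuous_fst.prodMk continuous_const)).clm_apply continuous_snd).measurable
  · exact Words.map_isometry_gamB fun x =>
      Words.inner_sol (gen_genC X hP h1 hab hI hone k w) (skew_genC X hP hab hI k w) s _ x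

end Vale.Agent.P347.Gamma0.Reg
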