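import Vale.Agent.P347.Gamma0.RegExact

/-!
P347, towards `γ_* = 0`, piece 4 (regularity): time derivatives along a trajectory are iterates of
`A`, or of `F ↦ A F + F J` for a linear fibre `Y' = J Y`, and their `L²` bounds at the rate `√τ / r`.
-/

namespace Vale.Agent.P347.Gamma0

namespace Reg

open MeasureTheory Sobolev Set
open scoped ContDiff ENNReal

set_option linter.unusedSectionVars false

namespace Sys

variable {ι : Type} [Fintype ι] [DecidableEq ι] {S : Sys ι}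

/-- Derivatives along a trajectory of the velocity are given by `A`. -/
lemma hasDerivAt_A {f : ℝ → (EuclideanSpace ℝ ι) → ℝ} (hf : S.ok f) {p : ℝ → (EuclideanSpace ℝ ι)} {p' : (EuclideanSpace ℝ ι)} {q : ℝ} (hq : q ∈ S.I)
    (hp : HasDerivAt p p' q) (hv : ∀ i, p' i = S.v i q (p q)) :
    HasDerivAt (fun u => f u (p u)) (S.A f q (p q)) q := by
  set F : ℝ × (EuclideanSpace ℝ ι) → ℝ := fun z => f z.1 z.2
  have hF : HasFDerivAt F (fderiv ℝ F (q, p q)) (q, p q) :=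
    (((S.ok_smooth hf).contDiffAt ((S.open_I.prod isOpen_univ).mem_nhds
      ⟨hq, Set.mem_univ _⟩)).differentiableAt (by simp)).hasFDerivAt
  have h := hF.comp_hasDerivAt q (f := fun u => (u, p u)) ((hasDerivAt_id q).prodMk hp)
  refine h.congr_deriv ?_
  have h1 : HasDerivAt (fun u => f u (p q)) (fderiv ℝ F (q, p q) (1, 0)) q :=
    hF.comp_hasDerivAt q (f := fun u : ℝ => (u, p q))
      ((hasDerivAt_id q).prodMk (hasDerivAt_const q (p q)))
  have h2 : ∀ i, pd i (f q) (p q) = fderiv ℝ F (q, p q) (0, EuclideanSpace.single i 1) := fun i => by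
    have h' : HasFDerivAt (f q) ((fderiv ℝ F (q, p q)).comp
        ((0 : (EuclideanSpace ℝ ι) →L[ℝ] ℝ).prod (ContinuousLinearMap.id ℝ (EuclideanSpace ℝ ι)))) (p q) :=
      hF.comp (p q) ((hasFDerivAt_const q (p q)).prodMk (hasFDerivAt_id (p q)))
    show fderiv ℝ (f q) (p q) (EuclideanSpace.single i 1) = _
    rw [h'.fderiv]
    rfl
  have e : ((1 : ℝ), p')
      = ((1 : ℝ), (0 : (EuclideanSpace ℝ ι))) + ∑ i, p' i • ((0 : ℝ), EuclideanSpace.single i (1 : ℝ)) := by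
    refine Prod.ext ?_ ?_
    · simp [Prod.fst_sum]
    · simp only [Prod.snd_add, Prod.snd_sum, Prod.smul_snd, zero_add]
      simpa [EuclideanSpace.basisFun_apply] using
        ((EuclideanSpace.basisFun ι ℝ).sum_repr p').symm
  rw [e, map_add, map_sum, A_apply, h1.deriv]
  simp only [map_smul, smul_eq_mul, ← hv, h2]

variable {γ β : Type} [Fintype γ] [Fintype β]

/-- `F ↦ A F + F J`, `J` given by its transpose. -/
noncomputable def stepF (Jt : γ → γ → ℝ → (EuclideanSpace ℝ ι) → ℝ) (F : β × γ → ℝ → (EuclideanSpace ℝ ι) → ℝ) : β × γ → ℝ → (EuclideanSpace ℝ ι) → ℝ :=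
  fun p q x => S.AF F p q x + mulT Jt F p q x

lemma okF_stepF {Jt : γ → γ → ℝ → (EuclideanSpace ℝ ι) → ℝ} (hJ : ∀ a b, S.ok (Jt a b)) {F : β × γ → ℝ → (EuclideanSpace ℝ ι) → ℝ}
    (hF : S.OkF F) : S.OkF (stepF (S := S) Jt F) :=
  S.okF_add (S.okF_AF hF) (S.okF_mulT hJ hF)

lemma okF_iter {Jt : γ → γ → ℝ → (EuclideanSpace ℝ ι) → ℝ} (hJ : ∀ a b, S.ok (Jt a b)) {F : β × γ → ℝ → (EuclideanSpace ℝ ι) → ℝ}
    (hF : S.OkF F) : ∀ n, S.OkF ((stepF (S := S) Jt)^[n] F)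
  | 0 => hF
  | n + 1 => by rw [Function.iterate_succ_apply']; exact okF_stepF hJ (okF_iter hJ hF n)

/-- Derivatives of `F Y` along a trajectory with `Y' = J Y`. -/
lemma hasDerivAt_stepF {Jt : γ → γ → ℝ → (EuclideanSpace ℝ ι) → ℝ} {F : β × γ → ℝ → (EuclideanSpace ℝ ι) → ℝ} (hF : S.OkF F)
    {p : ℝ → (EuclideanSpace ℝ ι)} {p' : (EuclideanSpace ℝ ι)} {q : ℝ} (hq : q ∈ S.I) (hp : HasDerivAt p p' q)
    (hv : ∀ i, p' i = S.v i q (p q)) {Y : ℝ → γ → ℝ}
    (hY : ∀ c, HasDerivAt (fun u => Y u c) (∑ e, Jt e c q (p q) * Y q e) q) (b : β) :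
    HasDerivAt (fun u => ∑ c, F (b, c) u (p u) * Y u c)
      (∑ c, stepF (S := S) Jt F (b, c) q (p q) * Y q c) q := by
  have h : HasDerivAt (fun u => ∑ c, F (b, c) u (p u) * Y u c)
      (∑ c, (S.A (F (b, c)) q (p q) * Y q c
        + F (b, c) q (p q) * ∑ e, Jt e c q (p q) * Y q e)) q :=
    HasDerivAt.fun_sum fun c _ => (hasDerivAt_A (hF _) hq hp hv).mul (hY c)
  refine h.congr_deriv ?_
  simp only [stepF, AF, mulT, mulF, Finset.sum_add_distrib, add_mul, Finset.mul_sum, Finset.sum_mul]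
  congr 1
  rw [Finset.sum_comm]
  exact Finset.sum_congr rfl fun e _ => Finset.sum_congr rfl fun c _ => by ring

variable {P : S.Pt} {N : ℕ}

lemma Ctrl.le {B : ℝ} {j n : ℕ} (hjn : j ≤ n) (h : Ctrl P N n B) : Ctrl P N j B := by
  induction hjn with
  | refl => exact h
  | step _ ih => exact ih h.lower

lemma AMul.le {M : β → γ → ℝ → (EuclideanSpace ℝ ι) → ℝ} {s : ℝ} {j n : ℕ} (hjn : j ≤ n)
    (h : AMul P N n M s) : AMul P N j M s := by
  induction hjn with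
  | refl => exact h
  | step _ ih => exact ih (AMul.lower P N _ h)

lemma OpsLe.mono {m j : ℕ} {C C' : ℝ} (hC : C ≤ C') (h : OpsLe P m j N C) : OpsLe P m j N C' :=
  ⟨fun hF => (h.1 hF).trans (mul_le_mul_of_nonneg_right hC (regNorm_nonneg P _ _ _)),
    fun hF => (h.2.1 hF).trans (mul_le_mul_of_nonneg_right hC (regNorm_nonneg P _ _ _)),
    fun hM _ hF => (h.2.2 hM hF).trans (mul_le_mul_of_nonneg_right
      (mul_le_mul_of_nonneg_right hC (sq_nonneg _)) (regNorm_nonneg P _ _ _))⟩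

/-- The iterates of `F ↦ A F + F J` cost `lam²` each. -/
lemma regNorm_iter_le {Jt : γ → γ → ℝ → (EuclideanSpace ℝ ι) → ℝ} {n : ℕ} {B C : ℝ} (hC : 0 ≤ C)
    (hops : ∀ j, j ≤ n → OpsLe P 0 j N C) (hJ : AMul P N n Jt (B * P.lam))
    {F : β × γ → ℝ → (EuclideanSpace ℝ ι) → ℝ} (hF : S.OkF F) :
    ∀ k j, j + k ≤ n → regNorm P 0 j ((stepF (S := S) Jt)^[k] F)
      ≤ (2 * (1 + C * B ^ 2)) ^ k * P.lam ^ (2 * k) * regNorm P 0 (j + k) F := by
  intro k
  induction k with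
  | zero => intro j _; simp
  | succ k ih =>
    intro j hjk
    set G := (stepF (S := S) Jt)^[k] F
    have hG : S.OkF G := okF_iter (AMul.base P hJ).1 hF k
    rw [Function.iterate_succ_apply']
    have h1 := regNorm_add_le P j 0 (S.okF_AF hG) (S.okF_mulT (AMul.base P hJ).1 hG)
    have h2 := regNorm_AF_le' (P := P) j 0 G
    have h3 := (hops j (by omega)).2.2 (AMul.le (show j ≤ n by omega) hJ) hG
    have h4 : regNorm P 0 j G ≤ regNorm P 0 (j + 1) G :=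
      (regNorm_mono P j 0 G).trans (regNorm_shift P j 0 G)
    have h5 := ih (j + 1) (by omega)
    rw [show j + 1 + k = j + (k + 1) by omega] at h5
    calc regNorm P 0 j (stepF (S := S) Jt G)
        ≤ 2 * (P.lam ^ 2 * regNorm P 0 (j + 1) G + C * (B * P.lam) ^ 2 * regNorm P 0 (j + 1) G) := by
          refine h1.trans (mul_le_mul_of_nonneg_left (add_le_add h2 (h3.trans ?_)) zero_le_two)
          exact mul_le_mul_of_nonneg_left h4 (by positivity)
      _ = 2 * (1 + C * B ^ 2) * P.lam ^ 2 * regNorm P 0 (j + 1) G := by ring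
      _ ≤ 2 * (1 + C * B ^ 2) * P.lam ^ 2
            * ((2 * (1 + C * B ^ 2)) ^ k * P.lam ^ (2 * k) * regNorm P 0 (j + (k + 1)) F) :=
          mul_le_mul_of_nonneg_left h5 (by positivity)
      _ = _ := by ring

lemma regNorm_iterA_le {α : Type} [Fintype α] {F : α → ℝ → (EuclideanSpace ℝ ι) → ℝ} :
    ∀ k j, regNorm P 0 j (S.AF^[k] F) ≤ P.lam ^ (2 * k) * regNorm P 0 (j + k) F := by
  intro k
  induction k with
  | zero => intro j; simp
  | succ k ih =>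
    intro j
    rw [Function.iterate_succ_apply']
    refine (regNorm_AF_le' (P := P) j 0 _).trans
      ((mul_le_mul_of_nonneg_left (ih (j + 1)) (sq_nonneg _)).trans (le_of_eq ?_))
    rw [show j + 1 + k = j + (k + 1) by omega]
    ring

lemma lintegral_eq_regNorm {α : Type} [Fintype α] {F : α → ℝ → (EuclideanSpace ℝ ι) → ℝ} (hF : S.OkF F) :
    ∫⁻ w, ENNReal.ofReal (∑ a, F a P.q₀ w ^ 2) ∂S.μ P.q₀
      = ENNReal.ofReal (regNorm P 0 0 F) := by
  have ht : Tame fun w => ∑ a, F a P.q₀ w ^ 2 := by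
    simp only [sq]
    exact Function.HasTemperateGrowth.sum fun a _ =>
      (tameF₀ P hF a).mul (tameF₀ P hF a)
  exact (ofReal_integral_eq_lintegral_ofReal ((ibp₀ P).integrable _ ht)
    (ae_of_all _ fun w => Finset.sum_nonneg fun a _ => sq_nonneg _)).symm

end Sys

variable {d : ℕ} (hP : PostFacts) (hT : TameFact)

/-- The scales at the time `q`. -/
noncomputable def stdPt (D : Data d) (hτ : D.τ ≤ 1) {q : ℝ} (hq : q ∈ D.I) :
    (baseSys hP D hT hτ).Pt where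
  q₀ := q
  mem := hq
  κ := Real.sqrt (D.r q) / (Real.sqrt (D.r q) + |q|)
  κ0 := div_pos (Real.sqrt_pos.2 (D.r_pos hq))
    (add_pos_of_pos_of_nonneg (Real.sqrt_pos.2 (D.r_pos hq)) (abs_nonneg q))
  κ1 := (div_le_one (add_pos_of_pos_of_nonneg (Real.sqrt_pos.2 (D.r_pos hq)) (abs_nonneg q))).2
    (le_add_of_nonneg_right (abs_nonneg q))
  lam := 2 * Real.sqrt D.τ / D.r q
  lam0 := div_pos (mul_pos two_pos (Real.sqrt_pos.2 D.τ0)) (D.r_pos hq)

lemma stdPt_adm (D : Data d) (hτ : D.τ ≤ 1) {q : ℝ} (hq : q ∈ D.I) :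
    Adm hP D hT hτ (stdPt hP hT D hτ hq) ∧
      ((stdPt hP hT D hτ hq).κ)⁻¹ ≤ (stdPt hP hT D hτ hq).lam ∧ 1 ≤ (stdPt hP hT D hτ hq).lam := by
  have hr := D.r_pos hq
  set S := Real.sqrt (D.r q)
  set T := Real.sqrt D.τ
  have hS : 0 < S := Real.sqrt_pos.2 hr
  have hT0 : 0 < T := Real.sqrt_pos.2 D.τ0
  have hT1 : T ≤ 1 := Real.sqrt_le_one.2 hτ
  have hST : S ≤ T := Real.sqrt_le_sqrt (sub_le_self _ (sq_nonneg q))
  have hqT : |q| ≤ T := abs_le.2 ⟨hq.1.le, hq.2.le⟩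
  have hS2 : S ^ 2 = D.r q := Real.sq_sqrt hr.le
  have hT2 : T ^ 2 = D.τ := Real.sq_sqrt D.τ0.le
  have hd : 0 < S + |q| := by positivity
  have e1 : (stdPt hP hT D hτ hq).κ = S / (S + |q|) := rfl
  have e2 : (stdPt hP hT D hτ hq).lam = 2 * T / D.r q := rfl
  have hkl : (S / (S + |q|))⁻¹ ≤ 2 * T / D.r q := by
    rw [inv_div, div_le_div_iff₀ hS hr, ← hS2]
    calc (S + |q|) * S ^ 2 = ((S + |q|) * S) * S := by ring
      _ ≤ (2 * T * S) * 1 := by
          refine mul_le_mul (mul_le_mul_of_nonneg_right (by linarith) hS.le) (hST.trans hT1) hS.le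
            (by positivity)
      _ = _ := mul_one _
  have hl1 : 1 ≤ 2 * T / D.r q := by
    rw [le_div_iff₀ hr, ← hS2]
    nlinarith
  refine ⟨⟨?_, ?_, ?_, ?_⟩, ?_, ?_⟩
  · show (stdPt hP hT D hτ hq).κ * |q| ≤ S
    rw [e1, div_mul_eq_mul_div, div_le_iff₀ hd]
    nlinarith
  · show 1 ≤ (stdPt hP hT D hτ hq).κ * (stdPt hP hT D hτ hq).lam * S
    rw [e1, e2, ← hS2, div_mul_div_comm, div_mul_eq_mul_div, le_div_iff₀ (by positivity)]
    nlinarith [sq_nonneg S]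
  · show T ≤ (stdPt hP hT D hτ hq).lam * D.r q
    rw [e2, div_mul_cancel₀ _ hr.ne']
    linarith
  · show 1 ≤ (stdPt hP hT D hτ hq).lam * T
    rw [e2, div_mul_eq_mul_div, le_div_iff₀ hr, ← hS2]
    nlinarith
  · rw [e1, e2]; exact hkl
  · rw [e2]; exact hl1

include hP hT

/-- Operator bounds on all levels up to `n` at once. -/
lemma exists_ops (n : ℕ) : ∃ B C : ℝ, 0 ≤ B ∧ 0 ≤ C ∧ ∀ (d : ℕ) (D : Data d) (hτ : D.τ ≤ 1)
    (P : (baseSys hP D hT hτ).Pt), Adm hP D hT hτ P →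
      ∀ j, j ≤ n → Sys.OpsLe P 0 j (n + 2) C ∧ Sys.OpsLe P 1 j (n + 2) C := by
  obtain ⟨B, hB0, hB⟩ := exists_ctrl hP hT (n + 2) n
  choose C0 hC01 hC0 using fun j => ops B j 0
  choose C1 hC11 hC1 using fun j => ops B j 1
  have h0 : ∀ j, 0 ≤ C0 j := fun j => zero_le_one.trans (hC01 j)
  have h1 : ∀ j, 0 ≤ C1 j := fun j => zero_le_one.trans (hC11 j)
  refine ⟨B, ∑ j ∈ Finset.range (n + 1), (C0 j + C1 j), hB0,
    Finset.sum_nonneg fun j _ => add_nonneg (h0 j) (h1 j), fun d D hτ P hA j hj => ?_⟩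
  have hle : C0 j + C1 j ≤ ∑ j ∈ Finset.range (n + 1), (C0 j + C1 j) :=
    Finset.single_le_sum (f := fun j => C0 j + C1 j) (fun i _ => add_nonneg (h0 i) (h1 i))
      (Finset.mem_range.2 (by omega))
  have hc := Sys.Ctrl.le hj (hB d D hτ P hA)
  exact ⟨Sys.OpsLe.mono (by linarith [h1 j]) (hC0 j P (by omega) hc),
    Sys.OpsLe.mono (by linarith [h0 j]) (hC1 j P (by omega) hc)⟩

/-- The `n`-th derivative of the mean gradient along the flow, `n ≥ 1`. -/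
theorem exists_seq_Gq (n : ℕ) (hn : 1 ≤ n) :
    ∃ C : ℝ, 0 ≤ C ∧ ∀ (d : ℕ) (D : Data d) (hτ : D.τ ≤ 1), ∀ q ∈ D.I,
      ∫⁻ w, ENNReal.ofReal (∑ i, ((baseSys hP D hT hτ).A^[n] (pull D (gC D i)) q w) ^ 2)
          ∂ExFlow.law D q
        ≤ ENNReal.ofReal (((Real.sqrt D.τ / (D.τ - q ^ 2)) ^ n * C) ^ 2 * d) := by
  obtain ⟨k, rfl⟩ : ∃ k, n = k + 1 := ⟨n - 1, by omega⟩
  obtain ⟨B, C, hB0, hC0, hops⟩ := exists_ops hP hT k
  obtain ⟨Ca, hCa0, hCa⟩ := exists_aMul_a hP hT (k + 2) k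
  refine ⟨2 ^ (k + 1) * (Real.sqrt C * Real.sqrt C * Ca), by positivity, fun d D hτ q hq => ?_⟩
  set S := baseSys hP D hT hτ
  set P := stdPt hP hT D hτ hq
  obtain ⟨hA, hκl, hl1⟩ := stdPt_adm hP hT D hτ hq
  obtain ⟨ha1, ha2⟩ := hCa d D hτ P hA
  set F : Fin d × Fin d → ℝ → E d → ℝ := fun p => aC D p.1 p.2
  have hF : S.OkF F := fun p => (Sys.AMul.base P ha1).1 p.1 p.2
  have hG : ∀ i, ∀ u ∈ D.I, ∀ w, S.A (pull D (gC D i)) u w = S.dvF F i u w := by
    intro i u hu w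
    rw [A_pull hP D hT hτ (joint_gC hP D i) hu,
      show pull D (Lop D (gC D i)) u w = 0 from Lop_gC hP D i (D.r_pos hu) _, mul_zero, add_zero]
    have e : ∀ k, pull D (fun r y => pd k (gC D i r) y) u = aC D i k u := fun k => funext fun z => by
      have h : HasFDerivAt (gC D i (D.r u)) ((EuclideanSpace.proj (𝕜 := ℝ) i).comp
          (fderiv ℝ (G D.U D.g D.ε (D.r u)) (D.c + u • z))) (D.c + u • z) :=
        (EuclideanSpace.proj (𝕜 := ℝ) i).hasFDerivAt.comp _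
          ((D.contDiff_G hP (D.r_pos hu)).differentiable (by simp) _).hasFDerivAt
      show fderiv ℝ (gC D i (D.r u)) (D.c + u • z) (EuclideanSpace.single k 1) = _
      rw [h.fderiv]
      rfl
    simp only [e]
    rfl
  have hiter : ∀ m : ℕ, ∀ i, ∀ u ∈ D.I, ∀ w,
      S.A^[m + 1] (pull D (gC D i)) u w = (S.AF^[m] (S.dvF F)) i u w := by
    intro m
    induction m with
    | zero => exact hG
    | succ m ih =>
      intro i u hu w
      rw [Function.iterate_succ_apply' S.A, Function.iterate_succ_apply' S.AF]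
      exact S.A_congr (ih i) hu w
  have hok : ∀ m : ℕ, S.OkF (S.AF^[m] (S.dvF F)) := by
    intro m
    induction m with
    | zero => exact S.okF_dvF hF
    | succ m ih => rw [Function.iterate_succ_apply' S.AF]; exact S.okF_AF ih
  have e : ∀ w, ∑ i, (S.A^[k + 1] (pull D (gC D i)) q w) ^ 2
      = ∑ i, (S.AF^[k] (S.dvF F)) i P.q₀ w ^ 2 := fun w =>
    Finset.sum_congr rfl fun i _ => by rw [hiter k i q hq w]; rfl
  rw [lintegral_congr fun w => congrArg ENNReal.ofReal (e w)]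
  rw [show ExFlow.law D q = S.μ P.q₀ from rfl, Sys.lintegral_eq_regNorm (hok k)]
  refine ENNReal.ofReal_le_ofReal ?_
  have h1 := Sys.regNorm_iterA_le (P := P) (F := S.dvF F) k 0
  rw [Nat.zero_add] at h1
  have h2 := (hops d D hτ P hA k le_rfl).1.2.1 hF
  have h3 : Sys.regNorm P 1 k F ≤ C * Ca ^ 2 * d := by
    have h := Sys.regNorm_field_le (hops d D hτ P hA k le_rfl).2 ha2
    simpa using h
  have h4 : Sys.regNorm P 0 k (S.dvF F) ≤ P.lam ^ 2 * (C * (C * Ca ^ 2 * d)) := by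
    have hk : 0 < P.κ ^ 2 := pow_pos P.κ0 2
    calc Sys.regNorm P 0 k (S.dvF F)
        = (P.κ⁻¹) ^ 2 * (P.κ ^ 2 * Sys.regNorm P 0 k (S.dvF F)) := by
          rw [← mul_assoc, ← mul_pow, inv_mul_cancel₀ P.κ0.ne', one_pow, one_mul]
      _ ≤ P.lam ^ 2 * (C * (C * Ca ^ 2 * d)) := by
          refine mul_le_mul (pow_le_pow_left₀ (inv_nonneg.2 P.κ0.le) hκl 2)
            (h2.trans (mul_le_mul_of_nonneg_left h3 hC0))
            (mul_nonneg hk.le (Sys.regNorm_nonneg P _ _ _)) (sq_nonneg _)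
  refine (h1.trans (mul_le_mul_of_nonneg_left h4 (pow_nonneg P.lam0.le _))).trans (le_of_eq ?_)
  have e' : P.lam = 2 * (Real.sqrt D.τ / (D.τ - q ^ 2)) := by
    show 2 * Real.sqrt D.τ / D.r q = _
    rw [Data.r]
    ring
  have eC : Real.sqrt C * Real.sqrt C = C := Real.mul_self_sqrt hC0
  rw [e', eC]
  ring

/-- The iterates of `M ↦ A M + M J` from a matrix with bounded flattenings. -/
theorem exists_seq_mat (n : ℕ) (B₀ B₁ : ℝ) :
    ∃ C : ℝ, 0 ≤ C ∧ ∀ (d : ℕ) (D : Data d) (hτ : D.τ ≤ 1) (q : ℝ) (hq : q ∈ D.I) {γ : Type}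
      [Fintype γ] (Jt : γ → γ → ℝ → E d → ℝ) (M₀ : γ → Fin d → ℝ → E d → ℝ),
      Sys.AMul (stdPt hP hT D hτ hq) (n + 2) n Jt (B₀ * (stdPt hP hT D hτ hq).lam) →
      Sys.AMul (stdPt hP hT D hτ hq) (n + 2) n M₀ B₁ →
        ∫⁻ w, ENNReal.ofReal (∑ p : Fin d × γ,
            ((Sys.stepF (S := baseSys hP D hT hτ) Jt)^[n]
              (fun p : Fin d × γ => M₀ p.2 p.1)) p q w ^ 2) ∂ExFlow.law D q
          ≤ ENNReal.ofReal (((Real.sqrt D.τ / (D.τ - q ^ 2)) ^ n * C) ^ 2 * d) := by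
  obtain ⟨B, C, hB0, hC0, hops⟩ := exists_ops hP hT n
  set K := (2 * (1 + C * B₀ ^ 2)) ^ n * (2 ^ (2 * n) * (C * B₁ ^ 2))
  refine ⟨Real.sqrt K, Real.sqrt_nonneg _, fun d D hτ q hq γ _ Jt M₀ hJ hM => ?_⟩
  set S := baseSys hP D hT hτ
  set P := stdPt hP hT D hτ hq
  obtain ⟨hA, hκl, hl1⟩ := stdPt_adm hP hT D hτ hq
  set F : Fin d × γ → ℝ → E d → ℝ := fun p => M₀ p.2 p.1
  have hF : S.OkF F := fun p => (Sys.AMul.base P hM).1 p.2 p.1
  rw [show ExFlow.law D q = S.μ P.q₀ from rfl,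
    show (fun w => ENNReal.ofReal (∑ p, ((Sys.stepF (S := S) Jt)^[n] F) p q w ^ 2))
      = fun w => ENNReal.ofReal (∑ p, ((Sys.stepF (S := S) Jt)^[n] F) p P.q₀ w ^ 2) from rfl,
    Sys.lintegral_eq_regNorm (Sys.okF_iter (Sys.AMul.base P hJ).1 hF n)]
  refine ENNReal.ofReal_le_ofReal ?_
  have h1 := Sys.regNorm_iter_le hC0 (fun j hj => (hops d D hτ P hA j hj).1) hJ hF n 0 (by omega)
  rw [Nat.zero_add] at h1
  have h3 : Sys.regNorm P 0 n F ≤ C * B₁ ^ 2 * d := by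
    have h := Sys.regNorm_field_le (hops d D hτ P hA n le_rfl).1 hM
    simpa using h
  refine (h1.trans (mul_le_mul_of_nonneg_left h3 (mul_nonneg (by positivity)
    (pow_nonneg P.lam0.le _)))).trans (le_of_eq ?_)
  have e' : P.lam = 2 * (Real.sqrt D.τ / (D.τ - q ^ 2)) := by
    show 2 * Real.sqrt D.τ / D.r q = _
    rw [Data.r]
    ring
  have hK : Real.sqrt K ^ 2 = K := Real.sq_sqrt (by positivity)
  rw [mul_pow _ (Real.sqrt K), hK, e']
  ring

end Reg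

end Vale.Agent.P347.Gamma0
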