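import Vale.Agent.P347.Gamma0.RegStmt
import Vale.Agent.P347.Gamma0.RegSeq
import Vale.Agent.P347.Gamma0.RegPath
import Vale.Agent.P347.Gamma0.RegMoment

/-!
P347, towards `γ_* = 0`, piece 4 (regularity): the time derivatives of the first word along the
backward trajectory, in mean square.
-/

namespace Vale.Agent.P347.Gamma0.Reg

open MeasureTheory ProbabilityTheory Filter Topology Set
open scoped RealInnerProductSpace ContDiff ENNReal

attribute [local irreducible] G nW psi

/-- A chain of derivatives on an open set. -/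
lemma chain_local {V : Type} [NormedAddCommGroup V] [NormedSpace ℝ V] {O : Set ℝ} (hO : IsOpen O)
    {h : ℕ → ℝ → V} (hh : ∀ k, ∀ t ∈ O, HasDerivAt (h k) (h (k + 1) t) t) {f : ℝ → V}
    (hf : EqOn f (h 0) O) (n : ℕ) {t : ℝ} (ht : t ∈ O) :
    ContDiffAt ℝ n f t ∧ iteratedDeriv n f t = h n t := by
  have hreg : ∀ m k : ℕ, ContDiffOn ℝ m (h k) O := by
    intro m
    induction m with
    | zero => exact fun k => contDiffOn_zero.2 fun u hu => (hh k u hu).continuousAt.continuousWithinAt
    | succ m ih =>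
      intro k
      rw [Nat.cast_succ]
      refine (contDiffOn_succ_iff_deriv_of_isOpen hO).2
        ⟨fun u hu => (hh k u hu).differentiableAt.differentiableWithinAt, by simp, ?_⟩
      exact (ih (k + 1)).congr fun u hu => (hh k u hu).deriv
  refine ⟨((hreg n 0).contDiffAt (hO.mem_nhds ht)).congr_of_eventuallyEq
    (hf.eventuallyEq_of_mem (hO.mem_nhds ht)), ?_⟩
  induction n generalizing t with
  | zero => rw [iteratedDeriv_zero]; exact hf ht
  | succ n ih =>
    rw [iteratedDeriv_succ, EventuallyEq.deriv_eq (f := h n)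
      (eventually_of_mem (hO.mem_nhds ht) fun u hu => ih hu)]
    exact (hh n t ht).deriv

/-- The coordinates of `a` applied to a vector. -/
lemma aq_coord {d : ℕ} (D : Data d) (r : ℝ) (w z : E d) (i : Fin d) :
    D.aq r w z i = ∑ e, aC D i e r w * z e := by
  conv_lhs => rw [← (EuclideanSpace.basisFun (Fin d) ℝ).sum_repr z, map_sum]
  simp [aC, bv, mul_comm]

/-- A field along a trajectory applied to a fixed vector. -/
lemma hasDerivAt_field {d : ℕ} {S : Sys (Fin d)} {Jt : Fin d → Fin d → ℝ → E d → ℝ}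
    (hJ : ∀ e c q x, Jt e c q x = 0) {F : Fin d × Fin d → ℝ → E d → ℝ} (hF : S.OkF F)
    {p : ℝ → E d} {p' : E d} {q : ℝ} (hq : q ∈ S.I) (hp : HasDerivAt p p' q)
    (hv : ∀ i, p' i = S.v i q (p q)) (z : E d) :
    HasDerivAt (fun u => (WithLp.toLp 2 fun i => ∑ e, F (i, e) u (p u) * z e : E d))
      (WithLp.toLp 2 fun i => ∑ e, Sys.stepF (S := S) Jt F (i, e) q (p q) * z e) q := by
  refine (PiLp.continuousLinearEquiv 2 ℝ (fun _ : Fin d => ℝ)).symm.toContinuousLinearMap
      |>.hasFDerivAt.comp_hasDerivAt q (hasDerivAt_pi.2 fun i => ?_)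
  exact Sys.hasDerivAt_stepF (Y := fun _ c => z c) hF hq hp hv
    (fun c => (hasDerivAt_const q (z c)).congr_deriv (by simp [hJ])) i

/-- The mean square of a field at the end of a map, applied to an independent Gaussian vector. -/
lemma lintegral_field {d : ℕ} {μ ν : Measure (E d)} [SFinite μ] {W : E d → E d} (hW : Continuous W)
    (hmap : μ.map W = ν) {c : Fin d × Fin d → E d → ℝ} (hc : ∀ p, Continuous (c p)) :
    ∫⁻ z, ‖(WithLp.toLp 2 fun i => ∑ e, c (i, e) (W z.1) * z.2 e : E d)‖ₑ ^ 2 ∂μ.prod (gam d)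
      = ∫⁻ w, ENNReal.ofReal (∑ p, c p w ^ 2) ∂ν := by
  have : IsProbabilityMeasure (gam d) := by
    unfold gam
    infer_instance
  have hmeas : Continuous fun z : E d × E d =>
      ENNReal.ofReal (∑ i, (∑ e, c (i, e) (W z.1) * z.2 e) ^ 2) :=
    ENNReal.continuous_ofReal.comp (continuous_finsetSum _ fun i _ =>
      (continuous_finsetSum _ fun e _ => ((hc (i, e)).comp (hW.comp continuous_fst)).mul
        ((PiLp.continuous_apply 2 _ e).comp continuous_snd)).pow 2)
  simp only [← ofReal_norm, ← ENNReal.ofReal_pow (norm_nonneg _), EuclideanSpace.real_norm_sq_eq]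
  rw [lintegral_prod _ hmeas.aemeasurable]
  simp only [lintegral_matvec_gam]
  have hsum : Continuous fun w => ∑ p, c p w ^ 2 :=
    continuous_finsetSum _ fun p _ => (hc p).pow 2
  have hm : Measurable fun w => ENNReal.ofReal (∑ p, c p w ^ 2) :=
    hsum.measurable.ennreal_ofReal
  rw [← hmap, lintegral_map hm hW.measurable]
  simp only [Fintype.sum_prod_type]

/-- The derivatives of the first word along the backward trajectory. -/
theorem regApath (hP : PostFacts) (hT : TameFact) (hL : LawTransport) : RegApath := by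
  intro n _
  obtain ⟨Ca, hCa0, hCa⟩ := exists_aMul_a hP hT (n + 2) n
  obtain ⟨C, hC0, hC⟩ := exists_seq_mat hP hT n 0 Ca
  refine ⟨C, hC0, fun d D hτ X q₁ h0 h1 => ?_⟩
  have hH := nwHeat_of_post hP
  have hlo : -Real.sqrt D.τ < 0 := D.zero_mem.1
  have hhi : q₁ < Real.sqrt D.τ := h1.2
  obtain ⟨a, ha⟩ : ∃ a, a = -Real.sqrt D.τ / 2 := ⟨_, rfl⟩
  obtain ⟨b, hb⟩ : ∃ b, b = (q₁ + Real.sqrt D.τ) / 2 := ⟨_, rfl⟩
  have hab : a ≤ b := by rw [ha, hb]; linarith
  have hI : Icc a b ⊆ D.I := fun r hr => ⟨by linarith [hr.1], by linarith [hr.2]⟩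
  have hsub : Icc 0 q₁ ⊆ Ioo a b := fun r hr => ⟨by linarith [hr.1], by linarith [hr.2]⟩
  set W := flowC X q₁ a b with hW
  set S := baseSys hP D hT hτ
  set Jt : Fin d → Fin d → ℝ → E d → ℝ := fun e c q x => 0 * aC D c e q x with hJt
  set F₀ : Fin d × Fin d → ℝ → E d → ℝ := fun p => aC D p.1 p.2 with hF₀
  have hamul : ∀ q (hq : q ∈ D.I),
      Sys.AMul (stdPt hP hT D hτ hq) (n + 2) n Jt (0 * (stdPt hP hT D hτ hq).lam) ∧
      Sys.AMul (stdPt hP hT D hτ hq) (n + 2) n (fun e i => aC D i e) Ca := by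
    intro q hq
    have h2 := (hCa d D hτ _ (stdPt_adm hP hT D hτ hq).1).2
    have h3 := Sys.AMul.smul 0 n h2
    rw [abs_zero, zero_mul] at h3
    exact ⟨by rw [zero_mul]; exact h3, h2⟩
  have hF : S.OkF F₀ := fun p =>
    (Sys.AMul.base _ (hamul 0 D.zero_mem).2).1 p.2 p.1
  have hJok : ∀ e c, S.ok (Jt e c) := (Sys.AMul.base _ (hamul 0 D.zero_mem).1).1
  set Fk : ℕ → Fin d × Fin d → ℝ → E d → ℝ := fun k => (Sys.stepF (S := S) Jt)^[k] F₀ with hFk
  set h : E d × E d → ℕ → ℝ → E d := fun z k u =>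
    WithLp.toLp 2 fun i => ∑ e, Fk k (i, e) u (W u z.1) * z.2 e with hh
  have hchain : ∀ z k, ∀ t ∈ Ioo a b, HasDerivAt (h z k) (h z (k + 1) t) t := by
    intro z k t ht
    have h2 := hasDerivAt_field (S := S) (Jt := Jt) (fun e c q x => zero_mul _)
      (Sys.okF_iter hJok hF k) (p := fun u => W u z.1) (hI (Ioo_subset_Icc_self ht))
      (hasDerivAt_flowC X h1 hI ht z.1) (fun i => rfl) z.2
    simp only [hh, hFk, Function.iterate_succ_apply']
    exact h2
  refine ⟨fun r z => D.aq (clamp a b r) (W r z.1) z.2, ?_, fun t ht z => ?_, fun z t ht => ?_,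
    fun t ht => ?_⟩
  · exact (((ExFlow.contDiffOn_aq hP).continuousOn.comp_continuous
      (((continuous_clamp a b).comp continuous_fst).prodMk
        ((continuous_flowC X h1 hab hI).comp
          (continuous_fst.prodMk (continuous_fst.comp continuous_snd))))
      fun p => ⟨hI (clamp_mem hab _), mem_univ _⟩)).clm_apply
        (continuous_snd.comp continuous_snd)
  · have e : t ∈ Icc a b := Ioo_subset_Icc_self (hsub ht)
    simp only [hW, Words.apath, clamp_eq e, flowC_eq X e, Words.cl_eq ht]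
  · refine (chain_local isOpen_Ioo (hchain z) (fun u hu => ?_) n (hsub ht)).1
    ext i
    simp only [clamp_eq (Ioo_subset_Icc_self hu), aq_coord, hh, hFk, hF₀, Function.iterate_zero,
      id_eq]
  have htI : t ∈ D.I := hI (Ioo_subset_Icc_self (hsub ht))
  have e1 : ∀ z : E d × E d,
      iteratedDeriv n (fun u => D.aq (clamp a b u) (W u z.1) z.2) t = h z n t := fun z => by
    refine (chain_local isOpen_Ioo (hchain z) (fun u hu => ?_) n (hsub ht)).2
    ext i
    simp only [clamp_eq (Ioo_subset_Icc_self hu), aq_coord, hh, hFk, hF₀, Function.iterate_zero,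
      id_eq]
  have := ExFlow.isProb_law hP hH hL h1 X
  have hcWt : Continuous (W t) :=
    (continuous_flowC X h1 hab hI).comp (continuous_const.prodMk continuous_id)
  have hmap : (ExFlow.law D q₁).map (W t) = ExFlow.law D t := by
    rw [show W t = X.Φ q₁ t from
      funext fun w => flowC_eq X (Ioo_subset_Icc_self (hsub ht)) w]
    exact Words.map_law_back X hP hH hL htI h1
  have hcont : ∀ p, Continuous fun w => Fk n p t w := fun p =>
    (S.ok_tame (Sys.okF_iter hJok hF n p) t htI).continuous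
  unfold Picard.L2le
  rw [lintegral_congr fun z => congrArg (fun v : E d => ‖v‖ₑ ^ 2) (e1 z)]
  refine (lintegral_field hcWt hmap hcont).trans_le ?_
  have hb := hC d D hτ t htI Jt (fun e i => aC D i e) (hamul t htI).1 (hamul t htI).2
  refine hb.trans (le_of_eq ?_)
  congr 1
  rw [mul_pow, mul_pow, mul_pow, Real.sq_sqrt (Nat.cast_nonneg d)]
  ring

end Vale.Agent.P347.Gamma0.Reg
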