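import Mathlib

/-!
P347 (exponent zero): coordinate tensor fields, bipartition operator bounds, contractions, the
adjoint divergence of a log-concave law, Bochner's identity and the Sobolev bound for it.

A tensor field with index type `α` is a family `α → X → ℝ` of scalar functions on
`X = EuclideanSpace ℝ ι`.  The laws enter only through integration by parts (`IBP`).
-/

namespace Vale.Agent.P347.Gamma0

open MeasureTheory
open scoped ContDiff

namespace Sobolev

set_option linter.unusedSectionVars false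

variable {ι α β γ δ : Type} [Fintype ι] [DecidableEq ι] [Fintype α] [Fintype β] [Fintype γ]
  [Fintype δ]

/-! ### Flattenings -/

/-- The flattening `A` (rows `β`, columns `γ`) has operator norm at most `B`. -/
def OpLe (A : β → γ → ℝ) (B : ℝ) : Prop :=
  ∀ v : γ → ℝ, ∑ b, (∑ c, A b c * v c) ^ 2 ≤ B ^ 2 * ∑ c, v c ^ 2

lemma OpLe.mono {A : β → γ → ℝ} {B B' : ℝ} (h : OpLe A B) (hB : 0 ≤ B) (hBB : B ≤ B') :
    OpLe A B' := fun v => (h v).trans (by gcongr)

lemma opLe_zero {B : ℝ} : OpLe (fun (_ : β) (_ : γ) => (0 : ℝ)) B := fun v => by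
  simp; positivity

lemma opLe_id [DecidableEq β] : OpLe (fun b c : β => if b = c then (1 : ℝ) else 0) 1 := fun v => by
  simp

lemma OpLe.bilin {A : β → γ → ℝ} {B : ℝ} (h : OpLe A B) (hB : 0 ≤ B) (u : β → ℝ) (v : γ → ℝ) :
    ∑ b, ∑ c, A b c * u b * v c ≤ B * (Real.sqrt (∑ b, u b ^ 2) * Real.sqrt (∑ c, v c ^ 2)) := by
  calc ∑ b, ∑ c, A b c * u b * v c = ∑ b, u b * ∑ c, A b c * v c := by
        simp only [Finset.mul_sum]
        exact Finset.sum_congr rfl fun b _ => Finset.sum_congr rfl fun c _ => by ring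
    _ ≤ Real.sqrt (∑ b, u b ^ 2) * Real.sqrt (∑ b, (∑ c, A b c * v c) ^ 2) :=
        Real.sum_mul_le_sqrt_mul_sqrt _ _ _
    _ ≤ Real.sqrt (∑ b, u b ^ 2) * Real.sqrt (B ^ 2 * ∑ c, v c ^ 2) := by
        gcongr; exact h v
    _ = _ := by rw [Real.sqrt_mul (sq_nonneg B), Real.sqrt_sq hB]; ring

lemma OpLe.of_bilin {A : β → γ → ℝ} {B : ℝ}
    (h : ∀ (u : β → ℝ) (v : γ → ℝ), ∑ b, ∑ c, A b c * u b * v c ≤
      B * (Real.sqrt (∑ b, u b ^ 2) * Real.sqrt (∑ c, v c ^ 2))) : OpLe A B := by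
  intro v
  set w : β → ℝ := fun b => ∑ c, A b c * v c with hw
  have h1 := h w v
  have e : ∑ b, ∑ c, A b c * w b * v c = ∑ b, w b ^ 2 := by
    refine Finset.sum_congr rfl fun b _ => ?_
    rw [sq]
    conv_rhs => rw [hw]; dsimp only; rw [Finset.sum_mul]
    exact Finset.sum_congr rfl fun c _ => by simp only [hw]; ring
  rw [e] at h1
  set S := ∑ b, w b ^ 2
  set T := ∑ c, v c ^ 2
  have hS : 0 ≤ S := by positivity
  have hT : 0 ≤ T := by positivity
  have h2 : Real.sqrt S ^ 2 = S := Real.sq_sqrt hS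
  have h3 : Real.sqrt T ^ 2 = T := Real.sq_sqrt hT
  nlinarith [sq_nonneg (Real.sqrt S - B * Real.sqrt T)]

lemma OpLe.transpose {A : β → γ → ℝ} {B : ℝ} (h : OpLe A B) (hB : 0 ≤ B) :
    OpLe (fun c b => A b c) B := OpLe.of_bilin fun u v => by
  rw [Finset.sum_comm]
  calc ∑ b, ∑ c, A b c * u c * v b = ∑ b, ∑ c, A b c * v b * u c :=
        Finset.sum_congr rfl fun b _ => Finset.sum_congr rfl fun c _ => by ring
    _ ≤ _ := h.bilin hB v u
    _ = _ := by ring

lemma OpLe.comp {A : β → γ → ℝ} {A' : γ → δ → ℝ} {B B' : ℝ} (h : OpLe A B) (h' : OpLe A' B') :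
    OpLe (fun b e => ∑ c, A b c * A' c e) (B * B') := by
  intro v
  calc ∑ b, (∑ e, (∑ c, A b c * A' c e) * v e) ^ 2
      = ∑ b, (∑ c, A b c * ∑ e, A' c e * v e) ^ 2 := by
        refine Finset.sum_congr rfl fun b _ => ?_
        simp only [Finset.sum_mul, Finset.mul_sum]
        rw [Finset.sum_comm]
        simp only [mul_assoc]
    _ ≤ B ^ 2 * ∑ c, (∑ e, A' c e * v e) ^ 2 := h _
    _ ≤ B ^ 2 * (B' ^ 2 * ∑ e, v e ^ 2) := by gcongr; exact h' v
    _ = _ := by ring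

lemma OpLe.reindex {β' γ' : Type} [Fintype β'] [Fintype γ'] {A : β → γ → ℝ} {B : ℝ}
    (h : OpLe A B) (e : β' ≃ β) (f : γ' ≃ γ) : OpLe (fun b c => A (e b) (f c)) B := by
  intro v
  have h1 := h fun c => v (f.symm c)
  rw [← e.sum_comp, f.symm.sum_comp (fun c => v c ^ 2)] at h1
  refine le_trans (le_of_eq (Finset.sum_congr rfl fun b _ => ?_)) h1
  rw [← f.sum_comp (fun c => A (e b) c * v (f.symm c))]
  simp

lemma OpLe.tensor_id [DecidableEq δ] {A : β → γ → ℝ} {B : ℝ} (h : OpLe A B) :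
    OpLe (fun (p : δ × β) (q : δ × γ) => if p.1 = q.1 then A p.2 q.2 else 0) B := by
  intro v
  simp only [Fintype.sum_prod_type, ite_mul, zero_mul]
  calc ∑ e, ∑ b, (∑ e', ∑ c, if e = e' then A b c * v (e', c) else 0) ^ 2
      = ∑ e, ∑ b, (∑ c, A b c * v (e, c)) ^ 2 := by
        refine Finset.sum_congr rfl fun e _ => Finset.sum_congr rfl fun b _ => ?_
        rw [Finset.sum_comm]
        simp
    _ ≤ ∑ e, B ^ 2 * ∑ c, v (e, c) ^ 2 := Finset.sum_le_sum fun e _ => h _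
    _ = _ := by rw [Finset.mul_sum]

/-- A contraction of flattenings: an index block shared between a flattening and any tensor. -/
lemma OpLe.contract {A : β → γ → ℝ} {B : ℝ} (h : OpLe A B) (T : α → γ → ℝ) :
    ∑ a, ∑ b, (∑ c, A b c * T a c) ^ 2 ≤ B ^ 2 * ∑ a, ∑ c, T a c ^ 2 := by
  rw [Finset.mul_sum]
  exact Finset.sum_le_sum fun a _ => h (T a)

lemma opLe_of_hs (A : β → γ → ℝ) : OpLe A (Real.sqrt (∑ b, ∑ c, A b c ^ 2)) := by
  intro v
  rw [Real.sq_sqrt (by positivity), Finset.sum_mul]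
  exact Finset.sum_le_sum fun b _ => Finset.sum_mul_sq_le_sq_mul_sq _ _ _

/-! ### Coordinate derivatives of tensor fields -/

/-- Smooth, with all derivatives of polynomial growth. -/
abbrev Tame (f : (EuclideanSpace ℝ ι) → ℝ) : Prop := Function.HasTemperateGrowth f

/-- The partial derivative. -/
noncomputable def pd (i : ι) (f : (EuclideanSpace ℝ ι) → ℝ) (x : (EuclideanSpace ℝ ι)) : ℝ :=
  fderiv ℝ f x (EuclideanSpace.single i 1)

lemma Tame.fderivFun {f : (EuclideanSpace ℝ ι) → ℝ} (hf : Tame f) :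
    Function.HasTemperateGrowth (fderiv ℝ f) := by
  refine ⟨hf.1.fderiv_right (by simp), fun n => ?_⟩
  obtain ⟨k, C, h⟩ := hf.2 (n + 1)
  exact ⟨k, C, fun x => by rw [norm_iteratedFDeriv_fderiv]; exact h x⟩

lemma Tame.pdTame {f : (EuclideanSpace ℝ ι) → ℝ} (hf : Tame f) (i : ι) : Tame (pd i f) :=
  (ContinuousLinearMap.apply ℝ ℝ (EuclideanSpace.single i (1 : ℝ))).hasTemperateGrowth.comp
    hf.fderivFun

lemma Tame.differentiable {f : (EuclideanSpace ℝ ι) → ℝ} (hf : Tame f) : Differentiable ℝ f :=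
  hf.1.differentiable (by simp)

lemma Tame.continuous {f : (EuclideanSpace ℝ ι) → ℝ} (hf : Tame f) : Continuous f := hf.1.continuous

lemma pd_add {f g : (EuclideanSpace ℝ ι) → ℝ} (hf : Tame f) (hg : Tame g) (i : ι) (x : (EuclideanSpace ℝ ι)) :
    pd i (fun y => f y + g y) x = pd i f x + pd i g x := by
  unfold Sobolev.pd
  rw [fderiv_fun_add hf.differentiable.differentiableAt hg.differentiable.differentiableAt]
  rfl

lemma pd_sub {f g : (EuclideanSpace ℝ ι) → ℝ} (hf : Tame f) (hg : Tame g) (i : ι) (x : (EuclideanSpace ℝ ι)) :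
    pd i (fun y => f y - g y) x = pd i f x - pd i g x := by
  unfold Sobolev.pd
  rw [fderiv_fun_sub hf.differentiable.differentiableAt hg.differentiable.differentiableAt]
  rfl

lemma pd_mul {f g : (EuclideanSpace ℝ ι) → ℝ} (hf : Tame f) (hg : Tame g) (i : ι) (x : (EuclideanSpace ℝ ι)) :
    pd i (fun y => f y * g y) x = pd i f x * g x + f x * pd i g x := by
  unfold Sobolev.pd
  rw [fderiv_fun_mul hf.differentiable.differentiableAt hg.differentiable.differentiableAt]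
  simp only [add_apply, smul_apply, smul_eq_mul]
  ring

lemma pd_sum {κ : Type} (s : Finset κ) {f : κ → (EuclideanSpace ℝ ι) → ℝ} (hf : ∀ a ∈ s, Tame (f a)) (i : ι)
    (x : (EuclideanSpace ℝ ι)) : pd i (fun y => ∑ a ∈ s, f a y) x = ∑ a ∈ s, pd i (f a) x := by
  unfold Sobolev.pd
  rw [fderiv_fun_sum fun a ha => (hf a ha).differentiable.differentiableAt]
  simp

lemma pd_comm {f : (EuclideanSpace ℝ ι) → ℝ} (hf : Tame f) (i j : ι) (x : (EuclideanSpace ℝ ι)) :
    pd i (pd j f) x = pd j (pd i f) x := by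
  have hs : IsSymmSndFDerivAt ℝ f x :=
    hf.1.contDiffAt.isSymmSndFDerivAt (n := ∞) (by simp; exact WithTop.coe_le_coe.2 le_top)
  have hd : DifferentiableAt ℝ (fderiv ℝ f) x :=
    (hf.fderivFun.1.differentiable (by simp)).differentiableAt
  have e : ∀ a b : ι, pd a (pd b f) x =
      fderiv ℝ (fderiv ℝ f) x (EuclideanSpace.single a 1) (EuclideanSpace.single b 1) := by
    intro a b
    unfold Sobolev.pd
    rw [fderiv_clm_apply hd (differentiableAt_const _)]
    simp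
  rw [e, e, hs.eq]

/-- All components are tame. -/
def TameF (F : α → (EuclideanSpace ℝ ι) → ℝ) : Prop := ∀ a, Tame (F a)

/-- The derivative: one more index, on the right. -/
noncomputable def grad (F : α → (EuclideanSpace ℝ ι) → ℝ) : α × ι → (EuclideanSpace ℝ ι) → ℝ := fun p => pd p.2 (F p.1)

lemma TameF.gradTame {F : α → (EuclideanSpace ℝ ι) → ℝ} (hF : TameF F) : TameF (grad F) := fun p => (hF p.1).pdTame p.2

lemma TameF.add {F G : α → (EuclideanSpace ℝ ι) → ℝ} (hF : TameF F) (hG : TameF G) :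
    TameF (fun a x => F a x + G a x) := fun a => (hF a).add (hG a)

lemma TameF.comp_index {F : α → (EuclideanSpace ℝ ι) → ℝ} (hF : TameF F) (e : β → α) : TameF (fun b => F (e b)) :=
  fun b => hF (e b)

/-! ### The law -/

/-- A law `∝ exp (-Ψ)`, known through integration by parts. -/
structure IBP (μ : Measure (EuclideanSpace ℝ ι)) (Ψ : (EuclideanSpace ℝ ι) → ℝ) : Prop where
  tame : Tame Ψ
  integrable : ∀ f : (EuclideanSpace ℝ ι) → ℝ, Tame f → Integrable f μ
  ibp : ∀ (f : (EuclideanSpace ℝ ι) → ℝ) (i : ι), Tame f → ∫ x, pd i f x ∂μ = ∫ x, f x * pd i Ψ x ∂μ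

/-- The adjoint `δ` of the derivative: it removes the last index. -/
noncomputable def dv (Ψ : (EuclideanSpace ℝ ι) → ℝ) (F : α × ι → (EuclideanSpace ℝ ι) → ℝ) (a : α) (x : (EuclideanSpace ℝ ι)) : ℝ :=
  ∑ i, (pd i Ψ x * F (a, i) x - pd i (F (a, i)) x)

/-- The contraction with a field of flattenings, on the last index. -/
def mulF (M : β → γ → (EuclideanSpace ℝ ι) → ℝ) (F : α × γ → (EuclideanSpace ℝ ι) → ℝ) (p : α × β) (x : (EuclideanSpace ℝ ι)) : ℝ :=
  ∑ c, M p.2 c x * F (p.1, c) x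

lemma TameF.dvTame {Ψ : (EuclideanSpace ℝ ι) → ℝ} (hΨ : Tame Ψ) {F : α × ι → (EuclideanSpace ℝ ι) → ℝ} (hF : TameF F) :
    TameF (dv Ψ F) := fun a =>
  Function.HasTemperateGrowth.sum fun i _ => ((hΨ.pdTame i).mul (hF _)).sub ((hF _).pdTame i)

lemma TameF.mulTame {M : β → γ → (EuclideanSpace ℝ ι) → ℝ} (hM : ∀ b c, Tame (M b c)) {F : α × γ → (EuclideanSpace ℝ ι) → ℝ}
    (hF : TameF F) : TameF (mulF M F) := fun p =>
  Function.HasTemperateGrowth.sum fun c _ => (hM p.2 c).mul (hF _)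

variable {μ : Measure (EuclideanSpace ℝ ι)} {Ψ : EuclideanSpace ℝ ι → ℝ}

lemma IBP.adjoint (h : IBP μ Ψ) {g : (EuclideanSpace ℝ ι) → ℝ} (hg : Tame g) {F : α × ι → (EuclideanSpace ℝ ι) → ℝ} (hF : TameF F)
    (a : α) : ∫ x, g x * dv Ψ F a x ∂μ = ∑ i, ∫ x, pd i g x * F (a, i) x ∂μ := by
  have ht : ∀ i, Tame fun x => g x * (pd i Ψ x * F (a, i) x - pd i (F (a, i)) x) := fun i =>
    hg.mul (((h.tame.pdTame i).mul (hF _)).sub ((hF _).pdTame i))
  simp only [dv, Finset.mul_sum]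
  rw [integral_finset_sum _ fun i _ => h.integrable _ (ht i)]
  refine Finset.sum_congr rfl fun i _ => ?_
  have h1 := h.ibp (fun x => g x * F (a, i) x) i (hg.mul (hF _))
  simp only [pd_mul hg (hF (a, i))] at h1
  have i1 := h.integrable (fun x => pd i g x * F (a, i) x) ((hg.pdTame i).mul (hF _))
  have i2 := h.integrable (fun x => g x * pd i (F (a, i)) x) (hg.mul ((hF _).pdTame i))
  have i3 := h.integrable (fun x => g x * F (a, i) x * pd i Ψ x)
    ((hg.mul (hF _)).mul (h.tame.pdTame i))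
  rw [integral_add i1 i2] at h1
  have e : ∫ x, g x * (pd i Ψ x * F (a, i) x - pd i (F (a, i)) x) ∂μ =
      ∫ x, g x * F (a, i) x * pd i Ψ x ∂μ - ∫ x, g x * pd i (F (a, i)) x ∂μ := by
    rw [← integral_sub i3 i2]
    exact integral_congr_ae (ae_of_all _ fun x => by ring)
  linarith

/-- `∂ δ F = δ ∂ F + D²Ψ F`. -/
lemma pd_dv (hΨ : Tame Ψ) {F : α × ι → (EuclideanSpace ℝ ι) → ℝ} (hF : TameF F) (a : α) (j : ι) (x : (EuclideanSpace ℝ ι)) :
    pd j (dv Ψ F a) x =
      dv Ψ (fun p => pd j (F p)) a x + ∑ i, pd j (pd i Ψ) x * F (a, i) x := by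
  have hg : ∀ i, Tame fun y => pd i Ψ y * F (a, i) y := fun i => (hΨ.pdTame i).mul (hF _)
  have e : dv Ψ F a = fun y => ∑ i, (pd i Ψ y * F (a, i) y - pd i (F (a, i)) y) := rfl
  rw [e, pd_sum (f := fun i y => pd i Ψ y * F (a, i) y - pd i (F (a, i)) y) Finset.univ
    (fun i _ => (hg i).sub ((hF _).pdTame i)), dv, ← Finset.sum_add_distrib]
  refine Finset.sum_congr rfl fun i _ => ?_
  rw [pd_sub (hg i) ((hF _).pdTame i), pd_mul (hΨ.pdTame i) (hF _), pd_comm (hF _) j i]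
  ring

/-- `∂ (M F) = (∂ M) F + M ∂ F`. -/
lemma grad_mulF {M : β → γ → (EuclideanSpace ℝ ι) → ℝ} (hM : ∀ b c, Tame (M b c)) {F : α × γ → (EuclideanSpace ℝ ι) → ℝ}
    (hF : TameF F) (a : α) (b : β) (j : ι) (x : (EuclideanSpace ℝ ι)) :
    grad (mulF M F) ((a, b), j) x =
      mulF (fun (p : β × ι) c => pd p.2 (M p.1 c)) F (a, (b, j)) x +
        mulF M (fun (p : (α × ι) × γ) => grad F ((p.1.1, p.2), p.1.2)) ((a, j), b) x := by
  show pd j (fun y => ∑ c, M b c y * F (a, c) y) x = _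
  rw [pd_sum (f := fun c y => M b c y * F (a, c) y) Finset.univ fun c _ => (hM b c).mul (hF _)]
  simp only [pd_mul (hM b _) (hF _), Finset.sum_add_distrib]
  rfl

/-- `δ (φ F) = φ δ F - ∇φ · F`. -/
lemma dv_smul {φ : (EuclideanSpace ℝ ι) → ℝ} (hφ : Tame φ) {F : α × ι → (EuclideanSpace ℝ ι) → ℝ} (hF : TameF F) (a : α) (x : (EuclideanSpace ℝ ι)) :
    dv Ψ (fun p y => φ y * F p y) a x =
      φ x * dv Ψ F a x - ∑ i, pd i φ x * F (a, i) x := by
  simp only [dv, pd_mul hφ (hF _), Finset.mul_sum, ← Finset.sum_sub_distrib]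
  exact Finset.sum_congr rfl fun i _ => by ring

/-- `δ (M F) = δ (M) F - M ∂F`, the divergence acting on an index of `M`. -/
lemma dv_contract {M : (β × γ) × ι → (EuclideanSpace ℝ ι) → ℝ} (hM : TameF M) {F : α × γ → (EuclideanSpace ℝ ι) → ℝ} (hF : TameF F)
    (a : α) (b : β) (x : (EuclideanSpace ℝ ι)) :
    dv Ψ (fun (p : (α × β) × ι) y => ∑ c, M ((p.1.2, c), p.2) y * F (p.1.1, c) y) (a, b) x =
      mulF (fun b c => dv Ψ M (b, c)) F (a, b) x -
        ∑ c, ∑ i, M ((b, c), i) x * grad F ((a, c), i) x := by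
  have e : ∀ i, pd i (fun y => ∑ c, M ((b, c), i) y * F (a, c) y) x =
      ∑ c, (pd i (M ((b, c), i)) x * F (a, c) x + M ((b, c), i) x * pd i (F (a, c)) x) := fun i => by
    rw [pd_sum (f := fun c y => M ((b, c), i) y * F (a, c) y) Finset.univ
      fun c _ => (hM _).mul (hF _)]
    exact Finset.sum_congr rfl fun c _ => pd_mul (hM _) (hF _) i x
  simp only [dv, mulF, grad, e, Finset.sum_mul, Finset.mul_sum, ← Finset.sum_sub_distrib]
  rw [Finset.sum_comm]
  exact Finset.sum_congr rfl fun c _ => Finset.sum_congr rfl fun i _ => by ring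

/-! ### Sobolev norms -/

/-- `∫ |F|²`. -/
noncomputable def l2 (μ : Measure (EuclideanSpace ℝ ι)) (F : α → (EuclideanSpace ℝ ι) → ℝ) : ℝ := ∫ x, ∑ a, F a x ^ 2 ∂μ

lemma Tame.sumSq {F : α → (EuclideanSpace ℝ ι) → ℝ} (hF : TameF F) : Tame fun x => ∑ a, F a x ^ 2 :=
  Function.HasTemperateGrowth.sum fun a _ => (hF a).pow 2

lemma l2_nonneg (μ : Measure (EuclideanSpace ℝ ι)) (F : α → (EuclideanSpace ℝ ι) → ℝ) : 0 ≤ l2 μ F :=
  integral_nonneg fun x => Finset.sum_nonneg fun a _ => sq_nonneg _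

lemma IBP.l2_add_le (h : IBP μ Ψ) {F G : α → (EuclideanSpace ℝ ι) → ℝ} (hF : TameF F) (hG : TameF G) :
    l2 μ (fun a x => F a x + G a x) ≤ 2 * (l2 μ F + l2 μ G) := by
  have iF := h.integrable _ (Tame.sumSq hF)
  have iG := h.integrable _ (Tame.sumSq hG)
  unfold l2
  rw [← integral_add iF iG, ← integral_const_mul]
  refine integral_mono (h.integrable _ (Tame.sumSq (hF.add hG))) ((iF.add iG).const_mul 2) fun x => ?_
  simp only [← Finset.sum_add_distrib, Finset.mul_sum]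
  exact Finset.sum_le_sum fun a _ => by nlinarith [sq_nonneg (F a x - G a x)]

lemma l2_reindex (e : β ≃ α) (F : α → (EuclideanSpace ℝ ι) → ℝ) : l2 μ (fun b => F (e b)) = l2 μ F := by
  unfold l2
  exact integral_congr_ae (ae_of_all _ fun x => e.sum_comp fun a => F a x ^ 2)

lemma IBP.l2_mulF_le (h : IBP μ Ψ) {M : β → γ → (EuclideanSpace ℝ ι) → ℝ} (hM : ∀ b c, Tame (M b c)) {B : ℝ}
    (hB : ∀ x, OpLe (fun b c => M b c x) B) {F : α × γ → (EuclideanSpace ℝ ι) → ℝ} (hF : TameF F) :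
    l2 μ (mulF M F) ≤ B ^ 2 * l2 μ F := by
  unfold l2
  rw [← integral_const_mul]
  refine integral_mono (h.integrable _ (Tame.sumSq (hF.mulTame hM)))
    ((h.integrable _ (Tame.sumSq hF)).const_mul _) fun x => ?_
  simp only [Fintype.sum_prod_type]
  exact (hB x).contract fun a c => F (a, c) x

/-- Bochner: `∫ |δF|² ≤ B ∫ |F|² + ∫ |DF|²` if `D²Ψ ≤ B`. -/
lemma IBP.bochner (h : IBP μ Ψ) {B : ℝ} (hB0 : 0 ≤ B)
    (hB : ∀ x, OpLe (fun j i => pd j (pd i Ψ) x) B) {F : α × ι → (EuclideanSpace ℝ ι) → ℝ} (hF : TameF F) :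
    l2 μ (dv Ψ F) ≤ B * l2 μ F + l2 μ (grad F) := by
  have hδ : TameF (dv Ψ F) := hF.dvTame h.tame
  have hpd : ∀ a j, ∀ x, pd j (dv Ψ F a) x =
      dv Ψ (fun p => pd j (F p)) a x + ∑ i, pd j (pd i Ψ) x * F (a, i) x :=
    fun a j x => pd_dv h.tame hF a j x
  -- the cross term and the curvature term
  have hc : ∀ a j, Tame fun x => F (a, j) x * dv Ψ (fun p => pd j (F p)) a x := fun a j =>
    (hF _).mul (TameF.dvTame h.tame (fun p => (hF p).pdTame j) a)
  have hq : ∀ a j, Tame fun x => F (a, j) x * ∑ i, pd j (pd i Ψ) x * F (a, i) x := fun a j =>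
    (hF _).mul (Function.HasTemperateGrowth.sum fun i _ => ((h.tame.pdTame i).pdTame j).mul (hF _))
  have hx : ∀ a i j, Tame fun x => pd i (F (a, j)) x * pd j (F (a, i)) x := fun a i j =>
    ((hF _).pdTame i).mul ((hF _).pdTame j)
  have e1 : l2 μ (dv Ψ F) = ∑ a, ∑ j,
      ((∑ i, ∫ x, pd i (F (a, j)) x * pd j (F (a, i)) x ∂μ) +
        ∫ x, F (a, j) x * ∑ i, pd j (pd i Ψ) x * F (a, i) x ∂μ) := by
    unfold l2
    rw [integral_finset_sum (f := fun a x => dv Ψ F a x ^ 2) _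
      fun a _ => h.integrable _ ((hδ a).pow 2)]
    refine Finset.sum_congr rfl fun a _ => ?_
    simp only [sq]
    rw [h.adjoint (hδ a) hF a]
    refine Finset.sum_congr rfl fun j _ => ?_
    rw [← h.adjoint (hF (a, j)) (F := fun p => pd j (F p)) (fun p => (hF p).pdTame j) a,
      ← integral_add (h.integrable _ (hc a j)) (h.integrable _ (hq a j))]
    exact integral_congr_ae (ae_of_all _ fun x => by simp only [hpd]; ring)
  have e2 : ∀ a, ∑ j, ∑ i, ∫ x, pd i (F (a, j)) x * pd j (F (a, i)) x ∂μ =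
      ∫ x, ∑ j, ∑ i, pd i (F (a, j)) x * pd j (F (a, i)) x ∂μ := fun a => by
    rw [integral_finset_sum _ fun j _ => h.integrable _
      (Function.HasTemperateGrowth.sum fun i _ => hx a i j)]
    exact Finset.sum_congr rfl fun j _ =>
      (integral_finset_sum _ fun i _ => h.integrable _ (hx a i j)).symm
  have hsum : ∀ a, Tame fun x => ∑ j, F (a, j) x * ∑ i, pd j (pd i Ψ) x * F (a, i) x :=
    fun a => Function.HasTemperateGrowth.sum fun j _ => hq a j
  have t2 : ∀ a, Tame fun x => ∑ j, ∑ i, pd i (F (a, j)) x * pd j (F (a, i)) x := fun a =>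
    Function.HasTemperateGrowth.sum fun j _ => Function.HasTemperateGrowth.sum fun i _ => hx a i j
  rw [e1]
  simp only [Finset.sum_add_distrib, e2]
  rw [← integral_finset_sum _ fun a _ => h.integrable _ (t2 a), add_comm]
  simp only [← integral_finset_sum _ fun j (_ : j ∈ (Finset.univ : Finset ι)) =>
    h.integrable _ (hq _ j)]
  rw [← integral_finset_sum _ fun a _ => h.integrable _ (hsum a)]
  unfold l2
  rw [← integral_const_mul]
  refine add_le_add (integral_mono (h.integrable _ (Function.HasTemperateGrowth.sum fun a _ => hsum a))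
      ((h.integrable _ (Tame.sumSq hF)).const_mul B) fun x => ?_)
    (integral_mono (h.integrable _ (Function.HasTemperateGrowth.sum fun a _ => t2 a))
      (h.integrable _ (Tame.sumSq hF.gradTame)) fun x => ?_)
  · simp only [Fintype.sum_prod_type, Finset.mul_sum]
    refine Finset.sum_le_sum fun a _ => ?_
    have h1 := (hB x).bilin hB0 (fun j => F (a, j) x) (fun i => F (a, i) x)
    rw [Real.mul_self_sqrt (by positivity), Finset.mul_sum] at h1
    refine le_trans (le_of_eq (Finset.sum_congr rfl fun j _ => ?_)) h1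
    exact Finset.sum_congr rfl fun i _ => by ring
  · simp only [Fintype.sum_prod_type, grad]
    refine Finset.sum_le_sum fun a _ => ?_
    have hle : ∀ j i, pd i (F (a, j)) x * pd j (F (a, i)) x ≤
        (pd i (F (a, j)) x ^ 2 + pd j (F (a, i)) x ^ 2) / 2 := fun j i => by
      nlinarith [sq_nonneg (pd i (F (a, j)) x - pd j (F (a, i)) x)]
    refine (Finset.sum_le_sum fun j _ => Finset.sum_le_sum fun i _ => hle j i).trans (le_of_eq ?_)
    have hcomm : ∑ j, ∑ i, pd j (F (a, i)) x ^ 2 = ∑ j, ∑ i, pd i (F (a, j)) x ^ 2 :=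
      Finset.sum_comm
    simp only [← Finset.sum_div, Finset.sum_add_distrib, hcomm]
    ring

lemma pd_const_mul {f : (EuclideanSpace ℝ ι) → ℝ} (hf : Tame f) (c : ℝ) (i : ι) (x : (EuclideanSpace ℝ ι)) :
    pd i (fun y => c * f y) x = c * pd i f x := by
  unfold Sobolev.pd
  rw [fderiv_const_mul hf.differentiable.differentiableAt]
  rfl

lemma TameF.constMul {F : α → (EuclideanSpace ℝ ι) → ℝ} (hF : TameF F) (c : ℝ) :
    TameF (fun a x => c * F a x) := fun a =>
  (Function.HasTemperateGrowth.const c).mul (hF a)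

/-- The squared Sobolev norm `∑_{n ≤ m} κ^(2n) ∫ |Dⁿ F|²`. -/
noncomputable def sob (μ : Measure (EuclideanSpace ℝ ι)) (κ : ℝ) : ℕ → ∀ {α : Type} [Fintype α], (α → (EuclideanSpace ℝ ι) → ℝ) → ℝ
  | 0, _, _, F => l2 μ F
  | m + 1, _, _, F => l2 μ F + κ ^ 2 * sob μ κ m (grad F)

variable {κ : ℝ}

lemma sob_zero (μ : Measure (EuclideanSpace ℝ ι)) (κ : ℝ) (F : α → (EuclideanSpace ℝ ι) → ℝ) : sob μ κ 0 F = l2 μ F := rfl

lemma sob_succ (μ : Measure (EuclideanSpace ℝ ι)) (κ : ℝ) (m : ℕ) (F : α → (EuclideanSpace ℝ ι) → ℝ) :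
    sob μ κ (m + 1) F = l2 μ F + κ ^ 2 * sob μ κ m (grad F) := rfl

lemma sob_nonneg (μ : Measure (EuclideanSpace ℝ ι)) (κ : ℝ) (m : ℕ) : ∀ {α : Type} [Fintype α] (F : α → (EuclideanSpace ℝ ι) → ℝ),
    0 ≤ sob μ κ m F := by
  induction m with
  | zero => intro α _ F; exact l2_nonneg μ F
  | succ m ih => intro α _ F; exact add_nonneg (l2_nonneg μ F) (mul_nonneg (sq_nonneg κ) (ih _))

lemma l2_le_sob (μ : Measure (EuclideanSpace ℝ ι)) (κ : ℝ) (m : ℕ) (F : α → (EuclideanSpace ℝ ι) → ℝ) : l2 μ F ≤ sob μ κ m F := by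
  cases m with
  | zero => exact le_rfl
  | succ m => exact le_add_of_nonneg_right (mul_nonneg (sq_nonneg κ) (sob_nonneg μ κ m _))

lemma sob_mono (μ : Measure (EuclideanSpace ℝ ι)) (κ : ℝ) (m : ℕ) : ∀ {α : Type} [Fintype α] (F : α → (EuclideanSpace ℝ ι) → ℝ),
    sob μ κ m F ≤ sob μ κ (m + 1) F := by
  induction m with
  | zero => intro α _ F; exact l2_le_sob μ κ 1 F
  | succ m ih =>
    intro α _ F
    exact add_le_add le_rfl (mul_le_mul_of_nonneg_left (ih _) (sq_nonneg κ))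

lemma sob_le_of_le (μ : Measure (EuclideanSpace ℝ ι)) (κ : ℝ) {m n : ℕ} (h : m ≤ n) (F : α → (EuclideanSpace ℝ ι) → ℝ) :
    sob μ κ m F ≤ sob μ κ n F := by
  induction h with
  | refl => exact le_rfl
  | step _ ih => exact ih.trans (sob_mono μ κ _ F)

lemma sob_grad_le (μ : Measure (EuclideanSpace ℝ ι)) (κ : ℝ) (m : ℕ) (F : α → (EuclideanSpace ℝ ι) → ℝ) :
    κ ^ 2 * sob μ κ m (grad F) ≤ sob μ κ (m + 1) F := le_add_of_nonneg_left (l2_nonneg μ F)

lemma sob_reindex (μ : Measure (EuclideanSpace ℝ ι)) (κ : ℝ) (m : ℕ) : ∀ {α β : Type} [Fintype α] [Fintype β]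
    (e : β ≃ α) (F : α → (EuclideanSpace ℝ ι) → ℝ), sob μ κ m (fun b => F (e b)) = sob μ κ m F := by
  induction m with
  | zero => intro α β _ _ e F; exact l2_reindex e F
  | succ m ih =>
    intro α β _ _ e F
    rw [sob_succ, sob_succ, l2_reindex e F, ← ih (e.prodCongr (Equiv.refl ι)) (grad F)]
    rfl

lemma sob_const_mul (μ : Measure (EuclideanSpace ℝ ι)) (κ c : ℝ) (m : ℕ) : ∀ {α : Type} [Fintype α]
    {F : α → (EuclideanSpace ℝ ι) → ℝ}, TameF F → sob μ κ m (fun a x => c * F a x) = c ^ 2 * sob μ κ m F := by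
  induction m with
  | zero =>
    intro α _ F _
    simp only [sob_zero, l2, mul_pow, ← Finset.mul_sum, integral_const_mul]
  | succ m ih =>
    intro α _ F hF
    have e : grad (fun a x => c * F a x) = fun p x => c * grad F p x :=
      funext₂ fun p x => pd_const_mul (hF p.1) c p.2 x
    rw [sob_succ, sob_succ, e, ih hF.gradTame]
    simp only [l2, mul_pow, ← Finset.mul_sum, integral_const_mul]
    ring

lemma IBP.sob_add_le (h : IBP μ Ψ) (κ : ℝ) (m : ℕ) : ∀ {α : Type} [Fintype α] {F G : α → (EuclideanSpace ℝ ι) → ℝ},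
    TameF F → TameF G →
      sob μ κ m (fun a x => F a x + G a x) ≤ 2 * (sob μ κ m F + sob μ κ m G) := by
  induction m with
  | zero => intro α _ F G hF hG; exact h.l2_add_le hF hG
  | succ m ih =>
    intro α _ F G hF hG
    have e : grad (fun a x => F a x + G a x) = fun p x => grad F p x + grad G p x :=
      funext₂ fun p x => pd_add (hF p.1) (hG p.1) p.2 x
    rw [sob_succ, sob_succ, sob_succ, e]
    nlinarith [h.l2_add_le hF hG, mul_le_mul_of_nonneg_left (ih hF.gradTame hG.gradTame)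
      (sq_nonneg κ)]

/-- The derivative of a field of flattenings, scaled by `κ`; the new index joins the rows. -/
noncomputable def dMul (κ : ℝ) (M : β → γ → (EuclideanSpace ℝ ι) → ℝ) : β × ι → γ → (EuclideanSpace ℝ ι) → ℝ :=
  fun p c x => κ * pd p.2 (M p.1 c) x

/-- All scaled derivatives up to order `m` of a field of flattenings `β | γ`, the derivative
indices joining `β`, have operator norm at most `B`. -/
def MulBound (κ : ℝ) : ℕ → ∀ {β : Type} [Fintype β], (β → γ → (EuclideanSpace ℝ ι) → ℝ) → ℝ → Prop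
  | 0, _, _, M, B => ∀ x, OpLe (fun b c => M b c x) B
  | m + 1, _, _, M, B => (∀ x, OpLe (fun b c => M b c x) B) ∧ MulBound κ m (dMul κ M) B

lemma MulBound.op {m : ℕ} {M : β → γ → (EuclideanSpace ℝ ι) → ℝ} {B : ℝ} (h : MulBound κ m M B) :
    ∀ x, OpLe (fun b c => M b c x) B := by
  cases m with
  | zero => exact h
  | succ m => exact h.1

lemma MulBound.lower (m : ℕ) : ∀ {β : Type} [Fintype β] {M : β → γ → (EuclideanSpace ℝ ι) → ℝ} {B : ℝ},
    MulBound κ (m + 1) M B → MulBound κ m M B := by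
  induction m with
  | zero => intro β _ M B h; exact h.1
  | succ m ih => intro β _ M B h; exact ⟨h.1, ih h.2⟩

lemma dMul_tame {M : β → γ → (EuclideanSpace ℝ ι) → ℝ} (hM : ∀ b c, Tame (M b c)) (κ : ℝ) :
    ∀ p c, Tame (dMul κ M p c) := fun p c =>
  (Function.HasTemperateGrowth.const κ).mul ((hM p.1 c).pdTame p.2)

/-- `‖M F‖_{H^m} ≤ 2^m B ‖F‖_{H^m}`. -/
theorem IBP.sob_mulF_le (h : IBP μ Ψ) {B : ℝ} (m : ℕ) :
    ∀ {α β : Type} [Fintype α] [Fintype β] {M : β → γ → (EuclideanSpace ℝ ι) → ℝ}, (∀ b c, Tame (M b c)) →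
      MulBound κ m M B → ∀ {F : α × γ → (EuclideanSpace ℝ ι) → ℝ}, TameF F →
        sob μ κ m (mulF M F) ≤ 4 ^ m * B ^ 2 * sob μ κ m F := by
  induction m with
  | zero =>
    intro α β _ _ M hM hB F hF
    rw [sob_zero, sob_zero, pow_zero, one_mul]
    exact h.l2_mulF_le hM hB hF
  | succ m ih =>
    intro α β _ _ M hM hB F hF
    set M' : β × ι → γ → (EuclideanSpace ℝ ι) → ℝ := fun p c => pd p.2 (M p.1 c)
    set F' : (α × ι) × γ → (EuclideanSpace ℝ ι) → ℝ := fun p => grad F ((p.1.1, p.2), p.1.2) with hF'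
    have hM' : ∀ p c, Tame (M' p c) := fun p c => (hM p.1 c).pdTame p.2
    have hF't : TameF F' := fun p => hF.gradTame _
    let e1 : (α × β) × ι ≃ α × (β × ι) := Equiv.prodAssoc α β ι
    let e2 : (α × β) × ι ≃ (α × ι) × β :=
      ⟨fun p => ((p.1.1, p.2), p.1.2), fun p => ((p.1.1, p.2), p.1.2), fun _ => rfl, fun _ => rfl⟩
    let e3 : (α × ι) × γ ≃ (α × γ) × ι :=
      ⟨fun p => ((p.1.1, p.2), p.1.2), fun p => ((p.1.1, p.2), p.1.2), fun _ => rfl, fun _ => rfl⟩
    have e : grad (mulF M F) = fun p x => mulF M' F (e1 p) x + mulF M F' (e2 p) x :=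
      funext₂ fun p x => grad_mulF hM hF p.1.1 p.1.2 p.2 x
    have h0 := h.l2_mulF_le hM hB.op hF
    have h1 : κ ^ 2 * sob μ κ m (fun p => mulF M' F (e1 p)) ≤ 4 ^ m * B ^ 2 * sob μ κ m F := by
      rw [sob_reindex μ κ m e1 (mulF M' F), ← sob_const_mul μ κ κ m (hF.mulTame hM')]
      have e' : (fun p x => κ * mulF M' F p x) = mulF (dMul κ M) F := funext₂ fun p x => by
        simp only [mulF, dMul, M', Finset.mul_sum, mul_assoc]
      rw [e']
      exact ih (dMul_tame hM κ) hB.2 hF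
    have h2 : sob μ κ m (fun p => mulF M F' (e2 p)) ≤ 4 ^ m * B ^ 2 * sob μ κ m (grad F) := by
      rw [sob_reindex μ κ m e2 (mulF M F')]
      refine (ih hM hB.lower hF't).trans (le_of_eq ?_)
      rw [← sob_reindex μ κ m e3 (grad F)]
      rfl
    have h3 := h.sob_add_le κ m (TameF.comp_index (hF.mulTame hM') e1)
      (TameF.comp_index (hF't.mulTame hM) e2)
    rw [sob_succ, sob_succ, e]
    have h4 := sob_mono μ κ m F
    rw [sob_succ] at h4
    have hp : (1 : ℝ) ≤ 4 ^ m := one_le_pow₀ (by norm_num)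
    have hL := l2_nonneg μ F
    have hS := sob_nonneg μ κ m (grad F)
    have hB2 := sq_nonneg B
    rw [pow_succ (4 : ℝ) m]
    have b1 := mul_le_mul_of_nonneg_left h4 (show (0 : ℝ) ≤ 4 ^ m * B ^ 2 by positivity)
    have b2 := mul_le_mul_of_nonneg_right hp (mul_nonneg hB2 hL)
    have b3 := mul_le_mul_of_nonneg_left h3 (sq_nonneg κ)
    have b4 := mul_le_mul_of_nonneg_left h2 (sq_nonneg κ)
    have b5 : 0 ≤ 4 ^ m * B ^ 2 * l2 μ F := by positivity
    linarith

/-- `κ ‖δF‖_{H^m} ≤ C_m (1 + B) ‖F‖_{H^(m+1)}`, where `B` bounds all flattenings (rows: derivative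
indices, column: the contracted one) of `D²Ψ, κ D³Ψ, …, κ^m D^(m+2)Ψ`. -/
theorem IBP.sob_dv_le (h : IBP μ Ψ) {B : ℝ} (hB0 : 0 ≤ B) (hκ0 : 0 ≤ κ) (hκ : κ ≤ 1) (m : ℕ)
    (hB : MulBound κ m (fun j i => pd j (pd i Ψ)) B) :
    ∀ {α : Type} [Fintype α] {F : α × ι → (EuclideanSpace ℝ ι) → ℝ}, TameF F →
      κ ^ 2 * sob μ κ m (dv Ψ F) ≤ 8 ^ m * (1 + B) ^ 2 * sob μ κ (m + 1) F := by
  have hk1 : κ ^ 2 ≤ 1 := pow_le_one₀ hκ0 hκ
  have hK : (1 : ℝ) ≤ (1 + B) ^ 2 := by nlinarith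
  have hBK : B ≤ (1 + B) ^ 2 := by nlinarith
  induction m with
  | zero =>
    intro α _ F hF
    have h1 := h.bochner hB0 hB hF
    rw [sob_zero, sob_succ, sob_zero, pow_zero, one_mul]
    have hL := l2_nonneg μ F
    have hS := l2_nonneg μ (grad F)
    calc κ ^ 2 * l2 μ (dv Ψ F) ≤ κ ^ 2 * B * l2 μ F + κ ^ 2 * l2 μ (grad F) := by
          nlinarith [sq_nonneg κ]
      _ ≤ (1 + B) ^ 2 * l2 μ F + (1 + B) ^ 2 * (κ ^ 2 * l2 μ (grad F)) := by
          refine add_le_add (mul_le_mul_of_nonneg_right ?_ hL)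
            (le_mul_of_one_le_left (by positivity) hK)
          exact (mul_le_of_le_one_left hB0 hk1).trans hBK
      _ = _ := by ring
  | succ m ih =>
    intro α _ F hF
    set H : ι → ι → (EuclideanSpace ℝ ι) → ℝ := fun j i => pd j (pd i Ψ)
    set F' : (α × ι) × ι → (EuclideanSpace ℝ ι) → ℝ := fun p => grad F ((p.1.1, p.2), p.1.2) with hF'
    have hF't : TameF F' := fun p => hF.gradTame _
    have hH : ∀ j i, Tame (H j i) := fun j i => (h.tame.pdTame i).pdTame j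
    let e3 : (α × ι) × ι ≃ (α × ι) × ι :=
      ⟨fun p => ((p.1.1, p.2), p.1.2), fun p => ((p.1.1, p.2), p.1.2), fun _ => rfl, fun _ => rfl⟩
    have e : grad (dv Ψ F) = fun p x => dv Ψ F' p x + mulF H F p x :=
      funext₂ fun p x => pd_dv h.tame hF p.1 p.2 x
    have h0 : l2 μ (dv Ψ F) ≤ B * l2 μ F + l2 μ (grad F) := h.bochner hB0 hB.op hF
    have h1 : κ ^ 2 * sob μ κ m (dv Ψ F') ≤
        8 ^ m * (1 + B) ^ 2 * sob μ κ (m + 1) (grad F) := by
      refine (ih hB.lower hF't).trans (le_of_eq ?_)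
      rw [← sob_reindex μ κ (m + 1) e3 (grad F)]
      rfl
    have h2 := h.sob_mulF_le m hH hB.lower hF
    have h3 := h.sob_add_le κ m (hF't.dvTame h.tame) (hF.mulTame hH)
    have h4 : sob μ κ m F ≤ sob μ κ (m + 2) F :=
      (sob_mono μ κ m F).trans (sob_mono μ κ (m + 1) F)
    have h5 : κ ^ 2 * sob μ κ (m + 1) (grad F) ≤ sob μ κ (m + 2) F := sob_grad_le μ κ (m + 1) F
    have h6 : l2 μ F + κ ^ 2 * l2 μ (grad F) ≤ sob μ κ (m + 2) F :=
      add_le_add le_rfl (mul_le_mul_of_nonneg_left (l2_le_sob μ κ (m + 1) (grad F)) (sq_nonneg κ))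
    have hL := l2_nonneg μ F
    have hS := l2_nonneg μ (grad F)
    have hB2K : B ^ 2 ≤ (1 + B) ^ 2 := by nlinarith
    have h48 : (4 : ℝ) ^ m ≤ 8 ^ m := by gcongr; norm_num
    have hp : (1 : ℝ) ≤ 8 ^ m := one_le_pow₀ (by norm_num)
    have hT := sob_nonneg μ κ (m + 2) F
    have hk0 := sq_nonneg κ
    set K := (1 + B) ^ 2
    set P := (8 : ℝ) ^ m
    have a1 : κ ^ 2 * l2 μ (dv Ψ F) ≤ P * K * sob μ κ (m + 2) F := by
      calc κ ^ 2 * l2 μ (dv Ψ F) ≤ κ ^ 2 * B * l2 μ F + κ ^ 2 * l2 μ (grad F) := by nlinarith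
        _ ≤ K * l2 μ F + K * (κ ^ 2 * l2 μ (grad F)) :=
            add_le_add (mul_le_mul_of_nonneg_right ((mul_le_of_le_one_left hB0 hk1).trans hBK) hL)
              (le_mul_of_one_le_left (by positivity) hK)
        _ ≤ K * sob μ κ (m + 2) F := by
            rw [← mul_add]; exact mul_le_mul_of_nonneg_left h6 (by positivity)
        _ ≤ P * K * sob μ κ (m + 2) F :=
            mul_le_mul_of_nonneg_right (le_mul_of_one_le_left (by positivity) hp) hT
    have a2 : κ ^ 2 * (κ ^ 2 * sob μ κ m (dv Ψ F')) ≤ P * K * sob μ κ (m + 2) F := by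
      refine (mul_le_mul_of_nonneg_left h1 hk0).trans ?_
      rw [mul_left_comm]
      exact mul_le_mul_of_nonneg_left h5 (by positivity)
    have a3 : κ ^ 2 * (κ ^ 2 * sob μ κ m (mulF H F)) ≤ P * K * sob μ κ (m + 2) F := by
      refine (mul_le_of_le_one_left (mul_nonneg hk0 (sob_nonneg μ κ m _)) hk1).trans ?_
      refine (mul_le_of_le_one_left (sob_nonneg μ κ m _) hk1).trans (h2.trans ?_)
      exact mul_le_mul (mul_le_mul h48 hB2K (sq_nonneg _) (by positivity)) h4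
        (sob_nonneg μ κ m F) (by positivity)
    show κ ^ 2 * sob μ κ (m + 1) (dv Ψ F) ≤ _
    rw [sob_succ, e, pow_succ (8 : ℝ) m]
    have b := mul_le_mul_of_nonneg_left (mul_le_mul_of_nonneg_left h3 hk0) hk0
    have b0 := mul_nonneg (mul_nonneg (by positivity : (0:ℝ) ≤ P) (by positivity : 0 ≤ K)) hT
    linarith

end Sobolev

end Vale.Agent.P347.Gamma0
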