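import Vale.Agent.P347.Gamma0.Defs
import Vale.Agent.P347.Gamma0.Sobolev

/-!
P347, towards `γ_* = 0`, piece 4: the contraction algebra of tensors all of whose flattenings are
bounded, for tensors and for tensor fields with scaled bounds on all derivatives.

If every flattening of `T` and of `R` is bounded and both keep a free leg, every flattening of their
contraction along matched legs is bounded by the product: in any split of the free legs one of the
two tensors has a free row leg and the other a free column leg.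
-/

namespace Vale.Agent.P347.Gamma0

open scoped ContDiff

namespace Tensor

open Sobolev

set_option linter.unusedSectionVars false

variable {d : ℕ} {α β κ ρ : Type} [Fintype α] [DecidableEq α] [Fintype β] [DecidableEq β]
  [Fintype κ] [DecidableEq κ] [Fintype ρ] [DecidableEq ρ]

/-- `FlatLe` for tensors with legs indexed by any finite type. -/
def Flat (C : ℝ) (T : (α → Fin d) → ℝ) : Prop :=
  ∀ S : Finset α, S.Nonempty → Sᶜ.Nonempty →
    ∀ (M : ({x // x ∈ S} → Fin d) → ℝ) (N : ({x // x ∈ Sᶜ} → Fin d) → ℝ),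
      |∑ i : α → Fin d, T i * M (fun x => i x) * N (fun x => i x)| ≤ C * hs M * hs N

lemma flat_iff_flatLe {m : ℕ} {C : ℝ} {T : Tens d m} : Flat C T ↔ FlatLe C T := Iff.rfl

lemma hs_nonneg {ι : Type*} [Fintype ι] (v : ι → ℝ) : 0 ≤ hs v := Real.sqrt_nonneg _

lemma Flat.mono {C C' : ℝ} {T : (α → Fin d) → ℝ} (h : Flat C T) (hC : C ≤ C') : Flat C' T :=
  fun S h1 h2 M N => (h S h1 h2 M N).trans
    (mul_le_mul_of_nonneg_right (mul_le_mul_of_nonneg_right hC (hs_nonneg M)) (hs_nonneg N))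

lemma Flat.add {C C' : ℝ} {T R : (α → Fin d) → ℝ} (h : Flat C T) (h' : Flat C' R) :
    Flat (C + C') (fun i => T i + R i) := fun S h1 h2 M N => by
  simp only [add_mul, Finset.sum_add_distrib]
  exact (abs_add_le _ _).trans (add_le_add (h S h1 h2 M N) (h' S h1 h2 M N))

lemma Flat.smul {C : ℝ} {T : (α → Fin d) → ℝ} (h : Flat C T) (c : ℝ) :
    Flat (|c| * C) (fun i => c * T i) := fun S h1 h2 M N => by
  simp only [mul_assoc, ← Finset.mul_sum, abs_mul]
  refine mul_le_mul_of_nonneg_left ?_ (abs_nonneg c)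
  simpa only [mul_assoc] using h S h1 h2 M N

/-- Along any splitting of the legs the flattening is bounded. -/
lemma Flat.op {C : ℝ} (hC : 0 ≤ C) {T : (α → Fin d) → ℝ} (h : Flat C T) [Nonempty κ] [Nonempty ρ]
    (e : α ≃ ρ ⊕ κ) : OpLe (fun a b => T (fun x => Sum.elim a b (e x))) C := by
  refine OpLe.of_bilin fun u v => ?_
  have _ := hC
  set S : Finset α := Finset.univ.filter fun x => (e x).isLeft with hS
  have mL : ∀ r, e.symm (Sum.inl r) ∈ S := fun r => by simp [hS]
  have mR : ∀ k, e.symm (Sum.inr k) ∈ Sᶜ := fun k => by simp [hS]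
  let eL : ρ ≃ {x // x ∈ S} := Equiv.ofBijective (fun r => ⟨e.symm (Sum.inl r), mL r⟩)
    ⟨fun r r' hrr => by simpa using hrr, fun x => by
      obtain ⟨x, hx⟩ := x
      obtain ⟨r, hr⟩ : ∃ r, e x = Sum.inl r := by simpa [hS, Sum.isLeft_iff] using hx
      exact ⟨r, Subtype.ext (by simp [← hr])⟩⟩
  let eR : κ ≃ {x // x ∈ Sᶜ} := Equiv.ofBijective (fun k => ⟨e.symm (Sum.inr k), mR k⟩)
    ⟨fun r r' hrr => by simpa using hrr, fun x => by
      obtain ⟨x, hx⟩ := x
      obtain ⟨r, hr⟩ : ∃ r, e x = Sum.inr r := by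
        rcases hh : e x with r | r
        · simp [hS, hh] at hx
        · exact ⟨r, rfl⟩
      exact ⟨r, Subtype.ext (by simp [← hr])⟩⟩
  have h1 := h S ⟨_, mL (Classical.arbitrary ρ)⟩ ⟨_, mR (Classical.arbitrary κ)⟩
    (fun a => u (fun r => a (eL r))) (fun b => v (fun k => b (eR k)))
  have hu : hs (fun a : {x // x ∈ S} → Fin d => u (fun r => a (eL r))) =
      Real.sqrt (∑ a, u a ^ 2) :=
    congrArg Real.sqrt ((eL.arrowCongr (Equiv.refl (Fin d))).symm.sum_comp fun a => u a ^ 2)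
  have hv : hs (fun b : {x // x ∈ Sᶜ} → Fin d => v (fun k => b (eR k))) =
      Real.sqrt (∑ a, v a ^ 2) :=
    congrArg Real.sqrt ((eR.arrowCongr (Equiv.refl (Fin d))).symm.sum_comp fun a => v a ^ 2)
  rw [hu, hv, mul_assoc] at h1
  refine le_trans (le_of_eq ?_) ((le_abs_self _).trans h1)
  rw [← ((e.arrowCongr (Equiv.refl (Fin d))).trans
    (Equiv.sumArrowEquivProdArrow ρ κ _)).symm.sum_comp, Fintype.sum_prod_type]
  refine Finset.sum_congr rfl fun a _ => Finset.sum_congr rfl fun b _ => ?_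
  have hL : ∀ r, e (eL r) = Sum.inl r := fun r => e.apply_symm_apply _
  have hR : ∀ k, e (eR k) = Sum.inr k := fun k => e.apply_symm_apply _
  simp [hL, hR, Equiv.arrowCongr, Equiv.sumArrowEquivProdArrow, Function.comp_def]

/-- It suffices to bound the flattenings along predicates. -/
lemma flat_of_split {C : ℝ} (hC : 0 ≤ C) {T : (α → Fin d) → ℝ}
    (h : ∀ (p : α → Prop) [DecidablePred p], (∃ x, p x) → (∃ x, ¬p x) →
      OpLe (fun a b => T ((Equiv.piEquivPiSubtypeProd p fun _ => Fin d).symm (a, b))) C) :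
    Flat C T := by
  intro S h1 h2 M N
  obtain ⟨z, hz⟩ := h1
  obtain ⟨y, hy⟩ := h2
  set p : α → Prop := fun x => decide (x ∈ S) = true with hp
  have h' := h p ⟨z, by simp [hp, hz]⟩ ⟨y, by simp [hp, Finset.mem_compl.1 hy]⟩
  let eS : {x // x ∈ S} ≃ {x // p x} := Equiv.subtypeEquivRight fun x => by simp [hp]
  let eC : {x // x ∈ Sᶜ} ≃ {x // ¬p x} := Equiv.subtypeEquivRight fun x => by simp [hp]
  let N' : ({x // ¬p x} → Fin d) → ℝ := fun b => N (fun x => b (eC x))
  have hN : Real.sqrt (∑ b, N' b ^ 2) = hs N :=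
    congrArg Real.sqrt ((eC.arrowCongr (Equiv.refl (Fin d))).symm.sum_comp fun a => N a ^ 2)
  have key : ∀ M' : ({x // x ∈ S} → Fin d) → ℝ,
      ∑ i : α → Fin d, T i * M' (fun x => i x) * N (fun x => i x) ≤
        C * hs M' * hs N := fun M' => by
    have hM : Real.sqrt (∑ a : {x // p x} → Fin d, M' (fun x => a (eS x)) ^ 2) = hs M' :=
      congrArg Real.sqrt ((eS.arrowCongr (Equiv.refl (Fin d))).symm.sum_comp fun a => M' a ^ 2)
    have h3 := h'.bilin hC (fun a => M' (fun x => a (eS x))) N'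
    rw [hN, hM, ← mul_assoc] at h3
    refine le_trans (le_of_eq ?_) h3
    rw [← (Equiv.piEquivPiSubtypeProd p fun _ => Fin d).symm.sum_comp, Fintype.sum_prod_type]
    refine Finset.sum_congr rfl fun a _ => Finset.sum_congr rfl fun b _ => ?_
    have ea : (fun x : {x // x ∈ S} =>
        (Equiv.piEquivPiSubtypeProd p fun _ => Fin d).symm (a, b) x) = fun x => a (eS x) := by
      funext x; simp [hp, x.2, eS]; rfl
    have eb : (fun x : {x // x ∈ Sᶜ} =>
        (Equiv.piEquivPiSubtypeProd p fun _ => Fin d).symm (a, b) x) =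
          fun x => b (eC x) := by
      funext x; simp [hp, Finset.mem_compl.1 x.2, eC]; rfl
    rw [ea, eb]
  refine abs_le.2 ⟨?_, key M⟩
  have h4 := key fun a => -M a
  simp only [hs, neg_sq, mul_neg, neg_mul, Finset.sum_neg_distrib] at h4 ⊢
  linarith

lemma Flat.reindex {C : ℝ} (hC : 0 ≤ C) {T : (α → Fin d) → ℝ} (h : Flat C T) (e : α ≃ β) :
    Flat C (fun i : β → Fin d => T (fun x => i (e x))) := by
  refine flat_of_split hC fun p _ hp hq => ?_
  have : Nonempty {x // p x} := let ⟨x, hx⟩ := hp; ⟨⟨x, hx⟩⟩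
  have : Nonempty {x // ¬p x} := let ⟨x, hx⟩ := hq; ⟨⟨x, hx⟩⟩
  have h1 := h.op hC (e.trans (Equiv.sumCompl p).symm)
  convert h1 using 4 with a b
  funext x
  by_cases hx : p (e x) <;>
    simp [hx, Equiv.sumCompl_symm_apply_of_pos, Equiv.sumCompl_symm_apply_of_neg]

/-- Two flattenings joined along a block `K`. -/
lemma op_core {P1 P2 K Q1 Q2 : Type} [Fintype P1] [Fintype P2] [Fintype K] [Fintype Q1]
    [Fintype Q2] [DecidableEq Q1] [DecidableEq P2] {T : P1 → P2 → K → ℝ} {R : K → Q1 → Q2 → ℝ}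
    {B B' : ℝ} (hT : OpLe (fun p (q : P2 × K) => T p q.1 q.2) B)
    (hR : OpLe (fun (q : K × Q1) q2 => R q.1 q.2 q2) B') :
    OpLe (fun (r : P1 × Q1) (c : P2 × Q2) => ∑ k, T r.1 c.1 k * R k r.2 c.2) (B * B') := by
  have h1 := (hT.tensor_id (δ := Q1)).reindex (Equiv.prodComm P1 Q1)
    (Equiv.refl (Q1 × (P2 × K)))
  let f : Q1 × (P2 × K) ≃ P2 × (K × Q1) :=
    (Equiv.prodComm Q1 (P2 × K)).trans (Equiv.prodAssoc P2 K Q1)
  have h2 := (hR.tensor_id (δ := P2)).reindex f (Equiv.refl (P2 × Q2))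
  convert h1.comp h2 using 2 with r
  funext c
  simp only [Fintype.sum_prod_type, f, Equiv.refl_apply, Equiv.prodComm_apply, Prod.swap,
    Equiv.trans_apply, Equiv.prodAssoc_apply, mul_ite, mul_zero]
  rw [Finset.sum_eq_single r.2 (fun b _ hb => by simp [Ne.symm hb]) (by simp)]
  simp only [if_true]
  rw [Finset.sum_eq_single c.1 (fun b _ hb => by simp [hb]) (by simp)]
  simp

/-- Contraction of `T` and `R` along the matched legs `κ`. -/
def contr (T : (α ⊕ κ → Fin d) → ℝ) (R : (κ ⊕ β → Fin d) → ℝ) (i : α ⊕ β → Fin d) : ℝ :=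
  ∑ k : κ → Fin d, T (Sum.elim (fun a => i (Sum.inl a)) k) * R (Sum.elim k fun b => i (Sum.inr b))

/-- The splittings in which `T` has a free row leg and `R` a free column leg. -/
lemma contr_op [Nonempty κ] {C C' : ℝ} (hC : 0 ≤ C) (hC' : 0 ≤ C') {T : (α ⊕ κ → Fin d) → ℝ}
    {R : (κ ⊕ β → Fin d) → ℝ} (hT : Flat C T) (hR : Flat C' R) (p : α ⊕ β → Prop) [DecidablePred p]
    (hα : ∃ a, p (Sum.inl a)) (hβ : ∃ b, ¬p (Sum.inr b)) :
    OpLe (fun a b => contr T R ((Equiv.piEquivPiSubtypeProd p fun _ => Fin d).symm (a, b)))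
      (C * C') := by
  obtain ⟨a₀, ha₀⟩ := hα
  obtain ⟨b₀, hb₀⟩ := hβ
  have : Nonempty {a // p (Sum.inl a)} := ⟨⟨a₀, ha₀⟩⟩
  have : Nonempty {b // ¬p (Sum.inr b)} := ⟨⟨b₀, hb₀⟩⟩
  let eT : α ⊕ κ ≃ {a // p (Sum.inl a)} ⊕ ({a // ¬p (Sum.inl a)} ⊕ κ) :=
    ((Equiv.sumCompl fun a => p (Sum.inl a)).symm.sumCongr (Equiv.refl κ)).trans
      (Equiv.sumAssoc _ _ _)
  let eR : κ ⊕ β ≃ (κ ⊕ {b // p (Sum.inr b)}) ⊕ {b // ¬p (Sum.inr b)} :=
    ((Equiv.refl κ).sumCongr (Equiv.sumCompl fun b => p (Sum.inr b)).symm).trans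
      (Equiv.sumAssoc _ _ _).symm
  have h1 := (hT.op hC eT).reindex (Equiv.refl _)
    (Equiv.sumArrowEquivProdArrow {a // ¬p (Sum.inl a)} κ (Fin d)).symm
  have h2 := (hR.op hC' eR).reindex
    (Equiv.sumArrowEquivProdArrow κ {b // p (Sum.inr b)} (Fin d)).symm (Equiv.refl _)
  have h3 := (op_core (T := fun u v k => T fun x => Sum.elim u (Sum.elim v k) (eT x))
    (R := fun k u v => R fun x => Sum.elim (Sum.elim k u) v (eR x)) h1 h2).reindex
    ((Equiv.arrowCongr (Equiv.subtypeSum (p := p)) (Equiv.refl (Fin d))).trans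
      (Equiv.sumArrowEquivProdArrow {a // p (Sum.inl a)} {b // p (Sum.inr b)} (Fin d)))
    ((Equiv.arrowCongr (Equiv.subtypeSum (p := fun x => ¬p x)) (Equiv.refl (Fin d))).trans
      (Equiv.sumArrowEquivProdArrow {a // ¬p (Sum.inl a)} {b // ¬p (Sum.inr b)} (Fin d)))
  convert h3 using 2 with a
  funext b
  simp only [contr]
  refine Finset.sum_congr rfl fun k _ => congrArg₂ (· * ·) (congrArg T ?_) (congrArg R ?_) <;>
    funext x <;> rcases x with x | x
  all_goals try rfl
  all_goals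
    first
      | (by_cases hx : p (Sum.inl x) <;>
          simp [eT, hx, Equiv.sumCompl_symm_apply_of_pos, Equiv.sumCompl_symm_apply_of_neg,
            Equiv.arrowCongr, Equiv.sumArrowEquivProdArrow, Equiv.subtypeSum])
      | (by_cases hx : p (Sum.inr x) <;>
          simp [eR, hx, Equiv.sumCompl_symm_apply_of_pos, Equiv.sumCompl_symm_apply_of_neg,
            Equiv.arrowCongr, Equiv.sumArrowEquivProdArrow, Equiv.subtypeSum])

/-- Closure under matched contractions. -/
theorem Flat.contr [Nonempty α] [Nonempty β] [Nonempty κ] {C C' : ℝ} (hC : 0 ≤ C) (hC' : 0 ≤ C')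
    {T : (α ⊕ κ → Fin d) → ℝ} {R : (κ ⊕ β → Fin d) → ℝ} (hT : Flat C T) (hR : Flat C' R) :
    Flat (C * C') (Tensor.contr T R) := by
  refine flat_of_split (by positivity) fun p _ hp hq => ?_
  by_cases h : (∃ a, p (Sum.inl a)) ∧ ∃ b, ¬p (Sum.inr b)
  · exact contr_op hC hC' hT hR p h.1 h.2
  have hR' : Flat C' (fun i : β ⊕ κ → Fin d => R fun x => i (Equiv.sumComm κ β x)) :=
    hR.reindex hC' _
  have hT' : Flat C (fun i : κ ⊕ α → Fin d => T fun x => i (Equiv.sumComm α κ x)) :=
    hT.reindex hC _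
  have hswap : (∃ b, p (Sum.inr b)) ∧ ∃ a, ¬p (Sum.inl a) := by
    obtain ⟨a⟩ := ‹Nonempty α›
    obtain ⟨b⟩ := ‹Nonempty β›
    rw [not_and_or, not_exists, not_exists] at h
    rcases h with h | h
    · obtain ⟨x | x, hx⟩ := hp
      · exact absurd hx (h x)
      · exact ⟨⟨x, hx⟩, a, h a⟩
    · obtain ⟨x | x, hx⟩ := hq
      · exact ⟨⟨b, not_not.1 (h b)⟩, x, hx⟩
      · exact absurd hx (h x)
  let q : β ⊕ α → Prop := fun x => p x.swap
  have h1 := contr_op hC' hC hR' hT' q hswap.1 hswap.2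
  let eP : {x // p x} ≃ {x // q x} := (Equiv.sumComm α β).subtypeEquiv fun x => by simp [q]
  let eN : {x // ¬p x} ≃ {x // ¬q x} := (Equiv.sumComm α β).subtypeEquiv fun x => by simp [q]
  have h2 := h1.reindex (eP.arrowCongr (Equiv.refl (Fin d))) (eN.arrowCongr (Equiv.refl (Fin d)))
  rw [mul_comm C C']
  convert h2 using 2 with a
  funext b
  simp only [Tensor.contr]
  refine Finset.sum_congr rfl fun k _ => ?_
  rw [mul_comm]
  refine congrArg₂ (· * ·) (congrArg R ?_) (congrArg T ?_) <;> funext x <;> rcases x with x | x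
  all_goals rfl

/-! ### Fields -/

/-- A tensor field. -/
abbrev Field (d : ℕ) (α : Type) := E d → (α → Fin d) → ℝ

/-- All components are smooth. -/
def Smooth (T : Field d α) : Prop := ∀ i, ContDiff ℝ ∞ fun x => T x i

/-- The derivative; the new leg is `none`. -/
noncomputable def dT (T : Field d α) : Field d (Option α) :=
  fun x i => fderiv ℝ (fun y => T y fun a => i (some a)) x (bv (i none))

/-- Relabelled legs. -/
def relabel (e : α ≃ β) (T : Field d α) : Field d β := fun x i => T x fun a => i (e a)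

/-- The contraction of fields. -/
def contrF (T : Field d (α ⊕ κ)) (R : Field d (κ ⊕ β)) : Field d (α ⊕ β) :=
  fun x => contr (T x) (R x)

lemma Smooth.dT {T : Field d α} (h : Smooth T) : Smooth (dT T) := fun _ =>
  ((h _).fderiv_right (by simp)).clm_apply contDiff_const

lemma Smooth.relabel {T : Field d α} (h : Smooth T) (e : α ≃ β) : Smooth (relabel e T) :=
  fun _ => h _

lemma Smooth.add {T R : Field d α} (h : Smooth T) (h' : Smooth R) :
    Smooth fun x i => T x i + R x i := fun i => (h i).add (h' i)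

lemma Smooth.contrF {T : Field d (α ⊕ κ)} {R : Field d (κ ⊕ β)} (h : Smooth T) (h' : Smooth R) :
    Smooth (contrF T R) := fun _ => ContDiff.sum fun _ _ => (h _).mul (h' _)

lemma Smooth.smul {T : Field d α} (h : Smooth T) (c : ℝ) : Smooth fun x i => c * T x i :=
  fun i => contDiff_const.mul (h i)

/-- All flattenings of the derivatives of order `j ≤ n` are bounded by `C σ ^ j`. -/
def FieldLe : ℕ → ∀ {α : Type} [Fintype α] [DecidableEq α], ℝ → ℝ → Field d α → Prop
  | 0, _, _, _, C, _, T => ∀ x, Flat C (T x)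
  | n + 1, _, _, _, C, σ, T => (∀ x, Flat C (T x)) ∧ FieldLe n (C * σ) σ (dT T)

lemma FieldLe.flat {n : ℕ} {C σ : ℝ} {T : Field d α} (h : FieldLe n C σ T) : ∀ x, Flat C (T x) := by
  cases n with
  | zero => exact h
  | succ n => exact h.1

lemma FieldLe.lower (n : ℕ) : ∀ {α : Type} [Fintype α] [DecidableEq α] {C σ : ℝ} {T : Field d α},
    FieldLe (n + 1) C σ T → FieldLe n C σ T := by
  induction n with
  | zero => intro α _ _ C σ T h; exact h.1
  | succ n ih => intro α _ _ C σ T h; exact ⟨h.1, ih h.2⟩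

lemma FieldLe.mono (n : ℕ) : ∀ {α : Type} [Fintype α] [DecidableEq α] {C C' σ σ' : ℝ}
    {T : Field d α}, FieldLe n C σ T → 0 ≤ C → C ≤ C' → 0 ≤ σ → σ ≤ σ' → FieldLe n C' σ' T := by
  induction n with
  | zero => intro α _ _ C C' σ σ' T h _ hC _ _ x; exact (h x).mono hC
  | succ n ih =>
    intro α _ _ C C' σ σ' T h hC0 hC hσ0 hσ
    exact ⟨fun x => (h.1 x).mono hC, ih h.2 (mul_nonneg hC0 hσ0)
      (mul_le_mul hC hσ hσ0 (hC0.trans hC)) hσ0 hσ⟩

lemma dT_add {T R : Field d α} (h : Smooth T) (h' : Smooth R) :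
    dT (fun x i => T x i + R x i) = fun x i => dT T x i + dT R x i := by
  funext x i
  simp only [Tensor.dT]
  rw [fderiv_fun_add ((h _).differentiable (by simp) x) ((h' _).differentiable (by simp) x)]
  rfl

lemma FieldLe.add (n : ℕ) : ∀ {α : Type} [Fintype α] [DecidableEq α] {C C' σ : ℝ}
    {T R : Field d α}, Smooth T → Smooth R → FieldLe n C σ T → FieldLe n C' σ R →
      FieldLe n (C + C') σ fun x i => T x i + R x i := by
  induction n with
  | zero => intro α _ _ C C' σ T R _ _ h h' x; exact (h x).add (h' x)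
  | succ n ih =>
    intro α _ _ C C' σ T R hT hR h h'
    refine ⟨fun x => (h.1 x).add (h'.1 x), ?_⟩
    rw [dT_add hT hR, add_mul]
    exact ih hT.dT hR.dT h.2 h'.2

lemma FieldLe.smul (n : ℕ) : ∀ {α : Type} [Fintype α] [DecidableEq α] {C σ : ℝ} {T : Field d α},
    Smooth T → FieldLe n C σ T → ∀ c : ℝ, FieldLe n (|c| * C) σ fun x i => c * T x i := by
  induction n with
  | zero => intro α _ _ C σ T _ h c x; exact (h x).smul c
  | succ n ih =>
    intro α _ _ C σ T hT h c
    refine ⟨fun x => (h.1 x).smul c, ?_⟩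
    have e : Tensor.dT (fun x i => c * T x i) = fun x i => c * Tensor.dT T x i := by
      funext x i
      simp only [Tensor.dT]
      rw [fderiv_const_mul ((hT _).differentiable (by simp) x)]
      rfl
    rw [e, mul_assoc]
    exact ih hT.dT h.2 c

lemma FieldLe.relabel (n : ℕ) : ∀ {α β : Type} [Fintype α] [DecidableEq α] [Fintype β]
    [DecidableEq β] {C σ : ℝ} {T : Field d α}, 0 ≤ C → 0 ≤ σ → FieldLe n C σ T →
      ∀ e : α ≃ β, FieldLe n C σ (relabel e T) := by
  induction n with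
  | zero => intro α β _ _ _ _ C σ T hC _ h e x; exact (h x).reindex hC e
  | succ n ih =>
    intro α β _ _ _ _ C σ T hC hσ h e
    exact ⟨fun x => (h.1 x).reindex hC e, ih (mul_nonneg hC hσ) hσ h.2 e.optionCongr⟩

/-- `Option (α ⊕ β) = Option α ⊕ β`. -/
def optL (α β : Type) : Option (α ⊕ β) ≃ Option α ⊕ β where
  toFun o := o.elim (Sum.inl none) fun s => s.elim (fun a => Sum.inl (some a)) Sum.inr
  invFun s := s.elim (fun o => o.map Sum.inl) fun b => some (Sum.inr b)
  left_inv o := by rcases o with _ | (a | b) <;> rfl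
  right_inv s := by rcases s with (_ | a) | b <;> rfl

/-- `Option (α ⊕ β) = α ⊕ Option β`. -/
def optR (α β : Type) : Option (α ⊕ β) ≃ α ⊕ Option β where
  toFun o := o.elim (Sum.inr none) fun s => s.elim Sum.inl fun b => Sum.inr (some b)
  invFun s := s.elim (fun a => some (Sum.inl a)) fun o => o.map Sum.inr
  left_inv o := by rcases o with _ | (a | b) <;> rfl
  right_inv s := by rcases s with a | (_ | b) <;> rfl

/-- Leibniz. -/
lemma dT_contrF {T : Field d (α ⊕ κ)} {R : Field d (κ ⊕ β)} (hT : Smooth T) (hR : Smooth R) :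
    dT (contrF T R) = fun x i =>
      Tensor.relabel (optL α β).symm (contrF (Tensor.relabel (optL α κ) (dT T)) R) x i +
        Tensor.relabel (optR α β).symm (contrF T (Tensor.relabel (optR κ β) (dT R))) x i := by
  funext x i
  simp only [Tensor.dT, contrF, Tensor.contr]
  rw [fderiv_fun_sum (fun k _ => ((hT _).differentiable (by simp) x).fun_mul
    ((hR _).differentiable (by simp) x)), sum_apply]
  simp only [Tensor.relabel, Tensor.contrF, Tensor.contr, ← Finset.sum_add_distrib]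
  refine Finset.sum_congr rfl fun k _ => ?_
  rw [fderiv_fun_mul ((hT _).differentiable (by simp) x) ((hR _).differentiable (by simp) x)]
  simp only [add_apply, smul_apply, smul_eq_mul, optL, optR, Equiv.coe_fn_mk, Equiv.coe_fn_symm_mk]
  rw [add_comm, mul_comm (R x _)]
  refine congrArg₂ (· + ·) (congrArg₂ (· * ·) ?_ ?_) (congrArg₂ (· * ·) ?_ ?_) <;>
    first
      | rfl
      | (congr 1; funext a; rcases a with a | a <;> rfl)
      | (congr 2; funext y; congr 1; funext a; rcases a with a | a <;> rfl)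

/-- Closure of fields under matched contractions, the derivative scale doubling. -/
theorem FieldLe.contrF (n : ℕ) : ∀ {α β κ : Type} [Fintype α] [DecidableEq α] [Fintype β]
    [DecidableEq β] [Fintype κ] [DecidableEq κ] [Nonempty α] [Nonempty β] [Nonempty κ]
    {C C' σ : ℝ} {T : Field d (α ⊕ κ)} {R : Field d (κ ⊕ β)}, 0 ≤ C → 0 ≤ C' → 0 ≤ σ →
      Smooth T → Smooth R → FieldLe n C σ T → FieldLe n C' σ R →
        FieldLe n (C * C') (2 * σ) (contrF T R) := by
  induction n with
  | zero =>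
    intro α β κ _ _ _ _ _ _ _ _ _ C C' σ T R hC hC' _ _ _ h h' x
    exact (h x).contr hC hC' (h' x)
  | succ n ih =>
    intro α β κ _ _ _ _ _ _ _ _ _ C C' σ T R hC hC' hσ hT hR h h'
    refine ⟨fun x => (h.1 x).contr hC hC' (h'.1 x), ?_⟩
    have hCσ := mul_nonneg hC hσ
    have hCσ' := mul_nonneg hC' hσ
    have a1 := ih hCσ hC' hσ (hT.dT.relabel (optL α κ)) hR
      (FieldLe.relabel n hCσ hσ h.2 _) h'.lower
    have a2 := ih hC hCσ' hσ hT (hR.dT.relabel (optR κ β)) h.lower
      (FieldLe.relabel n hCσ' hσ h'.2 _)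
    have b1 := FieldLe.relabel n (mul_nonneg hCσ hC') (by positivity) a1 (optL α β).symm
    have b2 := FieldLe.relabel n (mul_nonneg hC hCσ') (by positivity) a2 (optR α β).symm
    rw [dT_contrF hT hR, show C * C' * (2 * σ) = C * σ * C' + C * (C' * σ) by ring]
    exact FieldLe.add n (((hT.dT.relabel _).contrF hR).relabel _)
      ((hT.contrF (hR.dT.relabel _)).relabel _) b1 b2

/-- A field with bounded flattenings is a multiplier on every scaled Sobolev space. -/
theorem FieldLe.mulBound {κ σ : ℝ} (hκ : 0 ≤ κ) (hσ : 0 ≤ σ) (hκσ : κ * σ ≤ 1) (n : ℕ) :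
    ∀ {β γ αr αc : Type} [Fintype β] [Fintype γ] [Fintype αr]
    [DecidableEq αr] [Fintype αc] [DecidableEq αc] [Nonempty αr] [Nonempty αc] {C B : ℝ}
    {T : Field d (αr ⊕ αc)} (eb : β ≃ (αr → Fin d)) (ec : γ ≃ (αc → Fin d)),
    0 ≤ C → C ≤ B → Smooth T → FieldLe n C σ T →
      MulBound (ι := Fin d) κ n (fun b c x => T x (Sum.elim (eb b) (ec c))) B := by
  induction n with
  | zero =>
    intro β γ αr αc _ _ _ _ _ _ _ _ C B T eb ec hC hB _ h x
    refine OpLe.mono ?_ hC hB
    simpa using ((h x).op hC (Equiv.refl _)).reindex eb ec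
  | succ n ih =>
    intro β γ αr αc _ _ _ _ _ _ _ _ C B T eb ec hC hB hT h
    refine ⟨fun x => OpLe.mono (by simpa using ((h.1 x).op hC (Equiv.refl _)).reindex eb ec) hC hB,
      ?_⟩
    let eb' : β × Fin d ≃ (Option αr → Fin d) :=
      ((eb.prodCongr (Equiv.refl _)).trans (Equiv.prodComm _ _)).trans
        (Equiv.piOptionEquivProd (β := fun _ => Fin d)).symm
    have hB' : |κ| * (C * σ) ≤ B := by
      rw [abs_of_nonneg hκ, mul_left_comm]
      exact (mul_le_of_le_one_right hC hκσ).trans hB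
    have hT' := hT.dT.relabel (optL αr αc)
    have h2 := ih eb' ec (C := |κ| * (C * σ)) (by positivity) hB' (hT'.smul κ)
      (FieldLe.smul n hT' (FieldLe.relabel n (mul_nonneg hC hσ) hσ h.2 (optL αr αc)) κ)
    convert h2 using 2 with p
    funext c x
    simp only [Sobolev.dMul, Tensor.relabel, Tensor.dT]
    congr 1
    congr 2
    funext y
    congr 1
    funext a
    rcases a with a | a <;> rfl

/-! ### Derivative tensors -/

lemma dT_derivT {f : E d → E d} (hf : ContDiff ℝ ∞ f) (m : ℕ) :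
    dT (derivT m f) = Tensor.relabel (finSuccEquiv' (1 : Fin (m + 2))) (derivT (m + 1) f) := by
  funext x i
  simp only [Tensor.relabel, Tensor.dT, derivT]
  set v : Fin m → E d := fun j => bv (i (some j.succ))
  have hd : DifferentiableAt ℝ (iteratedFDeriv ℝ m f) x :=
    (hf.differentiable_iteratedFDeriv (by exact_mod_cast ENat.natCast_lt_top m)) x
  have h1 : HasFDerivAt (fun y => iteratedFDeriv ℝ m f y v (i (some 0)))
      ((EuclideanSpace.proj (𝕜 := ℝ) (i (some 0))).comp
        ((ContinuousMultilinearMap.apply ℝ (fun _ : Fin m => E d) (E d) v).comp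
          (fderiv ℝ (iteratedFDeriv ℝ m f) x))) x :=
    (EuclideanSpace.proj (𝕜 := ℝ) (i (some 0))).hasFDerivAt.comp x
      ((ContinuousMultilinearMap.apply ℝ (fun _ : Fin m => E d) (E d) v).hasFDerivAt.comp x
        hd.hasFDerivAt)
  rw [h1.fderiv]
  have e0 : finSuccEquiv' (1 : Fin (m + 2)) 0 = some 0 := finSuccEquiv'_succAbove 1 0
  have e1 : finSuccEquiv' (1 : Fin (m + 2)) (Fin.succ 0) = none := finSuccEquiv'_at 1
  have e2 : ∀ j : Fin m, finSuccEquiv' (1 : Fin (m + 2)) j.succ.succ = some j.succ := fun j =>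
    finSuccEquiv'_succAbove 1 j.succ
  rw [e0, iteratedFDeriv_succ_apply_left, e1]
  simp only [v]
  congr 2

lemma smooth_derivT {f : E d → E d} (hf : ContDiff ℝ ∞ f) (m : ℕ) : Smooth (derivT m f) :=
  fun i => (EuclideanSpace.proj (𝕜 := ℝ) (i 0)).contDiff.comp
    ((ContinuousMultilinearMap.apply ℝ (fun _ : Fin m => E d) (E d) _).contDiff.comp
      (hf.iteratedFDeriv_right (m := ∞) (i := m) (by exact_mod_cast le_top)))

/-- Bounded flattenings of all derivatives give a bounded field. -/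
theorem fieldLe_derivT {f : E d → E d} (hf : ContDiff ℝ ∞ f) (n : ℕ) :
    ∀ (m : ℕ) {C σ : ℝ}, 0 ≤ C → 0 ≤ σ →
      (∀ j, j ≤ n → ∀ x, FlatLe (C * σ ^ j) (derivT (m + j) f x)) →
        FieldLe n C σ (derivT m f) := by
  induction n with
  | zero => intro m C σ _ _ h x; exact flat_iff_flatLe.2 (by simpa using h 0 le_rfl x)
  | succ n ih =>
    intro m C σ hC hσ h
    refine ⟨fun x => flat_iff_flatLe.2 (by simpa using h 0 (Nat.zero_le _) x), ?_⟩
    rw [dT_derivT hf m]
    refine FieldLe.relabel n (mul_nonneg hC hσ) hσ (ih (m + 1) (mul_nonneg hC hσ) hσ ?_) _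
    intro j hj x
    have := h (j + 1) (Nat.add_le_add_right hj 1) x
    rw [show m + (j + 1) = m + 1 + j by omega, pow_succ', ← mul_assoc] at this
    exact this

end Tensor

end Vale.Agent.P347.Gamma0
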