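import Vale.Agent.P347.Gamma0.ExactBase
import Vale.Agent.P347.Gamma0.DeltaBound
import Vale.Agent.P347.Gamma0.Tensor

/-!
P347, towards `γ_* = 0`, piece 4 (regularity): the laws along the exact flow are known through
integration by parts, so are their products; the mean gradient is tame.
-/

namespace Vale.Agent.P347.Gamma0

namespace Reg

open MeasureTheory Sobolev
open scoped ContDiff RealInnerProductSpace

set_option linter.unusedSectionVars false

variable {ι₁ ι₂ : Type} [Fintype ι₁] [DecidableEq ι₁] [Fintype ι₂] [DecidableEq ι₂]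

/-! ### Products -/

/-- The first block. -/
noncomputable def fstL : EuclideanSpace ℝ (ι₁ ⊕ ι₂) →L[ℝ] EuclideanSpace ℝ ι₁ :=
  LinearMap.toContinuousLinearMap
    { toFun := fun z => WithLp.toLp 2 fun a => z (Sum.inl a)
      map_add' := fun z z' => rfl
      map_smul' := fun c z => rfl }

/-- The second block. -/
noncomputable def sndL : EuclideanSpace ℝ (ι₁ ⊕ ι₂) →L[ℝ] EuclideanSpace ℝ ι₂ :=
  LinearMap.toContinuousLinearMap
    { toFun := fun z => WithLp.toLp 2 fun a => z (Sum.inr a)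
      map_add' := fun z z' => rfl
      map_smul' := fun c z => rfl }

/-- Two blocks side by side. -/
noncomputable def glueL :
    EuclideanSpace ℝ ι₁ × EuclideanSpace ℝ ι₂ →L[ℝ] EuclideanSpace ℝ (ι₁ ⊕ ι₂) :=
  LinearMap.toContinuousLinearMap
    { toFun := fun p => WithLp.toLp 2 (Sum.elim p.1 p.2)
      map_add' := fun p q => by ext a; rcases a with a | a <;> rfl
      map_smul' := fun c p => by ext a; rcases a with a | a <;> rfl }

@[simp] lemma fstL_apply (z : EuclideanSpace ℝ (ι₁ ⊕ ι₂)) (a : ι₁) : fstL z a = z (Sum.inl a) := rfl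

@[simp] lemma sndL_apply (z : EuclideanSpace ℝ (ι₁ ⊕ ι₂)) (a : ι₂) : sndL z a = z (Sum.inr a) := rfl

@[simp] lemma glueL_inl (p : EuclideanSpace ℝ ι₁ × EuclideanSpace ℝ ι₂) (a : ι₁) :
    glueL p (Sum.inl a) = p.1 a := rfl

@[simp] lemma glueL_inr (p : EuclideanSpace ℝ ι₁ × EuclideanSpace ℝ ι₂) (a : ι₂) :
    glueL p (Sum.inr a) = p.2 a := rfl

@[simp] lemma fstL_glueL (p : EuclideanSpace ℝ ι₁ × EuclideanSpace ℝ ι₂) : fstL (glueL p) = p.1 :=
  rfl

@[simp] lemma sndL_glueL (p : EuclideanSpace ℝ ι₁ × EuclideanSpace ℝ ι₂) : sndL (glueL p) = p.2 :=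
  rfl

lemma glueL_fst_snd (z : EuclideanSpace ℝ (ι₁ ⊕ ι₂)) : glueL (fstL z, sndL z) = z := by
  ext a; rcases a with a | a <;> rfl

lemma glueL_inlSingle (a : ι₁) :
    glueL (EuclideanSpace.single a (1 : ℝ), (0 : EuclideanSpace ℝ ι₂))
      = EuclideanSpace.single (Sum.inl a) 1 := by
  ext b; rcases b with b | b <;> simp [EuclideanSpace.single_apply]

lemma glueL_inrSingle (a : ι₂) :
    glueL ((0 : EuclideanSpace ℝ ι₁), EuclideanSpace.single a (1 : ℝ))
      = EuclideanSpace.single (Sum.inr a) 1 := by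
  ext b; rcases b with b | b <;> simp [EuclideanSpace.single_apply]

lemma pd_comp_clm {f : EuclideanSpace ℝ ι₁ → ℝ} (hf : Differentiable ℝ f)
    (L : EuclideanSpace ℝ ι₂ →L[ℝ] EuclideanSpace ℝ ι₁) (i : ι₂) (z : EuclideanSpace ℝ ι₂) :
    pd i (fun z => f (L z)) z = fderiv ℝ f (L z) (L (EuclideanSpace.single i 1)) := by
  have h : HasFDerivAt (fun z => f (L z)) ((fderiv ℝ f (L z)).comp L) z :=
    (hf (L z)).hasFDerivAt.comp z L.hasFDerivAt
  unfold Sobolev.pd
  rw [h.fderiv]
  rfl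

lemma fstL_single (i : ι₁ ⊕ ι₂) :
    fstL (EuclideanSpace.single i (1 : ℝ))
      = Sum.elim (fun a => EuclideanSpace.single a (1 : ℝ)) (fun _ => 0) i := by
  ext b; rcases i with i | i <;> simp [EuclideanSpace.single_apply]

lemma sndL_single (i : ι₁ ⊕ ι₂) :
    sndL (EuclideanSpace.single i (1 : ℝ))
      = Sum.elim (fun _ => 0) (fun a => EuclideanSpace.single a (1 : ℝ)) i := by
  ext b; rcases i with i | i <;> simp [EuclideanSpace.single_apply]

/-- Slices of tame functions are tame. -/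
lemma tame_slice_fst {f : EuclideanSpace ℝ (ι₁ ⊕ ι₂) → ℝ} (hf : Tame f)
    (y : EuclideanSpace ℝ ι₂) : Tame fun x => f (glueL (x, y)) := by
  have h : (fun x : EuclideanSpace ℝ ι₁ => glueL (x, y)) = fun x =>
      glueL.comp (ContinuousLinearMap.inl ℝ (EuclideanSpace ℝ ι₁) (EuclideanSpace ℝ ι₂)) x
        + glueL ((0 : EuclideanSpace ℝ ι₁), y) := by
    funext x
    rw [ContinuousLinearMap.comp_apply, ContinuousLinearMap.inl_apply, ← map_add]
    simp
  refine hf.comp (f := fun x : EuclideanSpace ℝ ι₁ => glueL (x, y)) ?_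
  rw [h]
  exact (ContinuousLinearMap.hasTemperateGrowth _).add (Function.HasTemperateGrowth.const _)

/-- Slices of tame functions are tame. -/
lemma tame_slice_snd {f : EuclideanSpace ℝ (ι₁ ⊕ ι₂) → ℝ} (hf : Tame f)
    (x : EuclideanSpace ℝ ι₁) : Tame fun y => f (glueL (x, y)) := by
  have h : (fun y : EuclideanSpace ℝ ι₂ => glueL (x, y)) = fun y =>
      glueL.comp (ContinuousLinearMap.inr ℝ (EuclideanSpace ℝ ι₁) (EuclideanSpace ℝ ι₂)) y
        + glueL (x, (0 : EuclideanSpace ℝ ι₂)) := by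
    funext y
    rw [ContinuousLinearMap.comp_apply, ContinuousLinearMap.inr_apply, ← map_add]
    simp
  refine hf.comp (f := fun y : EuclideanSpace ℝ ι₂ => glueL (x, y)) ?_
  rw [h]
  exact (ContinuousLinearMap.hasTemperateGrowth _).add (Function.HasTemperateGrowth.const _)

lemma tame_one_add_norm_pow {ι : Type} [Fintype ι] [DecidableEq ι] (k : ℕ) :
    Tame fun x : EuclideanSpace ℝ ι => (1 + ‖x‖ ^ 2) ^ k := by
  have h : Tame fun x : EuclideanSpace ℝ ι => 1 + ∑ i, x i ^ 2 :=
    (Function.HasTemperateGrowth.const (1 : ℝ)).add (Function.HasTemperateGrowth.sum fun i _ =>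
      ((EuclideanSpace.proj (𝕜 := ℝ) i).hasTemperateGrowth).pow 2)
  simpa only [EuclideanSpace.real_norm_sq_eq, Pi.pow_def] using h.pow k

/-- A product of two laws known through integration by parts. -/
theorem IBP.prod {μ : Measure (EuclideanSpace ℝ ι₁)} {ν : Measure (EuclideanSpace ℝ ι₂)}
    [IsProbabilityMeasure μ] [IsProbabilityMeasure ν] {Ψ : EuclideanSpace ℝ ι₁ → ℝ}
    {Φ : EuclideanSpace ℝ ι₂ → ℝ} (hμ : IBP μ Ψ) (hν : IBP ν Φ) :
    IBP ((μ.prod ν).map glueL) (fun z => Ψ (fstL z) + Φ (sndL z)) := by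
  have hΨ : Tame fun z : EuclideanSpace ℝ (ι₁ ⊕ ι₂) => Ψ (fstL z) :=
    hμ.tame.comp (fstL (ι₁ := ι₁) (ι₂ := ι₂)).hasTemperateGrowth
  have hΦ : Tame fun z : EuclideanSpace ℝ (ι₁ ⊕ ι₂) => Φ (sndL z) :=
    hν.tame.comp (sndL (ι₁ := ι₁) (ι₂ := ι₂)).hasTemperateGrowth
  have hΨΦ : Tame fun z => Ψ (fstL z) + Φ (sndL z) := hΨ.add hΦ
  have hm : AEMeasurable (glueL : EuclideanSpace ℝ ι₁ × EuclideanSpace ℝ ι₂ → _) (μ.prod ν) :=
    glueL.continuous.aemeasurable
  have hi : ∀ f : EuclideanSpace ℝ (ι₁ ⊕ ι₂) → ℝ, Tame f →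
      Integrable (fun p => f (glueL p)) (μ.prod ν) := by
    intro f hf
    obtain ⟨k, C, hC⟩ := hf.2 0
    simp only [norm_iteratedFDeriv_zero, Real.norm_eq_abs] at hC
    have hC0 : 0 ≤ C := by
      have := (abs_nonneg _).trans (hC 0)
      simpa using this
    refine ((hμ.integrable _ (tame_one_add_norm_pow k)).mul_prod
      (hν.integrable _ (tame_one_add_norm_pow k)) |>.const_mul (C * 4 ^ k)).mono'
      (hf.continuous.comp glueL.continuous).aestronglyMeasurable (ae_of_all _ fun p => ?_)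
    have hn : ‖glueL p‖ ^ 2 = ‖p.1‖ ^ 2 + ‖p.2‖ ^ 2 := by
      simp [EuclideanSpace.real_norm_sq_eq, Fintype.sum_sum_type]
    have h1 : 1 + ‖glueL p‖ ≤ 4 * ((1 + ‖p.1‖ ^ 2) * (1 + ‖p.2‖ ^ 2)) := by
      nlinarith [sq_nonneg (‖glueL p‖ - 1 / 2), mul_nonneg (sq_nonneg ‖p.1‖) (sq_nonneg ‖p.2‖)]
    rw [Real.norm_eq_abs]
    refine (hC _).trans ?_
    rw [← mul_pow, mul_assoc, ← mul_pow]
    exact mul_le_mul_of_nonneg_left (pow_le_pow_left₀ (by positivity) h1 k) hC0
  refine ⟨hΨ.add hΦ, fun f hf => ?_, fun f i hf => ?_⟩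
  · exact (integrable_map_measure hf.continuous.aestronglyMeasurable hm).2 (hi f hf)
  · have hg : Tame fun z => f z * pd i (fun z => Ψ (fstL z) + Φ (sndL z)) z :=
      hf.mul (hΨΦ.pdTame i)
    rw [integral_map hm (hf.pdTame i).continuous.aestronglyMeasurable,
      integral_map hm hg.continuous.aestronglyMeasurable]
    rcases i with a | a
    · rw [integral_prod_symm _ (hi _ (hf.pdTame _)), integral_prod_symm _ (hi _ hg)]
      refine integral_congr_ae (ae_of_all _ fun y => ?_)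
      have hs := tame_slice_fst hf y
      have h := hμ.ibp _ a hs
      have e : ∀ x, pd a (fun x => f (glueL (x, y))) x = pd (Sum.inl a) f (glueL (x, y)) := by
        intro x
        have h2 : HasFDerivAt (fun x => f (glueL (x, y))) ((fderiv ℝ f (glueL (x, y))).comp
            (glueL.comp ((ContinuousLinearMap.id ℝ (EuclideanSpace ℝ ι₁)).prod 0))) x :=
          (hf.differentiable _).hasFDerivAt.comp x
            (glueL.hasFDerivAt.comp x ((hasFDerivAt_id x).prodMk (hasFDerivAt_const y x)))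
        unfold Sobolev.pd
        rw [h2.fderiv, ← glueL_inlSingle (ι₂ := ι₂) a]
        rfl
      have e' : ∀ x, pd (Sum.inl a) (fun z => Ψ (fstL z) + Φ (sndL z)) (glueL (x, y))
          = pd a Ψ x := by
        intro x
        rw [pd_add hΨ hΦ, pd_comp_clm hμ.tame.differentiable, pd_comp_clm hν.tame.differentiable,
          fstL_single, sndL_single]
        simp [Sobolev.pd]
      simpa only [e, e'] using h
    · rw [integral_prod _ (hi _ (hf.pdTame _)), integral_prod _ (hi _ hg)]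
      refine integral_congr_ae (ae_of_all _ fun x => ?_)
      have hs := tame_slice_snd hf x
      have h := hν.ibp _ a hs
      have e : ∀ y, pd a (fun y => f (glueL (x, y))) y = pd (Sum.inr a) f (glueL (x, y)) := by
        intro y
        have h2 : HasFDerivAt (fun y => f (glueL (x, y))) ((fderiv ℝ f (glueL (x, y))).comp
            (glueL.comp ((0 : EuclideanSpace ℝ ι₂ →L[ℝ] EuclideanSpace ℝ ι₁).prod
              (ContinuousLinearMap.id ℝ (EuclideanSpace ℝ ι₂))))) y :=
          (hf.differentiable _).hasFDerivAt.comp y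
            (glueL.hasFDerivAt.comp y ((hasFDerivAt_const x y).prodMk (hasFDerivAt_id y)))
        unfold Sobolev.pd
        rw [h2.fderiv, ← glueL_inrSingle (ι₁ := ι₁) a]
        rfl
      have e' : ∀ y, pd (Sum.inr a) (fun z => Ψ (fstL z) + Φ (sndL z)) (glueL (x, y))
          = pd a Φ y := by
        intro y
        rw [pd_add hΨ hΦ, pd_comp_clm hμ.tame.differentiable, pd_comp_clm hν.tame.differentiable,
          fstL_single, sndL_single]
        simp [Sobolev.pd]
      simpa only [e, e'] using h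

/-! ### Laws on `E d` -/

variable {d : ℕ}

/-- A tame strongly log-concave law is known through integration by parts. -/
theorem ibp_logConc {W : E d → ℝ} {gW : E d → E d} {m : ℝ} (hW : LogConc W gW m) (hT : Tame W) :
    IBP (gibbs W) W := by
  have poly : ∀ f : E d → ℝ, Tame f → LogConcave.Poly f := fun f hf => by
    obtain ⟨k, C, hC⟩ := hf.2 0
    simp only [norm_iteratedFDeriv_zero, Real.norm_eq_abs] at hC
    exact LogConcave.Poly.of_le hC
  refine ⟨hT, fun f hf => (poly f hf).integrable hW hf.continuous, fun f i hf => ?_⟩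
  have h := DeltaAux.ibp hW i (hf.1.of_le (by simp)) (poly f hf) (poly _ (hf.pdTame i))
  refine h.trans (integral_congr_ae (ae_of_all _ fun x => ?_))
  show f x * gW x i = f x * fderiv ℝ W x (bv i)
  rw [((hasGradientAt_iff_hasFDerivAt.1 (hW.grad x))).fderiv,
    InnerProductSpace.toDual_apply_apply, DeltaAux.inner_bv]

lemma ibp_gam : IBP (gam d) (fun z : E d => ‖z‖ ^ 2 / 2) := by
  have e : gibbs (fun z : E d => ‖z‖ ^ 2 / 2) = gam d := by
    have := Tilt.tilt_zero (fun _ : E d => (0 : ℝ))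
    simpa [tilt] using this
  rw [← e]
  refine ibp_logConc (gW := fun z => z) (m := 1) ⟨(contDiff_norm_sq ℝ).div_const 2,
    fun z => hasGradientAt_iff_hasFDerivAt.2 ((hasFDerivAt_half_sq z).congr_fderiv ?_), one_pos,
    ⟨1, LipschitzWith.id⟩, fun x y => by rw [real_inner_self_eq_norm_sq, one_mul]⟩ ?_
  · ext u; simp
  · have h : Tame fun x : E d => (∑ i, x i ^ 2) * (1 / 2) :=
      (Function.HasTemperateGrowth.sum fun i _ =>
        ((EuclideanSpace.proj (𝕜 := ℝ) i).hasTemperateGrowth).pow 2).mul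
        (Function.HasTemperateGrowth.const _)
    simpa [EuclideanSpace.real_norm_sq_eq, div_eq_mul_inv] using h

/-! ### The mean gradient is tame -/

lemma norm_bv (i : Fin d) : ‖bv i‖ = 1 := by simp [bv]

/-- A multilinear map is bounded by its values on basis vectors. -/
lemma norm_multilinear_le {n : ℕ} (T : ContinuousMultilinearMap ℝ (fun _ : Fin n => E d) (E d)) :
    ‖T‖ ≤ ∑ j : Fin n → Fin d, ‖T fun k => bv (j k)‖ := by
  refine ContinuousMultilinearMap.opNorm_le_bound (Finset.sum_nonneg fun j _ => norm_nonneg _)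
    fun m => ?_
  have e : m = fun k => ∑ i, m k i • bv i := funext fun k => by
    simpa [bv] using ((EuclideanSpace.basisFun (Fin d) ℝ).sum_repr (m k)).symm
  conv_lhs => rw [e, T.map_sum (fun k i => m k i • bv i)]
  refine (norm_sum_le _ _).trans ?_
  rw [Finset.sum_mul]
  refine Finset.sum_le_sum fun j _ => ?_
  rw [T.map_smul_univ, norm_smul, Real.norm_eq_abs, Finset.abs_prod, mul_comm]
  refine mul_le_mul_of_nonneg_left (Finset.prod_le_prod (fun k _ => abs_nonneg _) fun k _ => ?_)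
    (norm_nonneg _)
  simpa using PiLp.norm_apply_le (m k) (j k)

/-- An entry is bounded by any flattening bound. -/
lemma abs_le_of_flatLe {m : ℕ} (hm : 1 ≤ m) {C : ℝ} {T : Tens d (m + 1)} (h : FlatLe C T)
    (i : Fin (m + 1) → Fin d) : |T i| ≤ C := by
  classical
  have h1 := h {0} (Finset.singleton_nonempty 0) ⟨⟨1, by omega⟩, by simp [Fin.ext_iff]⟩
    (fun a => if a = fun x => i x.1 then 1 else 0) (fun b => if b = fun x => i x.1 then 1 else 0)
  have e : ∀ (κ : Type) [Fintype κ] [DecidableEq κ] (f : κ → Fin d),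
      hs (fun a : κ → Fin d => if a = f then (1 : ℝ) else 0) = 1 := fun κ _ _ f => by
    simp [hs]
  rw [e, e, mul_one, mul_one] at h1
  refine le_trans (le_of_eq ?_) h1
  congr 1
  rw [Finset.sum_eq_single i (fun j _ hj => ?_) (by simp)]
  · simp
  · by_cases a1 : (fun x : {x // x ∈ ({0} : Finset (Fin (m + 1)))} => j x.1) = fun x => i x.1
    · by_cases a2 : (fun x : {x // x ∈ ({0} : Finset (Fin (m + 1)))ᶜ} => j x.1) = fun x => i x.1
      · refine absurd (funext fun x => ?_) hj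
        by_cases hx : x ∈ ({0} : Finset (Fin (m + 1)))
        · exact congrFun a1 ⟨x, hx⟩
        · exact congrFun a2 ⟨x, Finset.mem_compl.2 hx⟩
      · simp [a2]
    · simp [a1]

namespace Law

attribute [local irreducible] G nW

variable (D : Data d) (hP : PostFacts) (hT : TameFact) (hτ : D.τ ≤ 1)
include hP hT hτ

lemma tame_G {r : ℝ} (hr : 0 < r) (hr1 : r ≤ 1) :
    Function.HasTemperateGrowth (G D.U D.g D.ε r) := by
  have hG : ContDiff ℝ ∞ (G D.U D.g D.ε r) := D.contDiff_G hP hr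
  refine ⟨hG, fun n => ?_⟩
  rcases Nat.eq_zero_or_pos n with rfl | hn
  · refine ⟨1, Real.sqrt (r * d) + 1, fun x => ?_⟩
    rw [norm_iteratedFDeriv_zero, pow_one]
    have h := ((hP d D.U D.g D.pot D.g0 D.ε D.ε0 D.ε1).2.2 r hr x).2.2.2.2.2.2.1
    nlinarith [norm_nonneg x, Real.sqrt_nonneg (r * d)]
  obtain ⟨C, hC0, hC⟩ := hT n hn
  refine ⟨0, (d : ℝ) ^ n * ((d : ℝ) * (C / Real.sqrt r ^ (n - 1))), fun x => ?_⟩
  rw [pow_zero, mul_one]
  refine (norm_multilinear_le _).trans ?_
  have hj : ∀ j : Fin n → Fin d,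
      ‖iteratedFDeriv ℝ n (G D.U D.g D.ε r) x fun k => bv (j k)‖
        ≤ (d : ℝ) * (C / Real.sqrt r ^ (n - 1)) := fun j => by
    set v := iteratedFDeriv ℝ n (G D.U D.g D.ε r) x fun k => bv (j k)
    have hv : v = ∑ i, v i • bv i := by
      simpa [bv] using ((EuclideanSpace.basisFun (Fin d) ℝ).sum_repr v).symm
    calc ‖v‖ ≤ ∑ i, ‖v i • bv i‖ := (congrArg norm hv).le.trans (norm_sum_le _ _)
      _ ≤ ∑ _i : Fin d, C / Real.sqrt r ^ (n - 1) := Finset.sum_le_sum fun i _ => by
          rw [norm_smul, norm_bv, mul_one, Real.norm_eq_abs]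
          simpa [derivT] using abs_le_of_flatLe hn (hC d D.U D.g D.pot D.ε D.ε0 D.ε1 r hr hr1 x)
            (Fin.cons i j)
      _ = _ := by simp
  exact (Finset.sum_le_sum fun j _ => hj j).trans (le_of_eq (by simp))

lemma r_le_one (q : ℝ) : D.r q ≤ 1 :=
  (sub_le_self _ (sq_nonneg q)).trans hτ

lemma tame_Gq {q : ℝ} (hq : q ∈ D.I) : Function.HasTemperateGrowth (D.Gq q) := by
  have h : Function.HasTemperateGrowth fun w : E d => D.c + q • w :=
    (Function.HasTemperateGrowth.const D.c).add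
      (q • ContinuousLinearMap.id ℝ (E d)).hasTemperateGrowth
  exact (tame_G D hP hT hτ (D.r_pos hq) (r_le_one D hP hT hτ q)).comp h

lemma norm_aq_le {q : ℝ} (hq : q ∈ D.I) (w u : E d) : ‖D.aq q w u‖ ≤ ‖u‖ := by
  have hb : ∀ v, 0 ≤ ⟪D.aq q w v, v⟫ ∧ ⟪D.aq q w v, v⟫ ≤ ‖v‖ ^ 2 :=
    ((hP d D.U D.g D.pot D.g0 D.ε D.ε0 D.ε1).2.2 _ (D.r_pos hq) _).2.2.2.2.2.1
  have h1 : 4 * ⟪D.aq q w u, D.aq q w u⟫
      = ⟪D.aq q w (u + D.aq q w u), u + D.aq q w u⟫
        - ⟪D.aq q w (u - D.aq q w u), u - D.aq q w u⟫ := by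
    simp only [map_add, map_sub, inner_add_left, inner_add_right, inner_sub_left, inner_sub_right]
    linarith [D.fderiv_Gq_symm hP hq w (D.aq q w u) u]
  have h2 := (hb (u + D.aq q w u)).2
  have h3 := (hb (u - D.aq q w u)).1
  have h4 := pow_le_pow_left₀ (norm_nonneg _) (norm_add_le u (D.aq q w u)) 2
  rw [real_inner_self_eq_norm_sq] at h1
  refine (pow_le_pow_iff_left₀ (norm_nonneg _) (norm_nonneg _) two_ne_zero).1 ?_
  nlinarith [sq_nonneg (‖u‖ - ‖D.aq q w u‖)]

theorem logConc {q : ℝ} (hq : q ∈ D.I) : LogConc (D.ψ q) (D.gψ q) 1 := by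
  have hd : ∀ w, HasFDerivAt (D.gψ q)
      (ContinuousLinearMap.id ℝ (E d) + (q * D.ε) • (q • D.aq q w)) w := fun w =>
    (hasFDerivAt_id w).add ((D.hasFDerivAt_Gq hP hq w).const_smul (q * D.ε))
  refine LogConc.mk ((contDiffOn_univ.1 (ContDiffOn.comp (g := fun p : ℝ × E d => D.ψ p.1 p.2)
      (f := fun w : E d => (q, w)) (D.contDiffOn_psi hP)
      (contDiff_const.prodMk contDiff_id).contDiffOn fun _ _ => ⟨hq, Set.mem_univ _⟩)).of_le
        (WithTop.coe_le_coe.2 le_top))
    (fun w => D.hasGradient_psi hP hq w) one_pos ?_ ?_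
  · refine ⟨(1 + q ^ 2 * D.ε).toNNReal,
      lipschitzWith_of_nnnorm_fderiv_le (fun w => (hd w).differentiableAt) fun w => ?_⟩
    have h0 : 0 ≤ q ^ 2 * D.ε := mul_nonneg (sq_nonneg q) D.ε0
    rw [← NNReal.coe_le_coe, coe_nnnorm, Real.coe_toNNReal _ (by linarith), (hd w).fderiv]
    refine ContinuousLinearMap.opNorm_le_bound _ (by linarith) fun u => ?_
    simp only [add_apply, smul_apply, ContinuousLinearMap.id_apply, smul_smul]
    refine (norm_add_le _ _).trans ?_
    rw [norm_smul, Real.norm_eq_abs, show q * D.ε * q = q ^ 2 * D.ε by ring, abs_of_nonneg h0,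
      add_mul, one_mul]
    exact add_le_add le_rfl (mul_le_mul_of_nonneg_left (norm_aq_le D hP hT hτ hq w u) h0)
  · intro x y
    set v := x - y
    have hp : ∀ t : ℝ, HasDerivAt (fun s : ℝ => ⟪D.gψ q (y + s • v), v⟫ - s * ‖v‖ ^ 2)
        (⟪(ContinuousLinearMap.id ℝ (E d) + (q * D.ε) • (q • D.aq q (y + t • v))) v, v⟫
          - 1 * ‖v‖ ^ 2) t := by
      intro t
      have h1 : HasDerivAt (fun s : ℝ => y + s • v) v t := by
        simpa using ((hasDerivAt_id t).smul_const v).const_add y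
      have h2 := ((hd (y + t • v)).comp_hasDerivAt t h1).inner ℝ (hasDerivAt_const t v)
      simp only [inner_zero_right, zero_add] at h2
      exact h2.sub ((hasDerivAt_id t).mul_const _)
    have h := monotone_of_deriv_nonneg (fun t => (hp t).differentiableAt) (fun t => by
        rw [(hp t).deriv]
        have hb := (((hP d D.U D.g D.pot D.g0 D.ε D.ε0 D.ε1).2.2 _ (D.r_pos hq)
          (D.c + q • (y + t • v))).2.2.2.2.2.1 v).1
        simp only [add_apply, smul_apply, ContinuousLinearMap.id_apply, inner_add_left,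
          real_inner_smul_left, real_inner_self_eq_norm_sq, one_mul, smul_smul, Data.aq]
        nlinarith [mul_nonneg (mul_nonneg (sq_nonneg q) D.ε0) hb]) (zero_le_one (α := ℝ))
    simp only [zero_smul, add_zero, zero_mul, sub_zero, one_smul, one_mul] at h
    rw [show y + v = x from add_sub_cancel y x] at h
    rw [one_mul, inner_sub_left]
    linarith

lemma tame_psi {q : ℝ} (hq : q ∈ D.I) : Tame (D.ψ q) := by
  have hW := logConc D hP hT hτ hq
  have hg : Function.HasTemperateGrowth (D.gψ q) :=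
    (ContinuousLinearMap.id ℝ (E d)).hasTemperateGrowth.add
      (((q * D.ε) • ContinuousLinearMap.id ℝ (E d)).hasTemperateGrowth.comp
        (tame_Gq D hP hT hτ hq))
  obtain ⟨M, hM⟩ := hW.lip
  have hK : ∀ x, ‖D.gψ q x‖ ≤ (‖D.gψ q 0‖ + M) * (1 + ‖x‖) ^ 1 := fun x => by
    have h2 := hM.norm_sub_le x 0
    rw [sub_zero] at h2
    nlinarith [norm_le_norm_add_norm_sub' (D.gψ q x) (D.gψ q 0), norm_nonneg (D.gψ q 0),
      norm_nonneg x, NNReal.coe_nonneg M]
  obtain ⟨A, N, -, hA⟩ := LogConcave.poly_fun hW.grad hK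
  refine Function.HasTemperateGrowth.of_fderiv ?_ (hW.contDiff.differentiable (by norm_num))
    (k := N) (C := A) fun x => by rw [Real.norm_eq_abs]; exact hA x
  have e : fderiv ℝ (D.ψ q) = fun x => innerSL ℝ (D.gψ q x) := funext fun x => by
    rw [(hasGradientAt_iff_hasFDerivAt.1 (hW.grad x)).fderiv]
    ext u
    simp [InnerProductSpace.toDual_apply_apply]
  rw [e]
  exact (innerSL ℝ : E d →L[ℝ] E d →L[ℝ] ℝ).hasTemperateGrowth.comp hg

theorem ibp {q : ℝ} (hq : q ∈ D.I) : IBP (gibbs (D.ψ q)) (D.ψ q) :=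
  ibp_logConc (logConc D hP hT hτ hq) (tame_psi D hP hT hτ hq)

end Law

end Reg

end Vale.Agent.P347.Gamma0
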