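import Vale.Agent.P347.Gamma0.WordSeries
import Vale.Agent.P347.Gamma0.Build

/-!
P347, towards `γ_* = 0`, piece U2: the skew word system on `na + 1` blocks, its isometric solution,
the invariance of the Gaussian law, and the lowest coefficient in each level, the ordered word.
-/

namespace Vale.Agent.P347.Gamma0.Words

open MeasureTheory ProbabilityTheory Filter Topology
open scoped RealInnerProductSpace

variable {d na : ℕ}

/-- States of the system. -/
abbrev Blk (d na : ℕ) := PiLp 2 (fun _ : Fin (na + 1) => E d)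

/-- The level `m`, zero beyond the last one. -/
noncomputable def lvl (x : Blk d na) (m : ℕ) : E d := if h : m < na + 1 then x ⟨m, h⟩ else 0

/-- The state from the levels. -/
noncomputable def mkBlk (v : Fin (na + 1) → E d) : Blk d na := WithLp.toLp 2 v

/-- The coupling from the level below. -/
noncomputable def up (φ : Fin na → ℝ) (a : E d →L[ℝ] E d) : Blk d na →L[ℝ] Blk d na :=
  ((PiLp.continuousLinearEquiv 2 ℝ (fun _ : Fin (na + 1) => E d)).symm :
      (Fin (na + 1) → E d) →L[ℝ] Blk d na).comp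
    (ContinuousLinearMap.pi (Fin.cases 0
      fun i => φ i • a.comp (PiLp.proj 2 (fun _ : Fin (na + 1) => E d) i.castSucc)))

/-- The coupling from the level above. -/
noncomputable def down (φ : Fin na → ℝ) (a : E d →L[ℝ] E d) : Blk d na →L[ℝ] Blk d na :=
  ((PiLp.continuousLinearEquiv 2 ℝ (fun _ : Fin (na + 1) => E d)).symm :
      (Fin (na + 1) → E d) →L[ℝ] Blk d na).comp
    (ContinuousLinearMap.pi (Fin.lastCases 0
      fun i => φ i • a.comp (PiLp.proj 2 (fun _ : Fin (na + 1) => E d) i.succ)))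

lemma up_apply (φ : Fin na → ℝ) (a : E d →L[ℝ] E d) (x : Blk d na) (i : Fin na) :
    up φ a x 0 = 0 ∧ up φ a x i.succ = φ i • a (x i.castSucc) :=
  ⟨by simp [up], by simp [up]⟩

lemma down_apply (φ : Fin na → ℝ) (a : E d →L[ℝ] E d) (x : Blk d na) (i : Fin na) :
    down φ a x (Fin.last na) = 0 ∧ down φ a x i.castSucc = φ i • a (x i.succ) :=
  ⟨by simp [down], by simp [down]⟩

lemma norm_sq_up (φ : Fin na → ℝ) (a : E d →L[ℝ] E d) (x : Blk d na) :
    ‖up φ a x‖ ^ 2 = ∑ i : Fin na, ‖φ i • a (x i.castSucc)‖ ^ 2 := by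
  rw [PiLp.norm_sq_eq_of_L2, Fin.sum_univ_succ]
  have h0 : up φ a x 0 = 0 := by simp [up]
  simp [h0, (up_apply φ a x _).2]

lemma norm_sq_down (φ : Fin na → ℝ) (a : E d →L[ℝ] E d) (x : Blk d na) :
    ‖down φ a x‖ ^ 2 = ∑ i : Fin na, ‖φ i • a (x i.succ)‖ ^ 2 := by
  rw [PiLp.norm_sq_eq_of_L2, Fin.sum_univ_castSucc]
  have h0 : down φ a x (Fin.last na) = 0 := by simp [down]
  simp [h0, (down_apply φ a x _).2]

/-- The skew block operator. -/
noncomputable def blk (φ : Fin na → ℝ) (a : E d →L[ℝ] E d) : Blk d na →L[ℝ] Blk d na :=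
  up φ a - down φ a

lemma inner_blk {φ : Fin na → ℝ} {a : E d →L[ℝ] E d} (ha : ∀ u v, ⟪a u, v⟫ = ⟪a v, u⟫)
    (x : Blk d na) : ⟪x, blk φ a x⟫ = 0 := by
  have h1 : ⟪x, up φ a x⟫ = ∑ i : Fin na, φ i * ⟪x i.succ, a (x i.castSucc)⟫ := by
    rw [PiLp.inner_apply, Fin.sum_univ_succ]
    have h0 : up φ a x 0 = 0 := by simp [up]
    simp [h0, (up_apply φ a x _).2, real_inner_smul_right]
  have h2 : ⟪x, down φ a x⟫ = ∑ i : Fin na, φ i * ⟪x i.castSucc, a (x i.succ)⟫ := by
    rw [PiLp.inner_apply, Fin.sum_univ_castSucc]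
    have h0 : down φ a x (Fin.last na) = 0 := by simp [down]
    simp [h0, (down_apply φ a x _).2, real_inner_smul_right]
  rw [blk, sub_apply, inner_sub_right, h1, h2, sub_eq_zero]
  exact Finset.sum_congr rfl fun i _ => by rw [real_inner_comm, ha, real_inner_comm]

lemma norm_smul_le_one {φ : ℝ} {a : E d →L[ℝ] E d} (hφ : |φ| ≤ 1) (ha : ‖a‖ ≤ 1) (v : E d) :
    ‖φ • a v‖ ≤ ‖v‖ := by
  rw [norm_smul, Real.norm_eq_abs]
  calc |φ| * ‖a v‖ ≤ 1 * (1 * ‖v‖) := mul_le_mul hφ (a.le_of_opNorm_le ha v) (norm_nonneg _) zero_le_one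
    _ = ‖v‖ := by ring

lemma norm_blk_le {φ : Fin na → ℝ} {a : E d →L[ℝ] E d} (hφ : ∀ i, |φ i| ≤ 1) (ha : ‖a‖ ≤ 1) :
    ‖blk φ a‖ ≤ 2 := by
  refine ContinuousLinearMap.opNorm_le_bound _ two_pos.le fun x => ?_
  have hu : ‖up φ a x‖ ≤ ‖x‖ := by
    refine (pow_le_pow_iff_left₀ (norm_nonneg _) (norm_nonneg _) two_ne_zero).1 ?_
    rw [norm_sq_up, PiLp.norm_sq_eq_of_L2 _ x, Fin.sum_univ_castSucc (n := na)]
    refine le_add_of_le_of_nonneg (Finset.sum_le_sum fun i _ => ?_) (sq_nonneg _)
    exact pow_le_pow_left₀ (norm_nonneg _) (norm_smul_le_one (hφ i) ha _) 2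
  have hd : ‖down φ a x‖ ≤ ‖x‖ := by
    refine (pow_le_pow_iff_left₀ (norm_nonneg _) (norm_nonneg _) two_ne_zero).1 ?_
    rw [norm_sq_down, PiLp.norm_sq_eq_of_L2 _ x, Fin.sum_univ_succ (n := na)]
    refine le_add_of_nonneg_of_le (sq_nonneg _) (Finset.sum_le_sum fun i _ => ?_)
    exact pow_le_pow_left₀ (norm_nonneg _) (norm_smul_le_one (hφ i) ha _) 2
  rw [blk, sub_apply]
  linarith [norm_sub_le (up φ a x) (down φ a x)]

lemma lvl_blk (ψ : ℕ → ℝ) (a : E d →L[ℝ] E d) (x : Blk d na) {m : ℕ} (hm : m ≤ na) :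
    lvl (blk (fun i : Fin na => ψ i) a x) m
      = (if 1 ≤ m then ψ (m - 1) • a (lvl x (m - 1)) else 0)
        - (if m < na then ψ m • a (lvl x (m + 1)) else 0) := by
  have hm' : m < na + 1 := Nat.lt_succ_of_le hm
  simp only [lvl, dif_pos hm', blk, sub_apply, PiLp.sub_apply]
  congr 1
  · rcases m with _ | k
    · simp [up]
    · have hk : k < na := by omega
      have e : (⟨k + 1, hm'⟩ : Fin (na + 1)) = (⟨k, hk⟩ : Fin na).succ := rfl
      rw [e, (up_apply _ a x _).2, if_pos (Nat.le_add_left 1 k)]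
      simp [show k < na + 1 by omega]
  · rcases eq_or_lt_of_le hm with h | h
    · have e : (⟨m, hm'⟩ : Fin (na + 1)) = Fin.last na := Fin.ext h
      rw [e]; simp [down, h]
    · have e : (⟨m, hm'⟩ : Fin (na + 1)) = (⟨m, h⟩ : Fin na).castSucc := rfl
      rw [e, (down_apply _ a x _).2, if_pos h]
      simp [show m < na by omega]

/-! ### The generator in time -/

/-- The weights of the system of size `n`. -/
noncomputable def phiC (n m : ℕ) (q : ℝ) : ℝ := if m < n then Build.phi m q else 0

/-- Time clamped to `[0, T]`. -/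
noncomputable def cl (T q : ℝ) : ℝ := max 0 (min T q)

lemma cl_mem {T : ℝ} (hT : 0 ≤ T) (q : ℝ) : cl T q ∈ Set.Icc 0 T :=
  ⟨le_max_left _ _, max_le hT (min_le_left _ _)⟩

lemma cl_eq {T q : ℝ} (hq : q ∈ Set.Icc 0 T) : cl T q = q := by
  rw [cl, min_eq_right hq.2, max_eq_right hq.1]

lemma continuous_cl (T : ℝ) : Continuous (cl T) :=
  continuous_const.max (continuous_const.min continuous_id)

/-- The generator. -/
noncomputable def gen (n : ℕ) (T : ℝ) (a : ℝ → E d →L[ℝ] E d) (r : ℝ) :
    Blk d na →L[ℝ] Blk d na :=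
  blk (fun i : Fin na => phiC n i (cl T r)) (a r)

/-- A path of symmetric operators between `-1` and `1` on the clamped interval. -/
structure Path (T : ℝ) (a : ℝ → E d →L[ℝ] E d) : Prop where
  nonneg : 0 ≤ T
  le_one : T ≤ 1
  cont : Continuous a
  norm_le : ∀ r, ‖a r‖ ≤ 1
  symm : ∀ r u v, ⟪a r u, v⟫ = ⟪a r v, u⟫

lemma abs_phiC_le {T : ℝ} (hT : 0 ≤ T) (hT1 : T ≤ 1) (n m : ℕ) (r : ℝ) :
    |phiC n m (cl T r)| ≤ 1 := by
  have h := cl_mem hT r
  simp only [phiC, Build.phi]
  split_ifs <;> simp [abs_of_nonneg h.1, h.2.trans hT1]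

lemma continuous_phiC (n m : ℕ) : Continuous (phiC n m) := by
  unfold phiC Build.phi
  split_ifs <;> fun_prop

lemma continuous_gen_param {X : Type*} [TopologicalSpace X] (n : ℕ) {t : X → ℝ}
    {a : X → E d →L[ℝ] E d} (ht : Continuous t) (ha : Continuous a) :
    Continuous fun x => blk (fun i : Fin na => phiC n i (t x)) (a x) := by
  refine continuous_clm_apply.2 fun y => ?_
  have h : ∀ (i : Fin na) (v : E d), Continuous fun x => phiC n i (t x) • a x v :=
    fun i v => ((continuous_phiC n i).comp ht).smul (ha.clm_apply continuous_const)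
  have hu : Continuous fun x => up (fun i : Fin na => phiC n i (t x)) (a x) y := by
    refine (PiLp.continuous_toLp 2 _).comp (continuous_pi fun m => ?_)
    refine Fin.cases ?_ (fun i => ?_) m
    · simpa using continuous_const
    · simpa using h i (y i.castSucc)
  have hd : Continuous fun x => down (fun i : Fin na => phiC n i (t x)) (a x) y := by
    refine (PiLp.continuous_toLp 2 _).comp (continuous_pi fun m => ?_)
    refine Fin.lastCases ?_ (fun i => ?_) m
    · simpa using continuous_const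
    · simpa using h i (y i.succ)
  simp only [blk, sub_apply]
  exact hu.sub hd

lemma gen_ok {T : ℝ} {a : ℝ → E d →L[ℝ] E d} (hP : Path T a) (n : ℕ) :
    Gen (gen (na := na) n T a) 2 where
  cont := continuous_gen_param n (continuous_cl T) hP.cont
  nonneg := two_pos.le
  le r := norm_blk_le (fun i => abs_phiC_le hP.nonneg hP.le_one n i r) (hP.norm_le r)

lemma gen_skew {T : ℝ} {a : ℝ → E d →L[ℝ] E d} (hP : Path T a) (n : ℕ) (r : ℝ) (x : Blk d na) :
    ⟪x, gen n T a r x⟫ = 0 := inner_blk (hP.symm r) x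

/-! ### The words -/

/-- The ordered word with `m` letters. -/
noncomputable def word (T : ℝ) (a : ℝ → E d →L[ℝ] E d) : ℕ → ℝ → E d → E d
  | 0, _, Z => Z
  | m + 1, q, Z => ∫ r in (0 : ℝ)..q, Build.phi m (cl T r) • a r (word T a m r Z)

/-- The state with `Z` at the bottom and nothing above. -/
noncomputable def base (Z : E d) : Blk d na := mkBlk (Fin.cons Z fun _ => 0)

lemma lvl_base (Z : E d) (m : ℕ) : lvl (base (na := na) Z) m = if m = 0 then Z else 0 := by
  rcases m with _ | m
  · simp [lvl, base, mkBlk]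
  · by_cases h : m + 1 < na + 1
    · have e : (⟨m + 1, h⟩ : Fin (na + 1)) = (⟨m, by omega⟩ : Fin na).succ := rfl
      simp only [lvl, dif_pos h, base, mkBlk, e, WithLp.ofLp_toLp, Fin.cons_succ,
        if_neg (Nat.succ_ne_zero m)]
    · simp [lvl, h]

lemma lvl_integral {f : ℝ → Blk d na} (hf : Continuous f) (m : ℕ) (q : ℝ) :
    lvl (∫ r in (0 : ℝ)..q, f r) m = ∫ r in (0 : ℝ)..q, lvl (f r) m := by
  by_cases h : m < na + 1
  · simp only [lvl, dif_pos h]
    exact ((PiLp.proj 2 (fun _ : Fin (na + 1) => E d) ⟨m, h⟩ : Blk d na →L[ℝ] E d).intervalIntegral_comp_comm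
      (hf.intervalIntegrable 0 q)).symm
  · simp [lvl, h]

/-- The lowest order term in every level. -/
lemma lvl_term_base {T : ℝ} {a : ℝ → E d →L[ℝ] E d} (hP : Path T a) (n : ℕ) (Z : E d) :
    ∀ (k : ℕ) (q : ℝ) (m : ℕ), m ≤ na →
      (k < m → lvl (term (gen (na := na) n T a) k q (base Z)) m = 0) ∧
      (k = m → m ≤ n → lvl (term (gen (na := na) n T a) k q (base Z)) m = word T a m q Z) := by
  intro k
  induction k with
  | zero =>
    intro q m hm
    refine ⟨fun h => ?_, fun h _ => ?_⟩
    · simp [term, lvl_base, show m ≠ 0 by omega]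
    · subst h; simp [term, lvl_base, word]
  | succ k ih =>
    intro q m hm
    have hB := gen_ok (na := na) hP n
    have hc : Continuous fun r => gen (na := na) n T a r (term (gen n T a) k r (base Z)) :=
      hB.cont.clm_apply ((continuous_term hB k).clm_apply continuous_const)
    have e : lvl (term (gen (na := na) n T a) (k + 1) q (base Z)) m
        = ∫ r in (0 : ℝ)..q, lvl (gen (na := na) n T a r (term (gen n T a) k r (base Z))) m := by
      rw [term, ← lvl_integral hc, ContinuousLinearMap.intervalIntegral_apply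
        ((hB.cont.clm_comp (continuous_term hB k)).intervalIntegrable 0 q)]
      rfl
    have hl : ∀ r, lvl (gen (na := na) n T a r (term (gen n T a) k r (base Z))) m
        = (if 1 ≤ m then phiC n (m - 1) (cl T r)
              • a r (lvl (term (gen (na := na) n T a) k r (base Z)) (m - 1)) else 0)
          - (if m < na then phiC n m (cl T r)
              • a r (lvl (term (gen (na := na) n T a) k r (base Z)) (m + 1)) else 0) :=
      fun r => lvl_blk (fun j => phiC n j (cl T r)) (a r) _ hm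
    refine ⟨fun h => ?_, fun h hn => ?_⟩
    · rw [e, intervalIntegral.integral_congr (g := fun _ => (0 : E d)) fun r _ => ?_]
      · simp
      simp only [hl]
      rw [if_pos (by omega : 1 ≤ m), (ih r (m - 1) (by omega)).1 (by omega), map_zero, smul_zero,
        zero_sub, neg_eq_zero]
      split_ifs with h2
      · rw [(ih r (m + 1) (by omega)).1 (by omega), map_zero, smul_zero]
      · rfl
    · subst h
      rw [e, word]
      refine intervalIntegral.integral_congr fun r _ => ?_
      simp only [hl]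
      rw [if_pos (Nat.le_add_left 1 k)]
      simp only [Nat.add_sub_cancel]
      rw [(ih r k (by omega)).2 rfl (by omega), phiC, if_pos (show k < n by omega)]
      split_ifs with h2
      · rw [(ih r (k + 1 + 1) (by omega)).1 (by omega), map_zero, smul_zero, sub_zero]
      · rw [sub_zero]

/-! ### Gaussian laws -/

/-- The standard Gaussian law of states. -/
noncomputable def gamB (d na : ℕ) : Measure (Blk d na) := stdGaussian (Blk d na)

instance : IsProbabilityMeasure (gamB d na) := by unfold gamB; infer_instance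

lemma map_isometry_gamB {L : Blk d na →L[ℝ] Blk d na} (h : ∀ x, ‖L x‖ = ‖x‖) :
    (gamB d na).map L = gamB d na := by
  let e : Blk d na ≃ₗᵢ[ℝ] Blk d na :=
    (⟨L.toLinearMap, h⟩ : Blk d na →ₗᵢ[ℝ] Blk d na).toLinearIsometryEquiv rfl
  have : (⇑L : Blk d na → Blk d na) = ⇑e := rfl
  rw [this, gamB]
  exact stdGaussian_map e

lemma map_proj_gamB (i : Fin (na + 1)) : (gamB d na).map (fun x => x i) = gam d := by
  have hm : Measurable fun x : Blk d na => x i := (PiLp.continuous_apply 2 _ i).measurable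
  have : IsProbabilityMeasure (gam d) := by unfold gam; infer_instance
  have := Measure.isProbabilityMeasure_map (μ := gamB d na) hm.aemeasurable
  apply Measure.ext_of_charFun
  funext t
  rw [gam, charFun_stdGaussian, charFun_apply, integral_map hm.aemeasurable (by fun_prop)]
  have e : ∀ x : Blk d na, ⟪x i, t⟫ = ⟪x, PiLp.single 2 i t⟫ := fun x => by
    rw [PiLp.inner_apply x (PiLp.single 2 i t), Finset.sum_eq_single i (fun j _ hj => by simp [hj])
      (fun h => absurd (Finset.mem_univ i) h)]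
    simp
  simp only [e, ← charFun_apply, gamB, charFun_stdGaussian, PiLp.norm_single]

lemma map_init {σ : ℝ} (hσ : |σ| = 1) :
    ((gam d).prod (Measure.pi fun _ : Fin na => gam d)).map
      (fun p => mkBlk (Fin.cons p.1 fun i => σ • p.2 i)) = gamB d na := by
  have : IsProbabilityMeasure (gam d) := by unfold gam; infer_instance
  set M : E d × (Fin na → E d) → Blk d na := fun p => mkBlk (Fin.cons p.1 fun i => σ • p.2 i)
  have hM : Measurable M := by
    refine (PiLp.continuous_toLp 2 _).measurable.comp (Continuous.measurable ?_)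
    exact continuous_pi fun j => Fin.cases (by simpa using continuous_fst)
      (fun i => by
        simp only [Fin.cons_succ]
        exact ((continuous_apply i).comp continuous_snd).const_smul σ) j
  have := Measure.isProbabilityMeasure_map
    (μ := (gam d).prod (Measure.pi fun _ : Fin na => gam d)) hM.aemeasurable
  apply Measure.ext_of_charFun
  funext t
  rw [gamB, charFun_stdGaussian, charFun_apply, integral_map hM.aemeasurable (by fun_prop)]
  have e : ∀ p : E d × (Fin na → E d), Complex.exp ((⟪M p, t⟫ : ℝ) * Complex.I)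
      = Complex.exp ((⟪p.1, t 0⟫ : ℝ) * Complex.I)
        * Complex.exp ((⟪WithLp.toLp 2 p.2,
            (WithLp.toLp 2 fun i => σ • t i.succ : PiLp 2 fun _ : Fin na => E d)⟫ : ℝ) * Complex.I) :=
    fun p => by
      rw [← Complex.exp_add, ← add_mul, ← Complex.ofReal_add, PiLp.inner_apply (M p),
        Fin.sum_univ_succ, PiLp.inner_apply (WithLp.toLp 2 p.2)]
      simp only [M, mkBlk, Fin.cons_zero, Fin.cons_succ, real_inner_smul_left,
        real_inner_smul_right]
  simp only [e]
  rw [integral_prod_mul (fun z : E d => Complex.exp ((⟪z, t 0⟫ : ℝ) * Complex.I))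
    (fun u : Fin na → E d => Complex.exp ((⟪WithLp.toLp 2 u,
      (WithLp.toLp 2 fun i => σ • t i.succ : PiLp 2 fun _ : Fin na => E d)⟫ : ℝ) * Complex.I))]
  have e2 : (∫ u : Fin na → E d, Complex.exp ((⟪WithLp.toLp 2 u,
      (WithLp.toLp 2 fun i => σ • t i.succ : PiLp 2 fun _ : Fin na => E d)⟫ : ℝ) * Complex.I)
        ∂Measure.pi fun _ : Fin na => gam d)
      = ∏ i : Fin na, charFun (gam d) (σ • t i.succ) := by
    rw [← charFun_pi (WithLp.toLp 2 fun i => σ • t i.succ : PiLp 2 fun _ : Fin na => E d),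
      charFun_apply, integral_map (PiLp.continuous_toLp 2 _).measurable.aemeasurable (by fun_prop)]
  rw [← charFun_apply, e2]
  simp only [gam, charFun_stdGaussian, ← Complex.exp_sum, ← Complex.exp_add, norm_smul,
    Real.norm_eq_abs, hσ, one_mul]
  congr 1
  have hn : ((‖t‖ : ℝ) : ℂ) ^ 2 = ((‖t 0‖ : ℝ) : ℂ) ^ 2
      + ∑ i : Fin na, ((‖t i.succ‖ : ℝ) : ℂ) ^ 2 := by
    rw [← Complex.ofReal_pow, PiLp.norm_sq_eq_of_L2 _ t, Fin.sum_univ_succ]
    push_cast
    rfl
  rw [hn, neg_add, add_div, ← Finset.sum_neg_distrib, Finset.sum_div]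

end Vale.Agent.P347.Gamma0.Words
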