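import Vale.Agent.P347.Gamma0.RegSeq
import Vale.Agent.P347.Gamma0.WordSys

/-!
P347, towards `γ_* = 0`, piece 4 (regularity): the skew block matrix of the word system and its
multiplier bound.
-/

namespace Vale.Agent.P347.Gamma0

namespace Reg

open MeasureTheory Sobolev Set
open scoped ContDiff

set_option linter.unusedSectionVars false

/-- A chain of derivatives on an open set. -/
lemma chain_iterate_open {V : Type} [NormedAddCommGroup V] [NormedSpace ℝ V] {U : Set ℝ}
    (hU : IsOpen U) {h : ℕ → ℝ → V} (hh : ∀ k, ∀ t ∈ U, HasDerivAt (h k) (h (k + 1) t) t) (n : ℕ) :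
    (∀ t ∈ U, iteratedDeriv n (h 0) t = h n t) ∧ ∀ k, ContDiffOn ℝ n (h k) U := by
  induction n with
  | zero => exact ⟨fun t _ => by rw [iteratedDeriv_zero], fun k => contDiffOn_zero.2
      fun t ht => (hh k t ht).continuousAt.continuousWithinAt⟩
  | succ n ih =>
    refine ⟨fun t ht => ?_, fun k => ?_⟩
    · rw [iteratedDeriv_succ,
        Filter.EventuallyEq.deriv_eq (Filter.eventually_of_mem (hU.mem_nhds ht) ih.1)]
      exact (hh n t ht).deriv
    · rw [Nat.cast_succ]
      refine (contDiffOn_succ_iff_deriv_of_isOpen hU).2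
        ⟨fun t ht => (hh k t ht).differentiableAt.differentiableWithinAt, by simp, ?_⟩
      exact (ih.2 (k + 1)).congr fun t ht => (hh k t ht).deriv

namespace Sys

variable {ι : Type} [Fintype ι] [DecidableEq ι] {S : Sys ι} {P : S.Pt} {N : ℕ}

lemma AMul.zero (j : ℕ) : ∀ {β γ : Type} [Fintype β] [Fintype γ] (s : ℝ),
    AMul P N j (fun (_ : β) (_ : γ) (_ : ℝ) (_ : (EuclideanSpace ℝ ι)) => (0 : ℝ)) s := by
  induction j with
  | zero => intro β γ _ _ s; exact ⟨fun _ _ => S.ok_const 0, mulBound_zero N⟩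
  | succ j ih =>
    intro β γ _ _ s
    refine ⟨⟨fun _ _ => S.ok_const 0, mulBound_zero N⟩, fun _ _ _ _ _ => 0, fun _ _ _ _ => 0,
      ih _, ih _, ih _, fun b c q _ x => ?_⟩
    simp [S.A_const, pd_const]

lemma AMul.sum (j : ℕ) {β γ : Type} [Fintype β] [Fintype γ] {κ' : Type} (t : Finset κ')
    {M : κ' → β → γ → ℝ → (EuclideanSpace ℝ ι) → ℝ} {s : ℝ} (hs : 0 ≤ s) (h : ∀ a ∈ t, AMul P N j (M a) s) :
    AMul P N j (fun b c q x => ∑ a ∈ t, M a b c q x) ((t.card : ℝ) * s) := by
  classical
  induction t using Finset.induction with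
  | empty => simpa using AMul.zero (P := P) (N := N) j 0
  | @insert a t ha ih =>
    have h1 := AMul.add j hs (by positivity) (h a (Finset.mem_insert_self a t))
      (ih fun b hb => h b (Finset.mem_insert_of_mem hb))
    simp only [Finset.sum_insert ha]
    rw [Finset.card_insert_of_notMem ha, Nat.cast_succ, add_mul, one_mul, add_comm]
    exact h1

end Sys

variable {d na : ℕ}

/-- The coefficients of the skew block structure. -/
def bK (φ : Fin na → ℝ) (p p' : Fin (na + 1)) : ℝ :=
  ∑ i : Fin na, φ i * ((if p = i.succ ∧ p' = i.castSucc then 1 else 0)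
    - (if p = i.castSucc ∧ p' = i.succ then 1 else 0))

lemma bK_swap (φ : Fin na → ℝ) (p p' : Fin (na + 1)) : bK φ p' p = -bK φ p p' := by
  simp only [bK, ← Finset.sum_neg_distrib]
  refine Finset.sum_congr rfl fun i _ => ?_
  simp only [and_comm (a := p' = i.succ), and_comm (a := p' = i.castSucc)]
  ring

/-- The block matrix `bK φ ⊗ M`. -/
noncomputable def blockJ (φ : Fin na → ℝ → ℝ) (M : Fin d → Fin d → ℝ → E d → ℝ) :
    Fin (na + 1) × Fin d → Fin (na + 1) × Fin d → ℝ → E d → ℝ :=
  fun c e q w => bK (fun i => φ i q) c.1 e.1 * M c.2 e.2 q w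

/-- A level as a block. -/
def emb (p : Fin (na + 1)) : Fin (na + 1) × Fin d → Fin d → ℝ :=
  fun c a => if c.1 = p ∧ c.2 = a then 1 else 0

lemma opLe_emb (p : Fin (na + 1)) : OpLe (emb (d := d) p) 1 := fun v => by
  simp [emb, Fintype.sum_prod_type, ite_and, Finset.sum_ite_eq']

lemma opLe_emb' (p : Fin (na + 1)) : OpLe (fun a c => emb (d := d) p c a) 1 :=
  (opLe_emb p).transpose zero_le_one

/-- One level applied to a vector. -/
lemma blk_apply (φ : Fin na → ℝ) (A : E d →L[ℝ] E d) (x : Words.Blk d na) (p : Fin (na + 1))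
    (a : Fin d) :
    Words.blk φ A x p a
      = ∑ e : Fin (na + 1) × Fin d, bK φ p e.1 * A (bv e.2) a * x e.1 e.2 := by
  have hA : ∀ v : E d, A v a = ∑ b, v b * A (bv b) a := fun v => by
    conv_lhs => rw [show v = ∑ b, v b • bv b from by
      simpa [bv, EuclideanSpace.basisFun_apply] using
        ((EuclideanSpace.basisFun (Fin d) ℝ).sum_repr v).symm]
    simp
  have hu : Words.up φ A x p a
      = ∑ i : Fin na, if p = i.succ then φ i * A (x i.castSucc) a else 0 := by
    refine Fin.cases ?_ (fun j => ?_) p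
    · rw [(show Words.up φ A x 0 = 0 by simp [Words.up])]
      simp [(Fin.succ_ne_zero _).symm]
    · rw [(Words.up_apply φ A x j).2, Finset.sum_eq_single j]
      · simp
      · intro i _ hi; simp [Ne.symm hi]
      · simp
  have hd : Words.down φ A x p a
      = ∑ i : Fin na, if p = i.castSucc then φ i * A (x i.succ) a else 0 := by
    refine Fin.lastCases ?_ (fun j => ?_) p
    · rw [(show Words.down φ A x (Fin.last na) = 0 by simp [Words.down])]
      simp [(Fin.castSucc_ne_last _).symm]
    · rw [(Words.down_apply φ A x j).2, Finset.sum_eq_single j]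
      · simp
      · intro i _ hi; simp [Ne.symm hi]
      · simp
  rw [Words.blk, sub_apply, PiLp.sub_apply, PiLp.sub_apply, hu, hd, Fintype.sum_prod_type,
    ← Finset.sum_sub_distrib]
  simp only [bK, Finset.sum_mul]
  conv_rhs => enter [2, p']; rw [Finset.sum_comm]
  rw [Finset.sum_comm (s := (Finset.univ : Finset (Fin (na + 1))))]
  refine Finset.sum_congr rfl fun i _ => ?_
  rw [hA (x i.castSucc), hA (x i.succ)]
  simp only [mul_sub, sub_mul, Finset.sum_sub_distrib, ite_and, mul_ite, mul_one, mul_zero, ite_mul,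
    zero_mul]
  congr 1
  · by_cases h : p = i.succ
    · simp only [h, if_true, Finset.mul_sum]
      rw [Finset.sum_eq_single i.castSucc (fun b _ hb => by simp [hb]) (by simp)]
      simp only [if_true]
      exact Finset.sum_congr rfl fun b _ => by ring
    · simp [h]
  · by_cases h : p = i.castSucc
    · simp only [h, if_true, Finset.mul_sum]
      rw [Finset.sum_eq_single i.succ (fun b _ hb => by simp [hb]) (by simp)]
      simp only [if_true]
      exact Finset.sum_congr rfl fun b _ => by ring
    · simp [h]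

variable (hP : PostFacts) (hT : TameFact)
include hP hT

/-- The weights of the word system times a multiplier. -/
lemma aMul_phi {D : Data d} {hτ : D.τ ≤ 1} {P : (baseSys hP D hT hτ).Pt} {N j : ℕ}
    (hA : Adm hP D hT hτ P) {M : Fin d → Fin d → ℝ → E d → ℝ} {C : ℝ} (hC : 0 ≤ C)
    (hM : Sys.AMul P N j M C) (k : ℕ) (i : ℕ) :
    Sys.AMul P N j (fun a b q w => Words.phiC k i q * M a b q w) (2 ^ j * C) := by
  have h2 : C ≤ 2 ^ j * C := le_mul_of_one_le_left hC (one_le_pow₀ one_le_two)
  simp only [Words.phiC, Build.phi]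
  by_cases hik : i < k
  · by_cases hi : i = 0
    · simp only [hi, hi ▸ hik, if_true, one_mul]
      exact Sys.AMul.mono P N j hM hC h2
    · simp only [hik, hi, if_true, if_false]
      have hqT : |P.q₀| ≤ Real.sqrt D.τ := abs_le.2 ⟨P.mem.1.le, P.mem.2.le⟩
      refine Sys.AMul.mono P N j (Sys.AMul.qmul (S := baseSys hP D hT hτ)
        (Alg.qfun (φ := id) contDiff_id) (Real.sqrt_nonneg _) hqT hA.lt j hC hM) (by positivity) ?_
      rw [mul_assoc]
      exact mul_le_mul_of_nonneg_left (mul_le_of_le_one_left hC (Real.sqrt_le_one.2 hτ))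
        (by positivity)
  · simp only [hik, if_false, zero_mul]
    exact Sys.AMul.zero j _

/-- The block matrix is a multiplier. -/
lemma aMul_blockJ {D : Data d} {hτ : D.τ ≤ 1} {P : (baseSys hP D hT hτ).Pt} {N j : ℕ}
    (hA : Adm hP D hT hτ P) {M : Fin d → Fin d → ℝ → E d → ℝ} {C : ℝ} (hC : 0 ≤ C)
    (hM : Sys.AMul P N j M C) (k : ℕ) :
    Sys.AMul P N j (blockJ (fun i : Fin na => Words.phiC k i) M) (2 * na * (2 ^ j * C)) := by
  have hC' : 0 ≤ 2 ^ j * C := by positivity
  have h1 : ∀ i : Fin na, Sys.AMul P N j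
      (fun c e q w => Sys.conjT (emb i.succ)
            (fun a b q w => Words.phiC k i q * M a b q w) (fun a e => emb i.castSucc e a) c e q w
          + (-1) * Sys.conjT (emb i.castSucc)
            (fun a b q w => Words.phiC k i q * M a b q w) (fun a e => emb i.succ e a) c e q w)
      (2 * (2 ^ j * C)) := fun i => by
    have hp := aMul_phi hP hT hA hC hM k i
    have t1 := Sys.AMul.conj j (opLe_emb (d := d) i.succ) (opLe_emb' i.castSucc) hp
    have t2 := Sys.AMul.smul (-1) j
      (Sys.AMul.conj j (opLe_emb (d := d) i.castSucc) (opLe_emb' i.succ) hp)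
    have h := Sys.AMul.add j (by positivity) (by positivity) t1 t2
    rw [show 1 * (2 ^ j * C * 1) + |(-1 : ℝ)| * (1 * (2 ^ j * C * 1)) = 2 * (2 ^ j * C) by
      rw [abs_neg, abs_one]; ring] at h
    exact h
  have h2 := Sys.AMul.sum j (Finset.univ : Finset (Fin na)) (by positivity) fun i _ => h1 i
  rw [Finset.card_univ, Fintype.card_fin,
    show (na : ℝ) * (2 * (2 ^ j * C)) = 2 * na * (2 ^ j * C) by ring] at h2
  refine Sys.AMul.congr j h2 (fun c e => ?_) fun c e q _ w => ?_
  · have hφ : ∀ i : Fin na, ContDiff ℝ ∞ (Words.phiC k i) := fun i => by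
      unfold Words.phiC Build.phi
      split_ifs <;> fun_prop
    exact (Alg.qfun (ContDiff.sum fun i _ => (hφ i).mul contDiff_const)).mul
      ((Sys.AMul.base P hM).1 c.2 e.2)
  · simp only [blockJ, bK, Sys.conjT, emb, ite_and, mul_ite, mul_one, mul_zero, ite_mul, one_mul,
      zero_mul, Finset.sum_mul]
    refine Finset.sum_congr rfl fun i _ => ?_
    split_ifs <;> simp_all

end Reg

end Vale.Agent.P347.Gamma0
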