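import Vale.Agent.P347.Gamma0.RegMul

/-!
P347, towards `γ_* = 0`, piece 4 (regularity): contraction polynomials in the derivatives of the mean
gradient.  With

`L f = Δ f - 2 ∂_r f - 2 ε ∇ f · G_r`

a function `f` of `(r, y)` seen along the exact flow has `A f = δ (∇ f) + q L f`; `L G_r = 0`,
`L` commutes with `∇` up to `2 ε ∇ f · a` and obeys Leibniz up to `2 ∇ f · ∇ g`.  So the class is
closed under `∇` (weight `+1`) and under `L` (weight `+2`), and a member of weight `w` has all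
flattenings of all derivatives bounded by powers of `1 / √r` times `r ^ (-w/2)`.
-/

namespace Vale.Agent.P347.Gamma0

namespace Reg

open MeasureTheory Sobolev Set
open scoped ContDiff

set_option linter.unusedSectionVars false

variable {d : ℕ}

/-! ### Functions of the scale and the point -/

/-- Joint smoothness for positive scales. -/
def Joint (f : ℝ → E d → ℝ) : Prop :=
  ContDiffOn ℝ ∞ (fun p : ℝ × E d => f p.1 p.2) (Ioi 0 ×ˢ univ)

lemma isOpen_scales : IsOpen (Ioi (0 : ℝ) ×ˢ (univ : Set (E d))) := isOpen_Ioi.prod isOpen_univ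

lemma Joint.at' {f : ℝ → E d → ℝ} (h : Joint f) {r : ℝ} (hr : 0 < r) (y : E d) :
    ContDiffAt ℝ ∞ (fun p : ℝ × E d => f p.1 p.2) (r, y) :=
  h.contDiffAt (isOpen_scales.mem_nhds ⟨hr, mem_univ y⟩)

lemma Joint.space {f : ℝ → E d → ℝ} (h : Joint f) {r : ℝ} (hr : 0 < r) : ContDiff ℝ ∞ (f r) :=
  contDiffOn_univ.1 (h.comp (contDiff_const.prodMk contDiff_id).contDiffOn fun y _ => ⟨hr, mem_univ y⟩)

lemma Joint.diff_time {f : ℝ → E d → ℝ} (h : Joint f) {r : ℝ} (hr : 0 < r) (y : E d) :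
    DifferentiableAt ℝ (fun u => f u y) r :=
  ((h.at' hr y).differentiableAt (by simp)).comp r (f := fun u : ℝ => (u, y))
    (differentiableAt_id.prodMk (differentiableAt_const y))

lemma Joint.pd_eq {f : ℝ → E d → ℝ} (h : Joint f) {r : ℝ} (hr : 0 < r) (y : E d) (k : Fin d) :
    pd k (f r) y = fderiv ℝ (fun p : ℝ × E d => f p.1 p.2) (r, y) (0, bv k) := by
  have h' : HasFDerivAt (f r) ((fderiv ℝ (fun p : ℝ × E d => f p.1 p.2) (r, y)).comp
      ((0 : E d →L[ℝ] ℝ).prod (ContinuousLinearMap.id ℝ (E d)))) y :=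
    ((h.at' hr y).differentiableAt (by simp)).hasFDerivAt.comp y
      ((hasFDerivAt_const r y).prodMk (hasFDerivAt_id y))
  unfold Sobolev.pd
  rw [h'.fderiv]
  rfl

lemma Joint.deriv_eq {f : ℝ → E d → ℝ} (h : Joint f) {r : ℝ} (hr : 0 < r) (y : E d) :
    deriv (fun u => f u y) r = fderiv ℝ (fun p : ℝ × E d => f p.1 p.2) (r, y) (1, 0) :=
  (((h.at' hr y).differentiableAt (by simp)).hasFDerivAt.comp_hasDerivAt r
    (f := fun u : ℝ => (u, y)) ((hasDerivAt_id r).prodMk (hasDerivAt_const r y))).deriv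

lemma Joint.pd {f : ℝ → E d → ℝ} (h : Joint f) (k : Fin d) :
    Joint fun r y => Sobolev.pd k (f r) y :=
  ((h.fderiv_of_isOpen isOpen_scales (m := ∞) (by simp)).clm_apply
    (contDiff_const (c := ((0 : ℝ), bv k))).contDiffOn).congr fun p hp => h.pd_eq hp.1 p.2 k

lemma Joint.dr {f : ℝ → E d → ℝ} (h : Joint f) : Joint fun r y => deriv (fun u => f u y) r :=
  ((h.fderiv_of_isOpen isOpen_scales (m := ∞) (by simp)).clm_apply
    (contDiff_const (c := ((1 : ℝ), (0 : E d)))).contDiffOn).congr fun p hp => h.deriv_eq hp.1 p.2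

lemma Joint.mul {f g : ℝ → E d → ℝ} (h : Joint f) (h' : Joint g) :
    Joint fun r y => f r y * g r y := ContDiffOn.mul h h'

lemma Joint.add {f g : ℝ → E d → ℝ} (h : Joint f) (h' : Joint g) :
    Joint fun r y => f r y + g r y := ContDiffOn.add h h'

lemma Joint.cmul {f : ℝ → E d → ℝ} (h : Joint f) (c : ℝ) : Joint fun r y => c * f r y :=
  ContDiffOn.mul contDiffOn_const h

lemma Joint.sum {κ : Type} (s : Finset κ) {f : κ → ℝ → E d → ℝ} (h : ∀ a ∈ s, Joint (f a)) :
    Joint fun r y => ∑ a ∈ s, f a r y := ContDiffOn.sum h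

/-! Derivatives of smooth functions of the point. -/

lemma pd_fun_add {f g : E d → ℝ} (hf : ContDiff ℝ ∞ f) (hg : ContDiff ℝ ∞ g) (k : Fin d) (y : E d) :
    pd k (fun y => f y + g y) y = pd k f y + pd k g y := by
  unfold Sobolev.pd
  rw [fderiv_fun_add (hf.differentiable (by simp) y) (hg.differentiable (by simp) y)]
  rfl

lemma pd_fun_mul {f g : E d → ℝ} (hf : ContDiff ℝ ∞ f) (hg : ContDiff ℝ ∞ g) (k : Fin d) (y : E d) :
    pd k (fun y => f y * g y) y = pd k f y * g y + f y * pd k g y := by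
  unfold Sobolev.pd
  rw [fderiv_fun_mul (hf.differentiable (by simp) y) (hg.differentiable (by simp) y)]
  simp only [add_apply, smul_apply, smul_eq_mul]
  ring

lemma pd_fun_cmul {f : E d → ℝ} (hf : ContDiff ℝ ∞ f) (c : ℝ) (k : Fin d) (y : E d) :
    pd k (fun y => c * f y) y = c * pd k f y := by
  unfold Sobolev.pd
  rw [fderiv_const_mul (hf.differentiable (by simp) y)]
  rfl

lemma pd_fun_sum {κ : Type} (s : Finset κ) {f : κ → E d → ℝ} (h : ∀ a ∈ s, ContDiff ℝ ∞ (f a))
    (k : Fin d) (y : E d) : pd k (fun y => ∑ a ∈ s, f a y) y = ∑ a ∈ s, pd k (f a) y := by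
  unfold Sobolev.pd
  rw [fderiv_fun_sum fun a ha => (h a ha).differentiable (by simp) y, sum_apply]

lemma contDiff_pd {f : E d → ℝ} (hf : ContDiff ℝ ∞ f) (k : Fin d) : ContDiff ℝ ∞ (pd k f) :=
  (hf.fderiv_right (by simp)).clm_apply contDiff_const

lemma pd_swap {f : E d → ℝ} (hf : ContDiff ℝ ∞ f) (i j : Fin d) (y : E d) :
    pd i (pd j f) y = pd j (pd i f) y := by
  have hd : DifferentiableAt ℝ (fderiv ℝ f) y :=
    (hf.fderiv_right (m := ∞) (by simp)).differentiable (by simp) y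
  have e : ∀ a b : Fin d, pd a (pd b f) y = fderiv ℝ (fderiv ℝ f) y (bv a) (bv b) := fun a b => by
    have h : HasFDerivAt (pd b f) ((ContinuousLinearMap.apply ℝ ℝ (bv b)).comp
        (fderiv ℝ (fderiv ℝ f) y)) y :=
      (ContinuousLinearMap.apply ℝ ℝ (bv b)).hasFDerivAt.comp y hd.hasFDerivAt
    show fderiv ℝ (pd b f) y (bv a) = _
    rw [h.fderiv]
    rfl
  rw [e, e]
  exact (hf.contDiffAt.isSymmSndFDerivAt (by
    simp only [minSmoothness_of_isRCLikeNormedField]; exact WithTop.coe_le_coe.2 le_top)).eq _ _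

lemma deriv_pd_swap {f : ℝ → E d → ℝ} (h : Joint f) {r : ℝ} (hr : 0 < r) (k : Fin d) (y : E d) :
    deriv (fun u => pd k (f u) y) r = pd k (fun y => deriv (fun u => f u y) r) y := by
  set F : ℝ × E d → ℝ := fun p => f p.1 p.2
  have hd2 : DifferentiableAt ℝ (fderiv ℝ F) (r, y) :=
    ((h.fderiv_of_isOpen isOpen_scales (m := ∞) (by simp)).contDiffAt (x := (r, y))
      (isOpen_scales.mem_nhds ⟨hr, mem_univ y⟩)).differentiableAt (by simp)
  have l1 : deriv (fun u => pd k (f u) y) r = fderiv ℝ (fderiv ℝ F) (r, y) (1, 0) (0, bv k) := by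
    have e : (fun u => pd k (f u) y) =ᶠ[nhds r] fun u => fderiv ℝ F (u, y) (0, bv k) :=
      Filter.eventually_of_mem (Ioi_mem_nhds hr) fun u hu => h.pd_eq hu y k
    rw [e.deriv_eq]
    exact ((ContinuousLinearMap.apply ℝ ℝ ((0 : ℝ), bv k)).hasFDerivAt.comp_hasDerivAt r
      (hd2.hasFDerivAt.comp_hasDerivAt r (f := fun u : ℝ => (u, y))
        ((hasDerivAt_id r).prodMk (hasDerivAt_const r y)))).deriv
  have l2 : pd k (fun y => deriv (fun u => f u y) r) y
      = fderiv ℝ (fderiv ℝ F) (r, y) (0, bv k) (1, 0) := by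
    rw [show (fun y => deriv (fun u => f u y) r) = fun y => fderiv ℝ F (r, y) (1, 0) from
      funext fun y => h.deriv_eq hr y]
    have h' : HasFDerivAt (fun y => fderiv ℝ F (r, y) ((1 : ℝ), (0 : E d)))
        ((ContinuousLinearMap.apply ℝ ℝ ((1 : ℝ), (0 : E d))).comp
          ((fderiv ℝ (fderiv ℝ F) (r, y)).comp
            ((0 : E d →L[ℝ] ℝ).prod (ContinuousLinearMap.id ℝ (E d))))) y :=
      (ContinuousLinearMap.apply ℝ ℝ ((1 : ℝ), (0 : E d))).hasFDerivAt.comp y
        (hd2.hasFDerivAt.comp y ((hasFDerivAt_const r y).prodMk (hasFDerivAt_id y)))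
    show fderiv ℝ (fun y => fderiv ℝ F (r, y) ((1 : ℝ), (0 : E d))) y (bv k) = _
    rw [h'.fderiv]
    rfl
  rw [l1, l2]
  exact ((h.at' hr y).isSymmSndFDerivAt (by
    simp only [minSmoothness_of_isRCLikeNormedField]; exact WithTop.coe_le_coe.2 le_top)).eq _ _

/-! ### The operator `L` -/

attribute [local irreducible] G nW

/-- A component of the mean gradient. -/
noncomputable def gC (D : Data d) (i : Fin d) : ℝ → E d → ℝ :=
  fun r y => G D.U D.g D.ε r y i

/-- `L f = Δ f - 2 ∂_r f - 2 ε ∇ f · G_r`. -/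
noncomputable def Lop (D : Data d) (f : ℝ → E d → ℝ) : ℝ → E d → ℝ := fun r y =>
  (∑ k, pd k (pd k (f r)) y) - 2 * deriv (fun u => f u y) r
    - 2 * D.ε * ∑ k, pd k (f r) y * gC D k r y

lemma Lop_congr (D : Data d) {f g : ℝ → E d → ℝ} (h : ∀ r, 0 < r → ∀ y, f r y = g r y) {r : ℝ}
    (hr : 0 < r) (y : E d) : Lop D f r y = Lop D g r y := by
  have e : (fun u => f u y) =ᶠ[nhds r] fun u => g u y :=
    Filter.eventually_of_mem (Ioi_mem_nhds hr) fun u hu => h u hu y
  simp only [Lop, e.deriv_eq, show f r = g r from funext (h r hr)]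

lemma Lop_add (D : Data d) {f g : ℝ → E d → ℝ} (hf : Joint f) (hg : Joint g) {r : ℝ} (hr : 0 < r)
    (y : E d) : Lop D (fun r y => f r y + g r y) r y = Lop D f r y + Lop D g r y := by
  have e : ∀ k, pd k (fun y => f r y + g r y) = fun y => pd k (f r) y + pd k (g r) y := fun k =>
    funext fun y => pd_fun_add (hf.space hr) (hg.space hr) k y
  simp only [Lop, deriv_fun_add (hf.diff_time hr y) (hg.diff_time hr y), e,
    pd_fun_add (contDiff_pd (hf.space hr) _) (contDiff_pd (hg.space hr) _), add_mul,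
    Finset.sum_add_distrib]
  ring

lemma Lop_cmul (D : Data d) {f : ℝ → E d → ℝ} (hf : Joint f) (c : ℝ) {r : ℝ} (hr : 0 < r)
    (y : E d) : Lop D (fun r y => c * f r y) r y = c * Lop D f r y := by
  have e : ∀ k, pd k (fun y => c * f r y) = fun y => c * pd k (f r) y := fun k =>
    funext fun y => pd_fun_cmul (hf.space hr) c k y
  simp only [Lop, deriv_const_mul c (hf.diff_time hr y), e,
    pd_fun_cmul (contDiff_pd (hf.space hr) _), mul_assoc, ← Finset.mul_sum]
  ring

lemma Lop_sum (D : Data d) {κ : Type} (s : Finset κ) {f : κ → ℝ → E d → ℝ}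
    (h : ∀ a ∈ s, Joint (f a)) {r : ℝ} (hr : 0 < r) (y : E d) :
    Lop D (fun r y => ∑ a ∈ s, f a r y) r y = ∑ a ∈ s, Lop D (f a) r y := by
  classical
  induction s using Finset.induction with
  | empty =>
    have e : ∀ k : Fin d, pd k (fun _ : E d => (0 : ℝ)) = fun _ => 0 := fun k =>
      funext fun z => pd_const _ _ _
    simp [Lop, e]
  | @insert a s ha ih =>
    simp only [Finset.sum_insert ha]
    have hs := fun b hb => h b (Finset.mem_insert_of_mem hb)
    rw [Lop_add D (h a (Finset.mem_insert_self a s)) (Joint.sum s hs) hr, ih hs]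

lemma Lop_mul (D : Data d) {f g : ℝ → E d → ℝ} (hf : Joint f) (hg : Joint g) {r : ℝ} (hr : 0 < r)
    (y : E d) : Lop D (fun r y => f r y * g r y) r y
      = Lop D f r y * g r y + f r y * Lop D g r y + 2 * ∑ k, pd k (f r) y * pd k (g r) y := by
  have hf' := hf.space hr
  have hg' := hg.space hr
  have e : ∀ k, pd k (fun y => f r y * g r y)
      = fun y => pd k (f r) y * g r y + f r y * pd k (g r) y := fun k =>
    funext fun y => pd_fun_mul hf' hg' k y
  have e5 : ∀ k, pd k (fun y => pd k (f r) y * g r y + f r y * pd k (g r) y) y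
      = pd k (pd k (f r)) y * g r y + f r y * pd k (pd k (g r)) y
        + 2 * (pd k (f r) y * pd k (g r) y) := fun k => by
    rw [pd_fun_add ((contDiff_pd hf' k).mul hg') (hf'.mul (contDiff_pd hg' k)),
      pd_fun_mul (contDiff_pd hf' k) hg', pd_fun_mul hf' (contDiff_pd hg' k)]
    ring
  have e6 : ∑ k, (pd k (f r) y * g r y + f r y * pd k (g r) y) * gC D k r y
      = (∑ k, pd k (f r) y * gC D k r y) * g r y + f r y * ∑ k, pd k (g r) y * gC D k r y := by
    rw [Finset.sum_mul, Finset.mul_sum, ← Finset.sum_add_distrib]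
    exact Finset.sum_congr rfl fun k _ => by ring
  simp only [Lop, deriv_fun_mul (hf.diff_time hr y) (hg.diff_time hr y), e, e5, e6,
    Finset.sum_add_distrib, ← Finset.sum_mul, ← Finset.mul_sum]
  ring

/-- `L ∇ = ∇ L + 2 ε ∇ · a`. -/
lemma Lop_pd (D : Data d) (hG : ∀ k, Joint (gC D k)) {f : ℝ → E d → ℝ} (hf : Joint f) (j : Fin d)
    {r : ℝ} (hr : 0 < r) (y : E d) :
    Lop D (fun r y => pd j (f r) y) r y
      = pd j (Lop D f r) y + 2 * D.ε * ∑ k, pd k (f r) y * pd j (gC D k r) y := by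
  have hs := hf.space hr
  have h2 : ∀ k, ContDiff ℝ ∞ (pd k (pd k (f r))) := fun k => contDiff_pd (contDiff_pd hs k) k
  have ht : ContDiff ℝ ∞ fun y => deriv (fun u => f u y) r := hf.dr.space hr
  have hg : ∀ k, ContDiff ℝ ∞ fun y => pd k (f r) y * gC D k r y := fun k =>
    (contDiff_pd hs k).mul ((hG k).space hr)
  have eL : pd j (Lop D f r) y = (∑ k, pd j (pd k (pd k (f r))) y)
      + (-2) * pd j (fun y => deriv (fun u => f u y) r) y
      + (-(2 * D.ε)) * ∑ k, pd j (fun y => pd k (f r) y * gC D k r y) y := by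
    rw [show Lop D f r = fun y => ((∑ k, pd k (pd k (f r)) y)
        + (-2) * deriv (fun u => f u y) r) + (-(2 * D.ε)) * ∑ k, pd k (f r) y * gC D k r y from
      funext fun y => by simp only [Lop]; ring]
    rw [pd_fun_add ((ContDiff.sum fun k _ => h2 k).add (contDiff_const.mul ht))
        (contDiff_const.mul (ContDiff.sum fun k _ => hg k)),
      pd_fun_add (ContDiff.sum fun k _ => h2 k) (contDiff_const.mul ht), pd_fun_cmul ht,
      pd_fun_cmul (ContDiff.sum fun k _ => hg k), pd_fun_sum _ fun k _ => h2 k,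
      pd_fun_sum _ fun k _ => hg k]
  have e1 : ∀ k, pd j (pd k (pd k (f r))) y = pd k (pd k (pd j (f r))) y := fun k => by
    rw [pd_swap (contDiff_pd hs k), funext (pd_swap hs j k)]
  have e3 : ∀ k, pd k (pd j (f r)) y = pd j (pd k (f r)) y := fun k => pd_swap hs k j y
  rw [eL]
  simp only [Lop, e1, e3, deriv_pd_swap hf hr j y,
    pd_fun_mul (contDiff_pd hs _) ((hG _).space hr), Finset.sum_add_distrib]
  ring

/-! ### The derivatives of the mean gradient -/

/-- A component of a derivative tensor. -/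
noncomputable def dG (D : Data d) (m : ℕ) (i : Fin (m + 1) → Fin d) : ℝ → E d → ℝ :=
  fun r y => derivT m (G D.U D.g D.ε r) y i

/-- The index without the first derivative leg. -/
def dropLeg {m : ℕ} (i : Fin (m + 2) → Fin d) : Fin (m + 1) → Fin d :=
  fun a => i ((finSuccEquiv' (1 : Fin (m + 2))).symm (some a))

lemma derivT_succ {f : E d → E d} (hf : ContDiff ℝ ∞ f) (m : ℕ) (i : Fin (m + 2) → Fin d) :
    (fun y => derivT (m + 1) f y i) = pd (i 1) fun y => derivT m f y (dropLeg i) := by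
  funext y
  have h := congrFun (congrFun (Tensor.dT_derivT hf m) y)
    (fun a => i ((finSuccEquiv' (1 : Fin (m + 2))).symm a))
  simp only [Tensor.relabel, Equiv.symm_apply_apply] at h
  rw [← h]
  simp only [Tensor.dT, Sobolev.pd, finSuccEquiv'_symm_none]
  rfl

lemma dG_zero (D : Data d) (i : Fin 1 → Fin d) : dG D 0 i = gC D (i 0) := by
  funext r y
  simp [dG, gC, derivT]

section Post

variable (hP : PostFacts)
include hP

lemma joint_gC (D : Data d) (k : Fin d) : Joint (gC D k) :=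
  (EuclideanSpace.proj (𝕜 := ℝ) k).contDiff.comp_contDiffOn
    (hP d D.U D.g D.pot D.g0 D.ε D.ε0 D.ε1).1

lemma dG_succ (D : Data d) (m : ℕ) (i : Fin (m + 2) → Fin d) {r : ℝ} (hr : 0 < r) (y : E d) :
    dG D (m + 1) i r y = pd (i 1) (dG D m (dropLeg i) r) y :=
  congrFun (derivT_succ (D.contDiff_G hP hr) m i) y

lemma joint_dG (D : Data d) : ∀ (m : ℕ) (i : Fin (m + 1) → Fin d), Joint (dG D m i)
  | 0, i => by rw [dG_zero]; exact joint_gC hP D _
  | m + 1, i => ((joint_dG D m (dropLeg i)).pd (i 1)).congr fun p hp => dG_succ hP D m i hp.1 p.2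

/-- The heat equation says `L G = 0`. -/
lemma Lop_gC (D : Data d) (i : Fin d) {r : ℝ} (hr : 0 < r) (y : E d) :
    Lop D (gC D i) r y = 0 := by
  set Gr : E d → E d := G D.U D.g D.ε r
  have hG : ContDiff ℝ ∞ Gr := D.contDiff_G hP hr
  obtain ⟨-, -, -, hd, -⟩ := (hP d D.U D.g D.pot D.g0 D.ε D.ε0 D.ε1).2.2 r hr y
  have h1 : deriv (fun u => gC D i u y) r
      = ((1 / 2 : ℝ) • lap Gr y - D.ε • fderiv ℝ Gr y (Gr y)) i :=
    ((EuclideanSpace.proj (𝕜 := ℝ) i).hasFDerivAt.comp_hasDerivAt r hd).deriv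
  have h2 : ∀ k z, pd k (gC D i r) z = fderiv ℝ Gr z (bv k) i := fun k z => by
    have h : HasFDerivAt (gC D i r)
        ((EuclideanSpace.proj (𝕜 := ℝ) i).comp (fderiv ℝ Gr z)) z :=
      (EuclideanSpace.proj (𝕜 := ℝ) i).hasFDerivAt.comp z (hG.differentiable (by simp) z).hasFDerivAt
    show fderiv ℝ (gC D i r) z (bv k) = _
    rw [h.fderiv]
    rfl
  have h3 : ∀ k, pd k (pd k (gC D i r)) y = iteratedFDeriv ℝ 2 Gr y ![bv k, bv k] i := fun k => by
    have hd2 := ((hG.fderiv_right (m := ∞) (by simp)).differentiable (by simp) y).hasFDerivAt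
    have h : HasFDerivAt (fun z => fderiv ℝ Gr z (bv k) i)
        ((EuclideanSpace.proj (𝕜 := ℝ) i).comp ((ContinuousLinearMap.apply ℝ (E d) (bv k)).comp
          (fderiv ℝ (fderiv ℝ Gr) y))) y :=
      (EuclideanSpace.proj (𝕜 := ℝ) i).hasFDerivAt.comp y
        ((ContinuousLinearMap.apply ℝ (E d) (bv k)).hasFDerivAt.comp y hd2)
    rw [funext (h2 k)]
    show fderiv ℝ (fun z => fderiv ℝ Gr z (bv k) i) y (bv k) = _
    rw [h.fderiv, iteratedFDeriv_two_apply]
    rfl
  have h4 : ∑ k, fderiv ℝ Gr y (bv k) i * Gr y k = fderiv ℝ Gr y (Gr y) i := by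
    conv_rhs => rw [show Gr y = ∑ k, Gr y k • bv k from by
      simpa [bv, EuclideanSpace.basisFun_apply] using
        ((EuclideanSpace.basisFun (Fin d) ℝ).sum_repr (Gr y)).symm]
    simp [mul_comm]
  simp only [Lop, h1, h3, h2]
  rw [show ∑ k, fderiv ℝ Gr y (bv k) i * gC D k r y = fderiv ℝ Gr y (Gr y) i from h4]
  simp only [lap, PiLp.sub_apply, PiLp.smul_apply, smul_eq_mul]
  rw [show (∑ k, iteratedFDeriv ℝ 2 Gr y ![bv k, bv k]) i
      = ∑ k, iteratedFDeriv ℝ 2 Gr y ![bv k, bv k] i from by simp]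
  ring

end Post

/-! ### The class -/

/-- A family of tensor fields in the scale, uniform over the data. -/
abbrev Fam (α : Type) := ∀ d : ℕ, Data d → ℝ → Tensor.Field d α

/-- Contraction polynomials in the derivatives of the mean gradient, with weights. -/
inductive Cls : ∀ α : Type, ℕ → Fam α → Prop
  | base (m : ℕ) : Cls (Fin (m + 2)) m fun d D r => derivT (m + 1) (G D.U D.g D.ε r)
  | relabel {α β : Type} (e : α ≃ β) {w : ℕ} {F : Fam α} (h : Cls α w F) :
      Cls β w fun d D r => Tensor.relabel e (F d D r)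
  | contr {α β κ : Type} [Fintype α] [Fintype β] [Fintype κ] [DecidableEq α] [DecidableEq β]
      [DecidableEq κ] [Nonempty α] [Nonempty β] [Nonempty κ] {w w' : ℕ} {F : Fam (α ⊕ κ)}
      {H : Fam (κ ⊕ β)} (h : Cls (α ⊕ κ) w F) (h' : Cls (κ ⊕ β) w' H) :
      Cls (α ⊕ β) (w + w') fun d D r => Tensor.contrF (F d D r) (H d D r)
  | add {α : Type} {w : ℕ} {F H : Fam α} (h : Cls α w F) (h' : Cls α w H) :
      Cls α w fun d D r x i => F d D r x i + H d D r x i
  | smul {α : Type} {w : ℕ} {F : Fam α} (c : ∀ d : ℕ, Data d → ℝ) (K : ℝ) (hK : 0 ≤ K)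
      (hc : ∀ (d : ℕ) (D : Data d), |c d D| ≤ K) (h : Cls α w F) :
      Cls α w fun d D r x i => c d D * F d D r x i
  | weaken {α : Type} {w w' : ℕ} {F : Fam α} (hw : w ≤ w') (h : Cls α w F) : Cls α w' F

/-- A component of a member of the class. -/
def comp {α : Type} (F : Fam α) (D : Data d) (i : α → Fin d) : ℝ → E d → ℝ :=
  fun r y => F d D r y i

section Post

variable (hP : PostFacts)
include hP

lemma Cls.joint {α : Type} {w : ℕ} {F : Fam α} (h : Cls α w F) :
    ∀ {d : ℕ} (D : Data d) (i : α → Fin d), Joint (comp F D i) := by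
  induction h with
  | base m => exact fun D i => joint_dG hP D (m + 1) i
  | relabel e h ih => exact fun D i => ih D _
  | contr h h' ih ih' =>
    exact fun D i => Joint.sum Finset.univ fun k _ => (ih D _).mul (ih' D _)
  | add h h' ih ih' => exact fun D i => (ih D i).add (ih' D i)
  | smul c K hK hc h ih => exact fun D i => (ih D i).cmul _
  | weaken hw h ih => exact ih

lemma Cls.smooth {α : Type} {w : ℕ} {F : Fam α} (h : Cls α w F) (D : Data d) {r : ℝ} (hr : 0 < r) :
    Tensor.Smooth (F d D r) := fun i => (h.joint hP D i).space hr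

/-- The derivative stays in the class. -/
lemma Cls.exists_dT {α : Type} {w : ℕ} {F : Fam α} (h : Cls α w F) :
    ∃ F', Cls (Option α) (w + 1) F' ∧
      ∀ (d : ℕ) (D : Data d) (r : ℝ), 0 < r → F' d D r = Tensor.dT (F d D r) := by
  induction h with
  | base m =>
    exact ⟨_, (Cls.base (m + 1)).relabel (finSuccEquiv' (1 : Fin (m + 3))),
      fun d D r hr => (Tensor.dT_derivT (D.contDiff_G hP hr) (m + 1)).symm⟩
  | @relabel α β e w F h ih =>
    obtain ⟨F', hF', e'⟩ := ih
    refine ⟨_, hF'.relabel e.optionCongr, fun d D r hr => ?_⟩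
    funext x i
    simp only [e' d D r hr]
    rfl
  | @contr α β κ _ _ _ _ _ _ _ _ _ w w' F H h h' ih ih' =>
    obtain ⟨F', hF', e'⟩ := ih
    obtain ⟨H', hH', eH⟩ := ih'
    have h1 := ((hF'.relabel (Tensor.optL α κ)).contr h').relabel (Tensor.optL α β).symm
    have h2 := (h.contr (hH'.relabel (Tensor.optR κ β))).relabel (Tensor.optR α β).symm
    rw [show w + 1 + w' = w + w' + 1 by omega] at h1
    refine ⟨_, h1.add h2, fun d D r hr => ?_⟩
    rw [Tensor.dT_contrF (h.smooth hP D hr) (h'.smooth hP D hr), e' d D r hr, eH d D r hr]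
  | @add α w F H h h' ih ih' =>
    obtain ⟨F', hF', e'⟩ := ih
    obtain ⟨H', hH', eH⟩ := ih'
    refine ⟨_, hF'.add hH', fun d D r hr => ?_⟩
    funext x i
    simp only [e' d D r hr, eH d D r hr, Tensor.dT]
    rw [fderiv_fun_add ((h.smooth hP D hr _).differentiable (by simp) x)
      ((h'.smooth hP D hr _).differentiable (by simp) x)]
    rfl
  | @smul α w F c K hK hc h ih =>
    obtain ⟨F', hF', e'⟩ := ih
    refine ⟨_, hF'.smul c K hK hc, fun d D r hr => ?_⟩
    funext x i
    simp only [e' d D r hr, Tensor.dT]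
    rw [fderiv_const_mul ((h.smooth hP D hr _).differentiable (by simp) x)]
    rfl
  | weaken hw h ih =>
    obtain ⟨F', hF', e'⟩ := ih
    exact ⟨F', hF'.weaken (Nat.add_le_add_right hw 1), e'⟩

omit hP in
/-- Multiples by a number. -/
lemma Cls.const_smul {α : Type} {w : ℕ} {F : Fam α} (h : Cls α w F) (b : ℝ) :
    Cls α w fun d D r x i => b * F d D r x i :=
  h.smul (fun _ _ => b) |b| (abs_nonneg b) fun _ _ => le_rfl

omit hP in
lemma abs_two_eps (d : ℕ) (D : Data d) : |2 * D.ε| ≤ 2 := by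
  rw [abs_of_nonneg (by linarith [D.ε0])]
  linarith [D.ε1]

/-- The last derivative leg set apart. -/
def legSplit (m : ℕ) : Fin (m + 3) ≃ Fin (m + 2) ⊕ PUnit :=
  (finSuccEquiv' (1 : Fin (m + 3))).trans (Equiv.optionEquivSumPUnit _)

/-- The two legs of `a`. -/
def aSplit : Fin 2 ≃ PUnit.{1} ⊕ PUnit.{1} :=
  finSumFinEquiv.symm.trans ((Equiv.ofUnique (Fin 1) PUnit).sumCongr (Equiv.ofUnique (Fin 1) PUnit))

/-- `2 ε a a`. -/
noncomputable def lBase : Fam (Fin 2) := fun d D r => Tensor.relabel aSplit.symm fun x i =>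
  2 * D.ε * Tensor.contrF (Tensor.relabel aSplit (derivT 1 (G D.U D.g D.ε r)))
    (Tensor.relabel aSplit (derivT 1 (G D.U D.g D.ε r))) x i

/-- `L` on the derivatives of the mean gradient. -/
lemma Cls.exists_L_base : ∀ m : ℕ, ∃ F' : Fam (Fin (m + 2)), Cls (Fin (m + 2)) (m + 2) F' ∧
    ∀ (d : ℕ) (D : Data d) (r : ℝ), 0 < r → ∀ y i,
      F' d D r y i = Lop D (dG D (m + 1) i) r y
  | 0 => by
    refine ⟨lBase, ((((Cls.base 0).relabel aSplit).contr ((Cls.base 0).relabel aSplit)).smul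
      (fun d D => 2 * D.ε) 2 zero_le_two abs_two_eps).relabel aSplit.symm |>.weaken (by norm_num),
      fun d D r hr y i => ?_⟩
    rw [Lop_congr D (fun u hu z => dG_succ hP D 0 i hu z) hr y, dG_zero,
      Lop_pd D (joint_gC hP D) (joint_gC hP D _) (i 1) hr y]
    have h0 : Lop D (gC D (dropLeg i 0)) r = fun _ => 0 := funext fun z => Lop_gC hP D _ hr z
    rw [h0, show pd (i 1) (fun _ : E d => (0 : ℝ)) y = 0 from pd_const _ _ _, zero_add]
    simp only [lBase, Tensor.relabel, Tensor.contrF, Tensor.contr]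
    congr 1
    refine Fintype.sum_equiv (Equiv.funUnique PUnit (Fin d)) _ _ fun k => ?_
    have key : ∀ (p q : Fin d) (j : Fin 2 → Fin d), j 0 = p → j 1 = q →
        derivT 1 (G D.U D.g D.ε r) y j = pd q (gC D p r) y := by
      intro p q j hp hq
      show dG D 1 j r y = _
      rw [dG_succ hP D 0 j hr y, dG_zero]
      simp only [dropLeg]
      rw [hq, show (finSuccEquiv' (1 : Fin 2)).symm (some 0) = 0 from rfl, hp]
    rw [key (i 0) (k PUnit.unit) _ (by rfl) (by rfl), key (k PUnit.unit) (i 1) _ (by rfl) (by rfl)]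
    rfl
  | m + 1 => by
    obtain ⟨F', hF', e'⟩ := Cls.exists_L_base m
    obtain ⟨F'', hF'', e''⟩ := hF'.exists_dT hP
    have h1 := hF''.relabel (finSuccEquiv' (1 : Fin (m + 3))).symm
    have h2 := ((((Cls.base (m + 1)).relabel (legSplit m)).contr
      ((Cls.base 0).relabel aSplit)).smul (fun d D => 2 * D.ε) 2 zero_le_two
        abs_two_eps).relabel (legSplit m).symm |>.weaken
          (show m + 1 + 0 ≤ m + 2 + 1 by omega)
    refine ⟨_, h1.add h2, fun d D r hr y i => ?_⟩
    have hj : Joint (dG D (m + 1) (dropLeg i)) := joint_dG hP D _ _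
    rw [Lop_congr D (fun u hu z => dG_succ hP D (m + 1) i hu z) hr y,
      Lop_pd D (joint_gC hP D) hj (i 1) hr y]
    congr 1
    · simp only [Tensor.relabel, e'' d D r hr, Tensor.dT, finSuccEquiv'_symm_none, Sobolev.pd]
      rw [show Lop D (dG D (m + 1) (dropLeg i)) r = fun z => F' d D r z (dropLeg i) from
        funext fun z => (e' d D r hr z _).symm]
      rfl
    · simp only [Tensor.relabel, Tensor.contrF, Tensor.contr]
      congr 1
      refine Fintype.sum_equiv (Equiv.funUnique PUnit (Fin d)) _ _ fun k => ?_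
      refine congrArg₂ (· * ·) ?_ ?_
      · show dG D (m + 2) _ r y = _
        rw [dG_succ hP D (m + 1) _ hr y]
        refine congrArg₂ (fun (a : Fin d) f => pd a (dG D (m + 1) f r) y) ?_ ?_
        · simp [legSplit]
        · funext a; simp [dropLeg, legSplit]
      · show dG D 1 _ r y = _
        rw [dG_succ hP D 0 _ hr y, dG_zero]
        rfl

/-- `L` stays in the class. -/
lemma Cls.exists_L {α : Type} {w : ℕ} {F : Fam α} (h : Cls α w F) :
    ∃ F', Cls α (w + 2) F' ∧
      ∀ (d : ℕ) (D : Data d) (r : ℝ), 0 < r → ∀ y i, F' d D r y i = Lop D (comp F D i) r y := by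
  induction h with
  | base m => exact Cls.exists_L_base hP m
  | @relabel α β e w F h ih =>
    obtain ⟨F', hF', e'⟩ := ih
    exact ⟨_, hF'.relabel e, fun d D r hr y i => e' d D r hr y _⟩
  | @contr α β κ _ _ _ _ _ _ _ _ _ w w' F H h h' ih ih' =>
    obtain ⟨F', hF', e'⟩ := ih
    obtain ⟨H', hH', eH⟩ := ih'
    obtain ⟨F1, hF1, e1⟩ := h.exists_dT hP
    obtain ⟨H1, hH1, f1⟩ := h'.exists_dT hP
    have c1 := (hF'.contr h').weaken (show w + 2 + w' ≤ w + w' + 2 by omega)
    have c2 := (h.contr hH').weaken (show w + (w' + 2) ≤ w + w' + 2 by omega)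
    have c3 := ((hF1.relabel (Tensor.optR α κ)).contr (hH1.relabel (Tensor.optL κ β))).const_smul 2
      |>.weaken (show w + 1 + (w' + 1) ≤ w + w' + 2 by omega)
    refine ⟨_, (c1.add c2).add c3, fun d D r hr y i => ?_⟩
    set T : (κ → Fin d) → ℝ → E d → ℝ :=
      fun k => comp F D (Sum.elim (fun a => i (Sum.inl a)) k)
    set R : (κ → Fin d) → ℝ → E d → ℝ :=
      fun k => comp H D (Sum.elim k fun b => i (Sum.inr b))
    have hT : ∀ k, Joint (T k) := fun k => h.joint hP D _
    have hR : ∀ k, Joint (R k) := fun k => h'.joint hP D _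
    show _ = Lop D (fun r y => ∑ k, T k r y * R k r y) r y
    rw [Lop_sum D _ (fun k _ => (hT k).mul (hR k)) hr]
    simp only [Lop_mul D (hT _) (hR _) hr, Finset.sum_add_distrib, ← Finset.mul_sum]
    simp only [Tensor.contrF, Tensor.contr]
    refine congrArg₂ (· + ·) (congrArg₂ (· + ·) ?_ ?_) ?_
    · exact Finset.sum_congr rfl fun k _ => by rw [e' d D r hr]; rfl
    · exact Finset.sum_congr rfl fun k _ => by rw [eH d D r hr]; rfl
    · congr 1
      rw [Finset.sum_comm, ← (Equiv.piOptionEquivProd (β := fun _ : Option κ => Fin d)).symm.sum_comp,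
        Fintype.sum_prod_type]
      refine Finset.sum_congr rfl fun l _ => Finset.sum_congr rfl fun k _ => ?_
      simp only [Tensor.relabel, e1 d D r hr, f1 d D r hr, Tensor.dT, Sobolev.pd]
      refine congrArg₂ (· * ·) ?_ ?_ <;>
        (congr 2 <;> first | rfl | (funext z; congr 1; funext a; rcases a with a | a <;> rfl))
  | @add α w F H h h' ih ih' =>
    obtain ⟨F', hF', e'⟩ := ih
    obtain ⟨H', hH', eH⟩ := ih'
    refine ⟨_, hF'.add hH', fun d D r hr y i => ?_⟩
    simp only [e' d D r hr, eH d D r hr]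
    exact (Lop_add D (h.joint hP D i) (h'.joint hP D i) hr y).symm
  | @smul α w F c K hK hc h ih =>
    obtain ⟨F', hF', e'⟩ := ih
    refine ⟨_, hF'.smul c K hK hc, fun d D r hr y i => ?_⟩
    simp only [e' d D r hr]
    exact (Lop_cmul D (h.joint hP D i) (c d D) hr y).symm
  | weaken hw h ih =>
    obtain ⟨F', hF', e'⟩ := ih
    exact ⟨F', hF'.weaken (by omega), e'⟩

/-! ### Bounds -/

omit hP in
lemma fieldLe_scale (n : ℕ) : ∀ {α : Type} [Fintype α] [DecidableEq α] {C σ K : ℝ}
    {T : Tensor.Field d α}, 0 ≤ C → 0 ≤ σ → 1 ≤ K →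
      Tensor.FieldLe n C (K * σ) T → Tensor.FieldLe n (K ^ n * C) σ T := by
  induction n with
  | zero => intro α _ _ C σ K T _ _ _ h x; simpa using h x
  | succ n ih =>
    intro α _ _ C σ K T hC hσ hK h
    refine ⟨fun x => (h.1 x).mono (le_mul_of_one_le_left hC (one_le_pow₀ hK)), ?_⟩
    have h' := ih (mul_nonneg hC (mul_nonneg (zero_le_one.trans hK) hσ)) hσ hK h.2
    rwa [show K ^ n * (C * (K * σ)) = K ^ (n + 1) * C * σ by ring] at h'

omit hP in
lemma fieldLe_contr {α β κ : Type} [Fintype α] [DecidableEq α] [Fintype β] [DecidableEq β]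
    [Fintype κ] [DecidableEq κ] [Nonempty α] [Nonempty β] [Nonempty κ] (n : ℕ) {C C' σ : ℝ}
    {T : Tensor.Field d (α ⊕ κ)} {R : Tensor.Field d (κ ⊕ β)} (hC : 0 ≤ C) (hC' : 0 ≤ C')
    (hσ : 0 ≤ σ) (hT : Tensor.Smooth T) (hR : Tensor.Smooth R) (h : Tensor.FieldLe n C σ T)
    (h' : Tensor.FieldLe n C' σ R) : Tensor.FieldLe n (2 ^ n * (C * C')) σ (Tensor.contrF T R) :=
  fieldLe_scale n (mul_nonneg hC hC') hσ one_le_two
    (Tensor.FieldLe.contrF n hC hC' hσ hT hR h h')

variable (hT : TameFact)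
include hT

/-- A member of weight `w` has all flattenings of its derivatives bounded, free of the dimension. -/
lemma Cls.bound {α : Type} {w : ℕ} {F : Fam α} (h : Cls α w F) :
    ∀ [Fintype α] [DecidableEq α] (n : ℕ), ∃ C : ℝ, 0 ≤ C ∧
      ∀ (d : ℕ) (D : Data d) (r : ℝ), 0 < r → r ≤ 1 →
        Tensor.FieldLe n (C / Real.sqrt r ^ w) (1 / Real.sqrt r) (F d D r) := by
  induction h with
  | base m =>
    intro iα iα' n
    obtain ⟨C, hC0, hC⟩ := exists_tame_const hT (m + 1) n (by omega)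
    refine ⟨C, hC0, fun d D r hr hr1 => ?_⟩
    obtain rfl : iα = Fin.fintype (m + 2) := Subsingleton.elim _ _
    obtain rfl : iα' = instDecidableEqFin (m + 2) := Subsingleton.elim _ _
    exact Tensor.fieldLe_derivT (D.contDiff_G hP hr) n (m + 1) (C := C / Real.sqrt r ^ m)
      (σ := 1 / Real.sqrt r) (by positivity) (by positivity)
      (fun j hj x => by simpa using hC d D.U D.g D.pot D.ε D.ε0 D.ε1 r hr hr1 j hj x)
  | @relabel α β e w F h ih =>
    intro iβ iβ' n
    have : Fintype α := Fintype.ofEquiv β e.symm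
    have : DecidableEq α := e.decidableEq
    obtain ⟨C, hC0, hC⟩ := ih n
    exact ⟨C, hC0, fun d D r hr hr1 => Tensor.FieldLe.relabel n (by positivity) (by positivity)
      (hC d D r hr hr1) e⟩
  | @contr α β κ _ _ _ _ _ _ _ _ _ w w' F H h h' ih ih' =>
    intro iS iS' n
    obtain ⟨C, hC0, hC⟩ := ih n
    obtain ⟨C', hC0', hC'⟩ := ih' n
    refine ⟨2 ^ n * (C * C'), by positivity, fun d D r hr hr1 => ?_⟩
    have h3 := fieldLe_contr (σ := 1 / Real.sqrt r) n (by positivity) (by positivity) (by positivity)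
      (h.smooth hP D hr) (h'.smooth hP D hr) (hC d D r hr hr1) (hC' d D r hr hr1)
    rw [show 2 ^ n * (C / Real.sqrt r ^ w * (C' / Real.sqrt r ^ w'))
      = 2 ^ n * (C * C') / Real.sqrt r ^ (w + w') by
        rw [div_mul_div_comm, ← pow_add]; ring]
      at h3
    obtain rfl : iS = instFintypeSum α β := Subsingleton.elim _ _
    obtain rfl : iS' = (fun a b => instDecidableEqSum a b) := Subsingleton.elim _ _
    exact h3
  | @add α w F H h h' ih ih' =>
    intro iα iα' n
    obtain ⟨C, hC0, hC⟩ := ih n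
    obtain ⟨C', hC0', hC'⟩ := ih' n
    refine ⟨C + C', by positivity, fun d D r hr hr1 => ?_⟩
    rw [add_div]
    exact Tensor.FieldLe.add n (h.smooth hP D hr) (h'.smooth hP D hr) (hC d D r hr hr1)
      (hC' d D r hr hr1)
  | @smul α w F c K hK hc h ih =>
    intro iα iα' n
    obtain ⟨C, hC0, hC⟩ := ih n
    refine ⟨K * C, by positivity, fun d D r hr hr1 => ?_⟩
    refine Tensor.FieldLe.mono n (Tensor.FieldLe.smul n (h.smooth hP D hr) (hC d D r hr hr1)
      (c d D)) (by positivity) ?_ (by positivity) le_rfl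
    rw [← mul_div_assoc]
    exact div_le_div_of_nonneg_right (mul_le_mul_of_nonneg_right (hc d D) hC0) (by positivity)
  | @weaken α w w' F hw h ih =>
    intro iα iα' n
    obtain ⟨C, hC0, hC⟩ := ih n
    refine ⟨C, hC0, fun d D r hr hr1 => Tensor.FieldLe.mono n (hC d D r hr hr1) (by positivity)
      (div_le_div_of_nonneg_left hC0 (by positivity) ?_) (by positivity) le_rfl⟩
    exact pow_le_pow_of_le_one (Real.sqrt_nonneg r) (Real.sqrt_le_one.2 hr1) hw

end Post

end Reg

end Vale.Agent.P347.Gamma0
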