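import Vale.Agent.P347.Gamma0.RegGen

/-!
P347, towards `γ_* = 0`, piece 4 (regularity): closure of the multipliers of the generator calculus
and the norms of matrix fields seen as functions.
-/

namespace Vale.Agent.P347.Gamma0

namespace Reg

open MeasureTheory Sobolev
open scoped ContDiff

set_option linter.unusedSectionVars false

namespace Sys

variable {ι : Type} [Fintype ι] [DecidableEq ι] {S : Sys ι} {P : S.Pt} {N : ℕ}

lemma A_apply (f : ℝ → (EuclideanSpace ℝ ι) → ℝ) (q : ℝ) (x : (EuclideanSpace ℝ ι)) :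
    S.A f q x = deriv (fun u => f u x) q + ∑ i, S.v i q x * pd i (f q) x := rfl

lemma AMul.congr (j : ℕ) : ∀ {β γ : Type} [Fintype β] [Fintype γ] {M M' : β → γ → ℝ → (EuclideanSpace ℝ ι) → ℝ}
    {s : ℝ}, AMul P N j M s → (∀ b c, S.ok (M' b c)) →
      (∀ b c, ∀ q ∈ S.I, ∀ x, M b c q x = M' b c q x) → AMul P N j M' s := by
  cases j with
  | zero =>
    intro β γ _ _ M M' s h hok he
    refine ⟨hok, ?_⟩
    rw [show (fun b c => M' b c P.q₀) = fun b c => M b c P.q₀ from
      funext fun b => funext fun c => (funext fun x => (he b c _ P.mem x).symm)]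
    exact h.2
  | succ j =>
    intro β γ _ _ M M' s h hok he
    obtain ⟨⟨h0, hb⟩, M₁, Q, h1, h2, h3, h4⟩ := h
    refine ⟨⟨hok, ?_⟩, M₁, Q, h1, h2, h3, fun b c q hq x => ?_⟩
    · rw [show (fun b c => M' b c P.q₀) = fun b c => M b c P.q₀ from
        funext fun b => funext fun c => (funext fun x => (he b c _ P.mem x).symm)]
      exact hb
    · rw [← S.A_congr (he b c) hq x, h4 b c q hq x]

lemma AMul.add (j : ℕ) : ∀ {β γ : Type} [Fintype β] [Fintype γ] {M R : β → γ → ℝ → (EuclideanSpace ℝ ι) → ℝ}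
    {s t : ℝ}, 0 ≤ s → 0 ≤ t → AMul P N j M s → AMul P N j R t →
      AMul P N j (fun b c q x => M b c q x + R b c q x) (s + t) := by
  induction j with
  | zero =>
    intro β γ _ _ M R s t hs ht h h'
    exact ⟨fun b c => S.ok_add (h.1 b c) (h'.1 b c), MulBound.add hs ht N
      (fun b c => S.ok_tame (h.1 b c) _ P.mem) (fun b c => S.ok_tame (h'.1 b c) _ P.mem) h.2 h'.2⟩
  | succ j ih =>
    intro β γ _ _ M R s t hs ht h h'
    obtain ⟨⟨h0, hb⟩, M', Q, h1, h2, h3, h4⟩ := h
    obtain ⟨⟨g0, gb⟩, R', Q', g1, g2, g3, g4⟩ := h'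
    have hk : 0 ≤ P.κ * P.lam := (mul_pos P.κ0 P.lam0).le
    refine ⟨⟨fun b c => S.ok_add (h0 b c) (g0 b c), MulBound.add hs ht N
      (fun b c => S.ok_tame (h0 b c) _ P.mem) (fun b c => S.ok_tame (g0 b c) _ P.mem) hb gb⟩,
      fun b c i q x => M' b c i q x + R' b c i q x, fun b c q x => Q b c q x + Q' b c q x,
      ?_, ?_, ?_, fun b c q hq x => ?_⟩
    · rw [mul_add]; exact ih (mul_nonneg hk hs) (mul_nonneg hk ht) h1 g1
    · rw [mul_add]; exact ih (mul_nonneg hk hs) (mul_nonneg hk ht) h2 g2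
    · rw [mul_add]; exact ih (mul_nonneg P.lam0.le hs) (mul_nonneg P.lam0.le ht) h3 g3
    · rw [S.A_add (h0 b c) (g0 b c) hq x, h4 b c q hq x, g4 b c q hq x]
      have hM' : ∀ i, Tame (M' b c i q) := fun i => S.ok_tame ((AMul.base P h1).1 (b, i) c) q hq
      have hR' : ∀ i, Tame (R' b c i q) := fun i => S.ok_tame ((AMul.base P g1).1 (b, i) c) q hq
      simp only [pd_add (hM' _) (hR' _), mul_add, Finset.sum_sub_distrib, Finset.sum_add_distrib]
      ring

lemma AMul.smul (c₀ : ℝ) (j : ℕ) : ∀ {β γ : Type} [Fintype β] [Fintype γ]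
    {M : β → γ → ℝ → (EuclideanSpace ℝ ι) → ℝ} {s : ℝ}, AMul P N j M s →
      AMul P N j (fun b c q x => c₀ * M b c q x) (|c₀| * s) := by
  induction j with
  | zero =>
    intro β γ _ _ M s h
    exact ⟨fun b c => S.ok_cmul c₀ (h.1 b c),
      MulBound.smul c₀ N (fun b c => S.ok_tame (h.1 b c) _ P.mem) h.2⟩
  | succ j ih =>
    intro β γ _ _ M s h
    obtain ⟨⟨h0, hb⟩, M', Q, h1, h2, h3, h4⟩ := h
    refine ⟨⟨fun b c => S.ok_cmul c₀ (h0 b c),
      MulBound.smul c₀ N (fun b c => S.ok_tame (h0 b c) _ P.mem) hb⟩,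
      fun b c i q x => c₀ * M' b c i q x, fun b c q x => c₀ * Q b c q x,
      ?_, ?_, ?_, fun b c q hq x => ?_⟩
    · rw [mul_left_comm]; exact ih h1
    · rw [mul_left_comm]; exact ih h2
    · rw [mul_left_comm]; exact ih h3
    · rw [S.A_cmul c₀ (h0 b c) hq x, h4 b c q hq x]
      have hM' : ∀ i, Tame (M' b c i q) := fun i => S.ok_tame ((AMul.base P h1).1 (b, i) c) q hq
      simp only [pd_const_mul (hM' _), mul_add, Finset.mul_sum]
      congr 1
      exact Finset.sum_congr rfl fun i _ => by ring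

/-- A field between two constant flattenings. -/
def conjT {β γ β' γ' : Type} [Fintype β] [Fintype γ] (L : β' → β → ℝ)
    (M : β → γ → ℝ → (EuclideanSpace ℝ ι) → ℝ) (R : γ → γ' → ℝ) : β' → γ' → ℝ → (EuclideanSpace ℝ ι) → ℝ :=
  fun b' c' q x => ∑ b, L b' b * ∑ c, M b c q x * R c c'

lemma ok_conjT {β γ β' γ' : Type} [Fintype β] [Fintype γ] {L : β' → β → ℝ}
    {M : β → γ → ℝ → (EuclideanSpace ℝ ι) → ℝ} {R : γ → γ' → ℝ} (h : ∀ b c, S.ok (M b c)) (b' : β') (c' : γ') :
    S.ok (conjT L M R b' c') :=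
  S.ok_sum Finset.univ fun b _ => S.ok_cmul (L b' b)
    (S.ok_sum Finset.univ fun c _ => S.ok_mul (h b c) (S.ok_const (R c c')))

lemma A_conjT {β γ β' γ' : Type} [Fintype β] [Fintype γ] {L : β' → β → ℝ}
    {M : β → γ → ℝ → (EuclideanSpace ℝ ι) → ℝ} {R : γ → γ' → ℝ} (h : ∀ b c, S.ok (M b c)) (b' : β') (c' : γ')
    {q : ℝ} (hq : q ∈ S.I) (x : (EuclideanSpace ℝ ι)) :
    S.A (conjT L M R b' c') q x = ∑ b, L b' b * ∑ c, S.A (M b c) q x * R c c' := by
  have h1 : ∀ b, S.ok fun q x => ∑ c, M b c q x * R c c' := fun b =>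
    S.ok_sum Finset.univ fun c _ => S.ok_mul (h b c) (S.ok_const (R c c'))
  show S.A (fun q x => ∑ b, L b' b * ∑ c, M b c q x * R c c') q x = _
  rw [S.A_sum (f := fun b q x => L b' b * ∑ c, M b c q x * R c c') Finset.univ
    (fun b _ => S.ok_cmul _ (h1 b)) hq]
  refine Finset.sum_congr rfl fun b _ => ?_
  rw [S.A_cmul _ (h1 b) hq, S.A_sum (f := fun c q x => M b c q x * R c c') Finset.univ
    (fun c _ => S.ok_mul (h b c) (S.ok_const _)) hq]
  refine congrArg _ (Finset.sum_congr rfl fun c _ => ?_)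
  rw [S.A_mul (h b c) (S.ok_const _) hq, S.A_const]
  simp

lemma AMul.conj (j : ℕ) : ∀ {β γ β' γ' : Type} [Fintype β] [Fintype γ] [Fintype β'] [Fintype γ']
    {L : β' → β → ℝ} {R : γ → γ' → ℝ} {l r : ℝ} {M : β → γ → ℝ → (EuclideanSpace ℝ ι) → ℝ} {s : ℝ},
    OpLe L l → OpLe R r → AMul P N j M s → AMul P N j (conjT L M R) (l * (s * r)) := by
  induction j with
  | zero =>
    intro β γ β' γ' _ _ _ _ L R l r M s hL hR h
    exact ⟨ok_conjT h.1,
      MulBound.conj hR N hL (fun b c => S.ok_tame (h.1 b c) _ P.mem) h.2⟩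
  | succ j ih =>
    intro β γ β' γ' _ _ _ _ L R l r M s hL hR h
    obtain ⟨⟨h0, hb⟩, M', Q, h1, h2, h3, h4⟩ := h
    have hM' : ∀ b c i, S.ok (M' b c i) := fun b c i => (AMul.base P h1).1 (b, i) c
    refine ⟨⟨ok_conjT h0, MulBound.conj hR N hL (fun b c => S.ok_tame (h0 b c) _ P.mem) hb⟩,
      fun b' c' i => conjT L (fun b c => M' b c i) R b' c', conjT L Q R, ?_, ?_, ?_,
      fun b' c' q hq x => ?_⟩
    · rw [show P.κ * P.lam * (l * (s * r)) = l * (P.κ * P.lam * s * r) by ring]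
      convert ih (OpLe.id_tensor (ι := ι) hL) hR h1 using 1
      funext p c' q x
      simp only [conjT, Fintype.sum_prod_type, mul_ite, mul_one, mul_zero, ite_mul, zero_mul,
        Finset.sum_ite_eq, Finset.mem_univ, if_true]
    · rw [show P.κ * P.lam * (l * (s * r)) = l * (P.κ * P.lam * s * r) by ring]
      convert ih hL (OpLe.id_tensor (ι := ι) hR) h2 using 1
      funext b' p q x
      simp only [conjT, Fintype.sum_prod_type, mul_ite, mul_one, mul_zero,
        Finset.sum_ite_eq', Finset.mem_univ, if_true]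
    · rw [show P.lam * (l * (s * r)) = l * (P.lam * s * r) by ring]
      exact ih hL hR h3
    · rw [A_conjT h0 b' c' hq x]
      simp only [h4 _ _ q hq x, add_mul, Finset.sum_add_distrib, mul_add]
      refine congrArg₂ (· + ·) ?_ rfl
      have e : ∀ i, pd i (conjT L (fun b c => M' b c i) R b' c' q) x
          = ∑ b, L b' b * ∑ c, pd i (M' b c i q) x * R c c' := fun i => by
        have ht : ∀ b c, Tame fun y => M' b c i q y * R c c' := fun b c =>
          (S.ok_tame (hM' b c i) q hq).mul (Function.HasTemperateGrowth.const _)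
        have ht' : ∀ b, Tame fun y => ∑ c, M' b c i q y * R c c' := fun b =>
          Function.HasTemperateGrowth.sum fun c _ => ht b c
        show pd i (fun y => ∑ b, L b' b * ∑ c, M' b c i q y * R c c') x = _
        rw [pd_sum (f := fun b y => L b' b * ∑ c, M' b c i q y * R c c') Finset.univ
          fun b _ => (Function.HasTemperateGrowth.const _).mul (ht' b)]
        refine Finset.sum_congr rfl fun b _ => ?_
        rw [pd_const_mul (ht' b), pd_sum (f := fun c y => M' b c i q y * R c c') Finset.univ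
          fun c _ => ht b c]
        refine congrArg _ (Finset.sum_congr rfl fun c _ => ?_)
        rw [pd_mul (S.ok_tame (hM' b c i) q hq) (Function.HasTemperateGrowth.const _), pd_const]
        ring
      have eM : ∀ i, conjT L (fun b c => M' b c i) R b' c' q x
          = ∑ b, L b' b * ∑ c, M' b c i q x * R c c' := fun i => rfl
      simp only [e, eM, Finset.sum_sub_distrib, sub_mul, mul_sub, Finset.mul_sum, Finset.sum_mul]
      congr 1
      · conv_rhs => rw [Finset.sum_comm]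
        refine Finset.sum_congr rfl fun b _ => ?_
        conv_rhs => rw [Finset.sum_comm]
        exact Finset.sum_congr rfl fun c _ => Finset.sum_congr rfl fun i _ => by ring
      · conv_rhs => rw [Finset.sum_comm]
        refine Finset.sum_congr rfl fun b _ => ?_
        conv_rhs => rw [Finset.sum_comm]

/-- A factor `q`. -/
lemma AMul.qmul (hid : S.ok fun q _ => q) {T : ℝ} (hT0 : 0 ≤ T) (hqT : |P.q₀| ≤ T)
    (hlT : 1 ≤ P.lam * T) (j : ℕ) : ∀ {β γ : Type} [Fintype β] [Fintype γ]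
    {M : β → γ → ℝ → (EuclideanSpace ℝ ι) → ℝ} {s : ℝ}, 0 ≤ s → AMul P N j M s →
      AMul P N j (fun b c q x => q * M b c q x) (2 ^ j * T * s) := by
  induction j with
  | zero =>
    intro β γ _ _ M s hs h
    refine ⟨fun b c => S.ok_mul hid (h.1 b c), MulBound.mono (by positivity) ?_ N
      (MulBound.smul P.q₀ N (fun b c => S.ok_tame (h.1 b c) _ P.mem) h.2)⟩
    rw [pow_zero, one_mul]
    exact mul_le_mul_of_nonneg_right hqT hs
  | succ j ih =>
    intro β γ _ _ M s hs h
    have hl := AMul.lower P N j h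
    obtain ⟨⟨h0, hb⟩, M', Q, h1, h2, h3, h4⟩ := h
    have hk : 0 ≤ P.κ * P.lam := (mul_pos P.κ0 P.lam0).le
    have hls : 0 ≤ P.lam * s := mul_nonneg P.lam0.le hs
    have hks : 0 ≤ P.κ * P.lam * s := mul_nonneg hk hs
    have hp : (2 : ℝ) ^ j ≤ 2 ^ (j + 1) := pow_le_pow_right₀ one_le_two (Nat.le_succ j)
    refine ⟨⟨fun b c => S.ok_mul hid (h0 b c), MulBound.mono (by positivity) ?_ N
      (MulBound.smul P.q₀ N (fun b c => S.ok_tame (h0 b c) _ P.mem) hb)⟩,
      fun b c i q x => q * M' b c i q x, fun b c q x => q * Q b c q x + M b c q x,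
      ?_, ?_, ?_, fun b c q hq x => ?_⟩
    · refine mul_le_mul_of_nonneg_right (hqT.trans ?_) hs
      exact le_mul_of_one_le_left hT0 (one_le_pow₀ one_le_two)
    · refine AMul.mono P N j (ih hks h1) (by positivity) ?_
      calc 2 ^ j * T * (P.κ * P.lam * s) ≤ 2 ^ (j + 1) * T * (P.κ * P.lam * s) := by gcongr
        _ = _ := by ring
    · refine AMul.mono P N j (ih hks h2) (by positivity) ?_
      calc 2 ^ j * T * (P.κ * P.lam * s) ≤ 2 ^ (j + 1) * T * (P.κ * P.lam * s) := by gcongr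
        _ = _ := by ring
    · refine AMul.mono P N j (AMul.add j (by positivity) hs (ih hls h3) hl) (by positivity) ?_
      have h1' : s * 1 ≤ s * (P.lam * T) := mul_le_mul_of_nonneg_left hlT hs
      have h2' : (1 : ℝ) * (s * (P.lam * T)) ≤ 2 ^ j * (s * (P.lam * T)) :=
        mul_le_mul_of_nonneg_right (one_le_pow₀ one_le_two)
          (mul_nonneg hs (le_trans zero_le_one hlT))
      rw [pow_succ]
      linarith
    · have hM' : ∀ i, Tame (M' b c i q) := fun i => S.ok_tame ((AMul.base P h1).1 (b, i) c) q hq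
      have e : S.A (fun u _ => u) q x = 1 := by simp [A_apply, pd_const]
      rw [S.A_mul hid (h0 b c) hq x, e, h4 b c q hq x, one_mul, mul_add, Finset.mul_sum]
      simp only [pd_const_mul (hM' _)]
      rw [add_comm (M b c q x), add_assoc]
      congr 1
      exact Finset.sum_congr rfl fun i _ => by ring

/-! ### Norms -/

lemma regNorm_zero_fn (j : ℕ) : ∀ (m : ℕ) {α : Type} [Fintype α],
    regNorm P m j (fun (_ : α) (_ : ℝ) (_ : (EuclideanSpace ℝ ι)) => (0 : ℝ)) = 0 := by
  induction j with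
  | zero => intro m α _; exact sob_zero_fn _ _ _
  | succ j ih =>
    intro m α _
    simp only [regNorm, sob_zero_fn]
    rw [regNorm_congr P j m (F := S.AF fun (_ : α) (_ : ℝ) (_ : (EuclideanSpace ℝ ι)) => (0 : ℝ))
      (G := fun (_ : α) (_ : ℝ) (_ : (EuclideanSpace ℝ ι)) => (0 : ℝ)) fun a q _ x => S.A_const 0 q x, ih]
    simp

lemma regNorm_const (j m : ℕ) {α : Type} [Fintype α] (A : α → ℝ) :
    regNorm P m j (fun a (_ : ℝ) (_ : (EuclideanSpace ℝ ι)) => A a) = ∑ a, A a ^ 2 := by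
  have := S.prob P.q₀ P.mem
  cases j with
  | zero => exact sob_const_fn m A
  | succ j =>
    simp only [regNorm, sob_const_fn]
    rw [regNorm_congr P j m (F := S.AF fun a (_ : ℝ) (_ : (EuclideanSpace ℝ ι)) => A a)
      (G := fun (_ : α) (_ : ℝ) (_ : (EuclideanSpace ℝ ι)) => (0 : ℝ)) fun a q _ x => S.A_const (A a) q x,
      regNorm_zero_fn]
    simp

/-- A field of flattenings as a function, its column index a spectator. -/
lemma regNorm_field_le {β γ : Type} [Fintype β] [Fintype γ] {m j : ℕ} {C : ℝ}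
    (hops : OpsLe P m j N C) {M : β → γ → ℝ → (EuclideanSpace ℝ ι) → ℝ} {s : ℝ} (hM : AMul P N j M s) :
    regNorm P m j (fun p : γ × β => M p.2 p.1) ≤ C * s ^ 2 * Fintype.card γ := by
  classical
  set F : γ × γ → ℝ → (EuclideanSpace ℝ ι) → ℝ := fun p _ _ => if p.1 = p.2 then 1 else 0
  have hF : S.OkF F := fun p => S.ok_const _
  have e : mulT M F = fun p : γ × β => M p.2 p.1 := by
    funext p q x
    simp [mulT, mulF, F]
  have h1 := hops.2.2 hM hF
  have e2 : ∑ p : γ × γ, (if p.1 = p.2 then (1 : ℝ) else 0) ^ 2 = Fintype.card γ := by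
    rw [Fintype.sum_prod_type]
    simp
  rw [e, regNorm_const, e2] at h1
  exact h1

lemma regNorm_AF_le' (j m : ℕ) {α : Type} [Fintype α] (F : α → ℝ → (EuclideanSpace ℝ ι) → ℝ) :
    regNorm P m j (S.AF F) ≤ P.lam ^ 2 * regNorm P m (j + 1) F := by
  have h := mul_le_mul_of_nonneg_left (regNorm_AF_le P j m F) (sq_nonneg P.lam)
  rwa [← mul_assoc, mul_comm (P.lam ^ 2), inv_lam_sq, one_mul] at h

end Sys

end Reg

end Vale.Agent.P347.Gamma0
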