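import Vale.Agent.P347.Gamma0.RegCls
import Vale.Agent.P347.Gamma0.RegIter
import Vale.Agent.P347.Gamma0.Identity

/-!
P347, towards `γ_* = 0`, piece 4 (regularity): the exact flow as a system of the generator calculus.
The algebra is generated by functions of time, the coordinates, the potential and the derivatives of
the mean gradient seen at `c + q w`; members of `Cls` are multipliers with the rate
`lam ≈ √τ / r` and the space scale `κ ≈ √r / (√r + |q|)`.
-/

namespace Vale.Agent.P347.Gamma0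

namespace Reg

open MeasureTheory Sobolev Set
open scoped ContDiff RealInnerProductSpace

set_option linter.unusedSectionVars false

variable {d : ℕ}

attribute [local irreducible] G nW psi

/-- A function of the scale and the point, seen along the flow. -/
noncomputable def pull (D : Data d) (f : ℝ → E d → ℝ) : ℝ → E d → ℝ :=
  fun q w => f (D.r q) (D.c + q • w)

/-- An entry of `a` at `c + q w`: value `i`, direction `j`. -/
noncomputable def aC (D : Data d) (i j : Fin d) : ℝ → E d → ℝ :=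
  fun q w => D.aq q w (bv j) i

/-- The algebra of the exact flow. -/
inductive Alg (D : Data d) : (ℝ → E d → ℝ) → Prop
  | qfun {φ : ℝ → ℝ} (h : ContDiff ℝ ∞ φ) : Alg D fun q _ => φ q
  | coord (i : Fin d) : Alg D fun _ w => w i
  | gen (m : ℕ) (i : Fin (m + 1) → Fin d) : Alg D (pull D (dG D m i))
  | psi : Alg D D.ψ
  | add {f g : ℝ → E d → ℝ} (hf : Alg D f) (hg : Alg D g) : Alg D fun q w => f q w + g q w
  | mul {f g : ℝ → E d → ℝ} (hf : Alg D f) (hg : Alg D g) : Alg D fun q w => f q w * g q w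
  | congr {f g : ℝ → E d → ℝ} (hf : Alg D f) (e : ∀ q ∈ D.I, ∀ w, g q w = f q w) : Alg D g

lemma Alg.const (D : Data d) (c : ℝ) : Alg D fun _ _ => c := Alg.qfun (φ := fun _ => c) contDiff_const

lemma Alg.cmul {D : Data d} {f : ℝ → E d → ℝ} (h : Alg D f) (c : ℝ) :
    Alg D fun q w => c * f q w := (Alg.const D c).mul h

lemma Alg.sum {D : Data d} {κ : Type} (s : Finset κ) {f : κ → ℝ → E d → ℝ}
    (h : ∀ a ∈ s, Alg D (f a)) : Alg D fun q w => ∑ a ∈ s, f a q w := by
  classical
  induction s using Finset.induction with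
  | empty => simpa using Alg.const D 0
  | @insert a s ha ih =>
    simp only [Finset.sum_insert ha]
    exact (h a (Finset.mem_insert_self a s)).add (ih fun b hb => h b (Finset.mem_insert_of_mem hb))

/-- An index with a derivative leg added. -/
def addLeg {m : ℕ} (k : Fin d) (i : Fin (m + 1) → Fin d) : Fin (m + 2) → Fin d :=
  fun a => (finSuccEquiv' (1 : Fin (m + 2)) a).elim k i

lemma addLeg_one {m : ℕ} (k : Fin d) (i : Fin (m + 1) → Fin d) : addLeg k i 1 = k := by
  simp [addLeg]

lemma dropLeg_addLeg {m : ℕ} (k : Fin d) (i : Fin (m + 1) → Fin d) : dropLeg (addLeg k i) = i := by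
  funext a
  simp [dropLeg, addLeg]

section Post

variable (hP : PostFacts) (D : Data d)
include hP

lemma pd_dG (m : ℕ) (i : Fin (m + 1) → Fin d) (k : Fin d) {r : ℝ} (hr : 0 < r) (y : E d) :
    pd k (dG D m i r) y = dG D (m + 1) (addLeg k i) r y := by
  rw [dG_succ hP D m (addLeg k i) hr y, addLeg_one, dropLeg_addLeg]

omit hP in
lemma pd_pull {f : ℝ → E d → ℝ} (hf : Joint f) {q : ℝ} (hq : q ∈ D.I) (k : Fin d) (w : E d) :
    pd k (pull D f q) w = q * pull D (fun r y => pd k (f r) y) q w := by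
  have h : HasFDerivAt (pull D f q) ((fderiv ℝ (f (D.r q)) (D.c + q • w)).comp
      (q • ContinuousLinearMap.id ℝ (E d))) w :=
    ((hf.space (D.r_pos hq)).differentiable (by simp) _).hasFDerivAt.comp w
      (((hasFDerivAt_id w).const_smul q).const_add D.c)
  show fderiv ℝ (pull D f q) w (EuclideanSpace.single k 1) = _
  rw [h.fderiv]
  simp [pull, Sobolev.pd]

omit hP in
lemma deriv_pull {f : ℝ → E d → ℝ} (hf : Joint f) {q : ℝ} (hq : q ∈ D.I) (w : E d) :
    deriv (fun u => pull D f u w) q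
      = -2 * q * deriv (fun r => f r (D.c + q • w)) (D.r q)
        + ∑ k, w k * pd k (f (D.r q)) (D.c + q • w) := by
  set F : ℝ × E d → ℝ := fun p => f p.1 p.2
  set y := D.c + q • w
  have hF : HasFDerivAt F (fderiv ℝ F (D.r q, y)) (D.r q, y) :=
    ((hf.at' (D.r_pos hq) y).differentiableAt (by simp)).hasFDerivAt
  have hr' : HasDerivAt D.r (-2 * q) q := by
    have h := (hasDerivAt_const q D.τ).sub ((hasDerivAt_id q).pow 2)
    refine h.congr_deriv ?_
    simp
  have hp : HasDerivAt (fun u => (D.r u, D.c + u • w)) ((-2 * q, w) : ℝ × E d) q := by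
    refine hr'.prodMk ?_
    simpa using ((hasDerivAt_id q).smul_const w).const_add D.c
  have h := hF.comp_hasDerivAt q (f := fun u => (D.r u, D.c + u • w)) hp
  rw [show (fun u => pull D f u w) = F ∘ fun u => (D.r u, D.c + u • w) from rfl, h.deriv,
    hf.deriv_eq (D.r_pos hq)]
  simp only [hf.pd_eq (D.r_pos hq)]
  have e : ((-2 * q, w) : ℝ × E d)
      = (-2 * q) • ((1 : ℝ), (0 : E d)) + ∑ k, w k • ((0 : ℝ), bv k) := by
    refine Prod.ext ?_ ?_
    · simp [Prod.fst_sum]
    · simp only [Prod.snd_add, Prod.smul_snd, smul_zero, Prod.snd_sum, zero_add]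
      simpa [bv, EuclideanSpace.basisFun_apply] using
        ((EuclideanSpace.basisFun (Fin d) ℝ).sum_repr w).symm
  rw [e, map_add, map_smul, map_sum]
  simp only [map_smul, smul_eq_mul]
  rfl

lemma pd_psi_eq {q : ℝ} (hq : q ∈ D.I) (i : Fin d) (w : E d) :
    pd i (D.ψ q) w = w i + q * D.ε * pull D (gC D i) q w := by
  rw [pd_psi hP D hq i]
  simp [Data.gψ, Data.Gq, pull, gC]

lemma cont_eq' {q : ℝ} (hq : q ∈ D.I) (w : E d) :
    deriv (fun u => D.ψ u w) q + ∑ i, D.v q w i * pd i (D.ψ q) w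
      = ∑ i, pd i (fun w => D.v q w i) w := by
  have h := D.continuity_eq hP (nwHeat_of_post hP) hq w
  rw [(D.hasGradient_psi hP hq w).hasFDerivAt.fderiv, InnerProductSpace.toDual_apply_apply] at h
  have e1 : ⟪D.gψ q w, D.v q w⟫ = ∑ i, D.v q w i * pd i (D.ψ q) w := by
    rw [PiLp.inner_apply]
    exact Finset.sum_congr rfl fun i _ => by simp [pd_psi hP D hq i]
  have e2 : dvg (D.v q) w = ∑ i, pd i (fun w => D.v q w i) w := by
    refine Finset.sum_congr rfl fun i _ => ?_
    have hd : HasFDerivAt (D.v q) (-(D.ε • (q • D.aq q w))) w :=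
      ((D.hasFDerivAt_Gq hP hq w).const_smul D.ε).neg
    have hdi : HasFDerivAt (fun w => D.v q w i)
        ((EuclideanSpace.proj (𝕜 := ℝ) i).comp (-(D.ε • (q • D.aq q w)))) w :=
      (EuclideanSpace.proj (𝕜 := ℝ) i).hasFDerivAt.comp w hd
    show fderiv ℝ (D.v q) w (bv i) i = fderiv ℝ (fun w => D.v q w i) w (EuclideanSpace.single i 1)
    rw [hd.fderiv, hdi.fderiv]
    rfl
  rw [e1, e2] at h
  exact h

lemma Alg.smooth {f : ℝ → E d → ℝ} (h : Alg D f) :
    ContDiffOn ℝ ∞ (fun p : ℝ × E d => f p.1 p.2) (D.I ×ˢ univ) := by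
  induction h with
  | qfun hφ => exact (hφ.comp contDiff_fst).contDiffOn
  | coord i => exact ((EuclideanSpace.proj (𝕜 := ℝ) i).contDiff.comp contDiff_snd).contDiffOn
  | gen m i => exact (joint_dG hP D m i).comp D.contDiff_arg.contDiffOn D.mapsTo_arg
  | psi => exact D.contDiffOn_psi hP
  | add hf hg ihf ihg => exact ihf.add ihg
  | mul hf hg ihf ihg => exact ihf.mul ihg
  | congr hf e ih => exact ih.congr fun p hp => e p.1 hp.1 p.2

variable (hT : TameFact) (hτ : D.τ ≤ 1)
include hT hτ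

lemma tame_dG {r : ℝ} (hr : 0 < r) (hr1 : r ≤ 1) :
    ∀ (m : ℕ) (i : Fin (m + 1) → Fin d), Tame (dG D m i r)
  | 0, i => by
    rw [dG_zero]
    exact (EuclideanSpace.proj (𝕜 := ℝ) (i 0)).hasTemperateGrowth.comp
      (Law.tame_G D hP hT hτ hr hr1)
  | m + 1, i => by
    rw [show dG D (m + 1) i r = pd (i 1) (dG D m (dropLeg i) r) from
      funext fun y => dG_succ hP D m i hr y]
    exact (tame_dG hr hr1 m (dropLeg i)).pdTame (i 1)

lemma Alg.tame {f : ℝ → E d → ℝ} (h : Alg D f) : ∀ q ∈ D.I, Tame (f q) := by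
  induction h with
  | qfun hφ => exact fun q _ => Function.HasTemperateGrowth.const _
  | coord i => exact fun q _ => (EuclideanSpace.proj (𝕜 := ℝ) i).hasTemperateGrowth
  | gen m i =>
    intro q hq
    exact (tame_dG hP D hT hτ (D.r_pos hq) (Law.r_le_one D hP hT hτ q) m i).comp
      (f := fun w : E d => D.c + q • w) ((Function.HasTemperateGrowth.const D.c).add
        (q • ContinuousLinearMap.id ℝ (E d)).hasTemperateGrowth)
  | psi => exact fun q hq => Law.tame_psi D hP hT hτ hq
  | add hf hg ihf ihg => exact fun q hq => (ihf q hq).add (ihg q hq)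
  | mul hf hg ihf ihg => exact fun q hq => (ihf q hq).mul (ihg q hq)
  | @congr f g hf e ih =>
    intro q hq
    rw [show g q = f q from funext (e q hq)]
    exact ih q hq

lemma Alg.pd {f : ℝ → E d → ℝ} (h : Alg D f) (k : Fin d) : Alg D fun q => Sobolev.pd k (f q) := by
  induction h with
  | qfun hφ => exact (Alg.const D 0).congr fun q _ w => pd_const _ _ _
  | coord i =>
    refine (Alg.const D (if k = i then 1 else 0)).congr fun q _ w => ?_
    show fderiv ℝ (fun w : E d => w i) w (EuclideanSpace.single k 1) = _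
    rw [show (fun w : E d => w i) = ⇑(EuclideanSpace.proj (𝕜 := ℝ) i) from rfl,
      ContinuousLinearMap.fderiv]
    simp [EuclideanSpace.single_apply, eq_comm]
  | gen m i =>
    refine ((Alg.qfun (φ := id) contDiff_id).mul (Alg.gen (m + 1) (addLeg k i))).congr
      fun q hq w => ?_
    rw [pd_pull D (joint_dG hP D m i) hq]
    simp only [pull, pd_dG hP D m i k (D.r_pos hq), id_eq]
  | psi =>
    refine ((Alg.coord k).add ((Alg.qfun (φ := fun q => q * D.ε)
      (contDiff_id.mul contDiff_const)).mul (Alg.gen 0 fun _ => k))).congr fun q hq w => ?_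
    rw [pd_psi_eq hP D hq, dG_zero]
  | @add f g hf hg ihf ihg =>
    exact (ihf.add ihg).congr fun q hq w =>
      Sobolev.pd_add (Alg.tame hP D hT hτ hf q hq) (Alg.tame hP D hT hτ hg q hq) k w
  | @mul f g hf hg ihf ihg =>
    exact ((ihf.mul hg).add (hf.mul ihg)).congr fun q hq w =>
      Sobolev.pd_mul (Alg.tame hP D hT hτ hf q hq) (Alg.tame hP D hT hτ hg q hq) k w
  | @congr f g hf e ih =>
    exact ih.congr fun q hq w => by rw [show g q = f q from funext (e q hq)]

lemma Alg.cls {α : Type} {w : ℕ} {F : Fam α} (h : Cls α w F) :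
    ∀ i : α → Fin d, Alg D (pull D (comp F D i)) := by
  induction h with
  | base m => exact fun i => Alg.gen (m + 1) i
  | relabel e h ih => exact fun i => ih _
  | contr h h' ih ih' => exact fun i => Alg.sum Finset.univ fun k _ => (ih _).mul (ih' _)
  | add h h' ih ih' => exact fun i => (ih i).add (ih' i)
  | smul c K hK hc h ih => exact fun i => (ih i).cmul _
  | weaken hw h ih => exact ih

lemma Alg.pull_Lop (m : ℕ) (i : Fin (m + 1) → Fin d) : Alg D (pull D (Lop D (dG D m i))) := by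
  cases m with
  | zero =>
    refine (Alg.const D 0).congr fun q hq w => ?_
    show Lop D (dG D 0 i) (D.r q) _ = 0
    rw [dG_zero]
    exact Lop_gC hP D _ (D.r_pos hq) _
  | succ m =>
    obtain ⟨F', hF', e'⟩ := (Cls.base m).exists_L hP
    exact (Alg.cls hP D hT hτ hF' i).congr fun q hq w => (e' d D _ (D.r_pos hq) _ i).symm

lemma Alg.dq {f : ℝ → E d → ℝ} (h : Alg D f) : Alg D fun q w => deriv (fun u => f u w) q := by
  induction h with
  | @qfun φ hφ =>
    exact (Alg.qfun (φ := deriv φ) (contDiff_infty_iff_deriv.1 hφ).2).congr fun q _ w => rfl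
  | coord i => exact (Alg.const D 0).congr fun q _ w => by simp
  | gen m i =>
    have hid : Alg D fun q _ => q := Alg.qfun (φ := id) contDiff_id
    have hLap : Alg D fun q w => ∑ k, pull D (dG D (m + 2) (addLeg k (addLeg k i))) q w :=
      Alg.sum Finset.univ fun k _ => Alg.gen _ _
    have hGrad : Alg D fun q w =>
        ∑ k, pull D (dG D (m + 1) (addLeg k i)) q w * pull D (dG D 0 fun _ => k) q w :=
      Alg.sum Finset.univ fun k _ => (Alg.gen _ _).mul (Alg.gen _ _)
    have hw : Alg D fun q w => ∑ k, w k * pull D (dG D (m + 1) (addLeg k i)) q w :=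
      Alg.sum Finset.univ fun k _ => (Alg.coord k).mul (Alg.gen _ _)
    refine ((hid.mul (((Alg.pull_Lop hP D hT hτ m i).add (hLap.cmul (-1))).add
      (hGrad.cmul (2 * D.ε)))).add hw).congr fun q hq w => ?_
    have hr := D.r_pos hq
    rw [deriv_pull D (joint_dG hP D m i) hq]
    have e0 : ∀ k : Fin d, Sobolev.pd k (dG D m i (D.r q))
        = dG D (m + 1) (addLeg k i) (D.r q) := fun k => funext fun y => pd_dG hP D m i k hr y
    simp only [pull, Lop, dG_zero, e0, pd_dG hP D (m + 1) _ _ hr]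
    ring
  | psi =>
    have hv : ∀ i : Fin d, Alg D fun q w => (-D.ε) * pull D (gC D i) q w := fun i => by
      have h := (Alg.gen (D := D) 0 fun _ => i).cmul (-D.ε)
      rwa [dG_zero] at h
    refine ((Alg.sum Finset.univ fun i _ => Alg.pd hP D hT hτ (hv i) i).add
      ((Alg.sum Finset.univ fun i _ =>
        (hv i).mul (Alg.pd hP D hT hτ Alg.psi i)).cmul (-1))).congr fun q hq w => ?_
    have hvi : ∀ i, (fun w => D.v q w i) = fun w => (-D.ε) * pull D (gC D i) q w := fun i =>
      funext fun w => by simp [Data.v_eq, pull, gC, Data.Gq]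
    have h := cont_eq' hP D hq w
    simp only [hvi, show ∀ i, D.v q w i = (-D.ε) * pull D (gC D i) q w from
      fun i => congrFun (hvi i) w] at h
    linarith
  | @add f g hf hg ihf ihg =>
    refine (ihf.add ihg).congr fun q hq w => ?_
    exact deriv_fun_add (diff_of hP D hf hq w) (diff_of hP D hg hq w)
  | @mul f g hf hg ihf ihg =>
    refine ((ihf.mul hg).add (hf.mul ihg)).congr fun q hq w => ?_
    exact deriv_fun_mul (diff_of hP D hf hq w) (diff_of hP D hg hq w)
  | @congr f g hf e ih =>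
    refine ih.congr fun q hq w => ?_
    exact Filter.EventuallyEq.deriv_eq
      (Filter.eventually_of_mem (isOpen_Ioo.mem_nhds hq) fun u hu => e u hu w)
where
  diff_of {f : ℝ → E d → ℝ} (hP : PostFacts) (D : Data d) (hf : Alg D f) {q : ℝ} (hq : q ∈ D.I)
      (w : E d) : DifferentiableAt ℝ (fun u => f u w) q :=
    (((Alg.smooth hP D hf).contDiffAt (D.isOpen_I.mem_nhds ⟨hq, mem_univ w⟩)).differentiableAt
      (by simp)).comp q (f := fun u : ℝ => (u, w))
      (differentiableAt_id.prodMk (differentiableAt_const w))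

/-- The exact flow as a system. -/
noncomputable def baseSys : Sys (Fin d) where
  I := D.I
  open_I := isOpen_Ioo
  μ q := ExFlow.law D q
  Ψ := D.ψ
  v i q w := D.v q w i
  ok := Alg D
  ok_smooth h := Alg.smooth hP D h
  ok_tame h := Alg.tame hP D hT hτ h
  ok_const c := Alg.const D c
  ok_add := Alg.add
  ok_mul := Alg.mul
  ok_pd i h := Alg.pd hP D hT hτ h i
  ok_dq h := Alg.dq hP D hT hτ h
  ok_Ψ := Alg.psi
  ok_v i := by
    have h := (Alg.gen (D := D) 0 fun _ => i).cmul (-D.ε)
    exact h.congr fun q _ w => by simp [dG_zero, Data.v_eq, pull, gC, Data.Gq]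
  prob q hq := LogConcave.isProb (Law.logConc D hP hT hτ hq)
  ibp q hq := Law.ibp D hP hT hτ hq
  cont_eq q hq w := cont_eq' hP D hq w

/-- `A f = δ (∇ f) + q L f` along the flow. -/
lemma A_pull {f : ℝ → E d → ℝ} (hf : Joint f) {q : ℝ} (hq : q ∈ D.I) (w : E d) :
    ((baseSys hP D hT hτ)).A (pull D f) q w
      = ∑ k, (pd k (D.ψ q) w * pull D (fun r y => pd k (f r) y) q w
          - pd k (pull D (fun r y => pd k (f r) y) q) w) + q * pull D (Lop D f) q w := by
  show deriv (fun u => pull D f u w) q + ∑ i, D.v q w i * pd i (pull D f q) w = _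
  rw [deriv_pull D hf hq]
  simp only [pd_pull D hf hq, pd_pull D (hf.pd _) hq, pd_psi_eq hP D hq, Data.v_eq, pull, gC, Lop,
    Data.Gq, PiLp.neg_apply, PiLp.smul_apply, smul_eq_mul]
  simp only [Finset.sum_add_distrib, Finset.sum_sub_distrib, add_mul, Finset.mul_sum, mul_sub]
  have e1 : ∀ k, -(D.ε * G D.U D.g D.ε (D.r q) (D.c + q • w) k) *
      (q * pd k (f (D.r q)) (D.c + q • w))
      = q * D.ε * G D.U D.g D.ε (D.r q) (D.c + q • w) k * pd k (f (D.r q)) (D.c + q • w)
        - q * (2 * D.ε * (pd k (f (D.r q)) (D.c + q • w) * G D.U D.g D.ε (D.r q) (D.c + q • w) k))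
      := fun k => by ring
  simp only [e1, Finset.sum_sub_distrib]
  ring

/-- The smallness of the scales at a point of evaluation. -/
structure Adm (P : ((baseSys hP D hT hτ)).Pt) : Prop where
  kq : P.κ * |P.q₀| ≤ Real.sqrt (D.r P.q₀)
  kl : 1 ≤ P.κ * P.lam * Real.sqrt (D.r P.q₀)
  lr : Real.sqrt D.τ ≤ P.lam * D.r P.q₀
  lt : 1 ≤ P.lam * Real.sqrt D.τ

end Post

/-- The field of flattenings of a member of the class along a splitting of its legs. -/
noncomputable def matC {α αr αc : Type} (F : Fam α) (e : α ≃ αr ⊕ αc) (D : Data d)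
    (b : αr → Fin d) (c : αc → Fin d) : ℝ → E d → ℝ :=
  pull D (comp F D fun x => Sum.elim b c (e x))

lemma opLe_perm {β β' : Type} [Fintype β] [Fintype β'] [DecidableEq β] (e : β' ≃ β) :
    OpLe (fun b' b => if e b' = b then (1 : ℝ) else 0) 1 := fun v => by
  simp only [ite_mul, one_mul, zero_mul, Finset.sum_ite_eq, Finset.mem_univ, if_true, one_pow]
  exact le_of_eq (e.sum_comp fun b => v b ^ 2)

lemma AMul.reindex {ι : Type} [Fintype ι] [DecidableEq ι] {S : Sys ι} {P : S.Pt} {N j : ℕ}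
    {β γ β' γ' : Type} [Fintype β] [Fintype γ] [Fintype β'] [Fintype γ']
    {M : β → γ → ℝ → EuclideanSpace ℝ ι → ℝ} {s : ℝ} (h : Sys.AMul P N j M s) (eb : β' ≃ β)
    (ec : γ' ≃ γ) : Sys.AMul P N j (fun b c => M (eb b) (ec c)) s := by
  classical
  have h' := Sys.AMul.conj j (opLe_perm eb) (opLe_perm ec.symm) h
  rw [one_mul, mul_one] at h'
  convert h' using 1
  funext b c q x
  simp [Sys.conjT, Equiv.symm_apply_eq]

variable (hP : PostFacts) (hT : TameFact)
include hP hT

/-- Members of the class are multipliers. -/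
theorem exists_aMul_cls (N j : ℕ) : ∀ {α : Type} {w : ℕ} {F : Fam α}, Cls α w F →
    ∀ {αr αc : Type} [Fintype αr] [DecidableEq αr] [Fintype αc] [DecidableEq αc] [Nonempty αr]
      [Nonempty αc] (e : α ≃ αr ⊕ αc),
      ∃ C : ℝ, 0 ≤ C ∧ ∀ (d : ℕ) (D : Data d) (hτ : D.τ ≤ 1) (P : (baseSys hP D hT hτ).Pt),
        Adm hP D hT hτ P →
          Sys.AMul P N j (matC F e D) (C / Real.sqrt (D.r P.q₀) ^ w) := by
  have base : ∀ {α : Type} {w : ℕ} {F : Fam α}, Cls α w F →
      ∀ {αr αc : Type} [Fintype αr] [DecidableEq αr] [Fintype αc] [DecidableEq αc] [Nonempty αr]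
        [Nonempty αc] (e : α ≃ αr ⊕ αc),
        ∃ C : ℝ, 0 ≤ C ∧ ∀ (d : ℕ) (D : Data d) (hτ : D.τ ≤ 1) (P : (baseSys hP D hT hτ).Pt),
          Adm hP D hT hτ P → MulBound P.κ N (fun b c => matC F e D b c P.q₀)
            (C / Real.sqrt (D.r P.q₀) ^ w) := by
    intro α w F hF αr αc _ _ _ _ _ _ e
    have hF' := hF.relabel e
    obtain ⟨C, hC0, hC⟩ := hF'.bound hP hT N
    refine ⟨C, hC0, fun d D hτ P hA => ?_⟩
    have hr := D.r_pos P.mem
    have hsr : 0 < Real.sqrt (D.r P.q₀) := Real.sqrt_pos.2 hr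
    have hs : Tensor.Smooth fun w : E d =>
        Tensor.relabel e (F d D (D.r P.q₀)) (D.c + P.q₀ • w) := fun i =>
      (hF'.smooth hP D hr i).comp (contDiff_const.add (contDiff_id.const_smul P.q₀))
    have h := Tensor.FieldLe.mulBound P.κ0.le (σ := |P.q₀| * (1 / Real.sqrt (D.r P.q₀)))
      (by positivity)
      (by rw [← mul_assoc, ← mul_div_assoc, mul_one, div_le_one hsr]; exact hA.kq) N
      (Equiv.refl (αr → Fin d)) (Equiv.refl (αc → Fin d)) (C := C / Real.sqrt (D.r P.q₀) ^ w)
      (by positivity) le_rfl hs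
      (FieldLe.comp_affine D.c P.q₀ N (hF'.smooth hP D hr)
        (hC d D _ hr (Law.r_le_one D hP hT hτ _)))
    exact h
  induction j with
  | zero =>
    intro α w F hF αr αc _ _ _ _ _ _ e
    obtain ⟨C, hC0, hC⟩ := base hF e
    exact ⟨C, hC0, fun d D hτ P hA => ⟨fun b c => Alg.cls hP D hT hτ hF _, hC d D hτ P hA⟩⟩
  | succ j ih =>
    intro α w F hF αr αc _ _ _ _ _ _ e
    obtain ⟨C₀, hC0, hC⟩ := base hF e
    obtain ⟨F1, hF1, e1⟩ := hF.exists_dT hP
    obtain ⟨F2, hF2, e2⟩ := hF.exists_L hP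
    obtain ⟨C₁, hC10, hC1⟩ := ih hF1 (e.optionCongr.trans (Tensor.optL αr αc))
    obtain ⟨C₂, hC20, hC2⟩ := ih hF1 (e.optionCongr.trans (Tensor.optR αr αc))
    obtain ⟨C₃, hC30, hC3⟩ := ih hF2 e
    refine ⟨C₀ + C₁ + C₂ + 2 ^ j * C₃, by positivity, fun d D hτ P hA => ?_⟩
    set r := D.r P.q₀
    set C := C₀ + C₁ + C₂ + 2 ^ j * C₃
    have hr : 0 < r := D.r_pos P.mem
    have hsr : 0 < Real.sqrt r := Real.sqrt_pos.2 hr
    have hscale : ∀ C' : ℝ, 0 ≤ C' → C' ≤ C →
        C' / Real.sqrt r ^ (w + 1) ≤ P.κ * P.lam * (C / Real.sqrt r ^ w) := by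
      intro C' h0 hC'
      rw [pow_succ, ← div_div, div_le_iff₀ hsr]
      calc C' / Real.sqrt r ^ w ≤ C / Real.sqrt r ^ w * 1 := by rw [mul_one]; gcongr
        _ ≤ C / Real.sqrt r ^ w * (P.κ * P.lam * Real.sqrt r) :=
            mul_le_mul_of_nonneg_left hA.kl (div_nonneg (h0.trans hC') (by positivity))
        _ = _ := by ring
    refine ⟨⟨fun b c => Alg.cls hP D hT hτ hF _, MulBound.mono (by positivity)
      (by gcongr; linarith [show (0:ℝ) ≤ 2 ^ j * C₃ by positivity]) N (hC d D hτ P hA)⟩,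
      fun b c i => pull D (comp F1 D fun o => o.elim i fun x => Sum.elim b c (e x)),
      fun b c q x => q * matC F2 e D b c q x, ?_, ?_, ?_, fun b c q hq x => ?_⟩
    · let eb : (αr → Fin d) × Fin d ≃ (Option αr → Fin d) :=
        (Equiv.prodComm _ _).trans (Equiv.piOptionEquivProd (β := fun _ => Fin d)).symm
      have h := AMul.reindex (hC1 d D hτ P hA) eb (Equiv.refl (αc → Fin d))
      refine Sys.AMul.mono P N j ?_ (by positivity)
        (hscale C₁ hC10 (by linarith [show (0:ℝ) ≤ 2 ^ j * C₃ by positivity]))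
      convert h using 1
      funext p c
      simp only [matC, eb]
      congr 2
      funext o
      rcases o with _ | x
      · rfl
      · rcases hx : e x with y | y <;> simp [Tensor.optL, hx]
    · let ec : (αc → Fin d) × Fin d ≃ (Option αc → Fin d) :=
        (Equiv.prodComm _ _).trans (Equiv.piOptionEquivProd (β := fun _ => Fin d)).symm
      have h := AMul.reindex (hC2 d D hτ P hA) (Equiv.refl (αr → Fin d)) ec
      refine Sys.AMul.mono P N j ?_ (by positivity)
        (hscale C₂ hC20 (by linarith [show (0:ℝ) ≤ 2 ^ j * C₃ by positivity]))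
      convert h using 1
      funext b p
      simp only [matC, ec]
      congr 2
      funext o
      rcases o with _ | x
      · rfl
      · rcases hx : e x with y | y <;> simp [Tensor.optR, hx]
    · have hqT : |P.q₀| ≤ Real.sqrt D.τ := abs_le.2 ⟨P.mem.1.le, P.mem.2.le⟩
      have h := Sys.AMul.qmul (S := baseSys hP D hT hτ) (Alg.qfun (φ := id) contDiff_id)
        (Real.sqrt_nonneg D.τ) hqT hA.lt j (by positivity) (hC3 d D hτ P hA)
      refine Sys.AMul.mono P N j h (by positivity) ?_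
      calc 2 ^ j * Real.sqrt D.τ * (C₃ / Real.sqrt r ^ (w + 2))
          ≤ 2 ^ j * (P.lam * r) * (C₃ / Real.sqrt r ^ (w + 2)) :=
            mul_le_mul_of_nonneg_right (mul_le_mul_of_nonneg_left hA.lr (by positivity))
              (by positivity)
        _ = P.lam * (2 ^ j * C₃ / Real.sqrt r ^ w) := by
            rw [pow_add, Real.sq_sqrt hr.le]
            field_simp
        _ ≤ _ := mul_le_mul_of_nonneg_left (by gcongr; simp only [C]; linarith) P.lam0.le
    · show (baseSys hP D hT hτ).A (pull D (comp F D fun x => Sum.elim b c (e x))) q x = _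
      rw [A_pull hP D hT hτ (hF.joint hP D _) hq]
      have ed : ∀ i, (fun r y => pd i (comp F D (fun x => Sum.elim b c (e x)) r) y) (D.r q)
          = comp F1 D (fun o => o.elim i fun x => Sum.elim b c (e x)) (D.r q) := fun i => by
        funext y
        simp only [comp, e1 d D _ (D.r_pos hq)]
        rfl
      have ed' : ∀ i, pull D (fun r y => pd i (comp F D (fun x => Sum.elim b c (e x)) r) y) q
          = pull D (comp F1 D (fun o => o.elim i fun x => Sum.elim b c (e x))) q := fun i =>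
        funext fun z => congrFun (ed i) _
      simp only [ed', matC]
      congr 2
      exact (e2 d D _ (D.r_pos hq) _ _).symm

/-- `a`, both ways round. -/
theorem exists_aMul_a (N j : ℕ) :
    ∃ C : ℝ, 0 ≤ C ∧ ∀ (d : ℕ) (D : Data d) (hτ : D.τ ≤ 1) (P : (baseSys hP D hT hτ).Pt),
      Adm hP D hT hτ P →
        Sys.AMul P N j (fun i k => aC D i k) C ∧ Sys.AMul P N j (fun i k => aC D k i) C := by
  obtain ⟨C, hC0, hC⟩ := exists_aMul_cls hP hT N j (Cls.base 0) aSplit
  obtain ⟨C', hC0', hC'⟩ :=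
    exists_aMul_cls hP hT N j (Cls.base 0) (aSplit.trans (Equiv.sumComm _ _))
  refine ⟨C + C', by positivity, fun d D hτ P hA => ?_⟩
  have key : ∀ (i : Fin 2 → Fin d) q w, pull D (comp (fun d D r => derivT 1 (G D.U D.g D.ε r)) D i) q w
      = aC D (i 0) (i 1) q w := fun i q w => by
    simp [pull, comp, derivT, aC, Data.aq]
  let eP : Fin d ≃ (PUnit → Fin d) := (Equiv.funUnique PUnit (Fin d)).symm
  have h1 := AMul.reindex (hC d D hτ P hA) eP eP
  have h2 := AMul.reindex (hC' d D hτ P hA) eP eP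
  simp only [pow_zero, div_one] at h1 h2
  refine ⟨Sys.AMul.mono P N j ?_ hC0 (by linarith), Sys.AMul.mono P N j ?_ hC0' (by linarith)⟩
  · convert h1 using 1
    funext i k q w
    simp only [matC, key]
    rfl
  · convert h2 using 1
    funext i k q w
    simp only [matC, key]
    rfl

/-- The exact flow is controlled. -/
theorem exists_ctrl (N j : ℕ) :
    ∃ B : ℝ, 0 ≤ B ∧ ∀ (d : ℕ) (D : Data d) (hτ : D.τ ≤ 1) (P : (baseSys hP D hT hτ).Pt),
      Adm hP D hT hτ P → Sys.Ctrl P N j B := by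
  obtain ⟨Bh, hBh0, hBh⟩ := exists_mulBound_hess hP hT N
  obtain ⟨C, hC0, hC⟩ := exists_aMul_a hP hT N j
  refine ⟨Bh + 2 ^ j * C, by positivity, fun d D hτ P hA => ?_⟩
  obtain ⟨h1, h2⟩ := hC d D hτ P hA
  have hqT : |P.q₀| ≤ Real.sqrt D.τ := abs_le.2 ⟨P.mem.1.le, P.mem.2.le⟩
  have hid : (baseSys hP D hT hτ).ok fun q _ => q := Alg.qfun (φ := id) contDiff_id
  have hjac : ∀ a b : Fin d, ∀ q ∈ D.I, ∀ w,
      (-D.ε) * (q * aC D a b q w) = pd b (fun w => D.v q w a) w := fun a b q hq w => by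
    have hdi : HasFDerivAt (fun w => D.v q w a)
        ((EuclideanSpace.proj (𝕜 := ℝ) a).comp (-(D.ε • (q • D.aq q w)))) w :=
      (EuclideanSpace.proj (𝕜 := ℝ) a).hasFDerivAt.comp w
        ((D.hasFDerivAt_Gq hP hq w).const_smul D.ε).neg
    show _ = fderiv ℝ (fun w => D.v q w a) w (bv b)
    rw [hdi.fderiv]
    simp [aC]
  have hscale : |(-D.ε)| * (2 ^ j * Real.sqrt D.τ * C) ≤ (Bh + 2 ^ j * C) * P.lam := by
    rw [abs_neg, abs_of_nonneg D.ε0]
    have hl : Real.sqrt D.τ ≤ P.lam := by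
      calc Real.sqrt D.τ ≤ 1 := Real.sqrt_le_one.2 hτ
        _ ≤ P.lam * Real.sqrt D.τ := hA.lt
        _ ≤ P.lam * 1 := mul_le_mul_of_nonneg_left (Real.sqrt_le_one.2 hτ) P.lam0.le
        _ = _ := mul_one _
    calc D.ε * (2 ^ j * Real.sqrt D.τ * C) ≤ 1 * (2 ^ j * P.lam * C) := by
          gcongr; exact D.ε1
      _ ≤ _ := by nlinarith [mul_nonneg hBh0 P.lam0.le]
  refine ⟨by positivity, MulBound.mono hBh0 (le_add_of_nonneg_right (by positivity)) N
    (hBh d D hτ P.q₀ P.mem P.κ P.κ0.le hA.kq), ?_, ?_⟩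
  · refine Sys.AMul.mono P N j (Sys.AMul.congr j (Sys.AMul.smul (-D.ε) j
      (Sys.AMul.qmul hid (Real.sqrt_nonneg _) hqT hA.lt j hC0 h1))
      (fun a b => (baseSys hP D hT hτ).ok_pd b ((baseSys hP D hT hτ).ok_v a)) fun a b q hq w => ?_)
      (by positivity) hscale
    exact hjac a b q hq w
  · refine Sys.AMul.mono P N j (Sys.AMul.congr j (Sys.AMul.smul (-D.ε) j
      (Sys.AMul.qmul hid (Real.sqrt_nonneg _) hqT hA.lt j hC0 h2))
      (fun a b => (baseSys hP D hT hτ).ok_pd a ((baseSys hP D hT hτ).ok_v b)) fun a b q hq w => ?_)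
      (by positivity) hscale
    exact hjac b a q hq w

end Reg

end Vale.Agent.P347.Gamma0
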