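import Vale.Agent.P347.Gamma0.RegHam

/-!
P347, towards `γ_* = 0`, piece 4 (regularity): the calculus of the generator `A = ∂_q + v · ∇` of a
flow transporting the laws `∝ exp (-Ψ_q)`.  From the continuity equation alone,

`A ∇ = ∇ A - S ∇`,  `A δ = δ A - δ S`,  `S = Dv`.

`regNorm j m F` is `∑_{i ≤ j} lam^(-2i) ‖A^i F‖²` in the scaled Sobolev spaces `H^(m+j-i)` at the
time `q₀`; the gradient and the divergence lose one order, and multipliers whose generator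
derivatives split as `δ M' + P` lose nothing.
-/

namespace Vale.Agent.P347.Gamma0

namespace Reg

open MeasureTheory Sobolev
open scoped ContDiff

set_option linter.unusedSectionVars false

/-- Time dependent laws, a velocity field transporting them and an algebra of functions. -/
structure Sys (ι : Type) [Fintype ι] [DecidableEq ι] where
  I : Set ℝ
  open_I : IsOpen I
  μ : ℝ → Measure (EuclideanSpace ℝ ι)
  Ψ : ℝ → EuclideanSpace ℝ ι → ℝ
  v : ι → ℝ → EuclideanSpace ℝ ι → ℝ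
  ok : (ℝ → EuclideanSpace ℝ ι → ℝ) → Prop
  ok_smooth : ∀ {f}, ok f →
    ContDiffOn ℝ ∞ (fun p : ℝ × EuclideanSpace ℝ ι => f p.1 p.2) (I ×ˢ Set.univ)
  ok_tame : ∀ {f}, ok f → ∀ q ∈ I, Tame (f q)
  ok_const : ∀ c : ℝ, ok fun _ _ => c
  ok_add : ∀ {f g}, ok f → ok g → ok fun q x => f q x + g q x
  ok_mul : ∀ {f g}, ok f → ok g → ok fun q x => f q x * g q x
  ok_pd : ∀ {f} (i : ι), ok f → ok fun q => pd i (f q)
  ok_dq : ∀ {f}, ok f → ok fun q x => deriv (fun u => f u x) q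
  ok_Ψ : ok Ψ
  ok_v : ∀ i, ok (v i)
  prob : ∀ q ∈ I, IsProbabilityMeasure (μ q)
  ibp : ∀ q ∈ I, IBP (μ q) (Ψ q)
  cont_eq : ∀ q ∈ I, ∀ x, deriv (fun u => Ψ u x) q + ∑ i, v i q x * pd i (Ψ q) x
    = ∑ i, pd i (v i q) x

variable {ι α β γ : Type} [Fintype ι] [DecidableEq ι] [Fintype α] [Fintype β] [Fintype γ]
  (S : Sys ι)

namespace Sys

/-- All components are in the algebra. -/
def OkF (F : α → ℝ → (EuclideanSpace ℝ ι) → ℝ) : Prop := ∀ a, S.ok (F a)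

/-- The generator. -/
noncomputable def A (f : ℝ → (EuclideanSpace ℝ ι) → ℝ) : ℝ → (EuclideanSpace ℝ ι) → ℝ :=
  fun q x => deriv (fun u => f u x) q + ∑ i, S.v i q x * pd i (f q) x

/-- The generator on fields. -/
noncomputable def AF (F : α → ℝ → (EuclideanSpace ℝ ι) → ℝ) : α → ℝ → (EuclideanSpace ℝ ι) → ℝ := fun a => S.A (F a)

lemma ok_sum {κ' : Type} (s : Finset κ') {f : κ' → ℝ → (EuclideanSpace ℝ ι) → ℝ} (h : ∀ a ∈ s, S.ok (f a)) :
    S.ok fun q x => ∑ a ∈ s, f a q x := by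
  classical
  induction s using Finset.induction with
  | empty => simpa using S.ok_const 0
  | @insert a s ha ih =>
    simp only [Finset.sum_insert ha]
    exact S.ok_add (h a (Finset.mem_insert_self a s))
      (ih fun b hb => h b (Finset.mem_insert_of_mem hb))

lemma ok_cmul {f : ℝ → (EuclideanSpace ℝ ι) → ℝ} (c : ℝ) (h : S.ok f) : S.ok fun q x => c * f q x :=
  S.ok_mul (S.ok_const c) h

lemma ok_sub {f g : ℝ → (EuclideanSpace ℝ ι) → ℝ} (hf : S.ok f) (hg : S.ok g) : S.ok fun q x => f q x - g q x := by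
  have h := S.ok_add hf (S.ok_cmul (-1) hg)
  simpa [sub_eq_add_neg] using h

lemma ok_A {f : ℝ → (EuclideanSpace ℝ ι) → ℝ} (h : S.ok f) : S.ok (S.A f) :=
  S.ok_add (S.ok_dq h) (S.ok_sum _ fun i _ => S.ok_mul (S.ok_v i) (S.ok_pd i h))

lemma okF_AF {F : α → ℝ → (EuclideanSpace ℝ ι) → ℝ} (h : S.OkF F) : S.OkF (S.AF F) := fun a => S.ok_A (h a)

lemma diff_time {f : ℝ → (EuclideanSpace ℝ ι) → ℝ} (h : S.ok f) {q : ℝ} (hq : q ∈ S.I) (x : (EuclideanSpace ℝ ι)) :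
    DifferentiableAt ℝ (fun u => f u x) q := by
  have h1 : DifferentiableAt ℝ (fun p : ℝ × (EuclideanSpace ℝ ι) => f p.1 p.2) (q, x) :=
    ((S.ok_smooth h).contDiffAt ((S.open_I.prod isOpen_univ).mem_nhds
      ⟨hq, Set.mem_univ x⟩)).differentiableAt (by simp)
  exact h1.comp q (f := fun u : ℝ => (u, x)) ((differentiableAt_id).prodMk (differentiableAt_const x))

lemma A_congr {f g : ℝ → (EuclideanSpace ℝ ι) → ℝ} (h : ∀ q ∈ S.I, ∀ x, f q x = g q x) {q : ℝ} (hq : q ∈ S.I)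
    (x : (EuclideanSpace ℝ ι)) : S.A f q x = S.A g q x := by
  have e : (fun u => f u x) =ᶠ[nhds q] fun u => g u x :=
    Filter.eventually_of_mem (S.open_I.mem_nhds hq) fun u hu => h u hu x
  have e' : f q = g q := funext (h q hq)
  simp only [A, e.deriv_eq, e']

lemma A_add {f g : ℝ → (EuclideanSpace ℝ ι) → ℝ} (hf : S.ok f) (hg : S.ok g) {q : ℝ} (hq : q ∈ S.I) (x : (EuclideanSpace ℝ ι)) :
    S.A (fun q x => f q x + g q x) q x = S.A f q x + S.A g q x := by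
  simp only [A, deriv_fun_add (S.diff_time hf hq x) (S.diff_time hg hq x),
    pd_add (S.ok_tame hf q hq) (S.ok_tame hg q hq), mul_add, Finset.sum_add_distrib]
  ring

lemma A_mul {f g : ℝ → (EuclideanSpace ℝ ι) → ℝ} (hf : S.ok f) (hg : S.ok g) {q : ℝ} (hq : q ∈ S.I) (x : (EuclideanSpace ℝ ι)) :
    S.A (fun q x => f q x * g q x) q x = S.A f q x * g q x + f q x * S.A g q x := by
  simp only [A, deriv_fun_mul (S.diff_time hf hq x) (S.diff_time hg hq x),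
    pd_mul (S.ok_tame hf q hq) (S.ok_tame hg q hq), add_mul, mul_add, Finset.sum_mul,
    Finset.mul_sum]
  rw [add_add_add_comm, ← Finset.sum_add_distrib]
  congr 1
  exact Finset.sum_congr rfl fun i _ => by ring

lemma A_const (c : ℝ) (q : ℝ) (x : (EuclideanSpace ℝ ι)) : S.A (fun _ _ => c) q x = 0 := by
  simp [A, pd_const]

lemma A_sum {κ' : Type} (s : Finset κ') {f : κ' → ℝ → (EuclideanSpace ℝ ι) → ℝ} (h : ∀ a ∈ s, S.ok (f a)) {q : ℝ}
    (hq : q ∈ S.I) (x : (EuclideanSpace ℝ ι)) :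
    S.A (fun q x => ∑ a ∈ s, f a q x) q x = ∑ a ∈ s, S.A (f a) q x := by
  simp only [A, deriv_fun_sum fun a ha => S.diff_time (h a ha) hq x,
    pd_sum s fun a ha => S.ok_tame (h a ha) q hq, Finset.mul_sum, Finset.sum_add_distrib]
  rw [Finset.sum_comm]

lemma A_cmul {f : ℝ → (EuclideanSpace ℝ ι) → ℝ} (c : ℝ) (hf : S.ok f) {q : ℝ} (hq : q ∈ S.I) (x : (EuclideanSpace ℝ ι)) :
    S.A (fun q x => c * f q x) q x = c * S.A f q x := by
  rw [S.A_mul (S.ok_const c) hf hq, S.A_const]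
  simp

lemma A_sub {f g : ℝ → (EuclideanSpace ℝ ι) → ℝ} (hf : S.ok f) (hg : S.ok g) {q : ℝ} (hq : q ∈ S.I) (x : (EuclideanSpace ℝ ι)) :
    S.A (fun q x => f q x - g q x) q x = S.A f q x - S.A g q x := by
  have e : (fun q x => f q x - g q x) = fun q x => f q x + (-1) * g q x := by
    funext q x; ring
  rw [e, S.A_add hf (S.ok_cmul (-1) hg) hq, S.A_cmul (-1) hg hq]
  ring

/-- Time and space derivatives commute. -/
lemma deriv_pd {f : ℝ → (EuclideanSpace ℝ ι) → ℝ} (hf : S.ok f) {q : ℝ} (hq : q ∈ S.I) (i : ι) (x : (EuclideanSpace ℝ ι)) :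
    deriv (fun u => pd i (f u) x) q = pd i (fun y => deriv (fun u => f u y) q) x := by
  set F : ℝ × (EuclideanSpace ℝ ι) → ℝ := fun p => f p.1 p.2
  have hO : IsOpen (S.I ×ˢ (Set.univ : Set (EuclideanSpace ℝ ι))) := S.open_I.prod isOpen_univ
  have hF : ContDiffOn ℝ ∞ F (S.I ×ˢ Set.univ) := S.ok_smooth hf
  have hd : ∀ u ∈ S.I, ∀ y, HasFDerivAt F (fderiv ℝ F (u, y)) (u, y) := fun u hu y =>
    ((hF.contDiffAt (hO.mem_nhds ⟨hu, Set.mem_univ y⟩)).differentiableAt (by simp)).hasFDerivAt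
  have e1 : ∀ u ∈ S.I, ∀ y, pd i (f u) y = fderiv ℝ F (u, y) (0, EuclideanSpace.single i 1) := by
    intro u hu y
    have h : HasFDerivAt (f u) ((fderiv ℝ F (u, y)).comp
        ((0 : (EuclideanSpace ℝ ι) →L[ℝ] ℝ).prod (ContinuousLinearMap.id ℝ (EuclideanSpace ℝ ι)))) y :=
      (hd u hu y).comp y ((hasFDerivAt_const u y).prodMk (hasFDerivAt_id y))
    unfold Sobolev.pd
    rw [h.fderiv]
    rfl
  have e2 : ∀ y, deriv (fun u => f u y) q = fderiv ℝ F (q, y) (1, 0) := fun y => by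
    have h : HasDerivAt (fun u => F (u, y)) (fderiv ℝ F (q, y) (1, 0)) q :=
      (hd q hq y).comp_hasDerivAt q (f := fun u : ℝ => (u, y))
        ((hasDerivAt_id q).prodMk (hasDerivAt_const q y))
    exact h.deriv
  have hd2 : DifferentiableAt ℝ (fderiv ℝ F) (q, x) :=
    (((hF.fderiv_of_isOpen hO (m := ∞) (by simp))).contDiffAt
      (hO.mem_nhds ⟨hq, Set.mem_univ x⟩)).differentiableAt (by simp)
  have l1 : deriv (fun u => pd i (f u) x) q
      = fderiv ℝ (fderiv ℝ F) (q, x) (1, 0) (0, EuclideanSpace.single i 1) := by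
    have e : (fun u => pd i (f u) x) =ᶠ[nhds q]
        fun u => fderiv ℝ F (u, x) (0, EuclideanSpace.single i 1) :=
      Filter.eventually_of_mem (S.open_I.mem_nhds hq) fun u hu => e1 u hu x
    rw [e.deriv_eq]
    exact ((ContinuousLinearMap.apply ℝ ℝ ((0 : ℝ), EuclideanSpace.single i (1 : ℝ))).hasFDerivAt.comp_hasDerivAt
      q (hd2.hasFDerivAt.comp_hasDerivAt q ((hasDerivAt_id q).prodMk (hasDerivAt_const q x)))).deriv
  have l2 : pd i (fun y => deriv (fun u => f u y) q) x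
      = fderiv ℝ (fderiv ℝ F) (q, x) (0, EuclideanSpace.single i 1) (1, 0) := by
    rw [funext e2]
    have h : HasFDerivAt (fun y => fderiv ℝ F (q, y) ((1 : ℝ), (0 : (EuclideanSpace ℝ ι))))
        ((ContinuousLinearMap.apply ℝ ℝ ((1 : ℝ), (0 : (EuclideanSpace ℝ ι)))).comp
          ((fderiv ℝ (fderiv ℝ F) (q, x)).comp
            ((0 : (EuclideanSpace ℝ ι) →L[ℝ] ℝ).prod (ContinuousLinearMap.id ℝ (EuclideanSpace ℝ ι))))) x :=
      (ContinuousLinearMap.apply ℝ ℝ ((1 : ℝ), (0 : (EuclideanSpace ℝ ι)))).hasFDerivAt.comp x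
        (hd2.hasFDerivAt.comp x ((hasFDerivAt_const q x).prodMk (hasFDerivAt_id x)))
    unfold Sobolev.pd
    rw [h.fderiv]
    rfl
  rw [l1, l2]
  exact ((hF.contDiffAt (hO.mem_nhds ⟨hq, Set.mem_univ x⟩)).isSymmSndFDerivAt (by
    simp only [minSmoothness_of_isRCLikeNormedField]; exact WithTop.coe_le_coe.2 le_top)).eq _ _

/-- `A ∂ = ∂ A - S ∂`. -/
lemma A_pd {f : ℝ → (EuclideanSpace ℝ ι) → ℝ} (hf : S.ok f) {q : ℝ} (hq : q ∈ S.I) (i : ι) (x : (EuclideanSpace ℝ ι)) :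
    S.A (fun q => pd i (f q)) q x
      = pd i (S.A f q) x - ∑ j, pd i (S.v j q) x * pd j (f q) x := by
  have ht := S.ok_tame hf q hq
  have hv : ∀ j, Tame fun y => S.v j q y * pd j (f q) y := fun j =>
    (S.ok_tame (S.ok_v j) q hq).mul (ht.pdTame j)
  have hdq : Tame fun y => deriv (fun u => f u y) q := S.ok_tame (S.ok_dq hf) q hq
  have e : S.A f q = fun y => deriv (fun u => f u y) q + ∑ j, S.v j q y * pd j (f q) y := rfl
  simp only [A]
  rw [S.deriv_pd hf hq i x, e, pd_add hdq (Function.HasTemperateGrowth.sum fun j _ => hv j),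
    pd_sum (f := fun j y => S.v j q y * pd j (f q) y) Finset.univ fun j _ => hv j]
  simp only [pd_mul (S.ok_tame (S.ok_v _) q hq) (ht.pdTame _), Finset.sum_add_distrib,
    pd_comm ht i]
  ring

/-- The gradient on fields. -/
noncomputable def gradF (F : α → ℝ → (EuclideanSpace ℝ ι) → ℝ) : α × ι → ℝ → (EuclideanSpace ℝ ι) → ℝ := fun p q => pd p.2 (F p.1 q)

/-- The divergence on fields. -/
noncomputable def dvF (F : α × ι → ℝ → (EuclideanSpace ℝ ι) → ℝ) : α → ℝ → (EuclideanSpace ℝ ι) → ℝ :=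
  fun a q => dv (S.Ψ q) (fun p => F p q) a

/-- Multiplication on fields. -/
def mulT (M : β → γ → ℝ → (EuclideanSpace ℝ ι) → ℝ) (F : α × γ → ℝ → (EuclideanSpace ℝ ι) → ℝ) : α × β → ℝ → (EuclideanSpace ℝ ι) → ℝ :=
  fun p q => mulF (fun b c => M b c q) (fun k => F k q) p

/-- The Jacobian `S`, rows: component. -/
noncomputable def jac (j i : ι) : ℝ → (EuclideanSpace ℝ ι) → ℝ := fun q => pd i (S.v j q)

/-- The Jacobian, transposed. -/
noncomputable def jacT (i j : ι) : ℝ → (EuclideanSpace ℝ ι) → ℝ := fun q => pd i (S.v j q)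

lemma okF_gradF {F : α → ℝ → (EuclideanSpace ℝ ι) → ℝ} (h : S.OkF F) : S.OkF (gradF F) :=
  fun p => S.ok_pd p.2 (h p.1)

lemma okF_dvF {F : α × ι → ℝ → (EuclideanSpace ℝ ι) → ℝ} (h : S.OkF F) : S.OkF (S.dvF F) := fun a =>
  S.ok_sum Finset.univ fun i _ =>
    S.ok_sub (S.ok_mul (S.ok_pd i S.ok_Ψ) (h (a, i))) (S.ok_pd i (h (a, i)))

lemma okF_mulT {M : β → γ → ℝ → (EuclideanSpace ℝ ι) → ℝ} (hM : ∀ b c, S.ok (M b c)) {F : α × γ → ℝ → (EuclideanSpace ℝ ι) → ℝ}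
    (h : S.OkF F) : S.OkF (mulT M F) := fun p =>
  S.ok_sum Finset.univ fun c _ => S.ok_mul (hM p.2 c) (h _)

lemma okF_add {F G : α → ℝ → (EuclideanSpace ℝ ι) → ℝ} (h : S.OkF F) (h' : S.OkF G) :
    S.OkF fun a q x => F a q x + G a q x := fun a => S.ok_add (h a) (h' a)

lemma okF_sub {F G : α → ℝ → (EuclideanSpace ℝ ι) → ℝ} (h : S.OkF F) (h' : S.OkF G) :
    S.OkF fun a q x => F a q x - G a q x := fun a => S.ok_sub (h a) (h' a)

lemma AF_gradF {F : α → ℝ → (EuclideanSpace ℝ ι) → ℝ} (h : S.OkF F) (p : α × ι) {q : ℝ} (hq : q ∈ S.I) (x : (EuclideanSpace ℝ ι)) :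
    S.AF (gradF F) p q x = gradF (S.AF F) p q x - mulT S.jacT (gradF F) p q x :=
  S.A_pd (h p.1) hq p.2 x

lemma AF_dvF {F : α × ι → ℝ → (EuclideanSpace ℝ ι) → ℝ} (h : S.OkF F) (a : α) {q : ℝ} (hq : q ∈ S.I) (x : (EuclideanSpace ℝ ι)) :
    S.AF (S.dvF F) a q x = S.dvF (S.AF F) a q x - S.dvF (mulT S.jac F) a q x := by
  have hΨ := S.ok_tame S.ok_Ψ q hq
  have hvv : ∀ j, Tame (S.v j q) := fun j => S.ok_tame (S.ok_v j) q hq
  have hFF : ∀ i, Tame (F (a, i) q) := fun i => S.ok_tame (h _) q hq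
  have hAΨ : ∀ i, S.A (fun q => pd i (S.Ψ q)) q x
      = (∑ j, pd i (fun y => pd j (S.v j q) y) x) - ∑ j, pd i (S.v j q) x * pd j (S.Ψ q) x := by
    intro i
    have e : S.A S.Ψ q = fun y => ∑ j, pd j (S.v j q) y := funext fun y => S.cont_eq q hq y
    rw [S.A_pd S.ok_Ψ hq i, e,
      pd_sum (f := fun j y => pd j (S.v j q) y) Finset.univ fun j _ => (hvv j).pdTame j]
  have eL : S.AF (S.dvF F) a q x = ∑ i, (S.A (fun q => pd i (S.Ψ q)) q x * F (a, i) q x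
      + pd i (S.Ψ q) x * S.A (F (a, i)) q x - S.A (fun q => pd i (F (a, i) q)) q x) := by
    show S.A (fun q x => ∑ i, (pd i (S.Ψ q) x * F (a, i) q x - pd i (F (a, i) q) x)) q x = _
    rw [S.A_sum (f := fun i q x => pd i (S.Ψ q) x * F (a, i) q x - pd i (F (a, i) q) x) Finset.univ
      (fun i _ => S.ok_sub (S.ok_mul (S.ok_pd i S.ok_Ψ) (h _)) (S.ok_pd i (h _))) hq]
    refine Finset.sum_congr rfl fun i _ => ?_
    rw [S.A_sub (S.ok_mul (S.ok_pd i S.ok_Ψ) (h _)) (S.ok_pd i (h _)) hq,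
      S.A_mul (S.ok_pd i S.ok_Ψ) (h _) hq]
  have eR : S.dvF (mulT S.jac F) a q x = ∑ i, ∑ j,
      (pd j (S.Ψ q) x * (pd i (S.v j q) x * F (a, i) q x) -
        (pd j (fun y => pd i (S.v j q) y) x * F (a, i) q x
          + pd i (S.v j q) x * pd j (F (a, i) q) x)) := by
    show dv (S.Ψ q) (fun p => mulT S.jac F p q) a x = _
    simp only [dv]
    rw [Finset.sum_comm]
    refine Finset.sum_congr rfl fun j _ => ?_
    show pd j (S.Ψ q) x * (∑ i, pd i (S.v j q) x * F (a, i) q x)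
      - pd j (fun y => ∑ i, pd i (S.v j q) y * F (a, i) q y) x = _
    rw [pd_sum (f := fun i y => pd i (S.v j q) y * F (a, i) q y) Finset.univ
      fun i _ => ((hvv j).pdTame i).mul (hFF i), Finset.mul_sum, ← Finset.sum_sub_distrib]
    exact Finset.sum_congr rfl fun i _ => by rw [pd_mul ((hvv j).pdTame i) (hFF i)]
  rw [eL, eR]
  show _ = (∑ i, (pd i (S.Ψ q) x * S.A (F (a, i)) q x - pd i (S.A (F (a, i)) q) x)) - _
  rw [← Finset.sum_sub_distrib]
  refine Finset.sum_congr rfl fun i _ => ?_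
  rw [S.A_pd (h _) hq i, hAΨ i]
  simp only [pd_comm (hvv _) i, Finset.sum_sub_distrib, Finset.sum_add_distrib, sub_mul,
    Finset.sum_mul]
  have e3 : ∑ j, pd j (S.Ψ q) x * (pd i (S.v j q) x * F (a, i) q x)
      = ∑ j, pd i (S.v j q) x * pd j (S.Ψ q) x * F (a, i) q x :=
    Finset.sum_congr rfl fun j _ => by ring
  rw [e3]
  ring

lemma AF_mulT {M : β → γ → ℝ → (EuclideanSpace ℝ ι) → ℝ} (hM : ∀ b c, S.ok (M b c)) {F : α × γ → ℝ → (EuclideanSpace ℝ ι) → ℝ}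
    (h : S.OkF F) (p : α × β) {q : ℝ} (hq : q ∈ S.I) (x : (EuclideanSpace ℝ ι)) :
    S.AF (mulT M F) p q x
      = mulT (fun b c => S.A (M b c)) F p q x + mulT M (S.AF F) p q x := by
  show S.A (fun q x => ∑ c, M p.2 c q x * F (p.1, c) q x) q x = _
  rw [S.A_sum (f := fun c q x => M p.2 c q x * F (p.1, c) q x) Finset.univ
    (fun c _ => S.ok_mul (hM _ _) (h _)) hq]
  simp only [S.A_mul (hM _ _) (h _) hq, Finset.sum_add_distrib]
  rfl

/-! ### The norms -/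

/-- The parameters of an evaluation: the time, the space scale and the rate. -/
structure Pt where
  q₀ : ℝ
  mem : q₀ ∈ S.I
  κ : ℝ
  κ0 : 0 < κ
  κ1 : κ ≤ 1
  lam : ℝ
  lam0 : 0 < lam

variable {S} (P : S.Pt)

/-- `∑_{i ≤ j} lam^(-2i) ‖A^i F‖²_{m+j-i}` at the time `q₀`. -/
noncomputable def regNorm (m : ℕ) : ℕ → ∀ {α : Type} [Fintype α], (α → ℝ → (EuclideanSpace ℝ ι) → ℝ) → ℝ
  | 0, _, _, F => sob (S.μ P.q₀) P.κ m fun a => F a P.q₀
  | j + 1, _, _, F => (sob (S.μ P.q₀) P.κ (m + j + 1) fun a => F a P.q₀)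
      + (P.lam⁻¹) ^ 2 * regNorm m j (S.AF F)

lemma ibp₀ : IBP (S.μ P.q₀) (S.Ψ P.q₀) := S.ibp _ P.mem

lemma tameF₀ {F : α → ℝ → (EuclideanSpace ℝ ι) → ℝ} (h : S.OkF F) : TameF fun a => F a P.q₀ :=
  fun a => S.ok_tame (h a) _ P.mem

lemma regNorm_nonneg (j : ℕ) : ∀ (m : ℕ) {α : Type} [Fintype α] (F : α → ℝ → (EuclideanSpace ℝ ι) → ℝ),
    0 ≤ regNorm P m j F := by
  induction j with
  | zero => intro m α _ F; exact sob_nonneg _ _ _ _
  | succ j ih => intro m α _ F; exact add_nonneg (sob_nonneg _ _ _ _) (mul_nonneg (sq_nonneg _) (ih _ _))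

lemma regNorm_congr (j : ℕ) : ∀ (m : ℕ) {α : Type} [Fintype α] {F G : α → ℝ → (EuclideanSpace ℝ ι) → ℝ},
    (∀ a, ∀ q ∈ S.I, ∀ x, F a q x = G a q x) → regNorm P m j F = regNorm P m j G := by
  induction j with
  | zero =>
    intro m α _ F G h
    simp only [regNorm, funext fun a => funext (h a P.q₀ P.mem)]
  | succ j ih =>
    intro m α _ F G h
    simp only [regNorm, funext fun a => funext (h a P.q₀ P.mem)]
    rw [ih m (F := S.AF F) (G := S.AF G) fun a q hq x => S.A_congr (h a) hq x]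

lemma regNorm_mono (j : ℕ) : ∀ (m : ℕ) {α : Type} [Fintype α] (F : α → ℝ → (EuclideanSpace ℝ ι) → ℝ),
    regNorm P m j F ≤ regNorm P (m + 1) j F := by
  induction j with
  | zero => intro m α _ F; exact sob_mono _ _ _ _
  | succ j ih =>
    intro m α _ F
    exact add_le_add (sob_le_of_le _ _ (by omega) _)
      (mul_le_mul_of_nonneg_left (ih _ _) (sq_nonneg _))

lemma regNorm_shift (j : ℕ) : ∀ (m : ℕ) {α : Type} [Fintype α] (F : α → ℝ → (EuclideanSpace ℝ ι) → ℝ),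
    regNorm P (m + 1) j F ≤ regNorm P m (j + 1) F := by
  induction j with
  | zero => intro m α _ F; exact le_add_of_nonneg_right (mul_nonneg (sq_nonneg _) (regNorm_nonneg P _ _ _))
  | succ j ih =>
    intro m α _ F
    exact add_le_add (sob_le_of_le _ _ (by omega) _)
      (mul_le_mul_of_nonneg_left (ih _ _) (sq_nonneg _))

lemma regNorm_AF_le (j m : ℕ) (F : α → ℝ → (EuclideanSpace ℝ ι) → ℝ) :
    (P.lam⁻¹) ^ 2 * regNorm P m j (S.AF F) ≤ regNorm P m (j + 1) F :=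
  le_add_of_nonneg_left (sob_nonneg _ _ _ _)

lemma regNorm_reindex (j : ℕ) : ∀ (m : ℕ) {α β : Type} [Fintype α] [Fintype β] (e : β ≃ α)
    (F : α → ℝ → (EuclideanSpace ℝ ι) → ℝ), regNorm P m j (fun b => F (e b)) = regNorm P m j F := by
  induction j with
  | zero => intro m α β _ _ e F; exact sob_reindex _ _ _ e fun a => F a P.q₀
  | succ j ih =>
    intro m α β _ _ e F
    simp only [regNorm]
    rw [sob_reindex _ _ _ e fun a => F a P.q₀, ← ih m e (S.AF F)]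
    rfl

lemma regNorm_cmul (c : ℝ) (j : ℕ) : ∀ (m : ℕ) {α : Type} [Fintype α] {F : α → ℝ → (EuclideanSpace ℝ ι) → ℝ},
    S.OkF F → regNorm P m j (fun a q x => c * F a q x) = c ^ 2 * regNorm P m j F := by
  induction j with
  | zero => intro m α _ F h; exact sob_const_mul _ _ c m (tameF₀ P h)
  | succ j ih =>
    intro m α _ F h
    simp only [regNorm]
    rw [sob_const_mul _ _ c _ (tameF₀ P h), regNorm_congr P j m
      (F := S.AF fun a q x => c * F a q x) (G := fun a q x => c * S.AF F a q x)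
      fun a q hq x => S.A_cmul c (h a) hq x, ih m (S.okF_AF h)]
    ring

lemma regNorm_add_le (j : ℕ) : ∀ (m : ℕ) {α : Type} [Fintype α] {F G : α → ℝ → (EuclideanSpace ℝ ι) → ℝ},
    S.OkF F → S.OkF G →
      regNorm P m j (fun a q x => F a q x + G a q x) ≤ 2 * (regNorm P m j F + regNorm P m j G) := by
  induction j with
  | zero => intro m α _ F G h h'; exact (ibp₀ P).sob_add_le _ m (tameF₀ P h) (tameF₀ P h')
  | succ j ih =>
    intro m α _ F G h h'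
    simp only [regNorm]
    rw [regNorm_congr P j m (F := S.AF fun a q x => F a q x + G a q x)
      (G := fun a q x => S.AF F a q x + S.AF G a q x) fun a q hq x => S.A_add (h a) (h' a) hq x]
    have h1 := (ibp₀ P).sob_add_le P.κ (m + j + 1) (tameF₀ P h) (tameF₀ P h')
    have h2 := mul_le_mul_of_nonneg_left (ih m (S.okF_AF h) (S.okF_AF h')) (sq_nonneg P.lam⁻¹)
    linarith

lemma regNorm_sub_le (j m : ℕ) {F G : α → ℝ → (EuclideanSpace ℝ ι) → ℝ} (h : S.OkF F) (h' : S.OkF G) :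
    regNorm P m j (fun a q x => F a q x - G a q x) ≤ 2 * (regNorm P m j F + regNorm P m j G) := by
  have e : (fun a q x => F a q x - G a q x) = fun a q x => F a q x + (-1) * G a q x := by
    funext a q x; ring
  rw [e]
  refine (regNorm_add_le P j m h (G := fun a q x => (-1) * G a q x)
    (fun a => S.ok_cmul (-1) (h' a))).trans (le_of_eq ?_)
  rw [regNorm_cmul P (-1) j m h']
  ring

/-! ### Multipliers -/

/-- A field of flattenings with bounded space derivatives at `q₀` whose generator derivatives split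
as `δ M' + Q`, `M'` smaller by `κ lam` in both flattenings and `Q` by `lam`, down to level `0`. -/
def AMul (N : ℕ) : ℕ → ∀ {β γ : Type} [Fintype β] [Fintype γ], (β → γ → ℝ → (EuclideanSpace ℝ ι) → ℝ) → ℝ → Prop
  | 0, _, _, _, _, M, s =>
      (∀ b c, S.ok (M b c)) ∧ MulBound P.κ N (fun b c => M b c P.q₀) s
  | j + 1, β, γ, _, _, M, s =>
      ((∀ b c, S.ok (M b c)) ∧ MulBound P.κ N (fun b c => M b c P.q₀) s) ∧
      ∃ (M' : β → γ → ι → ℝ → (EuclideanSpace ℝ ι) → ℝ) (Q : β → γ → ℝ → (EuclideanSpace ℝ ι) → ℝ),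
        AMul N j (fun (p : β × ι) c => M' p.1 c p.2) (P.κ * P.lam * s) ∧
        AMul N j (fun b (p : γ × ι) => M' b p.1 p.2) (P.κ * P.lam * s) ∧
        AMul N j Q (P.lam * s) ∧
        ∀ b c, ∀ q ∈ S.I, ∀ x, S.A (M b c) q x
          = ∑ i, (pd i (S.Ψ q) x * M' b c i q x - pd i (M' b c i q) x) + Q b c q x

lemma AMul.base {N j : ℕ} {M : β → γ → ℝ → (EuclideanSpace ℝ ι) → ℝ} {s : ℝ} (h : AMul P N j M s) :
    (∀ b c, S.ok (M b c)) ∧ MulBound P.κ N (fun b c => M b c P.q₀) s := by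
  cases j with
  | zero => exact h
  | succ j => exact h.1

lemma AMul.lower (N j : ℕ) : ∀ {β γ : Type} [Fintype β] [Fintype γ] {M : β → γ → ℝ → (EuclideanSpace ℝ ι) → ℝ}
    {s : ℝ}, AMul P N (j + 1) M s → AMul P N j M s := by
  induction j with
  | zero => intro β γ _ _ M s h; exact h.1
  | succ j ih =>
    intro β γ _ _ M s h
    obtain ⟨h0, M', Q, h1, h2, h3, h4⟩ := h
    exact ⟨h0, M', Q, ih h1, ih h2, ih h3, h4⟩

lemma AMul.mono (N j : ℕ) : ∀ {β γ : Type} [Fintype β] [Fintype γ] {M : β → γ → ℝ → (EuclideanSpace ℝ ι) → ℝ}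
    {s s' : ℝ}, AMul P N j M s → 0 ≤ s → s ≤ s' → AMul P N j M s' := by
  have hκl : 0 ≤ P.κ * P.lam := (mul_pos P.κ0 P.lam0).le
  induction j with
  | zero => intro β γ _ _ M s s' h h0 hs; exact ⟨h.1, Reg.MulBound.mono h0 hs N h.2⟩
  | succ j ih =>
    intro β γ _ _ M s s' h h0 hs
    obtain ⟨hb, M', Q, h1, h2, h3, h4⟩ := h
    exact ⟨⟨hb.1, Reg.MulBound.mono h0 hs N hb.2⟩, M', Q,
      ih h1 (mul_nonneg hκl h0) (mul_le_mul_of_nonneg_left hs hκl),
      ih h2 (mul_nonneg hκl h0) (mul_le_mul_of_nonneg_left hs hκl),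
      ih h3 (mul_nonneg P.lam0.le h0) (mul_le_mul_of_nonneg_left hs P.lam0.le), h4⟩

lemma mulBound_le {N m : ℕ} {M : β → γ → (EuclideanSpace ℝ ι) → ℝ} {s : ℝ} (hm : m ≤ N)
    (h : MulBound P.κ N M s) : MulBound P.κ m M s := by
  induction hm with
  | refl => exact h
  | step _ ih => exact ih h.lower

/-- What the operators need of the setting at `q₀`, up to level `j` and order `N`. -/
structure Ctrl (N j : ℕ) (B : ℝ) : Prop where
  nonneg : 0 ≤ B
  hess : MulBound P.κ N (fun a i => pd a (pd i (S.Ψ P.q₀))) B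
  jac : AMul P N j S.jac (B * P.lam)
  jacT : AMul P N j S.jacT (B * P.lam)

lemma Ctrl.lower {N j : ℕ} {B : ℝ} (h : Ctrl P N (j + 1) B) : Ctrl P N j B :=
  ⟨h.nonneg, h.hess, AMul.lower P N j h.jac, AMul.lower P N j h.jacT⟩

/-- The bounds of the three operators at level `j`. -/
def OpsLe (m j N : ℕ) (C : ℝ) : Prop :=
  (∀ {α : Type} [Fintype α] {F : α → ℝ → (EuclideanSpace ℝ ι) → ℝ}, S.OkF F →
    P.κ ^ 2 * regNorm P m j (gradF F) ≤ C * regNorm P (m + 1) j F) ∧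
  (∀ {α : Type} [Fintype α] {F : α × ι → ℝ → (EuclideanSpace ℝ ι) → ℝ}, S.OkF F →
    P.κ ^ 2 * regNorm P m j (S.dvF F) ≤ C * regNorm P (m + 1) j F) ∧
  ∀ {α β γ : Type} [Fintype α] [Fintype β] [Fintype γ] {M : β → γ → ℝ → (EuclideanSpace ℝ ι) → ℝ} {s : ℝ},
    AMul P N j M s → ∀ {F : α × γ → ℝ → (EuclideanSpace ℝ ι) → ℝ}, S.OkF F →
      regNorm P m j (mulT M F) ≤ C * s ^ 2 * regNorm P m j F

end Sys

open Sys

lemma ops_zero (B : ℝ) (m : ℕ) : ∃ C : ℝ, 1 ≤ C ∧ ∀ {ι : Type} [Fintype ι] [DecidableEq ι]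
    {S : Sys ι} (P : S.Pt) {N : ℕ}, m + 1 ≤ N → Ctrl P N 0 B → OpsLe P m 0 N C := by
  refine ⟨8 ^ m * (1 + B) ^ 2 + 4 ^ (m + 1) + 1, ?_, fun {ι} _ _ {S} P {N} hN hc => ⟨?_, ?_, ?_⟩⟩
  · nlinarith [show (0:ℝ) ≤ 8 ^ m * (1 + B) ^ 2 by positivity,
      show (0:ℝ) ≤ 4 ^ (m + 1) by positivity]
  · intro α _ F hF
    refine (sob_grad_le _ P.κ m fun a => F a P.q₀).trans ?_
    exact le_mul_of_one_le_left (sob_nonneg _ _ _ _) (by
      nlinarith [show (0:ℝ) ≤ 8 ^ m * (1 + B) ^ 2 by positivity,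
        show (0:ℝ) ≤ 4 ^ (m + 1) by positivity])
  · intro α _ F hF
    refine ((ibp₀ P).sob_dv_le hc.nonneg P.κ0.le P.κ1 m (mulBound_le P (by omega) hc.hess)
      (tameF₀ P hF)).trans (mul_le_mul_of_nonneg_right ?_ (sob_nonneg _ _ _ _))
    nlinarith [show (0:ℝ) ≤ 4 ^ (m + 1) by positivity]
  · intro α β γ _ _ _ M s hM F hF
    refine ((ibp₀ P).sob_mulF_le m (fun b c => S.ok_tame (hM.1 b c) _ P.mem)
      (mulBound_le P (by omega) hM.2) (tameF₀ P hF)).trans ?_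
    refine mul_le_mul_of_nonneg_right (mul_le_mul_of_nonneg_right ?_ (sq_nonneg _))
      (sob_nonneg _ _ _ _)
    nlinarith [show (0:ℝ) ≤ 8 ^ m * (1 + B) ^ 2 by positivity,
      show (4:ℝ) ^ m ≤ 4 ^ (m + 1) from pow_le_pow_right₀ (by norm_num) (Nat.le_succ m)]

namespace Sys

variable {S} {P : S.Pt} {N m j : ℕ} {B C₁ C₂ : ℝ}

/-- A derivative of the rate cancels. -/
lemma inv_lam_sq (P : S.Pt) : (P.lam⁻¹) ^ 2 * P.lam ^ 2 = 1 := by
  rw [← mul_pow, inv_mul_cancel₀ P.lam0.ne', one_pow]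

lemma step_grad (hc : Ctrl P N (j + 1) B) (h₁ : OpsLe P m j N C₁) (hC₁ : 1 ≤ C₁)
    {F : α → ℝ → (EuclideanSpace ℝ ι) → ℝ} (hF : S.OkF F) :
    P.κ ^ 2 * regNorm P m (j + 1) (gradF F)
      ≤ (1 + 4 * C₁ + 2 * C₁ ^ 2 * B ^ 2) * regNorm P (m + 1) (j + 1) F := by
  obtain ⟨g₁, -, m₁⟩ := h₁
  have hA : S.OkF (S.AF F) := S.okF_AF hF
  set R := regNorm P (m + 1) (j + 1) F
  have hR : 0 ≤ R := regNorm_nonneg P _ _ _
  have r1 : sob (S.μ P.q₀) P.κ (m + 1 + j + 1) (fun a => F a P.q₀) ≤ R :=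
    le_add_of_nonneg_right (mul_nonneg (sq_nonneg _) (regNorm_nonneg P _ _ _))
  have r2 : (P.lam⁻¹) ^ 2 * regNorm P (m + 1) j (S.AF F) ≤ R := regNorm_AF_le P j (m + 1) F
  have r3 : regNorm P (m + 1) j F ≤ R := (regNorm_mono P _ _ _).trans (regNorm_shift P _ _ _)
  have s0 : P.κ ^ 2 * sob (S.μ P.q₀) P.κ (m + j + 1) (fun p => gradF F p P.q₀) ≤ R := by
    refine (sob_grad_le _ P.κ _ fun a => F a P.q₀).trans ?_
    rw [show m + j + 1 + 1 = m + 1 + j + 1 by omega]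
    exact r1
  have s1 : P.κ ^ 2 * ((P.lam⁻¹) ^ 2 * regNorm P m j (gradF (S.AF F))) ≤ C₁ * R := by
    rw [mul_left_comm]
    refine (mul_le_mul_of_nonneg_left (g₁ hA) (sq_nonneg _)).trans ?_
    rw [mul_left_comm]
    exact mul_le_mul_of_nonneg_left r2 (by linarith)
  have hj := (AMul.base P hc.jacT).1
  have s2 : P.κ ^ 2 * ((P.lam⁻¹) ^ 2 * regNorm P m j (mulT S.jacT (gradF F)))
      ≤ C₁ ^ 2 * B ^ 2 * R := by
    calc P.κ ^ 2 * ((P.lam⁻¹) ^ 2 * regNorm P m j (mulT S.jacT (gradF F)))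
        ≤ P.κ ^ 2 * ((P.lam⁻¹) ^ 2 * (C₁ * (B * P.lam) ^ 2 * regNorm P m j (gradF F))) := by
          gcongr
          exact m₁ (AMul.lower P N j hc.jacT) (S.okF_gradF hF)
      _ = (P.lam⁻¹) ^ 2 * P.lam ^ 2 * (C₁ * B ^ 2) * (P.κ ^ 2 * regNorm P m j (gradF F)) := by ring
      _ ≤ C₁ * B ^ 2 * (C₁ * regNorm P (m + 1) j F) := by
          rw [inv_lam_sq, one_mul]
          exact mul_le_mul_of_nonneg_left (g₁ hF) (by positivity)
      _ ≤ C₁ * B ^ 2 * (C₁ * R) := by gcongr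
      _ = _ := by ring
  have h2 := mul_le_mul_of_nonneg_left (mul_le_mul_of_nonneg_left
    (regNorm_sub_le P j m (S.okF_gradF hA) (S.okF_mulT hj (S.okF_gradF hF))) (sq_nonneg P.lam⁻¹))
    (sq_nonneg P.κ)
  simp only [regNorm]
  rw [regNorm_congr P j m (F := S.AF (gradF F))
    (G := fun p q x => gradF (S.AF F) p q x - mulT S.jacT (gradF F) p q x)
    fun p q hq x => S.AF_gradF hF p hq x]
  have hCR : 0 ≤ C₁ * R := mul_nonneg (by linarith) hR
  nlinarith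

lemma step_dv (hN : m + j + 2 ≤ N) (hc : Ctrl P N (j + 1) B) (h₁ : OpsLe P m j N C₁)
    (hC₁ : 1 ≤ C₁) (h₂ : OpsLe P (m + 1) j N C₂) (hC₂ : 1 ≤ C₂) {F : α × ι → ℝ → (EuclideanSpace ℝ ι) → ℝ}
    (hF : S.OkF F) :
    P.κ ^ 2 * regNorm P m (j + 1) (S.dvF F)
      ≤ (8 ^ (m + j + 1) * (1 + B) ^ 2 + 2 * C₁ + 2 * C₁ * C₂ * B ^ 2)
        * regNorm P (m + 1) (j + 1) F := by
  obtain ⟨-, d₁, -⟩ := h₁
  obtain ⟨-, -, m₂⟩ := h₂
  have hA : S.OkF (S.AF F) := S.okF_AF hF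
  set R := regNorm P (m + 1) (j + 1) F
  have hR : 0 ≤ R := regNorm_nonneg P _ _ _
  have r1 : sob (S.μ P.q₀) P.κ (m + 1 + j + 1) (fun a => F a P.q₀) ≤ R :=
    le_add_of_nonneg_right (mul_nonneg (sq_nonneg _) (regNorm_nonneg P _ _ _))
  have r2 : (P.lam⁻¹) ^ 2 * regNorm P (m + 1) j (S.AF F) ≤ R := regNorm_AF_le P j (m + 1) F
  have r3 : regNorm P (m + 1) j F ≤ R := (regNorm_mono P _ _ _).trans (regNorm_shift P _ _ _)
  have s0 : P.κ ^ 2 * sob (S.μ P.q₀) P.κ (m + j + 1) (fun p => S.dvF F p P.q₀)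
      ≤ 8 ^ (m + j + 1) * (1 + B) ^ 2 * R := by
    refine ((ibp₀ P).sob_dv_le hc.nonneg P.κ0.le P.κ1 _ (mulBound_le P (by omega) hc.hess)
      (tameF₀ P hF)).trans (mul_le_mul_of_nonneg_left ?_ (by positivity))
    rw [show m + j + 1 + 1 = m + 1 + j + 1 by omega]
    exact r1
  have s1 : P.κ ^ 2 * ((P.lam⁻¹) ^ 2 * regNorm P m j (S.dvF (S.AF F))) ≤ C₁ * R := by
    rw [mul_left_comm]
    refine (mul_le_mul_of_nonneg_left (d₁ hA) (sq_nonneg _)).trans ?_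
    rw [mul_left_comm]
    exact mul_le_mul_of_nonneg_left r2 (by linarith)
  have hj := (AMul.base P hc.jac).1
  have hSF : S.OkF (mulT S.jac F) := S.okF_mulT hj hF
  have s2 : P.κ ^ 2 * ((P.lam⁻¹) ^ 2 * regNorm P m j (S.dvF (mulT S.jac F)))
      ≤ C₁ * C₂ * B ^ 2 * R := by
    calc P.κ ^ 2 * ((P.lam⁻¹) ^ 2 * regNorm P m j (S.dvF (mulT S.jac F)))
        = (P.lam⁻¹) ^ 2 * (P.κ ^ 2 * regNorm P m j (S.dvF (mulT S.jac F))) := by ring
      _ ≤ (P.lam⁻¹) ^ 2 * (C₁ * (C₂ * (B * P.lam) ^ 2 * regNorm P (m + 1) j F)) := by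
          refine mul_le_mul_of_nonneg_left ((d₁ hSF).trans ?_) (sq_nonneg _)
          exact mul_le_mul_of_nonneg_left (m₂ (AMul.lower P N j hc.jac) hF) (by linarith)
      _ = (P.lam⁻¹) ^ 2 * P.lam ^ 2 * (C₁ * C₂ * B ^ 2) * regNorm P (m + 1) j F := by ring
      _ ≤ _ := by
          rw [inv_lam_sq, one_mul]
          exact mul_le_mul_of_nonneg_left r3 (by positivity)
  have h2 := mul_le_mul_of_nonneg_left (mul_le_mul_of_nonneg_left
    (regNorm_sub_le P j m (S.okF_dvF hA) (S.okF_dvF hSF)) (sq_nonneg P.lam⁻¹)) (sq_nonneg P.κ)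
  simp only [regNorm]
  rw [regNorm_congr P j m (F := S.AF (S.dvF F))
    (G := fun p q x => S.dvF (S.AF F) p q x - S.dvF (mulT S.jac F) p q x)
    fun p q hq x => S.AF_dvF hF p hq x]
  nlinarith

/-- `δ (M') F + Q F = δ (M' F) + M' ∇F + Q F`. -/
lemma split_mulT {M' : β → γ → ι → ℝ → (EuclideanSpace ℝ ι) → ℝ} (hM' : ∀ b c i, S.ok (M' b c i))
    {F : α × γ → ℝ → (EuclideanSpace ℝ ι) → ℝ} (hF : S.OkF F) (p : α × β) {q : ℝ} (hq : q ∈ S.I) (x : (EuclideanSpace ℝ ι)) :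
    ∑ c, (∑ i, (pd i (S.Ψ q) x * M' p.2 c i q x - pd i (M' p.2 c i q) x)) * F (p.1, c) q x
      = S.dvF (fun r : (α × β) × ι =>
            mulT (fun (s : β × ι) c => M' s.1 c s.2) F (r.1.1, (r.1.2, r.2))) p q x
        + mulT (fun b (s : γ × ι) => M' b s.1 s.2)
            (fun r : α × (γ × ι) => gradF F ((r.1, r.2.1), r.2.2)) p q x := by
  have h := dv_contract (Ψ := S.Ψ q)
    (M := fun (r : (β × γ) × ι) => M' r.1.1 r.1.2 r.2 q)
    (fun r => S.ok_tame (hM' _ _ _) q hq) (F := fun r => F r q)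
    (fun r => S.ok_tame (hF r) q hq) p.1 p.2 x
  have e1 : S.dvF (fun r : (α × β) × ι =>
      mulT (fun (s : β × ι) c => M' s.1 c s.2) F (r.1.1, (r.1.2, r.2))) p q x
    = dv (S.Ψ q) (fun (r : (α × β) × ι) y =>
        ∑ c, M' r.1.2 c r.2 q y * F (r.1.1, c) q y) (p.1, p.2) x := rfl
  rw [e1, h]
  simp only [mulT, mulF, Fintype.sum_prod_type, dv, gradF, Sobolev.grad]
  ring

lemma step_mul (hN : m + j + 2 ≤ N) (h₁ : OpsLe P m j N C₁) (hC₁ : 1 ≤ C₁)
    (h₂ : OpsLe P (m + 1) j N C₂) (hC₂ : 1 ≤ C₂) {M : β → γ → ℝ → (EuclideanSpace ℝ ι) → ℝ} {s : ℝ}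
    (hM : AMul P N (j + 1) M s) {F : α × γ → ℝ → (EuclideanSpace ℝ ι) → ℝ} (hF : S.OkF F) :
    regNorm P m (j + 1) (mulT M F)
      ≤ (4 ^ (m + j + 1) + 8 * (C₁ * C₂ + C₁ ^ 2 + 2 * C₁)) * s ^ 2 * regNorm P m (j + 1) F := by
  obtain ⟨g₁, d₁, m₁⟩ := h₁
  obtain ⟨-, -, m₂⟩ := h₂
  have hMl := AMul.lower P N j hM
  obtain ⟨⟨hMok, hMb⟩, M', Q, hr, hcl, hQ, hid⟩ := hM
  have hM'ok : ∀ b c i, S.ok (M' b c i) := fun b c i => (AMul.base P hr).1 (b, i) c
  have hA : S.OkF (S.AF F) := S.okF_AF hF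
  set R := regNorm P m (j + 1) F
  have hR : 0 ≤ R := regNorm_nonneg P _ _ _
  have r1 : sob (S.μ P.q₀) P.κ (m + j + 1) (fun a => F a P.q₀) ≤ R :=
    le_add_of_nonneg_right (mul_nonneg (sq_nonneg _) (regNorm_nonneg P _ _ _))
  have r2 : (P.lam⁻¹) ^ 2 * regNorm P m j (S.AF F) ≤ R := regNorm_AF_le P j m F
  have r3 : regNorm P (m + 1) j F ≤ R := regNorm_shift P _ _ _
  have r4 : regNorm P m j F ≤ R := (regNorm_mono P _ _ _).trans r3
  set T1 : (α × β) × ι → ℝ → (EuclideanSpace ℝ ι) → ℝ :=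
    fun r => mulT (fun (s : β × ι) c => M' s.1 c s.2) F (r.1.1, (r.1.2, r.2))
  set G1 : α × (γ × ι) → ℝ → (EuclideanSpace ℝ ι) → ℝ := fun r => gradF F ((r.1, r.2.1), r.2.2)
  have hT1 : S.OkF T1 := fun r => S.okF_mulT (AMul.base P hr).1 hF _
  have hG1 : S.OkF G1 := fun r => S.okF_gradF hF _
  set T2 := mulT (fun b (s : γ × ι) => M' b s.1 s.2) G1
  have hT2 : S.OkF T2 := S.okF_mulT (AMul.base P hcl).1 hG1
  have hT3 : S.OkF (mulT Q F) := S.okF_mulT (AMul.base P hQ).1 hF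
  have hT4 : S.OkF (mulT M (S.AF F)) := S.okF_mulT hMok hA
  have hk2 : 0 < P.κ ^ 2 := pow_pos P.κ0 2
  have a1 : regNorm P m j (S.dvF T1) ≤ C₁ * C₂ * (P.lam * s) ^ 2 * R := by
    refine le_of_mul_le_mul_left ?_ hk2
    refine (d₁ hT1).trans ?_
    have e : regNorm P (m + 1) j T1
        = regNorm P (m + 1) j (mulT (fun (s : β × ι) c => M' s.1 c s.2) F) :=
      regNorm_reindex P j (m + 1) (Equiv.prodAssoc α β ι) _
    rw [e]
    calc C₁ * regNorm P (m + 1) j (mulT (fun (s : β × ι) c => M' s.1 c s.2) F)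
        ≤ C₁ * (C₂ * (P.κ * P.lam * s) ^ 2 * regNorm P (m + 1) j F) :=
          mul_le_mul_of_nonneg_left (m₂ hr hF) (by linarith)
      _ ≤ C₁ * (C₂ * (P.κ * P.lam * s) ^ 2 * R) := by gcongr
      _ = _ := by ring
  have a2 : regNorm P m j T2 ≤ C₁ ^ 2 * (P.lam * s) ^ 2 * R := by
    refine (m₁ hcl hG1).trans ?_
    have e : regNorm P m j G1 = regNorm P m j (gradF F) :=
      regNorm_reindex P j m (Equiv.prodAssoc α γ ι).symm (gradF F)
    rw [e]
    calc C₁ * (P.κ * P.lam * s) ^ 2 * regNorm P m j (gradF F)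
        = C₁ * (P.lam * s) ^ 2 * (P.κ ^ 2 * regNorm P m j (gradF F)) := by ring
      _ ≤ C₁ * (P.lam * s) ^ 2 * (C₁ * R) := by
          refine mul_le_mul_of_nonneg_left ((g₁ hF).trans ?_) (by positivity)
          exact mul_le_mul_of_nonneg_left r3 (by linarith)
      _ = _ := by ring
  have a3 : regNorm P m j (mulT Q F) ≤ C₁ * (P.lam * s) ^ 2 * R :=
    (m₁ hQ hF).trans (mul_le_mul_of_nonneg_left r4 (by positivity))
  have a4 := m₁ hMl hA
  have h34 := regNorm_add_le P j m hT3 hT4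
  have hT34 := S.okF_add hT3 hT4
  have h234 := regNorm_add_le P j m hT2 hT34
  have hall := regNorm_add_le P j m (S.okF_dvF hT1) (S.okF_add hT2 hT34)
  have s0 : sob (S.μ P.q₀) P.κ (m + j + 1) (fun p => mulT M F p P.q₀)
      ≤ 4 ^ (m + j + 1) * s ^ 2 * R := by
    refine ((ibp₀ P).sob_mulF_le _ (fun b c => S.ok_tame (hMok b c) _ P.mem)
      (mulBound_le P (by omega) hMb) (tameF₀ P hF)).trans ?_
    exact mul_le_mul_of_nonneg_left r1 (by positivity)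
  simp only [regNorm]
  rw [regNorm_congr P j m (F := S.AF (mulT M F))
    (G := fun p q x => S.dvF T1 p q x
      + (T2 p q x + (mulT Q F p q x + mulT M (S.AF F) p q x))) fun p q hq x => by
    rw [S.AF_mulT hMok hF p hq x, ← add_assoc, ← add_assoc]
    congr 1
    show ∑ c, S.A (M p.2 c) q x * F (p.1, c) q x = _
    simp only [hid p.2 _ q hq x, add_mul, Finset.sum_add_distrib]
    rw [split_mulT hM'ok hF p hq x]
    rfl]
  have n1 := regNorm_nonneg P j m (S.dvF T1)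
  have n2 := regNorm_nonneg P j m T2
  have hsum : regNorm P m j (fun p q x => S.dvF T1 p q x
      + (T2 p q x + (mulT Q F p q x + mulT M (S.AF F) p q x)))
      ≤ 8 * ((C₁ * C₂ + C₁ ^ 2 + C₁) * (P.lam * s) ^ 2 * R
          + C₁ * s ^ 2 * regNorm P m j (S.AF F)) := by
    linarith
  have hlast : (P.lam⁻¹) ^ 2 * (8 * ((C₁ * C₂ + C₁ ^ 2 + C₁) * (P.lam * s) ^ 2 * R
      + C₁ * s ^ 2 * regNorm P m j (S.AF F)))
      ≤ 8 * (C₁ * C₂ + C₁ ^ 2 + 2 * C₁) * s ^ 2 * R := by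
    calc _ = 8 * (C₁ * C₂ + C₁ ^ 2 + C₁) * s ^ 2 * R * ((P.lam⁻¹) ^ 2 * P.lam ^ 2)
            + 8 * (C₁ * s ^ 2) * ((P.lam⁻¹) ^ 2 * regNorm P m j (S.AF F)) := by ring
      _ ≤ 8 * (C₁ * C₂ + C₁ ^ 2 + C₁) * s ^ 2 * R * 1 + 8 * (C₁ * s ^ 2) * R := by
          rw [inv_lam_sq]
          gcongr
      _ = _ := by ring
  have h5 := mul_le_mul_of_nonneg_left hsum (sq_nonneg P.lam⁻¹)
  linarith

end Sys

/-- The gradient and the divergence lose one order, multipliers none. -/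
theorem ops (B : ℝ) (j : ℕ) : ∀ m : ℕ, ∃ C : ℝ, 1 ≤ C ∧ ∀ {ι : Type} [Fintype ι] [DecidableEq ι]
    {S : Sys ι} (P : S.Pt) {N : ℕ}, m + j + 1 ≤ N → Ctrl P N j B → OpsLe P m j N C := by
  induction j with
  | zero => intro m; simpa using ops_zero B m
  | succ j ih =>
    intro m
    obtain ⟨C₁, h₁1, h₁⟩ := ih m
    obtain ⟨C₂, h₂1, h₂⟩ := ih (m + 1)
    set K₁ := 1 + 4 * C₁ + 2 * C₁ ^ 2 * B ^ 2
    set K₂ := (8 : ℝ) ^ (m + j + 1) * (1 + B) ^ 2 + 2 * C₁ + 2 * C₁ * C₂ * B ^ 2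
    set K₃ := (4 : ℝ) ^ (m + j + 1) + 8 * (C₁ * C₂ + C₁ ^ 2 + 2 * C₁)
    have k₁ : 1 ≤ K₁ := by
      have : 0 ≤ C₁ ^ 2 * B ^ 2 := by positivity
      simp only [K₁]; linarith
    have k₂ : 0 ≤ K₂ := by positivity
    have k₃ : 0 ≤ K₃ := by positivity
    refine ⟨K₁ + K₂ + K₃, by linarith, fun {ι} _ _ {S} P {N} hN hc => ⟨?_, ?_, ?_⟩⟩
    · intro α _ F hF
      refine (step_grad hc (h₁ P (by omega) hc.lower) h₁1 hF).trans
        (mul_le_mul_of_nonneg_right ?_ (regNorm_nonneg P _ _ _))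
      linarith
    · intro α _ F hF
      refine (step_dv (by omega) hc (h₁ P (by omega) hc.lower) h₁1 (h₂ P (by omega) hc.lower) h₂1
        hF).trans (mul_le_mul_of_nonneg_right ?_ (regNorm_nonneg P _ _ _))
      linarith
    · intro α β γ _ _ _ M s hM F hF
      refine (step_mul (by omega) (h₁ P (by omega) hc.lower) h₁1 (h₂ P (by omega) hc.lower) h₂1
        hM hF).trans (mul_le_mul_of_nonneg_right
          (mul_le_mul_of_nonneg_right ?_ (sq_nonneg s)) (regNorm_nonneg P _ _ _))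
      linarith

end Reg

end Vale.Agent.P347.Gamma0
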