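import Vale.Agent.P347.Gamma0.RegStmt
import Vale.Agent.P347.Gamma0.RegSeq

/-!
P347, towards `γ_* = 0`, piece 4 (regularity): a time bound from a chain of derivatives along
trajectories, and the regularity of the mean gradient along the exact flow.
-/

namespace Vale.Agent.P347.Gamma0

open MeasureTheory Set Filter
open scoped ContDiff Topology

namespace Reg

/-- A chain of derivatives on an open set of times. -/
lemma chain_iterate_on {V : Type*} [NormedAddCommGroup V] [NormedSpace ℝ V] {I : Set ℝ}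
    (hI : IsOpen I) {h : ℕ → ℝ → V} (hh : ∀ k, ∀ t ∈ I, HasDerivAt (h k) (h (k + 1) t) t)
    (n : ℕ) : EqOn (iteratedDeriv n (h 0)) (h n) I ∧ ∀ k, ContDiffOn ℝ n (h k) I := by
  induction n with
  | zero =>
    exact ⟨fun t _ => by rw [iteratedDeriv_zero], fun k => contDiffOn_zero.2
      fun t ht => (hh k t ht).continuousAt.continuousWithinAt⟩
  | succ n ih =>
    refine ⟨fun t ht => ?_, fun k => ?_⟩
    · rw [iteratedDeriv_succ]
      exact ((hh n t ht).congr_of_eventuallyEq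
        (eventuallyEq_of_mem (hI.mem_nhds ht) fun u hu => ih.1 hu)).deriv
    · rw [Nat.cast_succ]
      refine (contDiffOn_succ_iff_deriv_of_isOpen hI).2
        ⟨fun t ht => (hh k t ht).differentiableAt.differentiableWithinAt, by simp, ?_⟩
      exact (ih.2 (k + 1)).congr fun t ht => (hh k t ht).deriv

/-- A time bound from a chain of derivatives on an interval around `[0, T]`. -/
theorem timeBound_of_chain {Ω : Type} [MeasurableSpace Ω] [TopologicalSpace Ω] {d n : ℕ}
    {τ T a b : ℝ} (ha : a < 0) (hb : T < b) (hT : 0 ≤ T) {μ : Measure Ω} {f : ℕ → ℝ → Ω → E d}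
    {B : ℝ} (hc : ContinuousOn (fun p : ℝ × Ω => f 0 p.1 p.2) (Ioo a b ×ˢ univ))
    (hd : ∀ z k, ∀ t ∈ Ioo a b, HasDerivAt (fun u => f k u z) (f (k + 1) t z) t)
    (hB : ∀ t ∈ Icc 0 T, Picard.L2le μ (f n t) ((Real.sqrt τ / (τ - t ^ 2)) ^ n * B)) :
    TimeBound n τ T μ (f 0) B := by
  set cl : ℝ → ℝ := fun u => max (a / 2) (min ((T + b) / 2) u) with hcl
  have hclI : ∀ u, cl u ∈ Ioo a b := fun u =>
    ⟨lt_of_lt_of_le (by linarith) (le_max_left _ _),
      max_lt (by linarith) (lt_of_le_of_lt (min_le_left _ _) (by linarith))⟩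
  have hev : ∀ t ∈ Icc 0 T, ∀ z, (fun u => f 0 (cl u) z) =ᶠ[𝓝 t] fun u => f 0 u z := fun t ht z =>
    eventuallyEq_of_mem (isOpen_Ioo.mem_nhds
      (show t ∈ Ioo (a / 2) ((T + b) / 2) from ⟨by linarith [ht.1], by linarith [ht.2]⟩))
      fun u hu => by simp only [cl, min_eq_right hu.2.le, max_eq_right hu.1.le]
  have hch := fun z => chain_iterate_on (V := E d) isOpen_Ioo (h := fun k u => f k u z)
    (fun k t ht => hd z k t ht) n
  refine ⟨fun u z => f 0 (cl u) z,
    hc.comp_continuous (f := fun p : ℝ × Ω => (cl p.1, p.2)) (by fun_prop)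
      fun p => ⟨hclI _, mem_univ _⟩,
    fun t ht z => (hev t ht z).eq_of_nhds, fun z t ht => ?_, fun t ht => ?_⟩
  · exact (((hch z).2 0).contDiffAt (isOpen_Ioo.mem_nhds
      ⟨ha.trans_le ht.1, ht.2.trans_lt hb⟩)).congr_of_eventuallyEq (hev t ht z)
  · have e : (fun z => iteratedDeriv n (fun u => f 0 (cl u) z) t) = f n t := funext fun z => by
      rw [Filter.EventuallyEq.iteratedDeriv_eq n (hev t ht z)]
      exact (hch z).1 ⟨ha.trans_le ht.1, ht.2.trans_lt hb⟩
    rw [e]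
    exact hB t ht

attribute [local irreducible] G nW psi

section Gq

variable {d : ℕ} (hP : PostFacts) (hT : TameFact) (D : Data d) (hτ : D.τ ≤ 1)

/-- The derivatives of the mean gradient along the flow. -/
noncomputable def seqGq (k : ℕ) (i : Fin d) : ℝ → E d → ℝ :=
  (baseSys hP D hT hτ).A^[k] (pull D (gC D i))

lemma ok_seqGq : ∀ (k : ℕ) (i : Fin d), (baseSys hP D hT hτ).ok (seqGq hP hT D hτ k i)
  | 0, i => by
    have h := Alg.gen (D := D) 0 fun _ => i
    rw [dG_zero] at h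
    exact h
  | k + 1, i => by
    rw [seqGq, Function.iterate_succ_apply']
    exact (baseSys hP D hT hτ).ok_A (ok_seqGq k i)

/-- The same along the trajectory from `z`. -/
noncomputable def pathGq (X : ExFlow D) (k : ℕ) (t : ℝ) (z : E d) : E d :=
  WithLp.toLp 2 fun i => seqGq hP hT D hτ k i t (X.Φ 0 t z)

lemma pathGq_zero (X : ExFlow D) :
    pathGq hP hT D hτ X 0 = fun t R => D.Gq t (X.Φ 0 t R) := by
  funext t z
  ext i
  simp only [pathGq, seqGq, Function.iterate_zero, id_eq, pull, gC, Data.Gq]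

lemma hasDerivAt_pathGq (X : ExFlow D) (z : E d) (k : ℕ) {t : ℝ} (ht : t ∈ D.I) :
    HasDerivAt (fun u => pathGq hP hT D hτ X k u z) (pathGq hP hT D hτ X (k + 1) t z) t := by
  have hd : ∀ i, HasDerivAt (fun u => seqGq hP hT D hτ k i u (X.Φ 0 u z))
      (seqGq hP hT D hτ (k + 1) i t (X.Φ 0 t z)) t := fun i => by
    rw [show seqGq hP hT D hτ (k + 1) i = (baseSys hP D hT hτ).A (seqGq hP hT D hτ k i) from
      Function.iterate_succ_apply' _ _ _]
    exact Sys.hasDerivAt_A (ok_seqGq hP hT D hτ k i) (p := fun u => X.Φ 0 u z) ht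
      (X.flow.deriv 0 D.zero_mem t ht z) fun i => rfl
  exact ((PiLp.continuousLinearEquiv 2 ℝ fun _ : Fin d => ℝ).symm.hasFDerivAt).comp_hasDerivAt t
    (f := fun u i => seqGq hP hT D hτ k i u (X.Φ 0 u z)) (hasDerivAt_pi.2 hd)

lemma lintegral_pathGq (hH : NWHeat) (hTr : LawTransport) (X : ExFlow D) (n : ℕ) {t : ℝ}
    (ht : t ∈ D.I) : ∫⁻ z, ‖pathGq hP hT D hτ X n t z‖ₑ ^ 2 ∂gam d
      = ∫⁻ w, ENNReal.ofReal (∑ i, seqGq hP hT D hτ n i t w ^ 2) ∂ExFlow.law D t := by
  have hc : ∀ i, Continuous (seqGq hP hT D hτ n i t) := fun i =>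
    ((baseSys hP D hT hτ).ok_tame (ok_seqGq hP hT D hτ n i) t ht).1.continuous
  have hm : Measurable fun w => ENNReal.ofReal (∑ i, seqGq hP hT D hτ n i t w ^ 2) :=
    Measurable.ennreal_ofReal (Continuous.measurable
      (continuous_finsetSum _ fun i _ => (hc i).pow 2 :
        Continuous fun w => ∑ i, seqGq hP hT D hτ n i t w ^ 2))
  rw [← X.map_gam hP hH hTr ht,
    lintegral_map hm (X.continuous_Φ D.zero_mem ht).measurable]
  refine lintegral_congr fun z => ?_
  rw [← ofReal_norm, ← ENNReal.ofReal_pow (norm_nonneg _), EuclideanSpace.real_norm_sq_eq]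
  rfl

end Gq

/-- The mean gradient along the exact flow is regular in time. -/
theorem regGq (hP : PostFacts) (hH : NWHeat) (hTr : LawTransport) (hT : TameFact) : RegGq := by
  intro n hn
  obtain ⟨C, hC0, hC⟩ := exists_seq_Gq hP hT n hn
  refine ⟨C, hC0, fun d D hτ X T hT0 hTI => ?_⟩
  rw [← pathGq_zero hP hT D hτ X]
  refine timeBound_of_chain (a := -Real.sqrt D.τ) (b := Real.sqrt D.τ)
    (neg_lt_zero.2 (Real.sqrt_pos.2 D.τ0)) hTI.2 hT0 ?_
    (fun z k t ht => hasDerivAt_pathGq hP hT D hτ X z k ht) fun t ht => ?_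
  · rw [pathGq_zero hP hT D hτ X]
    have hc : ContinuousOn (fun p : ℝ × E d => X.Φ 0 p.1 p.2) (D.I ×ˢ univ) :=
      X.flow.cont.comp (f := fun p : ℝ × E d => ((0 : ℝ), p.1, p.2)) (by fun_prop)
        fun p hp => ⟨D.zero_mem, hp⟩
    exact ContinuousOn.comp (g := fun p : ℝ × E d => D.Gq p.1 p.2)
      (f := fun p : ℝ × E d => (p.1, X.Φ 0 p.1 p.2)) (D.contDiffOn_Gq hP).continuousOn
      (continuousOn_fst.prodMk hc) fun p hp => ⟨hp.1, mem_univ _⟩
  · have htI : t ∈ D.I :=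
      ⟨(neg_lt_zero.2 (Real.sqrt_pos.2 D.τ0)).trans_le ht.1, ht.2.trans_lt hTI.2⟩
    unfold Picard.L2le
    rw [lintegral_pathGq hP hT D hτ hH hTr X n htI]
    refine (hC d D hτ t htI).trans (ENNReal.ofReal_le_ofReal (le_of_eq ?_))
    rw [mul_pow, mul_pow _ (C * Real.sqrt d), mul_pow C, Real.sq_sqrt (Nat.cast_nonneg d)]
    ring

end Reg

end Vale.Agent.P347.Gamma0
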