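import Vale.Agent.P347.Gamma0.RegMul

/-!
P347, towards `γ_* = 0`, piece 4 (regularity), Hamiltonian part: at fixed `q` the time derivatives
of the mean gradient along `w' = D`, `D' = -∇Ψ_q w` have `L²` norms bounded by `√d` and powers of
the scale `κ ≈ √r / (√r + q)`.  The generator is `δ (J ∇)` with `J` constant and antisymmetric.
-/

namespace Vale.Agent.P347.Gamma0

namespace Reg

open MeasureTheory Sobolev
open scoped ContDiff RealInnerProductSpace ENNReal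

set_option linter.unusedSectionVars false

variable {ι α : Type} [Fintype ι] [DecidableEq ι] [Fintype α] {κ : ℝ}

/-- The generator `δ (J ∇)`. -/
noncomputable def gen (Ψ : (EuclideanSpace ℝ ι) → ℝ) (J : ι → ι → (EuclideanSpace ℝ ι) → ℝ) (F : α → (EuclideanSpace ℝ ι) → ℝ) : α → (EuclideanSpace ℝ ι) → ℝ :=
  dv Ψ (mulF J (grad F))

variable {μ : Measure (EuclideanSpace ℝ ι)} {Ψ : EuclideanSpace ℝ ι → ℝ}
  {J : ι → ι → EuclideanSpace ℝ ι → ℝ}

lemma gen_tame (hΨ : Tame Ψ) (hJ : ∀ a b, Tame (J a b)) {F : α → (EuclideanSpace ℝ ι) → ℝ} (hF : TameF F) :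
    TameF (gen Ψ J F) :=
  TameF.dvTame hΨ (hF.gradTame.mulTame hJ)

lemma gen_iter_tame (hΨ : Tame Ψ) (hJ : ∀ a b, Tame (J a b)) {F : α → (EuclideanSpace ℝ ι) → ℝ} (hF : TameF F) :
    ∀ n, TameF ((gen Ψ J)^[n] F)
  | 0 => hF
  | n + 1 => by
    rw [Function.iterate_succ_apply']
    exact gen_tame hΨ hJ (gen_iter_tame hΨ hJ hF n)

/-- One application of the generator. -/
lemma sob_gen_le (h : IBP μ Ψ) {B b : ℝ} (hB0 : 0 ≤ B) (hκ0 : 0 ≤ κ) (hκ : κ ≤ 1) (m : ℕ)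
    (hB : MulBound κ m (fun j i => pd j (pd i Ψ)) B) (hJ : ∀ a c, Tame (J a c))
    (hJb : MulBound κ (m + 1) J b) {F : α → (EuclideanSpace ℝ ι) → ℝ} (hF : TameF F) :
    κ ^ 2 * sob μ κ m (gen Ψ J F)
      ≤ 32 ^ m * (4 * ((1 + B) ^ 2 * b ^ 2)) * sob μ κ (m + 1) (grad F) := by
  refine (h.sob_dv_le hB0 hκ0 hκ m hB (hF.gradTame.mulTame hJ)).trans ?_
  refine (mul_le_mul_of_nonneg_left (h.sob_mulF_le (m + 1) hJ hJb hF.gradTame)
    (by positivity)).trans (le_of_eq ?_)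
  rw [show (32 : ℝ) = 8 * 4 by norm_num, mul_pow, pow_succ (4 : ℝ) m]
  ring

/-- All iterates of the generator. -/
lemma sob_gen_iter_le (B b : ℝ) (hB0 : 0 ≤ B) (n : ℕ) : ∀ m : ℕ, ∃ C : ℝ, 0 ≤ C ∧
    ∀ {ι α : Type} [Fintype ι] [DecidableEq ι] [Fintype α] {μ : Measure (EuclideanSpace ℝ ι)}
      {Ψ : EuclideanSpace ℝ ι → ℝ} {J : ι → ι → EuclideanSpace ℝ ι → ℝ} {κ : ℝ},
      IBP μ Ψ → 0 ≤ κ → κ ≤ 1 →
      MulBound κ (m + 2 * n + 1) (fun j i => pd j (pd i Ψ)) B → (∀ a c, Tame (J a c)) →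
      MulBound κ (m + 2 * n + 1) J b → ∀ {F : α → EuclideanSpace ℝ ι → ℝ}, TameF F →
        κ ^ (4 * n + 2) * sob μ κ m ((gen Ψ J)^[n + 1] F)
          ≤ C * sob μ κ (m + 2 * n + 1) (grad F) := by
  induction n with
  | zero =>
    intro m
    refine ⟨32 ^ m * (4 * ((1 + B) ^ 2 * b ^ 2)), by positivity, ?_⟩
    intro ι α _ _ _ μ Ψ J κ h hκ0 hκ hB hJ hJb F hF
    simpa using sob_gen_le h hB0 hκ0 hκ m hB.lower hJ hJb hF
  | succ n ih =>
    intro m
    obtain ⟨C, hC0, hC⟩ := ih (m + 2)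
    refine ⟨32 ^ m * (4 * ((1 + B) ^ 2 * b ^ 2)) * C, by positivity, ?_⟩
    intro ι α _ _ _ μ Ψ J κ h hκ0 hκ hB hJ hJb F hF
    rw [show m + 2 * (n + 1) + 1 = m + 2 + 2 * n + 1 by omega] at hB hJb ⊢
    have hlow : ∀ {β : Type} [Fintype β] {M : β → ι → EuclideanSpace ℝ ι → ℝ} {B' : ℝ} (k : ℕ),
        MulBound κ (m + k) M B' → MulBound κ m M B' := by
      intro β _ M B' k
      induction k with
      | zero => exact id
      | succ k ihk => exact fun hk => ihk hk.lower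
    have hlow1 : ∀ {β : Type} [Fintype β] {M : β → ι → EuclideanSpace ℝ ι → ℝ} {B' : ℝ} (k : ℕ),
        MulBound κ (m + 1 + k) M B' → MulBound κ (m + 1) M B' := by
      intro β _ M B' k
      induction k with
      | zero => exact id
      | succ k ihk => exact fun hk => ihk hk.lower
    set G := (gen Ψ J)^[n + 1] F
    have hG : TameF G := gen_iter_tame h.tame hJ hF (n + 1)
    have h1 := sob_gen_le h hB0 hκ0 hκ m
      (hlow (2 + 2 * n + 1) (by rwa [← add_assoc, ← add_assoc])) hJ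
      (hlow1 (2 + 2 * n) (by rwa [show m + 1 + (2 + 2 * n) = m + 2 + 2 * n + 1 by omega])) hG
    have h2 : κ ^ 2 * sob μ κ (m + 1) (grad G) ≤ sob μ κ (m + 2) G := sob_grad_le μ κ (m + 1) G
    have h3 := hC h hκ0 hκ hB hJ hJb hF
    rw [Function.iterate_succ_apply']
    show κ ^ (4 * (n + 1) + 2) * sob μ κ m (gen Ψ J G) ≤ _
    calc κ ^ (4 * (n + 1) + 2) * sob μ κ m (gen Ψ J G)
        = κ ^ (4 * n + 2) * κ ^ 2 * (κ ^ 2 * sob μ κ m (gen Ψ J G)) := by ring
      _ ≤ κ ^ (4 * n + 2) * κ ^ 2 *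
            (32 ^ m * (4 * ((1 + B) ^ 2 * b ^ 2)) * sob μ κ (m + 1) (grad G)) :=
          mul_le_mul_of_nonneg_left h1 (by positivity)
      _ = 32 ^ m * (4 * ((1 + B) ^ 2 * b ^ 2)) *
            (κ ^ (4 * n + 2) * (κ ^ 2 * sob μ κ (m + 1) (grad G))) := by ring
      _ ≤ 32 ^ m * (4 * ((1 + B) ^ 2 * b ^ 2)) * (κ ^ (4 * n + 2) * sob μ κ (m + 2) G) :=
          mul_le_mul_of_nonneg_left (mul_le_mul_of_nonneg_left h2 (by positivity)) (by positivity)
      _ ≤ _ := by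
          exact (mul_le_mul_of_nonneg_left h3 (by positivity)).trans
            (le_of_eq (mul_assoc _ _ _).symm)

/-- A chain of derivatives. -/
lemma chain_iterate {V : Type} [NormedAddCommGroup V] [NormedSpace ℝ V] {h : ℕ → ℝ → V}
    (hh : ∀ k t, HasDerivAt (h k) (h (k + 1) t) t) (n : ℕ) :
    iteratedDeriv n (h 0) = h n ∧ ∀ k, ContDiff ℝ n (h k) := by
  induction n with
  | zero => exact ⟨iteratedDeriv_zero, fun k => contDiff_zero.2
      (continuous_iff_continuousAt.2 fun t => (hh k t).continuousAt)⟩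
  | succ n ih =>
    refine ⟨?_, fun k => ?_⟩
    · rw [iteratedDeriv_succ, ih.1]
      exact funext fun t => (hh n t).deriv
    · rw [Nat.cast_succ]
      refine contDiff_succ_iff_deriv.2 ⟨fun t => (hh k t).differentiableAt, by simp, ?_⟩
      rw [funext fun t => (hh k t).deriv]
      exact ih.2 _

/-! ### The Hamiltonian at fixed `q` -/

/-- The symplectic matrix. -/
def symp (d : ℕ) : Fin d ⊕ Fin d → Fin d ⊕ Fin d → ℝ
  | Sum.inr a, Sum.inl b => if a = b then 1 else 0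
  | Sum.inl a, Sum.inr b => if a = b then -1 else 0
  | _, _ => 0

lemma opLe_symp (d : ℕ) : OpLe (symp d) 1 := fun v => by
  simp only [Fintype.sum_sum_type, symp, ite_mul, one_mul, zero_mul, Finset.sum_ite_eq,
    Finset.mem_univ, if_true, Finset.sum_const_zero, zero_add, add_zero, neg_mul, neg_sq, one_pow]
  linarith

variable {d : ℕ}

lemma mulF_symp (d : ℕ) {α : Type} (F : α × (Fin d ⊕ Fin d) → EuclideanSpace ℝ (Fin d ⊕ Fin d) → ℝ)
    (i : α) (j : Fin d ⊕ Fin d) : mulF (fun a b _ => symp d a b) F (i, j)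
      = Sum.elim (fun a x => -F (i, Sum.inr a) x) (fun a x => F (i, Sum.inl a) x) j := by
  funext x
  rcases j with a | a <;> simp [mulF, symp, Fintype.sum_sum_type]

lemma pd_neg {ι : Type} [Fintype ι] [DecidableEq ι] (f : EuclideanSpace ℝ ι → ℝ) (i : ι)
    (x : EuclideanSpace ℝ ι) : pd i (fun y => -f y) x = -pd i f x := by
  simp [Sobolev.pd, fderiv_fun_neg]

/-- With a constant antisymmetric matrix the generator is a vector field. -/
lemma gen_symp {Ψ : EuclideanSpace ℝ (Fin d ⊕ Fin d) → ℝ} {α : Type}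
    {F : α → EuclideanSpace ℝ (Fin d ⊕ Fin d) → ℝ} (hF : TameF F) (i : α)
    (z : EuclideanSpace ℝ (Fin d ⊕ Fin d)) :
    gen Ψ (fun a b _ => symp d a b) F i z
      = ∑ a, (pd (Sum.inr a) Ψ z * pd (Sum.inl a) (F i) z
          - pd (Sum.inl a) Ψ z * pd (Sum.inr a) (F i) z) := by
  simp only [gen, dv, mulF_symp, Fintype.sum_sum_type, Sum.elim_inl, Sum.elim_inr, grad, pd_neg,
    Finset.sum_sub_distrib]
  have e : ∀ a : Fin d, pd (Sum.inl a) (fun x => pd (Sum.inr a) (F i) x) z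
      = pd (Sum.inr a) (fun x => pd (Sum.inl a) (F i) x) z := fun a => pd_comm (hF i) _ _ z
  simp only [mul_neg, sub_neg_eq_add, Finset.sum_add_distrib, Finset.sum_neg_distrib, e]
  ring

/-- The Hamiltonian field in one vector. -/
noncomputable def hamField (D : Data d) (q : ℝ) (z : EuclideanSpace ℝ (Fin d ⊕ Fin d)) :
    EuclideanSpace ℝ (Fin d ⊕ Fin d) :=
  glueL (sndL z, -D.gψ q (fstL z))

lemma fderiv_eq_sum {ι : Type} [Fintype ι] [DecidableEq ι] (f : EuclideanSpace ℝ ι → ℝ)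
    (z u : EuclideanSpace ℝ ι) : fderiv ℝ f z u = ∑ i, u i * pd i f z := by
  conv_lhs => rw [← (EuclideanSpace.basisFun ι ℝ).sum_repr u, map_sum]
  exact Finset.sum_congr rfl fun i _ => by simp [Sobolev.pd, mul_comm]

lemma pd_blocks {ι₁ ι₂ : Type} [Fintype ι₁] [DecidableEq ι₁] [Fintype ι₂] [DecidableEq ι₂]
    {Ψ : EuclideanSpace ℝ ι₁ → ℝ} {Φ : EuclideanSpace ℝ ι₂ → ℝ} (hΨ : Tame Ψ) (hΦ : Tame Φ)
    (i : ι₁ ⊕ ι₂) (z : EuclideanSpace ℝ (ι₁ ⊕ ι₂)) :
    pd i (fun z => Ψ (fstL z) + Φ (sndL z)) z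
      = Sum.elim (fun a => pd a Ψ (fstL z)) (fun a => pd a Φ (sndL z)) i := by
  have t1 : Tame fun z : EuclideanSpace ℝ (ι₁ ⊕ ι₂) => Ψ (fstL z) :=
    hΨ.comp (fstL (ι₁ := ι₁) (ι₂ := ι₂)).hasTemperateGrowth
  have t2 : Tame fun z : EuclideanSpace ℝ (ι₁ ⊕ ι₂) => Φ (sndL z) :=
    hΦ.comp (sndL (ι₁ := ι₁) (ι₂ := ι₂)).hasTemperateGrowth
  rw [pd_add t1 t2, pd_comp_clm hΨ.differentiable, pd_comp_clm hΦ.differentiable, fstL_single,
    sndL_single]
  rcases i with a | a <;> simp [Sobolev.pd]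

lemma pd_halfSq (i : Fin d) (x : E d) : pd i (fun x : E d => ‖x‖ ^ 2 / 2) x = x i := by
  unfold Sobolev.pd
  rw [(hasFDerivAt_half_sq x).fderiv]
  simp [EuclideanSpace.inner_single_right]

/-- The potential of the pair `(w, D)`. -/
noncomputable def pairPot (D : Data d) (q : ℝ) (z : EuclideanSpace ℝ (Fin d ⊕ Fin d)) : ℝ :=
  D.ψ q (fstL z) + ‖sndL z‖ ^ 2 / 2

/-- The law of the pair `(w, D)`. -/
noncomputable def pairLaw (D : Data d) (q : ℝ) : Measure (EuclideanSpace ℝ (Fin d ⊕ Fin d)) :=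
  ((gibbs (D.ψ q)).prod (gam d)).map glueL

/-- The mean gradient as a function of the pair. -/
noncomputable def pairG (D : Data d) (q : ℝ) :
    Fin d → EuclideanSpace ℝ (Fin d ⊕ Fin d) → ℝ :=
  fun i z => D.Gq q (fstL z) i

section Ham

variable (D : Data d) (hP : PostFacts) (hT : TameFact) (hτ : D.τ ≤ 1) {q : ℝ} (hq : q ∈ D.I)
include hP hT hτ hq

lemma isProb_pair : IsProbabilityMeasure (pairLaw D q) := by
  have : IsProbabilityMeasure (gibbs (D.ψ q)) :=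
    LogConcave.isProb (Law.logConc D hP hT hτ hq)
  have : IsProbabilityMeasure (gam d) := by
    unfold gam
    infer_instance
  exact Measure.isProbabilityMeasure_map glueL.continuous.aemeasurable

lemma ibp_pair : IBP (pairLaw D q) (pairPot D q) := by
  have : IsProbabilityMeasure (gibbs (D.ψ q)) :=
    LogConcave.isProb (Law.logConc D hP hT hτ hq)
  have : IsProbabilityMeasure (gam d) := by
    unfold gam
    infer_instance
  exact IBP.prod (Law.ibp D hP hT hτ hq) ibp_gam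

lemma mulBound_pair {B : ℝ} (hB0 : 0 ≤ B) (m : ℕ)
    (hB : MulBound κ m (fun j i => pd j (pd i (D.ψ q))) B) :
    MulBound κ m (fun j i => pd j (pd i (pairPot D q))) (B + 1) := by
  refine mulBound_prod_hess (Law.tame_psi D hP hT hτ hq) ibp_gam.tame hB0 zero_le_one _ hB
    (A := fun j i => if j = i then 1 else 0) (fun j i x => ?_) opLe_id
  rw [funext (pd_halfSq i)]
  show fderiv ℝ (fun y : E d => y i) x (bv j) = _
  rw [show (fun y : E d => y i) = EuclideanSpace.proj (𝕜 := ℝ) i from rfl,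
    ContinuousLinearMap.fderiv]
  simp [bv, eq_comm]

lemma tame_pairG : TameF (pairG D q) := fun i =>
  ((EuclideanSpace.proj (𝕜 := ℝ) i).hasTemperateGrowth.comp
    (Law.tame_Gq D hP hT hτ hq)).comp (fstL (ι₁ := Fin d) (ι₂ := Fin d)).hasTemperateGrowth

lemma sob_grad_pairG {A : ℝ} (m : ℕ) (ha : MulBound κ m (fun j i w => D.aq q w (bv j) i) A)
    (hat : ∀ j i, Tame fun w => D.aq q w (bv j) i) :
    sob (pairLaw D q) κ m (grad (pairG D q)) ≤ 4 ^ m * A ^ 2 * (q ^ 2 * d) := by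
  have := isProb_pair D hP hT hτ hq
  set M₀ : Fin d → Fin d → EuclideanSpace ℝ (Fin d ⊕ Fin d) → ℝ :=
    fun j i z => D.aq q (fstL z) (bv j) i
  have hM₀ : ∀ j i, Tame (M₀ j i) := fun j i =>
    (hat j i).comp (fstL (ι₁ := Fin d) (ι₂ := Fin d)).hasTemperateGrowth
  have hM := MulBound.smul q m (conj_tame hM₀) (MulBound.conj
    (ι := Fin d ⊕ Fin d) (opLe_id (β := Fin d)) m
    (opLe_inl (ι₁ := Fin d) (ι₂ := Fin d)) hM₀ (MulBound.lift_fst m hat ha))
  rw [one_mul, mul_one] at hM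
  have h := sob_field_le (ibp_pair D hP hT hτ hq) m
    (fun b c => (Function.HasTemperateGrowth.const q).mul (conj_tame hM₀ b c)) hM
  rw [Fintype.card_fin, mul_pow, sq_abs] at h
  refine le_trans (le_of_eq ?_) (h.trans (le_of_eq (by ring)))
  congr 1
  funext p z
  have hGi : Differentiable ℝ fun x : E d => D.Gq q x p.1 := fun x =>
    ((EuclideanSpace.proj (𝕜 := ℝ) p.1).hasFDerivAt.comp x
      (D.hasFDerivAt_Gq hP hq x)).differentiableAt
  simp only [grad, pairG, Reg.conj, M₀]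
  rw [show pairG D q p.1 = fun z => D.Gq q (fstL z) p.1 from rfl, pd_comp_clm hGi, fstL_single]
  have hd : HasFDerivAt (fun x : E d => D.Gq q x p.1)
      ((EuclideanSpace.proj (𝕜 := ℝ) p.1).comp (q • D.aq q (fstL z))) (fstL z) :=
    (EuclideanSpace.proj (𝕜 := ℝ) p.1).hasFDerivAt.comp _ (D.hasFDerivAt_Gq hP hq _)
  rw [hd.fderiv]
  rcases p.2 with b | b <;> simp [bv, Reg.conj]

/-- Along the flow the derivative is the generator. -/
lemma hasDerivAt_gen {f : Fin d → EuclideanSpace ℝ (Fin d ⊕ Fin d) → ℝ} (hf : TameF f)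
    {γ : ℝ → E d × E d} {s : ℝ} (hγ : HasDerivAt γ ((γ s).2, -D.gψ q (γ s).1) s) (i : Fin d) :
    HasDerivAt (fun u => f i (glueL (γ u)))
      (gen (pairPot D q) (fun a b _ => symp d a b) f i (glueL (γ s))) s := by
  have hz : HasDerivAt (fun u => glueL (γ u)) (glueL ((γ s).2, -D.gψ q (γ s).1)) s :=
    glueL.hasFDerivAt.comp_hasDerivAt s hγ
  refine (((hf i).differentiable _).hasFDerivAt.comp_hasDerivAt s hz).congr_deriv ?_
  rw [gen_symp hf, fderiv_eq_sum, Fintype.sum_sum_type, ← Finset.sum_add_distrib]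
  refine Finset.sum_congr rfl fun a _ => ?_
  set zs := glueL (γ s) with hzs
  have e1 : pd (Sum.inl a) (pairPot D q) zs = D.gψ q (γ s).1 a := by
    unfold pairPot
    rw [pd_blocks (Law.tame_psi D hP hT hτ hq) ibp_gam.tame, Sum.elim_inl, pd_psi hP D hq,
      hzs, fstL_glueL]
  have e2 : pd (Sum.inr a) (pairPot D q) zs = (γ s).2 a := by
    unfold pairPot
    rw [pd_blocks (Law.tame_psi D hP hT hτ hq) ibp_gam.tame, Sum.elim_inr, pd_halfSq, hzs,
      sndL_glueL]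
  rw [e1, e2]
  simp
  ring

end Ham

/-- The `L²` norm of a family of coordinates. -/
lemma lintegral_vec {Ω : Type*} [MeasurableSpace Ω] {ν : Measure Ω}
    {μ : Measure (EuclideanSpace ℝ (Fin d ⊕ Fin d))} {P : EuclideanSpace ℝ (Fin d ⊕ Fin d) → ℝ}
    (hμ : IBP μ P) {Z : Ω → EuclideanSpace ℝ (Fin d ⊕ Fin d)} (hZ : Measurable Z)
    (hmap : ν.map Z = μ) {F : Fin d → EuclideanSpace ℝ (Fin d ⊕ Fin d) → ℝ} (hF : TameF F) :
    ∫⁻ p, ‖(WithLp.toLp 2 fun i => F i (Z p) : E d)‖ₑ ^ 2 ∂ν = ENNReal.ofReal (l2 μ F) := by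
  have hsum : Tame fun z => ∑ i, F i z ^ 2 := Tame.sumSq hF
  have hnorm : ∀ z, ‖(WithLp.toLp 2 fun i => F i z : E d)‖ₑ ^ 2
      = ENNReal.ofReal (∑ i, F i z ^ 2) := fun z => by
    rw [← ofReal_norm_eq_enorm, ← ENNReal.ofReal_pow (norm_nonneg _),
      EuclideanSpace.real_norm_sq_eq]
  simp only [hnorm]
  rw [← lintegral_map hsum.continuous.measurable.ennreal_ofReal hZ, hmap,
    ← ofReal_integral_eq_lintegral_ofReal (hμ.integrable _ hsum)
      (ae_of_all _ fun z => Finset.sum_nonneg fun i _ => sq_nonneg _)]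
  rfl

/-- Derivatives of the mean gradient along the Hamiltonian flow, in `L²`. -/
theorem ham_deriv_bound (hP : PostFacts) (hT : TameFact) (n : ℕ) :
    ∃ C : ℝ, 0 ≤ C ∧ ∀ (d : ℕ) (D : Data d), D.τ ≤ 1 → ∀ q ∈ D.I, ∀ κ : ℝ, 0 < κ → κ ≤ 1 →
      κ * |q| ≤ Real.sqrt (D.r q) → ∀ Φ : ℝ → E d × E d → E d × E d,
        (∀ s p, HasDerivAt (fun u => Φ u p) ((Φ s p).2, -D.gψ q (Φ s p).1) s) →
        (∀ s, Measurable (Φ s) ∧
          ((gibbs (D.ψ q)).prod (gam d)).map (Φ s) = (gibbs (D.ψ q)).prod (gam d)) →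
        (∀ p, ContDiff ℝ ((n + 1 : ℕ)) fun u => D.Gq q (Φ u p).1) ∧
        ∀ s, ∫⁻ p, ‖iteratedDeriv (n + 1) (fun u => D.Gq q (Φ u p).1) s‖ₑ ^ 2
            ∂((gibbs (D.ψ q)).prod (gam d))
          ≤ ENNReal.ofReal (C * q ^ 2 * d / κ ^ (4 * n + 2)) := by
  obtain ⟨B, hB0, hB⟩ := exists_mulBound_hess hP hT (2 * n + 1)
  obtain ⟨A, hA0, hA⟩ := exists_mulBound_a hP hT (2 * n + 1)
  obtain ⟨C, hC0, hC⟩ := sob_gen_iter_le (B + 1) 1 (by linarith) n 0
  refine ⟨C * (4 ^ (2 * n + 1) * A ^ 2), by positivity,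
    fun d D hτ q hq κ hκ0 hκ hκq Φ hΦd hΦm => ?_⟩
  obtain ⟨ha, hat⟩ := hA d D hτ q hq κ hκ0.le hκq
  have hμ := ibp_pair D hP hT hτ hq
  have hH := mulBound_pair D hP hT hτ hq hB0 _ (hB d D hτ q hq κ hκ0.le hκq)
  set J : Fin d ⊕ Fin d → Fin d ⊕ Fin d → EuclideanSpace ℝ (Fin d ⊕ Fin d) → ℝ :=
    fun a b _ => symp d a b
  have hJ : ∀ a b, Tame (J a b) := fun a b => Function.HasTemperateGrowth.const _
  have hTk : ∀ k, TameF ((gen (pairPot D q) J)^[k] (pairG D q)) :=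
    gen_iter_tame hμ.tame hJ (tame_pairG D hP hT hτ hq)
  set vec : ℕ → EuclideanSpace ℝ (Fin d ⊕ Fin d) → E d :=
    fun k z => WithLp.toLp 2 fun i => (gen (pairPot D q) J)^[k] (pairG D q) i z
  have hchain : ∀ p k s, HasDerivAt (fun u => vec k (glueL (Φ u p)))
      (vec (k + 1) (glueL (Φ s p))) s := by
    intro p k s
    refine (PiLp.continuousLinearEquiv 2 ℝ (fun _ : Fin d => ℝ)).symm.toContinuousLinearMap
      |>.hasFDerivAt.comp_hasDerivAt s (hasDerivAt_pi.2 fun i => ?_)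
    rw [Function.iterate_succ_apply']
    exact hasDerivAt_gen D hP hT hτ hq (hTk k) (γ := fun u => Φ u p) (hΦd s p) i
  have hvec0 : ∀ p, (fun u => D.Gq q (Φ u p).1) = fun u => vec 0 (glueL (Φ u p)) := fun p => by
    funext u
    ext i
    simp [vec, pairG]
  refine ⟨fun p => by rw [hvec0 p]; exact (chain_iterate (hchain p) (n + 1)).2 0, fun s => ?_⟩
  have hint : ∀ p, iteratedDeriv (n + 1) (fun u => D.Gq q (Φ u p).1) s
      = vec (n + 1) (glueL (Φ s p)) := fun p => by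
    rw [hvec0 p, (chain_iterate (hchain p) (n + 1)).1]
  simp only [hint]
  obtain ⟨hms, hmap⟩ := hΦm s
  have hmap' : ((gibbs (D.ψ q)).prod (gam d)).map (fun p => glueL (Φ s p)) = pairLaw D q := by
    rw [show (fun p => glueL (Φ s p)) = glueL ∘ Φ s from rfl,
      ← Measure.map_map glueL.continuous.measurable hms, hmap]
    rfl
  refine (lintegral_vec hμ (Z := fun p => glueL (Φ s p))
    (glueL.continuous.measurable.comp hms) hmap' (hTk (n + 1))).trans_le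
    (ENNReal.ofReal_le_ofReal ?_)
  have h := hC (J := J) hμ hκ0.le hκ (by rwa [Nat.zero_add]) hJ
    (mulBound_const (opLe_symp d) _) (tame_pairG D hP hT hτ hq)
  rw [sob_zero, Nat.zero_add] at h
  rw [le_div_iff₀ (by positivity), mul_comm]
  refine h.trans ((mul_le_mul_of_nonneg_left
    (sob_grad_pairG D hP hT hτ hq (2 * n + 1) ha hat) hC0).trans (le_of_eq ?_))
  ring

end Reg

end Vale.Agent.P347.Gamma0
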