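import Vale.Agent.P347.Gamma0.RegBase

/-!
P347, towards `γ_* = 0`, piece 4 (regularity): multiplier bounds of constant, lifted and
conjugated fields of flattenings, of the Hessians of the laws, and Sobolev norms of tensor fields.
-/

namespace Vale.Agent.P347.Gamma0

namespace Reg

open MeasureTheory Sobolev
open scoped ContDiff

set_option linter.unusedSectionVars false

variable {ι ι₁ ι₂ β γ β' γ' α : Type} [Fintype ι] [DecidableEq ι] [Fintype ι₁] [DecidableEq ι₁]
  [Fintype ι₂] [DecidableEq ι₂] [Fintype β] [Fintype γ] [Fintype β'] [Fintype γ'] [Fintype α]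
  {κ : ℝ}

lemma OpLe.add {A A' : β → γ → ℝ} {B B' : ℝ} (h : OpLe A B) (h' : OpLe A' B') (hB : 0 ≤ B)
    (hB' : 0 ≤ B') : OpLe (fun b c => A b c + A' b c) (B + B') := OpLe.of_bilin fun u v => by
  simp only [add_mul, Finset.sum_add_distrib]
  linarith [h.bilin hB u v, h'.bilin hB' u v]

lemma OpLe.smul {A : β → γ → ℝ} {B : ℝ} (h : OpLe A B) (c : ℝ) :
    OpLe (fun b k => c * A b k) (|c| * B) := fun v => by
  simp only [mul_assoc, ← Finset.mul_sum, mul_pow, sq_abs]
  exact mul_le_mul_of_nonneg_left (h v) (sq_nonneg c)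

lemma OpLe.id_tensor {L : β' → β → ℝ} {l : ℝ} (h : OpLe L l) :
    OpLe (fun (p : β' × ι) (q : β × ι) => L p.1 q.1 * if p.2 = q.2 then 1 else 0) l := by
  convert (h.tensor_id (δ := ι)).reindex (Equiv.prodComm β' ι) (Equiv.prodComm β ι) using 2 with p
  funext q
  by_cases h : p.2 = q.2 <;> simp [Prod.swap, h]

lemma pd_const (c : ℝ) (i : ι) (x : (EuclideanSpace ℝ ι)) : pd i (fun _ => c) x = 0 := by
  simp [Sobolev.pd]

lemma mulBound_zero {B : ℝ} (m : ℕ) : ∀ {β : Type} [Fintype β],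
    MulBound κ m (fun (_ : β) (_ : γ) (_ : (EuclideanSpace ℝ ι)) => (0 : ℝ)) B := by
  induction m with
  | zero => intro β _ x; exact opLe_zero
  | succ m ih =>
    intro β _
    refine ⟨fun x => opLe_zero, ?_⟩
    convert ih (β := β × ι) using 1
    funext p c x
    simp [dMul, pd_const]

/-- A constant field. -/
lemma mulBound_const {A : β → γ → ℝ} {B : ℝ} (hA : OpLe A B) (m : ℕ) :
    MulBound κ m (fun b c (_ : (EuclideanSpace ℝ ι)) => A b c) B := by
  cases m with
  | zero => exact fun _ => hA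
  | succ m =>
    refine ⟨fun _ => hA, ?_⟩
    convert mulBound_zero (ι := ι) (κ := κ) (γ := γ) (B := B) m (β := β × ι) using 1
    funext p c x
    simp [dMul, pd_const]

lemma MulBound.mono {B B' : ℝ} (hB : 0 ≤ B) (hBB : B ≤ B') (m : ℕ) : ∀ {β : Type} [Fintype β]
    {M : β → γ → (EuclideanSpace ℝ ι) → ℝ}, MulBound κ m M B → MulBound κ m M B' := by
  induction m with
  | zero => intro β _ M h x; exact (h x).mono hB hBB
  | succ m ih => intro β _ M h; exact ⟨fun x => (h.1 x).mono hB hBB, ih h.2⟩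

lemma MulBound.add {B B' : ℝ} (hB : 0 ≤ B) (hB' : 0 ≤ B') (m : ℕ) : ∀ {β : Type} [Fintype β]
    {M N : β → γ → (EuclideanSpace ℝ ι) → ℝ}, (∀ b c, Tame (M b c)) → (∀ b c, Tame (N b c)) →
      MulBound κ m M B → MulBound κ m N B' →
        MulBound κ m (fun b c x => M b c x + N b c x) (B + B') := by
  induction m with
  | zero => intro β _ M N _ _ h h' x; exact OpLe.add (h x) (h' x) hB hB'
  | succ m ih =>
    intro β _ M N hM hN h h'
    refine ⟨fun x => OpLe.add (h.1 x) (h'.1 x) hB hB', ?_⟩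
    convert ih (dMul_tame hM κ) (dMul_tame hN κ) h.2 h'.2 using 1
    funext p c x
    simp only [dMul, pd_add (hM _ _) (hN _ _), mul_add]

lemma MulBound.smul {B : ℝ} (c : ℝ) (m : ℕ) : ∀ {β : Type} [Fintype β] {M : β → γ → (EuclideanSpace ℝ ι) → ℝ},
    (∀ b k, Tame (M b k)) → MulBound κ m M B →
      MulBound κ m (fun b k x => c * M b k x) (|c| * B) := by
  induction m with
  | zero => intro β _ M _ h x; exact OpLe.smul (h x) c
  | succ m ih =>
    intro β _ M hM h
    refine ⟨fun x => OpLe.smul (h.1 x) c, ?_⟩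
    convert ih (dMul_tame hM κ) h.2 using 1
    funext p k x
    simp only [dMul, pd_const_mul (hM _ _)]
    ring

/-- A field between two constant flattenings. -/
def conj (L : β' → β → ℝ) (M : β → γ → (EuclideanSpace ℝ ι) → ℝ) (R : γ → γ' → ℝ) : β' → γ' → (EuclideanSpace ℝ ι) → ℝ :=
  fun b' c' x => ∑ b, L b' b * ∑ c, M b c x * R c c'

lemma conj_tame {L : β' → β → ℝ} {M : β → γ → (EuclideanSpace ℝ ι) → ℝ} {R : γ → γ' → ℝ}
    (hM : ∀ b c, Tame (M b c)) : ∀ b c, Tame (conj L M R b c) := fun _ _ =>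
  Function.HasTemperateGrowth.sum fun b _ => (Function.HasTemperateGrowth.const _).mul
    (Function.HasTemperateGrowth.sum fun c _ =>
      (hM b c).mul (Function.HasTemperateGrowth.const _))

lemma MulBound.conj {l r B : ℝ} {R : γ → γ' → ℝ} (hR : OpLe R r) (m : ℕ) :
    ∀ {β β' : Type} [Fintype β] [Fintype β'] {L : β' → β → ℝ} {M : β → γ → (EuclideanSpace ℝ ι) → ℝ},
      OpLe L l → (∀ b c, Tame (M b c)) → MulBound κ m M B →
        MulBound κ m (Reg.conj L M R) (l * (B * r)) := by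
  induction m with
  | zero => intro β β' _ _ L M hL _ h x; exact hL.comp ((h x).comp hR)
  | succ m ih =>
    intro β β' _ _ L M hL hM h
    refine ⟨fun x => hL.comp ((h.1 x).comp hR), ?_⟩
    convert ih (OpLe.id_tensor (ι := ι) hL) (dMul_tame hM κ) h.2 using 1
    funext p c' x
    have ht : ∀ b, Tame fun y => ∑ c, M b c y * R c c' := fun b =>
      Function.HasTemperateGrowth.sum fun c _ =>
        (hM b c).mul (Function.HasTemperateGrowth.const _)
    simp only [dMul, Reg.conj, Fintype.sum_prod_type, mul_ite, mul_one, mul_zero, ite_mul, zero_mul,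
      Finset.sum_ite_eq, Finset.mem_univ, if_true]
    rw [show Reg.conj L M R p.1 c' = fun y => ∑ b, L p.1 b * ∑ c, M b c y * R c c' from rfl,
      pd_sum (f := fun b y => L p.1 b * ∑ c, M b c y * R c c') Finset.univ
      fun b _ => (Function.HasTemperateGrowth.const _).mul (ht b), Finset.mul_sum]
    refine Finset.sum_congr rfl fun b _ => ?_
    rw [pd_const_mul (ht b), pd_sum (f := fun c y => M b c y * R c c') Finset.univ
      fun c _ => (hM b c).mul (Function.HasTemperateGrowth.const _), mul_left_comm, Finset.mul_sum]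
    congr 1
    refine Finset.sum_congr rfl fun c _ => ?_
    rw [pd_mul (hM b c) (Function.HasTemperateGrowth.const _), pd_const]
    ring

lemma opLe_inl : OpLe (fun (i : ι₁ ⊕ ι₂) (a : ι₁) => if i = Sum.inl a then (1 : ℝ) else 0) 1 :=
  fun v => by simp [Fintype.sum_sum_type]

lemma opLe_inl' : OpLe (fun (a : ι₁) (i : ι₁ ⊕ ι₂) => if i = Sum.inl a then (1 : ℝ) else 0) 1 :=
  opLe_inl.transpose zero_le_one

lemma opLe_inr : OpLe (fun (i : ι₁ ⊕ ι₂) (a : ι₂) => if i = Sum.inr a then (1 : ℝ) else 0) 1 :=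
  fun v => by simp [Fintype.sum_sum_type]

lemma opLe_inr' : OpLe (fun (a : ι₂) (i : ι₁ ⊕ ι₂) => if i = Sum.inr a then (1 : ℝ) else 0) 1 :=
  opLe_inr.transpose zero_le_one

/-- A field of the first block, seen on the product. -/
lemma MulBound.lift_fst {B : ℝ} (m : ℕ) : ∀ {β : Type} [Fintype β]
    {M : β → γ → EuclideanSpace ℝ ι₁ → ℝ}, (∀ b c, Tame (M b c)) → MulBound κ m M B →
      MulBound κ m (fun b c (z : EuclideanSpace ℝ (ι₁ ⊕ ι₂)) => M b c (fstL z)) B := by
  induction m with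
  | zero => intro β _ M _ h z; exact h (fstL z)
  | succ m ih =>
    intro β _ M hM h
    refine ⟨fun z => h.1 (fstL z), ?_⟩
    classical
    have hL : OpLe (fun (p : β × (ι₁ ⊕ ι₂)) (q : β × ι₁) =>
        if p.1 = q.1 then (if p.2 = Sum.inl q.2 then (1 : ℝ) else 0) else 0) 1 :=
      (opLe_inl (ι₁ := ι₁) (ι₂ := ι₂)).tensor_id
    have h' := MulBound.conj (ι := ι₁ ⊕ ι₂) (κ := κ) (opLe_id (β := γ)) m hL
      (M := fun b c (z : EuclideanSpace ℝ (ι₁ ⊕ ι₂)) => dMul κ M b c (fstL z))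
      (fun b c => (dMul_tame hM κ b c).comp (fstL (ι₁ := ι₁) (ι₂ := ι₂)).hasTemperateGrowth)
      (ih (dMul_tame hM κ) h.2)
    rw [one_mul, mul_one] at h'
    convert h' using 1
    funext p c z
    simp only [dMul, Reg.conj, pd_comp_clm (hM _ _).differentiable, fstL_single,
      Fintype.sum_prod_type]
    rcases p with ⟨b, a | a⟩ <;> simp [Sobolev.pd]

/-- The Hessian of a sum over two blocks. -/
lemma mulBound_prod_hess {Ψ : EuclideanSpace ℝ ι₁ → ℝ} {Φ : EuclideanSpace ℝ ι₂ → ℝ}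
    (hΨ : Tame Ψ) (hΦ : Tame Φ) {A : ι₂ → ι₂ → ℝ} {B B' : ℝ} (hB : 0 ≤ B) (hB' : 0 ≤ B') (m : ℕ)
    (h : MulBound κ m (fun j i => pd j (pd i Ψ)) B)
    (hA : ∀ j i x, pd j (pd i Φ) x = A j i) (hA' : OpLe A B') :
    MulBound κ m (fun j i => pd j (pd i fun z : EuclideanSpace ℝ (ι₁ ⊕ ι₂) =>
      Ψ (fstL z) + Φ (sndL z))) (B + B') := by
  classical
  have hM : ∀ j i, Tame fun z : EuclideanSpace ℝ (ι₁ ⊕ ι₂) => pd j (pd i Ψ) (fstL z) := fun j i =>
    ((hΨ.pdTame i).pdTame j).comp (fstL (ι₁ := ι₁) (ι₂ := ι₂)).hasTemperateGrowth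
  have h1 := MulBound.conj (ι := ι₁ ⊕ ι₂) (opLe_inl' (ι₁ := ι₁) (ι₂ := ι₂)) m
    (opLe_inl (ι₁ := ι₁) (ι₂ := ι₂)) hM
    (MulBound.lift_fst m (fun j i => (hΨ.pdTame i).pdTame j) h)
  have h2 := MulBound.conj (ι := ι₁ ⊕ ι₂) (κ := κ) (opLe_inr' (ι₁ := ι₁) (ι₂ := ι₂)) m
    (opLe_inr (ι₁ := ι₁) (ι₂ := ι₂)) (M := fun j i _ => A j i)
    (fun j i => Function.HasTemperateGrowth.const _) (mulBound_const hA' m)
  rw [one_mul, mul_one] at h1 h2
  refine Eq.mpr (congrArg (fun M => MulBound κ m M (B + B')) ?_) (MulBound.add hB hB' m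
    (conj_tame hM) (conj_tame fun j i => Function.HasTemperateGrowth.const _) h1 h2)
  funext j i z
  have e : pd i (fun z : EuclideanSpace ℝ (ι₁ ⊕ ι₂) => Ψ (fstL z) + Φ (sndL z)) =
      fun z => Sum.elim (fun a => pd a Ψ (fstL z)) (fun a => pd a Φ (sndL z)) i := funext fun z => by
    have t1 : Tame fun z : EuclideanSpace ℝ (ι₁ ⊕ ι₂) => Ψ (fstL z) :=
      hΨ.comp (fstL (ι₁ := ι₁) (ι₂ := ι₂)).hasTemperateGrowth
    have t2 : Tame fun z : EuclideanSpace ℝ (ι₁ ⊕ ι₂) => Φ (sndL z) :=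
      hΦ.comp (sndL (ι₁ := ι₁) (ι₂ := ι₂)).hasTemperateGrowth
    rw [pd_add t1 t2,
      pd_comp_clm hΨ.differentiable, pd_comp_clm hΦ.differentiable, fstL_single, sndL_single]
    rcases i with a | a <;> simp [Sobolev.pd]
  rw [e]
  simp only [Reg.conj]
  rcases i with a | a
  · simp only [Sum.elim_inl]
    rw [pd_comp_clm (hΨ.pdTame a).differentiable, fstL_single]
    rcases j with b | b <;> simp [Sobolev.pd]
  · simp only [Sum.elim_inr]
    rw [pd_comp_clm (hΦ.pdTame a).differentiable, sndL_single]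
    rcases j with b | b <;> simp [← hA _ _ (sndL z), Sobolev.pd]

/-! ### Constant fields as functions -/

variable {μ : Measure (EuclideanSpace ℝ ι)}

lemma sob_zero_fn (μ : Measure (EuclideanSpace ℝ ι)) (κ : ℝ) (m : ℕ) : ∀ {α : Type} [Fintype α],
    sob μ κ m (fun (_ : α) (_ : (EuclideanSpace ℝ ι)) => (0 : ℝ)) = 0 := by
  induction m with
  | zero => intro α _; simp [sob_zero, l2]
  | succ m ih =>
    intro α _
    have e : grad (fun (_ : α) (_ : (EuclideanSpace ℝ ι)) => (0 : ℝ)) = fun _ _ => 0 :=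
      funext₂ fun p x => pd_const 0 p.2 x
    rw [sob_succ, e, ih]
    simp [l2]

lemma sob_const_fn [IsProbabilityMeasure μ] (m : ℕ) (A : α → ℝ) :
    sob μ κ m (fun a (_ : (EuclideanSpace ℝ ι)) => A a) = ∑ a, A a ^ 2 := by
  cases m with
  | zero => simp [sob_zero, l2]
  | succ m =>
    have e : grad (fun a (_ : (EuclideanSpace ℝ ι)) => A a) = fun _ _ => 0 := funext₂ fun p x => pd_const _ p.2 x
    rw [sob_succ, e, sob_zero_fn]
    simp [l2]

/-- A field of flattenings, as a function with its column index as a spectator. -/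
lemma sob_field_le [IsProbabilityMeasure μ] {Ψ : (EuclideanSpace ℝ ι) → ℝ} (h : IBP μ Ψ) {B : ℝ} (m : ℕ)
    {M : β → γ → (EuclideanSpace ℝ ι) → ℝ} (hM : ∀ b c, Tame (M b c)) (hB : MulBound κ m M B) :
    sob μ κ m (fun p : γ × β => M p.2 p.1) ≤ 4 ^ m * B ^ 2 * Fintype.card γ := by
  classical
  set F : γ × γ → (EuclideanSpace ℝ ι) → ℝ := fun p _ => if p.1 = p.2 then 1 else 0
  have hF : TameF F := fun p => Function.HasTemperateGrowth.const _
  have e : mulF M F = fun p : γ × β => M p.2 p.1 := funext₂ fun p x => by simp [mulF, F]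
  have h1 := h.sob_mulF_le m hM hB hF
  have e2 : ∑ p : γ × γ, (if p.1 = p.2 then (1 : ℝ) else 0) ^ 2 = Fintype.card γ := by
    rw [Fintype.sum_prod_type]
    simp
  rw [e, sob_const_fn, e2] at h1
  exact h1

/-! ### Derivatives of the mean gradient -/

variable {d : ℕ}

lemma FieldLe.comp_affine (c : E d) (q : ℝ) (n : ℕ) : ∀ {α : Type} [Fintype α] [DecidableEq α]
    {C σ : ℝ} {T : Tensor.Field d α}, Tensor.Smooth T → Tensor.FieldLe n C σ T →
      Tensor.FieldLe n C (|q| * σ) fun w => T (c + q • w) := by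
  induction n with
  | zero => intro α _ _ C σ T _ h w; exact h _
  | succ n ih =>
    intro α _ _ C σ T hT h
    refine ⟨fun w => h.1 _, ?_⟩
    have e : Tensor.dT (fun w => T (c + q • w))
        = fun w i => q * Tensor.dT T (c + q • w) i := by
      funext w i
      have h1 : HasFDerivAt (fun w : E d => T (c + q • w) fun a => i (some a))
          ((fderiv ℝ (fun y => T y fun a => i (some a)) (c + q • w)).comp
            (q • ContinuousLinearMap.id ℝ (E d))) w :=
        ((hT _).differentiable (by simp) _).hasFDerivAt.comp w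
          (((hasFDerivAt_id w).const_smul q).const_add c)
      simp only [Tensor.dT]
      rw [h1.fderiv]
      simp
    rw [e, show C * (|q| * σ) = |q| * (C * σ) by ring]
    have hs : Tensor.Smooth fun w => Tensor.dT T (c + q • w) := fun i =>
      (hT.dT i).comp (contDiff_const.add (contDiff_id.const_smul q))
    exact Tensor.FieldLe.smul n hs (ih hT.dT h.2) q

/-- A sum of bounds of finitely many derivatives. -/
lemma exists_tame_const (hT : TameFact) (m n : ℕ) (hm : 1 ≤ m) :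
    ∃ C : ℝ, 0 ≤ C ∧ ∀ d : ℕ, ∀ U : E d → ℝ, ∀ g : E d → E d, Pot U g → ∀ ε : ℝ, 0 ≤ ε → ε ≤ 1 →
      ∀ r : ℝ, 0 < r → r ≤ 1 → ∀ j, j ≤ n → ∀ x,
        FlatLe (C / Real.sqrt r ^ (m - 1) * (1 / Real.sqrt r) ^ j) (derivT (m + j) (G U g ε r) x) := by
  choose K hK0 hK using fun j => hT (m + j) (by omega)
  refine ⟨∑ j ∈ Finset.range (n + 1), K j, Finset.sum_nonneg fun j _ => hK0 j,
    fun d U g hU ε hε hε1 r hr hr1 j hj x S h1 h2 M N => (hK j d U g hU ε hε hε1 r hr hr1 x S h1 h2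
      M N).trans ?_⟩
  refine mul_le_mul_of_nonneg_right (mul_le_mul_of_nonneg_right ?_ (Tensor.hs_nonneg M))
    (Tensor.hs_nonneg N)
  rw [show m + j - 1 = (m - 1) + j by omega, div_pow, one_pow, mul_one_div, div_div, ← pow_add]
  exact div_le_div_of_nonneg_right (Finset.single_le_sum (f := K) (fun i _ => hK0 i)
    (Finset.mem_range.2 (by omega))) (by positivity)

/-- `D G` at the point `c + q w`, as a field of flattenings on the scaled Sobolev spaces. -/
lemma exists_mulBound_a (hP : PostFacts) (hT : TameFact) (n : ℕ) :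
    ∃ C : ℝ, 0 ≤ C ∧ ∀ (d : ℕ) (D : Data d), D.τ ≤ 1 → ∀ q ∈ D.I, ∀ κ : ℝ, 0 ≤ κ →
      κ * |q| ≤ Real.sqrt (D.r q) →
        MulBound κ n (fun j i w => D.aq q w (bv j) i) C ∧
        ∀ j i, Tame fun w => D.aq q w (bv j) i := by
  obtain ⟨C, hC0, hC⟩ := exists_tame_const hT 1 n le_rfl
  refine ⟨C, hC0, fun d D hτ q hq κ hκ hκq => ?_⟩
  have hr := D.r_pos hq
  have hr1 : D.r q ≤ 1 := (sub_le_self _ (sq_nonneg q)).trans hτ
  have hG : ContDiff ℝ ∞ (G D.U D.g D.ε (D.r q)) := D.contDiff_G hP hr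
  have hsr : 0 < Real.sqrt (D.r q) := Real.sqrt_pos.2 hr
  have hF : Tensor.FieldLe n C (1 / Real.sqrt (D.r q)) (derivT 1 (G D.U D.g D.ε (D.r q))) :=
    Tensor.fieldLe_derivT hG n 1 hC0 (by positivity) fun j hj x => by
      simpa using hC d D.U D.g D.pot D.ε D.ε0 D.ε1 (D.r q) hr hr1 j hj x
  have hF1 := FieldLe.comp_affine D.c q n (Tensor.smooth_derivT hG 1) hF
  let e : Fin 2 ≃ Fin 1 ⊕ Fin 1 :=
    (finSumFinEquiv (m := 1) (n := 1)).symm.trans (Equiv.sumComm _ _)
  have hs : Tensor.Smooth fun w => derivT 1 (G D.U D.g D.ε (D.r q)) (D.c + q • w) := fun i =>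
    (Tensor.smooth_derivT hG 1 i).comp (contDiff_const.add (contDiff_id.const_smul q))
  have hσ : 0 ≤ |q| * (1 / Real.sqrt (D.r q)) := by positivity
  have h := Tensor.FieldLe.mulBound (κ := κ) hκ hσ
    (by rw [← mul_assoc, ← mul_div_assoc, mul_one, div_le_one hsr]; exact hκq) n
    (Equiv.funUnique (Fin 1) (Fin d)).symm (Equiv.funUnique (Fin 1) (Fin d)).symm hC0 le_rfl
    (hs.relabel e) (Tensor.FieldLe.relabel n hC0 hσ hF1 e)
  refine ⟨?_, fun j i => ?_⟩
  · convert h using 1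
    funext j i w
    simp only [Data.aq, Tensor.relabel, derivT, iteratedFDeriv_one_apply]
    rfl
  · have h1 : (fun w => D.aq q w (bv j) i) = fun w =>
        (EuclideanSpace.proj (𝕜 := ℝ) i).comp (ContinuousLinearMap.apply ℝ (E d) (bv j))
          (fderiv ℝ (G D.U D.g D.ε (D.r q)) (D.c + q • w)) := rfl
    have hG' := Law.tame_G D hP hT hτ hr hr1
    have hfd : Function.HasTemperateGrowth (fderiv ℝ (G D.U D.g D.ε (D.r q))) := by
      refine ⟨hG'.1.fderiv_right (by simp), fun k => ?_⟩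
      obtain ⟨k', C', h'⟩ := hG'.2 (k + 1)
      exact ⟨k', C', fun x => by rw [norm_iteratedFDeriv_fderiv]; exact h' x⟩
    rw [h1]
    exact (ContinuousLinearMap.hasTemperateGrowth _).comp (hfd.comp
      ((Function.HasTemperateGrowth.const D.c).add
        (q • ContinuousLinearMap.id ℝ (E d)).hasTemperateGrowth))

lemma pd_psi (hP : PostFacts) (D : Data d) {q : ℝ} (hq : q ∈ D.I) (i : Fin d) :
    pd i (D.ψ q) = fun w => D.gψ q w i := funext fun w => by
  unfold Sobolev.pd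
  rw [(D.hasGradient_psi hP hq w).hasFDerivAt.fderiv, InnerProductSpace.toDual_apply_apply]
  exact DeltaAux.inner_bv _ _

/-- The Hessian of the law at time `q`. -/
lemma exists_mulBound_hess (hP : PostFacts) (hT : TameFact) (n : ℕ) :
    ∃ B : ℝ, 0 ≤ B ∧ ∀ (d : ℕ) (D : Data d), D.τ ≤ 1 → ∀ q ∈ D.I, ∀ κ : ℝ, 0 ≤ κ →
      κ * |q| ≤ Real.sqrt (D.r q) → MulBound κ n (fun j i => pd j (pd i (D.ψ q))) B := by
  obtain ⟨C, hC0, hC⟩ := exists_mulBound_a hP hT n
  refine ⟨1 + C, by linarith, fun d D hτ q hq κ hκ hκq => ?_⟩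
  obtain ⟨ha, hat⟩ := hC d D hτ q hq κ hκ hκq
  have hq1 : q ^ 2 * D.ε ≤ 1 := by
    have := D.r_pos hq
    simp only [Data.r] at this
    nlinarith [D.ε0, D.ε1, sq_nonneg q]
  have h0 : 0 ≤ q ^ 2 * D.ε := mul_nonneg (sq_nonneg q) D.ε0
  have h1 := MulBound.smul (q ^ 2 * D.ε) n hat ha
  have h2 : MulBound κ n (fun j i (w : E d) => q ^ 2 * D.ε * D.aq q w (bv j) i) C :=
    MulBound.mono (by positivity) (by rw [abs_of_nonneg h0]; exact mul_le_of_le_one_left hC0 hq1)
      n h1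
  have h3 := MulBound.add zero_le_one hC0 n
    (M := fun j i (_ : E d) => if j = i then (1 : ℝ) else 0)
    (N := fun j i (w : E d) => q ^ 2 * D.ε * D.aq q w (bv j) i)
    (fun j i => Function.HasTemperateGrowth.const _)
    (fun j i => (Function.HasTemperateGrowth.const _).mul (hat j i))
    (mulBound_const opLe_id n) h2
  convert h3 using 1
  funext j i w
  rw [pd_psi hP D hq i]
  have hd : HasFDerivAt (fun w => D.gψ q w i) ((EuclideanSpace.proj (𝕜 := ℝ) i).comp
      (ContinuousLinearMap.id ℝ (E d) + (q * D.ε) • (q • D.aq q w))) w :=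
    (EuclideanSpace.proj (𝕜 := ℝ) i).hasFDerivAt.comp w
      ((hasFDerivAt_id w).add ((D.hasFDerivAt_Gq hP hq w).const_smul (q * D.ε)))
  show fderiv ℝ (fun w => D.gψ q w i) w (bv j) = _
  rw [hd.fderiv]
  simp [bv, EuclideanSpace.single_apply, eq_comm]
  ring

end Reg

end Vale.Agent.P347.Gamma0
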