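import Vale.Agent.P347.Gamma0.WordPath
import Vale.Agent.P347.QuadOU

/-!
P347, towards `γ_* = 0`, piece U2: the compiled word system against the exact one, and the
compiled `η` against `k Z`, in mean.  The estimator of `a D` is only assumed accurate at the exact
flow points, in the exact law, and Lipschitz.
-/

namespace Vale.Agent.P347.Gamma0.Words

open MeasureTheory ProbabilityTheory Set Filter Topology
open scoped RealInnerProductSpace ContDiff ENNReal

variable {d na M : ℕ}

attribute [local irreducible] G nW psi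

/-- Picard iterates of the word system, `est j D` the estimate of `a D` at the node `j`. -/
noncomputable def sysV (g : Build.Grid M) (est : Fin M → E d → E d) (n : ℕ) (s : ℝ)
    (init : ℕ → E d) : ℕ → Option (Fin M) → ℕ → E d
  | 0, _, m => init m
  | p + 1, o, m => init m + ∑ j,
      ((if 1 ≤ m then (s * g.W o j * Build.phi (m - 1) (g.q j)) •
          est j (sysV g est n s init p (some j) (m - 1)) else 0)
        + (if m < n then (-(s * g.W o j * Build.phi m (g.q j))) •
          est j (sysV g est n s init p (some j) (m + 1)) else 0))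

/-- The estimate of the `n`-th word. -/
noncomputable def wordV {nr : ℕ} (g : Build.Grid M) (est : Fin M → E d → E d) (fd : Build.Fd nr)
    (t : ℝ) (p n : ℕ) (Z : E d) (u : Fin na → E d) : E d :=
  ∑ k, (fd.wt k / 2) •
    (sysV g est n (t * fd.x k) (lvl (mkBlk (Fin.cons Z fun i => (1 : ℝ) • u i))) p none n
      + sysV g est n (t * fd.x k) (lvl (mkBlk (Fin.cons Z fun i => (-1 : ℝ) • u i))) p none n)

lemma continuous_lvl (m : ℕ) : Continuous fun x : Blk d na => lvl x m := by
  unfold lvl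
  split_ifs with h
  · exact PiLp.continuous_apply 2 _ _
  · exact continuous_const

lemma lvl_add (x y : Blk d na) (m : ℕ) : lvl (x + y) m = lvl x m + lvl y m := by
  unfold lvl; split_ifs <;> simp

lemma lvl_smul (a : ℝ) (x : Blk d na) (m : ℕ) : lvl (a • x) m = a • lvl x m := by
  unfold lvl; split_ifs <;> simp

lemma norm_lvl_le (x : Blk d na) (m : ℕ) : ‖lvl x m‖ ≤ ‖x‖ := by
  unfold lvl
  split_ifs with h
  · exact PiLp.norm_apply_le x _
  · simp

lemma lintegral_norm_gam : ∫⁻ w, ‖w‖ₑ ∂gam d ≤ ENNReal.ofReal (Real.sqrt d) := by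
  have hm : MemLp (fun w : E d => ‖w‖) 2 (gam d) := by
    unfold gam
    exact (IsGaussian.memLp_id (stdGaussian (E d)) 2 (by simp)).norm
  have : IsProbabilityMeasure (gam d) := by unfold gam; infer_instance
  have hi : Integrable (fun w : E d => ‖w‖) (gam d) := hm.integrable (by norm_num)
  have hv := variance_nonneg (fun w : E d => ‖w‖) (gam d)
  rw [variance_eq_sub hm] at hv
  simp only [Pi.pow_apply, QuadOU.integral_norm_sq d] at hv
  calc ∫⁻ w, ‖w‖ₑ ∂gam d = ∫⁻ w, ENNReal.ofReal ‖w‖ ∂gam d := by simp only [ofReal_norm_eq_enorm]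
    _ = ENNReal.ofReal (∫ w, ‖w‖ ∂gam d) :=
        (ofReal_integral_eq_lintegral_ofReal hi (Eventually.of_forall fun _ => norm_nonneg _)).symm
    _ ≤ _ := ENNReal.ofReal_le_ofReal (Real.le_sqrt_of_sq_le (by linarith))

lemma enorm_smul_le {F : Type*} [NormedAddCommGroup F] [NormedSpace ℝ F] (c : ℝ) (x : F) :
    ‖c • x‖ₑ = ENNReal.ofReal |c| * ‖x‖ₑ := by
  rw [enorm_smul, Real.enorm_eq_ofReal_abs]

section generic

variable {H : Type*} [NormedAddCommGroup H] [InnerProductSpace ℝ H] [CompleteSpace H]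
  {B : ℝ → H →L[ℝ] H} {β : ℝ}

lemma continuous_sol (hB : Gen B β) (s : ℝ) : Continuous (sol B s) :=
  continuous_iff_continuousAt.2 fun r => (hasDerivAt_sol hB s r).continuousAt

lemma sol_integral (hB : Gen B β) (s q : ℝ) (x : H) :
    sol B s q x = x + s • ∫ r in (0 : ℝ)..q, B r (sol B s r x) := by
  have hd : ∀ r, HasDerivAt (fun u => sol B s u x) (s • B r (sol B s r x)) r := by
    intro r
    have h := (ContinuousLinearMap.apply ℝ H x).hasFDerivAt.comp_hasDerivAt r
      (hasDerivAt_sol hB s r)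
    exact h
  have hf : Continuous fun r => B r (sol B s r x) :=
    hB.cont.clm_apply ((continuous_sol hB s).clm_apply continuous_const)
  have h := intervalIntegral.integral_eq_sub_of_hasDerivAt (fun r _ => hd r)
    ((hf.const_smul s).intervalIntegrable 0 q)
  rw [intervalIntegral.integral_smul, eq_sub_iff_add_eq] at h
  rw [← h, sol_zero, add_comm]
  simp

end generic

variable {D : Gamma0.Data d} (X : ExFlow D)

/-- The integrand of the exact system at a level. -/
noncomputable def sysInt (n : ℕ) (q₁ s r : ℝ) (m : ℕ) (p : E d × Blk d na) : E d :=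
  lvl (gen n q₁ (apath X q₁ p.1) r (sysX X n q₁ p.1 s r p.2)) m

/-- The data of a compiled word system along the flow up to `q₁`. -/
structure Comp (q₁ : ℝ) (g : Build.Grid M) (est : Fin M → E d → E d → E d) (wb : Fin M → E d → E d)
    (A Lw LD b ew : ℝ) : Prop where
  mem : q₁ ∈ D.I
  nonneg : 0 ≤ q₁
  tau : D.τ ≤ 1
  node : ∀ j, g.q j ∈ Icc 0 q₁
  sum : ∀ o, ∑ j, |g.W o j| ≤ A
  A0 : 0 ≤ A
  est_cont : ∀ j, Continuous fun p : E d × E d => est j p.1 p.2
  wb_cont : ∀ j, Continuous (wb j)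
  Lw0 : 0 ≤ Lw
  LD0 : 0 ≤ LD
  lip : ∀ j w w' v v', ‖est j w v - est j w' v'‖ ≤ Lw * ‖w - w'‖ + LD * ‖v - v'‖
  b0 : 0 ≤ b
  bias : ∀ j, ∫⁻ p, ‖est j p.1 p.2 - D.aq (g.q j) p.1 p.2‖ₑ ∂(ExFlow.law D (g.q j)).prod (gam d)
    ≤ ENNReal.ofReal b
  ew0 : 0 ≤ ew
  path : ∀ j, ∫⁻ w, ‖wb j w - X.Φ q₁ (g.q j) w‖ₑ ∂ExFlow.law D q₁ ≤ ENNReal.ofReal ew

variable {q₁ : ℝ} {g : Build.Grid M} {est : Fin M → E d → E d → E d} {wb : Fin M → E d → E d}
  {A Lw LD b ew : ℝ}

lemma Comp.at_mem (C : Comp X q₁ g est wb A Lw LD b ew) (o : Option (Fin M)) :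
    g.at' q₁ o ∈ Icc 0 q₁ := by
  cases o with
  | none => exact ⟨C.nonneg, le_rfl⟩
  | some i => exact C.node i

lemma Comp.node_mem (C : Comp X q₁ g est wb A Lw LD b ew) (j : Fin M) : g.q j ∈ D.I :=
  cl_eq (C.node j) ▸ cl_mem_I C.mem C.nonneg _

lemma Comp.phi_le (C : Comp X q₁ g est wb A Lw LD b ew) (m : ℕ) (j : Fin M) :
    |Build.phi m (g.q j)| ≤ 1 := by
  have h := C.node j
  have h1 : q₁ ≤ 1 := C.mem.2.le.trans (Real.sqrt_le_one.2 C.tau)
  simp only [Build.phi]
  split_ifs <;> simp [abs_of_nonneg h.1, h.2.trans h1]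

lemma continuous_sysV (C : Comp X q₁ g est wb A Lw LD b ew) (n : ℕ) (s : ℝ) :
    ∀ (p : ℕ) (o : Option (Fin M)) (m : ℕ), Continuous fun z : E d × Blk d na =>
      sysV g (fun j => est j (wb j z.1)) n s (lvl z.2) p o m := by
  intro p
  induction p with
  | zero =>
    intro o m
    simp only [sysV]
    exact (continuous_lvl m).comp continuous_snd
  | succ p ih =>
    intro o m
    simp only [sysV]
    have hlv : Continuous fun z : E d × Blk d na => lvl z.2 m :=
      (continuous_lvl m).comp continuous_snd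
    have he : ∀ (j : Fin M) (k : ℕ) (c : ℝ), Continuous fun z : E d × Blk d na =>
        c • est j (wb j z.1) (sysV g (fun j => est j (wb j z.1)) n s (lvl z.2) p (some j) k) :=
      fun j k c => Continuous.const_smul
        (Continuous.comp (g := fun q : E d × E d => est j q.1 q.2) (C.est_cont j)
          (((C.wb_cont j).comp continuous_fst).prodMk (ih (some j) k))) c
    refine hlv.add (continuous_finsetSum _ fun j _ => ?_)
    by_cases h1 : 1 ≤ m <;> by_cases h2 : m < n <;> simp only [h1, h2, if_true, if_false]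
    · exact (he j _ _).add (he j _ _)
    · exact (he j _ _).add continuous_const
    · exact continuous_const.add (he j _ _)
    · exact continuous_const.add continuous_const

variable (hP : PostFacts)
include hP

lemma sysX_integral {q₁ : ℝ} (h1 : q₁ ∈ D.I) (h0 : 0 ≤ q₁) (hτ : D.τ ≤ 1) (n : ℕ) (s q : ℝ)
    (w : E d) (x : Blk d na) (m : ℕ) :
    lvl (sysX X n q₁ w s q x) m
      = lvl x m + s • ∫ r in (0 : ℝ)..q, sysInt X n q₁ s r m (w, x) := by
  have hB := gen_ok (na := na) (path_apath X hP h1 h0 hτ w) n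
  rw [sysX, sol_integral hB s q x, lvl_add, lvl_smul,
    lvl_integral (hB.cont.clm_apply ((continuous_sol hB s).clm_apply continuous_const))]
  rfl

variable (hH : NWHeat) (hT : LawTransport)
include hH hT

/-- The error of the estimator at an exact node, from an approximate node and direction. -/
lemma est_error (C : Comp X q₁ g est wb A Lw LD b ew) (n : ℕ) (s : ℝ) (j : Fin M) {m : ℕ}
    (hm : m ≤ na) {v : E d × Blk d na → E d} (hv : Continuous v) {e : ℝ} (he : 0 ≤ e)
    (hve : ∫⁻ z, ‖v z - lvl (sysX X n q₁ z.1 s (g.q j) z.2) m‖ₑ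
        ∂(ExFlow.law D q₁).prod (gamB d na) ≤ ENNReal.ofReal e) :
    ∫⁻ z, ‖est j (wb j z.1) (v z)
        - apath X q₁ z.1 (g.q j) (lvl (sysX X n q₁ z.1 s (g.q j) z.2) m)‖ₑ
      ∂(ExFlow.law D q₁).prod (gamB d na) ≤ ENNReal.ofReal (b + Lw * ew + LD * e) := by
  set μ := (ExFlow.law D q₁).prod (gamB d na)
  have := ExFlow.isProb_law hP hH hT C.mem X
  set Y := fun z : E d × Blk d na => lvl (sysX X n q₁ z.1 s (g.q j) z.2) m
  set W := fun z : E d × Blk d na => X.Φ q₁ (g.q j) z.1
  have hY : Continuous Y := (continuous_lvl m).comp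
    (((continuous_sysX X hP C.mem C.nonneg C.tau n s (g.q j)).comp continuous_fst).clm_apply
      continuous_snd)
  have hW : Continuous W := (X.continuous_Φ C.mem (C.node_mem X j)).comp continuous_fst
  have hmp := levels_preserve X hP hH hT C.mem C.nonneg C.tau n s (C.node j) hm
  have haq : Continuous fun p : E d × E d => D.aq (g.q j) p.1 p.2 :=
    (((ExFlow.contDiffOn_aq hP).continuousOn.comp_continuous (continuous_const.prodMk continuous_id)
      fun w => ⟨C.node_mem X j, mem_univ w⟩).comp continuous_fst).clm_apply continuous_snd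
  have e1 : ∫⁻ z, ‖est j (W z) (Y z) - apath X q₁ z.1 (g.q j) (Y z)‖ₑ ∂μ ≤ ENNReal.ofReal b := by
    refine (le_of_eq ?_).trans (C.bias j)
    rw [← hmp.lintegral_comp (f := fun p : E d × E d => ‖est j p.1 p.2 - D.aq (g.q j) p.1 p.2‖ₑ)
      ((C.est_cont j).sub haq).measurable.enorm]
    exact lintegral_congr fun z => by simp [apath, cl_eq (C.node j), W, Y]
  have e2 : ∫⁻ z, ‖wb j z.1 - W z‖ₑ ∂μ ≤ ENNReal.ofReal ew := by
    refine (le_of_eq ?_).trans (C.path j)
    exact (measurePreserving_fst (μ := ExFlow.law D q₁) (ν := gamB d na)).lintegral_comp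
      (f := fun w => ‖wb j w - X.Φ q₁ (g.q j) w‖ₑ)
      ((C.wb_cont j).sub (X.continuous_Φ C.mem (C.node_mem X j))).measurable.enorm
  have hpt : ∀ z, ‖est j (wb j z.1) (v z) - apath X q₁ z.1 (g.q j) (Y z)‖ₑ
      ≤ (‖est j (W z) (Y z) - apath X q₁ z.1 (g.q j) (Y z)‖ₑ
          + ENNReal.ofReal Lw * ‖wb j z.1 - W z‖ₑ) + ENNReal.ofReal LD * ‖v z - Y z‖ₑ := by
    intro z
    simp only [← ofReal_norm_eq_enorm, ← ENNReal.ofReal_mul C.Lw0, ← ENNReal.ofReal_mul C.LD0]
    rw [← ENNReal.ofReal_add (norm_nonneg _) (mul_nonneg C.Lw0 (norm_nonneg _)),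
      ← ENNReal.ofReal_add (add_nonneg (norm_nonneg _) (mul_nonneg C.Lw0 (norm_nonneg _)))
        (mul_nonneg C.LD0 (norm_nonneg _))]
    refine ENNReal.ofReal_le_ofReal ?_
    have h := C.lip j (wb j z.1) (W z) (v z) (Y z)
    have h2 := norm_sub_le_norm_sub_add_norm_sub (est j (wb j z.1) (v z)) (est j (W z) (Y z))
      (apath X q₁ z.1 (g.q j) (Y z))
    linarith
  have hm1 : Measurable fun z => ENNReal.ofReal LD * ‖v z - Y z‖ₑ :=
    measurable_const.mul (hv.sub hY).measurable.enorm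
  have hm2 : Measurable fun z : E d × Blk d na => ENNReal.ofReal Lw * ‖wb j z.1 - W z‖ₑ :=
    measurable_const.mul (((C.wb_cont j).comp continuous_fst).sub hW).measurable.enorm
  refine (lintegral_mono hpt).trans ?_
  rw [lintegral_add_right _ hm1, lintegral_add_right _ hm2,
    lintegral_const_mul' _ _ ENNReal.ofReal_ne_top, lintegral_const_mul' _ _ ENNReal.ofReal_ne_top]
  refine (add_le_add (add_le_add e1 (mul_le_mul_right e2 _)) (mul_le_mul_right hve _)).trans ?_
  rw [← ENNReal.ofReal_mul C.Lw0, ← ENNReal.ofReal_mul C.LD0,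
    ← ENNReal.ofReal_add C.b0 (mul_nonneg C.Lw0 C.ew0),
    ← ENNReal.ofReal_add (add_nonneg C.b0 (mul_nonneg C.Lw0 C.ew0)) (mul_nonneg C.LD0 he)]

/-- The Picard iterates against the exact system. -/
theorem sysV_error (C : Comp X q₁ g est wb A Lw LD b ew) {n : ℕ} (hn : n ≤ na) (s : ℝ) {dq : ℝ}
    (hdq : 0 ≤ dq) (hκ : 2 * |s| * A * LD ≤ 1 / 2)
    (hquad : ∀ o m, m ≤ n → ∫⁻ z, ‖(∫ r in (0 : ℝ)..(g.at' q₁ o), sysInt X n q₁ s r m z)
        - ∑ j, g.W o j • sysInt X n q₁ s (g.q j) m z‖ₑ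
      ∂(ExFlow.law D q₁).prod (gamB d na) ≤ ENNReal.ofReal dq) :
    ∀ p o m, m ≤ n → ∫⁻ z, ‖sysV g (fun j => est j (wb j z.1)) n s (lvl z.2) p o m
        - lvl (sysX X n q₁ z.1 s (g.at' q₁ o) z.2) m‖ₑ ∂(ExFlow.law D q₁).prod (gamB d na)
      ≤ ENNReal.ofReal ((2 * |s| * A * LD) ^ p * (2 * Real.sqrt d)
          + 2 * (|s| * dq + 2 * |s| * A * (b + Lw * ew))) := by
  set μ := (ExFlow.law D q₁).prod (gamB d na)
  have := ExFlow.isProb_law hP hH hT C.mem X
  set δ := |s| * dq + 2 * |s| * A * (b + Lw * ew) with hδdef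
  have hA := C.A0; have hb0 := C.b0; have hew := C.ew0; have hLw := C.Lw0; have hLD := C.LD0
  have hq₁ := C.nonneg
  have hδ : 0 ≤ δ := by positivity
  intro p
  induction p with
  | zero =>
    intro o m hm
    simp only [sysV, pow_zero, one_mul]
    have hm' : m ≤ na := hm.trans hn
    have hl : Continuous fun y : Blk d na => lvl y m := continuous_lvl m
    have hg : (gamB d na).map (fun y => lvl y m) = gam d := by
      have e : (fun y : Blk d na => lvl y m) = fun y => y ⟨m, Nat.lt_succ_of_le hm'⟩ :=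
        funext fun y => dif_pos _
      rw [e, map_proj_gamB]
    have h1 : ∫⁻ z : E d × Blk d na, ‖lvl z.2 m‖ₑ ∂μ ≤ ENNReal.ofReal (Real.sqrt d) := by
      refine (le_of_eq ?_).trans (lintegral_norm_gam (d := d))
      rw [← hg, lintegral_map measurable_enorm hl.measurable]
      exact (measurePreserving_snd (μ := ExFlow.law D q₁) (ν := gamB d na)).lintegral_comp
        (f := fun y => ‖lvl y m‖ₑ) hl.measurable.enorm
    have hmp := levels_preserve X hP hH hT C.mem C.nonneg C.tau n s (C.at_mem X o) hm'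
    have h2 : ∫⁻ z, ‖lvl (sysX X n q₁ z.1 s (g.at' q₁ o) z.2) m‖ₑ ∂μ
        ≤ ENNReal.ofReal (Real.sqrt d) := by
      have := ExFlow.isProb_law hP hH hT (cl_eq (C.at_mem X o) ▸ cl_mem_I C.mem C.nonneg _) X
      refine (le_of_eq ?_).trans (lintegral_norm_gam (d := d))
      have e := hmp.lintegral_comp (f := fun p : E d × E d => ‖p.2‖ₑ) measurable_snd.enorm
      refine e.trans ((measurePreserving_snd (μ := ExFlow.law D (g.at' q₁ o)) (ν := gam d)).lintegral_comp
        (f := fun y => ‖y‖ₑ) measurable_enorm)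
    refine (lintegral_mono fun z => enorm_sub_le).trans ?_
    rw [lintegral_add_left (f := fun z : E d × Blk d na => ‖lvl z.2 m‖ₑ)
      (hl.comp continuous_snd).measurable.enorm]
    refine (add_le_add h1 h2).trans ?_
    rw [← ENNReal.ofReal_add (Real.sqrt_nonneg _) (Real.sqrt_nonneg _)]
    exact ENNReal.ofReal_le_ofReal (by linarith)
  | succ p ih =>
    intro o m hm
    set B := (2 * |s| * A * LD) ^ p * (2 * Real.sqrt d) + 2 * δ with hB
    have hB0 : 0 ≤ B := by positivity
    set e := b + Lw * ew + LD * B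
    have he : 0 ≤ e := by positivity
    set T := fun (j : Fin M) (k : ℕ) (z : E d × Blk d na) =>
      est j (wb j z.1) (sysV g (fun j => est j (wb j z.1)) n s (lvl z.2) p (some j) k)
        - apath X q₁ z.1 (g.q j) (lvl (sysX X n q₁ z.1 s (g.q j) z.2) k)
    set S := fun z => (∫ r in (0 : ℝ)..(g.at' q₁ o), sysInt X n q₁ s r m z)
        - ∑ j, g.W o j • sysInt X n q₁ s (g.q j) m z
    have hm' : m ≤ na := hm.trans hn
    have hint : ∀ (j : Fin M) (z : E d × Blk d na), sysInt X n q₁ s (g.q j) m z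
        = (if 1 ≤ m then Build.phi (m - 1) (g.q j)
            • apath X q₁ z.1 (g.q j) (lvl (sysX X n q₁ z.1 s (g.q j) z.2) (m - 1)) else 0)
          - (if m < n then Build.phi m (g.q j)
            • apath X q₁ z.1 (g.q j) (lvl (sysX X n q₁ z.1 s (g.q j) z.2) (m + 1)) else 0) := by
      intro j z
      rw [sysInt, gen, lvl_blk (fun i => phiC n i (cl q₁ (g.q j))) _ _ hm', cl_eq (C.node j)]
      simp only [phiC]
      congr 1
      · rcases Nat.eq_zero_or_pos m with h | h
        · simp [h]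
        · simp [show m - 1 < n by omega]
      · split_ifs with h1 h2 h2
        · rfl
        · simp
        · omega
        · rfl
    have hid : ∀ z, sysV g (fun j => est j (wb j z.1)) n s (lvl z.2) (p + 1) o m
        - lvl (sysX X n q₁ z.1 s (g.at' q₁ o) z.2) m
        = (∑ j, ((if 1 ≤ m then (s * g.W o j * Build.phi (m - 1) (g.q j)) • T j (m - 1) z else 0)
            + (if m < n then (-(s * g.W o j * Build.phi m (g.q j))) • T j (m + 1) z else 0)))
          + (-s) • S z := by
      intro z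
      rw [sysX_integral X hP C.mem C.nonneg C.tau]
      simp only [sysV, S, T, smul_sub, Finset.smul_sum, hint]
      rw [add_sub_add_left_eq_sub, ← sub_eq_zero]
      rw [show ∀ a b c e f : E d, a - b - (c + ((-s) • e - f)) = a - c + (f - (b + (-s) • e))
        from fun a b c e f => by abel]
      rw [neg_smul, add_neg_cancel, sub_zero, ← Finset.sum_sub_distrib, ← Finset.sum_add_distrib]
      refine Finset.sum_eq_zero fun j _ => ?_
      split_ifs <;> module
    have hcoef : ∀ j k, |s * g.W o j * Build.phi k (g.q j)| ≤ |s| * |g.W o j| := fun j k => by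
      rw [abs_mul, abs_mul]
      exact mul_le_of_le_one_right (by positivity) (C.phi_le X k j)
    have hpt : ∀ z, ‖sysV g (fun j => est j (wb j z.1)) n s (lvl z.2) (p + 1) o m
        - lvl (sysX X n q₁ z.1 s (g.at' q₁ o) z.2) m‖ₑ
        ≤ ENNReal.ofReal |s| * ‖S z‖ₑ + ∑ j, ENNReal.ofReal (|s| * |g.W o j|)
          * ((if 1 ≤ m then ‖T j (m - 1) z‖ₑ else 0) + (if m < n then ‖T j (m + 1) z‖ₑ else 0)) := by
      intro z
      rw [hid z, add_comm (∑ j, _)]
      refine (enorm_add_le _ _).trans (add_le_add ?_ ((enorm_sum_le _ _).trans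
        (Finset.sum_le_sum fun j _ => (enorm_add_le _ _).trans ?_)))
      · rw [enorm_smul_le, abs_neg]
      · rw [mul_add]
        refine add_le_add ?_ ?_
        · split_ifs
          · rw [enorm_smul_le]
            exact mul_le_mul_left (ENNReal.ofReal_le_ofReal (hcoef j _)) _
          · simp
        · split_ifs
          · rw [enorm_smul_le, abs_neg]
            exact mul_le_mul_left (ENNReal.ofReal_le_ofReal (hcoef j _)) _
          · simp
    have hTm : ∀ j k, Measurable fun z => ‖T j k z‖ₑ := fun j k => by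
      refine Continuous.measurable ?_ |>.enorm
      exact ((C.est_cont j).comp (((C.wb_cont j).comp continuous_fst).prodMk
        (continuous_sysV X C n s p (some j) k))).sub
        ((((continuous_apath X hP C.mem C.nonneg).comp
          (continuous_fst.prodMk continuous_const))).clm_apply ((continuous_lvl k).comp
          (((continuous_sysX X hP C.mem C.nonneg C.tau n s (g.q j)).comp continuous_fst).clm_apply
            continuous_snd)))
    have hTe : ∀ j k, k ≤ n → ∫⁻ z, ‖T j k z‖ₑ ∂μ ≤ ENNReal.ofReal e := fun j k hk =>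
      est_error X hP hH hT C n s j (hk.trans hn) (continuous_sysV X C n s p (some j) k) hB0
        (ih (some j) k hk)
    have hsm : ∀ j, Measurable fun z => ENNReal.ofReal (|s| * |g.W o j|)
        * ((if 1 ≤ m then ‖T j (m - 1) z‖ₑ else 0) + (if m < n then ‖T j (m + 1) z‖ₑ else 0)) := by
      intro j
      refine measurable_const.mul (Measurable.add ?_ ?_) <;> split_ifs
      exacts [hTm _ _, measurable_const, hTm _ _, measurable_const]
    refine (lintegral_mono hpt).trans ?_
    rw [lintegral_add_right _ (Finset.measurable_sum _ fun j _ => hsm j),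
      lintegral_finsetSum _ fun j _ => hsm j, lintegral_const_mul' _ _ ENNReal.ofReal_ne_top]
    refine (add_le_add (mul_le_mul_right (hquad o m hm) _) (Finset.sum_le_sum
      (g := fun j => ENNReal.ofReal (|s| * |g.W o j| * (2 * e))) fun j _ => ?_)).trans ?_
    · rw [lintegral_const_mul' _ _ ENNReal.ofReal_ne_top,
        ENNReal.ofReal_mul (show 0 ≤ |s| * |g.W o j| by positivity)]
      refine mul_le_mul_right ?_ _
      rw [lintegral_add_left (by split_ifs; exacts [hTm _ _, measurable_const])]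
      rw [two_mul e, ENNReal.ofReal_add he he]
      refine add_le_add ?_ ?_
      · split_ifs
        · exact hTe j _ (by omega)
        · simp
      · split_ifs
        · exact hTe j _ (by omega)
        · simp
    rw [← ENNReal.ofReal_mul (abs_nonneg s),
      ← ENNReal.ofReal_sum_of_nonneg fun j _ => by positivity,
      ← ENNReal.ofReal_add (by positivity) (Finset.sum_nonneg fun j _ => by positivity)]
    refine ENNReal.ofReal_le_ofReal ?_
    have hsum : ∑ j, |s| * |g.W o j| * (2 * e) ≤ |s| * A * (2 * e) := by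
      rw [← Finset.sum_mul, ← Finset.mul_sum]
      exact mul_le_mul_of_nonneg_right (mul_le_mul_of_nonneg_left (C.sum o) (abs_nonneg s))
        (by positivity)
    have h2 : 2 * |s| * A * LD * (2 * δ) ≤ δ := by
      have := mul_le_mul_of_nonneg_right hκ (show 0 ≤ 2 * δ by positivity)
      linarith
    rw [pow_succ]
    simp only [e, hB, hδdef] at *
    nlinarith

/-- The two signed iterates give the word. -/
theorem wordV_error (C : Comp X q₁ g est wb A Lw LD b ew) {n nr : ℕ} (hn : n ≤ na) (hnr : n < nr)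
    (fd : Build.Fd nr) {Cw : ℝ} (hx : ∀ k, |fd.x k| ≤ 1) (hwt : ∑ k, |fd.wt k| ≤ Cw)
    (hmom : ∀ l, l < nr → ∑ k, fd.wt k * fd.x k ^ l = if l = n then 1 else 0)
    {t : ℝ} (ht : 0 ≤ t) (ht4 : t ≤ 1 / 4) {dq : ℝ} (hdq : 0 ≤ dq) (hκ : 2 * t * A * LD ≤ 1 / 2)
    (hquad : ∀ k o m, m ≤ n → ∫⁻ z, ‖(∫ r in (0 : ℝ)..(g.at' q₁ o), sysInt X n q₁ (t * fd.x k) r m z)
        - ∑ j, g.W o j • sysInt X n q₁ (t * fd.x k) (g.q j) m z‖ₑ
      ∂(ExFlow.law D q₁).prod (gamB d na) ≤ ENNReal.ofReal dq) (p : ℕ) :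
    ∫⁻ z, ‖wordV g (fun j => est j (wb j z.1)) fd t p n z.2.1 z.2.2
        - t ^ n • word q₁ (apath X q₁ z.1) n q₁ z.2.1‖ₑ
      ∂(ExFlow.law D q₁).prod ((gam d).prod (Measure.pi fun _ : Fin na => gam d))
      ≤ ENNReal.ofReal (Cw * ((2 * t * A * LD) ^ p * (2 * Real.sqrt d)
          + 2 * (t * dq + 2 * t * A * (b + Lw * ew)) + 2 * (2 * t * q₁) ^ nr * Real.sqrt d)) := by
  have := ExFlow.isProb_law hP hH hT C.mem X
  have : IsProbabilityMeasure (gam d) := by unfold gam; infer_instance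
  have hA := C.A0; have hb0 := C.b0; have hew := C.ew0; have hLw := C.Lw0; have hLD := C.LD0
  have hq₁ := C.nonneg
  set ν := (gam d).prod (Measure.pi fun _ : Fin na => gam d)
  set μ := (ExFlow.law D q₁).prod ν
  set mk : ℝ → E d × (Fin na → E d) → Blk d na := fun σ p => mkBlk (Fin.cons p.1 fun i => σ • p.2 i)
  have hmk : ∀ σ, Continuous (mk σ) := fun σ => by
    refine (PiLp.continuous_toLp 2 _).comp (continuous_pi fun j => ?_)
    refine Fin.cases ?_ (fun i => ?_) j
    · simp only [Fin.cons_zero]; exact continuous_fst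
    · simp only [Fin.cons_succ]; exact ((continuous_apply i).comp continuous_snd).const_smul σ
  set R := fun (σ : ℝ) (k : Fin nr) (z : E d × (E d × (Fin na → E d))) =>
    sysV g (fun j => est j (wb j z.1)) n (t * fd.x k) (lvl (mk σ z.2)) p none n
      - lvl (sysX X n q₁ z.1 (t * fd.x k) q₁ (mk σ z.2)) n
  set B := (2 * t * A * LD) ^ p * (2 * Real.sqrt d) + 2 * (t * dq + 2 * t * A * (b + Lw * ew))
  have hB0 : 0 ≤ B := by positivity
  have hs : ∀ k, |t * fd.x k| ≤ t := fun k => by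
    rw [abs_mul, abs_of_nonneg ht]; exact mul_le_of_le_one_right ht (hx k)
  have hR : ∀ σ k, |σ| = 1 → ∫⁻ z, ‖R σ k z‖ₑ ∂μ ≤ ENNReal.ofReal B := by
    intro σ k hσ
    have hκ' : 2 * |t * fd.x k| * A * LD ≤ 2 * t * A * LD := by gcongr; exact hs k
    have h := sysV_error X hP hH hT C hn (t * fd.x k) hdq (hκ'.trans hκ) (hquad k) p none n le_rfl
    have hmp : MeasurePreserving (fun z : E d × (E d × (Fin na → E d)) => (z.1, mk σ z.2)) μ
        ((ExFlow.law D q₁).prod (gamB d na)) :=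
      (MeasurePreserving.id (ExFlow.law D q₁)).prod ⟨(hmk σ).measurable, map_init hσ⟩
    have hcs : Continuous fun z : E d × Blk d na =>
        sysV g (fun j => est j (wb j z.1)) n (t * fd.x k) (lvl z.2) p none n
          - lvl (sysX X n q₁ z.1 (t * fd.x k) q₁ z.2) n :=
      (continuous_sysV X C n _ p none n).sub ((continuous_lvl n).comp
        (((continuous_sysX X hP C.mem C.nonneg C.tau n _ q₁).comp continuous_fst).clm_apply
          continuous_snd))
    refine le_trans ?_ (h.trans (ENNReal.ofReal_le_ofReal ?_))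
    · exact le_of_eq (hmp.lintegral_comp hcs.measurable.enorm)
    · simp only [B]
      gcongr <;> exact hs k
  -- the average of the two exact solutions, expanded
  set Tl := fun (z : E d × (E d × (Fin na → E d))) (k : Fin nr) =>
    lvl (sysX (na := na) X n q₁ z.1 (t * fd.x k) q₁ (base z.2.1)) n
      - ∑ l ∈ Finset.range nr, (t * fd.x k) ^ l
        • lvl (term (gen (na := na) n q₁ (apath X q₁ z.1)) l q₁ (base z.2.1)) n
  have hTl : ∀ z k, ‖Tl z k‖ₑ ≤ ENNReal.ofReal (2 * (2 * t * q₁) ^ nr) * ‖z.2.1‖ₑ := by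
    intro z k
    have hB := gen_ok (na := na) (path_apath X hP C.mem C.nonneg C.tau z.1) n
    have hq : |q₁| ≤ 1 := by
      rw [abs_of_nonneg C.nonneg]; exact C.mem.2.le.trans (Real.sqrt_le_one.2 C.tau)
    have hq0 := C.nonneg
    have hz : |t * fd.x k| * 2 * |q₁| ≤ 2 * t * q₁ :=
      calc |t * fd.x k| * 2 * |q₁| ≤ t * 2 * |q₁| := by gcongr; exact hs k
        _ = _ := by rw [abs_of_nonneg hq0]; ring
    have hz1 : 2 * t * q₁ ≤ 2 * t :=
      mul_le_of_le_one_right (by positivity) ((le_abs_self _).trans hq)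
    have h := norm_sol_sub_le hB (t * fd.x k) q₁ nr ((hz.trans hz1).trans (by linarith))
    rw [← ofReal_norm_eq_enorm, ← ofReal_norm_eq_enorm, ← ENNReal.ofReal_mul (by positivity)]
    refine ENNReal.ofReal_le_ofReal ?_
    have e : Tl z k = lvl ((sol (gen (na := na) n q₁ (apath X q₁ z.1)) (t * fd.x k) q₁
        - ∑ l ∈ Finset.range nr, (t * fd.x k) ^ l
          • term (gen (na := na) n q₁ (apath X q₁ z.1)) l q₁) (base z.2.1)) n := by
      have hn' : n < na + 1 := Nat.lt_succ_of_le hn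
      simp only [Tl, sysX, lvl, dif_pos hn', sub_apply, FunLike.coe_sum, Finset.sum_apply,
        smul_apply, PiLp.sub_apply, WithLp.ofLp_sum, PiLp.smul_apply]
    rw [e]
    refine (norm_lvl_le _ _).trans ((ContinuousLinearMap.le_opNorm _ _).trans ?_)
    refine mul_le_mul (h.trans ?_) (le_of_eq ?_) (norm_nonneg _) (by positivity)
    · exact mul_le_mul_of_nonneg_left (pow_le_pow_left₀ (by positivity) hz nr) two_pos.le
    · refine (pow_left_inj₀ (norm_nonneg _) (norm_nonneg _) two_ne_zero).1 ?_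
      rw [PiLp.norm_sq_eq_of_L2, Fin.sum_univ_succ]
      simp [base, mkBlk]
  have hid : ∀ z, wordV g (fun j => est j (wb j z.1)) fd t p n z.2.1 z.2.2
      - t ^ n • word q₁ (apath X q₁ z.1) n q₁ z.2.1
      = ∑ k, ((fd.wt k / 2) • (R 1 k z + R (-1) k z) + fd.wt k • Tl z k) := by
    intro z
    set c := fun l => lvl (term (gen (na := na) n q₁ (apath X q₁ z.1)) l q₁ (base z.2.1)) n
    have hpar : ∀ k, lvl (sysX X n q₁ z.1 (t * fd.x k) q₁ (mk 1 z.2)) n
        + lvl (sysX X n q₁ z.1 (t * fd.x k) q₁ (mk (-1) z.2)) n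
        = (2 : ℝ) • lvl (sysX (na := na) X n q₁ z.1 (t * fd.x k) q₁ (base z.2.1)) n := by
      intro k
      rw [← lvl_add, ← map_add, ← lvl_smul, ← map_smul]
      congr 2
      ext j : 1
      refine Fin.cases ?_ (fun i => ?_) j
      · simp [mk, base, mkBlk, two_smul]
      · simp [mk, base, mkBlk]
    have hc : c n = word q₁ (apath X q₁ z.1) n q₁ z.2.1 :=
      (lvl_term_base (path_apath X hP C.mem C.nonneg C.tau z.1) n z.2.1 n q₁ n hn).2 rfl le_rfl
    have hsum : ∑ k, fd.wt k • ∑ l ∈ Finset.range nr, (t * fd.x k) ^ l • c l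
        = t ^ n • word q₁ (apath X q₁ z.1) n q₁ z.2.1 := by
      simp only [Finset.smul_sum, smul_smul, mul_pow]
      rw [Finset.sum_comm, Finset.sum_eq_single n, ← Finset.sum_smul]
      · rw [show ∑ k, fd.wt k * (t ^ n * fd.x k ^ n) = t ^ n * ∑ k, fd.wt k * fd.x k ^ n by
          rw [Finset.mul_sum]; exact Finset.sum_congr rfl fun k _ => by ring]
        rw [hmom n hnr, if_pos rfl, mul_one, hc]
      · intro l hl hne
        rw [← Finset.sum_smul, show ∑ k, fd.wt k * (t ^ l * fd.x k ^ l)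
          = t ^ l * ∑ k, fd.wt k * fd.x k ^ l by
            rw [Finset.mul_sum]; exact Finset.sum_congr rfl fun k _ => by ring,
          hmom l (Finset.mem_range.1 hl), if_neg hne, mul_zero, zero_smul]
      · exact fun h => absurd (Finset.mem_range.2 hnr) h
    rw [← hsum]
    simp only [wordV, ← Finset.sum_sub_distrib]
    refine Finset.sum_congr rfl fun k _ => ?_
    simp only [R, Tl, c]
    linear_combination (norm := module) (fd.wt k / 2) • hpar k
  have hRm : ∀ σ k, Measurable fun z => ‖R σ k z‖ₑ := fun σ k => by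
    have hz : Continuous fun z : E d × (E d × (Fin na → E d)) => (z.1, mk σ z.2) :=
      continuous_fst.prodMk ((hmk σ).comp continuous_snd)
    exact (((continuous_sysV X C n _ p none n).comp hz).sub ((continuous_lvl n).comp
      (((continuous_sysX X hP C.mem C.nonneg C.tau n _ q₁).comp continuous_fst).clm_apply
        ((hmk σ).comp continuous_snd)))).measurable.enorm
  set κ := fun k : Fin nr => ENNReal.ofReal (|fd.wt k| / 2)
  set Z1 := fun z : E d × (E d × (Fin na → E d)) => ‖z.2.1‖ₑ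
  have hZ1 : ∫⁻ z, Z1 z ∂μ ≤ ENNReal.ofReal (Real.sqrt d) := by
    refine (le_of_eq ?_).trans (lintegral_norm_gam (d := d))
    exact ((measurePreserving_fst (μ := gam d) (ν := Measure.pi fun _ : Fin na => gam d)).comp
      (measurePreserving_snd (μ := ExFlow.law D q₁) (ν := ν))).lintegral_comp
      (f := fun y => ‖y‖ₑ) measurable_enorm
  have hpt : ∀ z, ‖wordV g (fun j => est j (wb j z.1)) fd t p n z.2.1 z.2.2
      - t ^ n • word q₁ (apath X q₁ z.1) n q₁ z.2.1‖ₑ
      ≤ ∑ k, (κ k * (‖R 1 k z‖ₑ + ‖R (-1) k z‖ₑ)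
          + ENNReal.ofReal |fd.wt k| * (ENNReal.ofReal (2 * (2 * t * q₁) ^ nr) * Z1 z)) := by
    intro z
    rw [hid z]
    refine (enorm_sum_le _ _).trans (Finset.sum_le_sum fun k _ => (enorm_add_le _ _).trans ?_)
    rw [enorm_smul_le, enorm_smul_le, abs_div, abs_two]
    exact add_le_add (mul_le_mul_right (enorm_add_le _ _) _) (mul_le_mul_right (hTl z k) _)
  have hm : ∀ k, Measurable fun z => κ k * (‖R 1 k z‖ₑ + ‖R (-1) k z‖ₑ)
      + ENNReal.ofReal |fd.wt k| * (ENNReal.ofReal (2 * (2 * t * q₁) ^ nr) * Z1 z) := fun k =>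
    (measurable_const.mul ((hRm 1 k).add (hRm (-1) k))).add
      (measurable_const.mul (measurable_const.mul (measurable_fst.comp measurable_snd).enorm))
  refine (lintegral_mono hpt).trans ?_
  rw [lintegral_finsetSum _ fun k _ => hm k]
  refine (Finset.sum_le_sum
    (g := fun k => ENNReal.ofReal (|fd.wt k| * (B + 2 * (2 * t * q₁) ^ nr * Real.sqrt d)))
    fun k _ => ?_).trans ?_
  · have hZm : Measurable fun z : E d × (E d × (Fin na → E d)) =>
        ENNReal.ofReal |fd.wt k| * (ENNReal.ofReal (2 * (2 * t * q₁) ^ nr) * Z1 z) :=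
      measurable_const.mul (measurable_const.mul (measurable_fst.comp measurable_snd).enorm)
    rw [lintegral_add_right _ hZm,
      lintegral_const_mul' _ _ ENNReal.ofReal_ne_top, lintegral_const_mul' _ _ ENNReal.ofReal_ne_top,
      lintegral_const_mul' _ _ ENNReal.ofReal_ne_top, lintegral_add_left (hRm 1 k)]
    refine (add_le_add (mul_le_mul_right (add_le_add (hR 1 k (by simp)) (hR (-1) k (by simp))) _)
      (mul_le_mul_right (mul_le_mul_right hZ1 _) _)).trans (le_of_eq ?_)
    rw [← ENNReal.ofReal_add hB0 hB0, ← ENNReal.ofReal_mul (by positivity),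
      ← ENNReal.ofReal_mul (by positivity), ← ENNReal.ofReal_mul (abs_nonneg _),
      ← ENNReal.ofReal_add (by positivity) (by positivity)]
    ring_nf
  rw [← ENNReal.ofReal_sum_of_nonneg fun k _ => by positivity, ← Finset.sum_mul]
  exact ENNReal.ofReal_le_ofReal (mul_le_mul_of_nonneg_right hwt (by positivity))

omit hH hT in
lemma continuous_word_param (C : Comp X q₁ g est wb A Lw LD b ew) :
    ∀ m, Continuous fun x : (E d × E d) × ℝ => word q₁ (apath X q₁ x.1.1) m x.2 x.1.2 := by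
  intro m
  induction m with
  | zero => exact continuous_snd.comp continuous_fst
  | succ m ih =>
    have h1 : Continuous fun y : ((E d × E d) × ℝ) × ℝ => Build.phi m (cl q₁ y.2) := by
      unfold Build.phi; split_ifs
      · exact continuous_const
      · exact (continuous_cl q₁).comp continuous_snd
    have h2 : Continuous fun y : ((E d × E d) × ℝ) × ℝ => apath X q₁ y.1.1.1 y.2 :=
      (continuous_apath X hP C.mem C.nonneg).comp
        ((continuous_fst.comp (continuous_fst.comp continuous_fst)).prodMk continuous_snd)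
    have h3 : Continuous fun y : ((E d × E d) × ℝ) × ℝ =>
        word q₁ (apath X q₁ y.1.1.1) m y.2 y.1.1.2 :=
      ih.comp ((continuous_fst.comp continuous_fst).prodMk continuous_snd)
    exact intervalIntegral.continuous_parametric_intervalIntegral_of_continuous
      (h1.smul (h2.clm_apply h3)) continuous_snd

omit hH hT in
lemma continuous_word_end (C : Comp X q₁ g est wb A Lw LD b ew) (m : ℕ) :
    Continuous fun z : E d × (E d × (Fin na → E d)) => word q₁ (apath X q₁ z.1) m q₁ z.2.1 :=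
  Continuous.comp (g := fun x : (E d × E d) × ℝ => word q₁ (apath X q₁ x.1.1) m x.2 x.1.2)
    (f := fun z : E d × (E d × (Fin na → E d)) => ((z.1, z.2.1), q₁))
    (continuous_word_param X hP C m)
    ((continuous_fst.prodMk (continuous_fst.comp continuous_snd)).prodMk continuous_const)

/-- The estimator at exact nodes applied to fresh noise. -/
lemma est_node_error (C : Comp X q₁ g est wb A Lw LD b ew) (j : Fin M) :
    ∫⁻ z, ‖est j (wb j z.1) z.2 - apath X q₁ z.1 (g.q j) z.2‖ₑ
        ∂(ExFlow.law D q₁).prod (gam d) ≤ ENNReal.ofReal (b + Lw * ew) := by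
  have := ExFlow.isProb_law hP hH hT C.mem X
  have : IsProbabilityMeasure (gam d) := by unfold gam; infer_instance
  have hqI := C.node_mem X j
  have hf : MeasurePreserving (X.Φ q₁ (g.q j)) (ExFlow.law D q₁) (ExFlow.law D (g.q j)) :=
    ⟨(X.continuous_Φ C.mem hqI).measurable, map_law_back X hP hH hT hqI C.mem⟩
  have := ExFlow.isProb_law hP hH hT hqI X
  have hmp := hf.prod (MeasurePreserving.id (gam d))
  have haq : Continuous fun z : E d × E d => D.aq (g.q j) z.1 z.2 :=
    (((ExFlow.contDiffOn_aq hP).continuousOn.comp_continuous (continuous_const.prodMk continuous_id)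
      fun w => ⟨hqI, mem_univ w⟩).comp continuous_fst).clm_apply continuous_snd
  have hpt : ∀ z : E d × E d, ‖(est j (wb j z.1) z.2 - apath X q₁ z.1 (g.q j) z.2)‖ₑ ≤
      ‖est j (X.Φ q₁ (g.q j) z.1) z.2 - D.aq (g.q j) (X.Φ q₁ (g.q j) z.1) z.2‖ₑ
        + ENNReal.ofReal Lw * ‖wb j z.1 - X.Φ q₁ (g.q j) z.1‖ₑ := by
    intro z
    simp only [← ofReal_norm_eq_enorm, ← ENNReal.ofReal_mul C.Lw0]
    rw [← ENNReal.ofReal_add (norm_nonneg _) (mul_nonneg C.Lw0 (norm_nonneg _))]
    refine ENNReal.ofReal_le_ofReal ?_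
    have h := C.lip j (wb j z.1) (X.Φ q₁ (g.q j) z.1) z.2 z.2
    rw [sub_self, norm_zero, mul_zero, add_zero] at h
    have h2 := norm_sub_le_norm_sub_add_norm_sub (est j (wb j z.1) z.2)
      (est j (X.Φ q₁ (g.q j) z.1) z.2) (D.aq (g.q j) (X.Φ q₁ (g.q j) z.1) z.2)
    simp only [apath, cl_eq (C.node j)]
    linarith
  have hm2 : Measurable fun z : E d × E d =>
      ENNReal.ofReal Lw * ‖wb j z.1 - X.Φ q₁ (g.q j) z.1‖ₑ :=
    measurable_const.mul (((C.wb_cont j).comp continuous_fst).sub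
      ((X.continuous_Φ C.mem hqI).comp continuous_fst)).measurable.enorm
  refine (lintegral_mono hpt).trans ?_
  rw [lintegral_add_right _ hm2, lintegral_const_mul' _ _ ENNReal.ofReal_ne_top,
    ENNReal.ofReal_add C.b0 (mul_nonneg C.Lw0 C.ew0), ENNReal.ofReal_mul C.Lw0]
  refine add_le_add ((le_of_eq ?_).trans (C.bias j)) (mul_le_mul_right ((le_of_eq ?_).trans (C.path j)) _)
  · exact hmp.lintegral_comp (f := fun z : E d × E d => ‖est j z.1 z.2 - D.aq (g.q j) z.1 z.2‖ₑ)
      ((C.est_cont j).sub haq).measurable.enorm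
  · exact (measurePreserving_fst (μ := ExFlow.law D q₁) (ν := gam d)).lintegral_comp
      (f := fun w => ‖wb j w - X.Φ q₁ (g.q j) w‖ₑ)
      ((C.wb_cont j).sub (X.continuous_Φ C.mem hqI)).measurable.enorm

/-- The compiled `η` against `k Z`. -/
theorem etaV_error (C : Comp X q₁ g est wb A Lw LD b ew) (hna : 1 ≤ na) {nr : ℕ} (hnr : na < nr)
    (fd : ℕ → Build.Fd nr) {Cw : ℝ} (hx : ∀ n k, |(fd n).x k| ≤ 1)
    (hwt : ∀ n, n ≤ na → ∑ k, |(fd n).wt k| ≤ Cw) (hCw : 0 ≤ Cw)
    (hmom : ∀ n, n ≤ na → ∀ l, l < nr → ∑ k, (fd n).wt k * (fd n).x k ^ l = if l = n then 1 else 0)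
    {t : ℝ} (ht : 0 < t) (ht4 : t ≤ 1 / 4) {dq : ℝ} (hdq : 0 ≤ dq) (hκ : 2 * t * A * LD ≤ 1 / 2)
    (hquad1 : ∫⁻ z, ‖(∫ r in (0 : ℝ)..q₁, apath X q₁ z.1 r z.2)
        - ∑ j, g.W none j • apath X q₁ z.1 (g.q j) z.2‖ₑ
      ∂(ExFlow.law D q₁).prod (gam d) ≤ ENNReal.ofReal dq)
    (hquad : ∀ n k o m, n ≤ na → m ≤ n →
      ∫⁻ z, ‖(∫ r in (0 : ℝ)..(g.at' q₁ o), sysInt X n q₁ (t * (fd n).x k) r m z)
        - ∑ j, g.W o j • sysInt X n q₁ (t * (fd n).x k) (g.q j) m z‖ₑ
      ∂(ExFlow.law D q₁).prod (gamB d na) ≤ ENNReal.ofReal dq) (p : ℕ) :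
    ∫⁻ z, ‖((∑ j, g.W none j • est j (wb j z.1) z.2.1)
          + ∑ i : Fin (na - 1), ((-D.ε) ^ ((i : ℕ) + 1) / t ^ ((i : ℕ) + 2))
              • wordV g (fun j => est j (wb j z.1)) (fd ((i : ℕ) + 2)) t p ((i : ℕ) + 2) z.2.1 z.2.2)
        - X.kOp q₁ z.1 z.2.1‖ₑ
      ∂(ExFlow.law D q₁).prod ((gam d).prod (Measure.pi fun _ : Fin na => gam d))
      ≤ ENNReal.ofReal (dq + A * (b + Lw * ew) + 2 * (D.ε ^ na * q₁) * Real.sqrt d
          + ∑ i : Fin (na - 1), D.ε ^ ((i : ℕ) + 1) / t ^ ((i : ℕ) + 2)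
            * (Cw * ((2 * t * A * LD) ^ p * (2 * Real.sqrt d)
              + 2 * (t * dq + 2 * t * A * (b + Lw * ew)) + 2 * (2 * t * q₁) ^ nr * Real.sqrt d))) := by
  obtain ⟨N, rfl⟩ : ∃ N, na = N + 1 := ⟨na - 1, by omega⟩
  have := ExFlow.isProb_law hP hH hT C.mem X
  have : IsProbabilityMeasure (gam d) := by unfold gam; infer_instance
  have hA := C.A0; have hb0 := C.b0; have hew := C.ew0; have hLw := C.Lw0; have hLD := C.LD0
  have hq₁ := C.nonneg
  have hε := D.ε0
  set ν := (gam d).prod (Measure.pi fun _ : Fin (N + 1) => gam d)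
  set μ := (ExFlow.law D q₁).prod ν
  set E0 := Cw * ((2 * t * A * LD) ^ p * (2 * Real.sqrt d)
      + 2 * (t * dq + 2 * t * A * (b + Lw * ew)) + 2 * (2 * t * q₁) ^ nr * Real.sqrt d)
  have hE0 : 0 ≤ E0 := by positivity
  set Q := fun z : E d × E d => (∫ r in (0 : ℝ)..q₁, apath X q₁ z.1 r z.2)
      - ∑ j, g.W none j • apath X q₁ z.1 (g.q j) z.2
  set T1 := fun (j : Fin M) (z : E d × E d) => est j (wb j z.1) z.2 - apath X q₁ z.1 (g.q j) z.2
  set Wd := fun (i : Fin (N + 1 - 1)) (z : E d × (E d × (Fin (N + 1) → E d))) =>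
    wordV g (fun j => est j (wb j z.1)) (fd ((i : ℕ) + 2)) t p ((i : ℕ) + 2) z.2.1 z.2.2
      - t ^ ((i : ℕ) + 2) • word q₁ (apath X q₁ z.1) ((i : ℕ) + 2) q₁ z.2.1
  set Rm := fun z : E d × E d => X.kOp q₁ z.1 z.2
      - ∑ n ∈ Finset.range (N + 1), (-D.ε) ^ n • word q₁ (apath X q₁ z.1) (n + 1) q₁ z.2
  have hRm : ∀ z : E d × E d, ‖Rm z‖ₑ ≤ ENNReal.ofReal (2 * (D.ε ^ (N + 1) * q₁)) * ‖z.2‖ₑ := by
    intro z
    rw [← ofReal_norm_eq_enorm, ← ofReal_norm_eq_enorm, ← ENNReal.ofReal_mul (by positivity)]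
    exact ENNReal.ofReal_le_ofReal (kOp_expand X hP C.mem C.nonneg C.tau z.1 z.2 N)
  -- the decomposition
  have hid : ∀ z : E d × (E d × (Fin (N + 1) → E d)),
      ((∑ j, g.W none j • est j (wb j z.1) z.2.1)
          + ∑ i : Fin (N + 1 - 1), ((-D.ε) ^ ((i : ℕ) + 1) / t ^ ((i : ℕ) + 2))
              • wordV g (fun j => est j (wb j z.1)) (fd ((i : ℕ) + 2)) t p ((i : ℕ) + 2) z.2.1 z.2.2)
        - X.kOp q₁ z.1 z.2.1
      = (((∑ j, g.W none j • T1 j (z.1, z.2.1)) - Q (z.1, z.2.1))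
          + ∑ i : Fin (N + 1 - 1), ((-D.ε) ^ ((i : ℕ) + 1) / t ^ ((i : ℕ) + 2)) • Wd i z) - Rm (z.1, z.2.1) := by
    intro z
    simp only [Q, T1, Wd, Rm, smul_sub, Finset.sum_sub_distrib, smul_smul]
    rw [Finset.sum_range_succ' (n := N)]
    have h1 : word q₁ (apath X q₁ z.1) (0 + 1) q₁ z.2.1
        = ∫ r in (0 : ℝ)..q₁, apath X q₁ z.1 r z.2.1 := by
      simp only [word, Build.phi, if_true, one_smul]
    have h2 : ∀ i : Fin (N + 1 - 1), (-D.ε) ^ ((i : ℕ) + 1) / t ^ ((i : ℕ) + 2) * t ^ ((i : ℕ) + 2)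
        = (-D.ε) ^ ((i : ℕ) + 1) := fun i => div_mul_cancel₀ _ (pow_pos ht _).ne'
    simp only [h1, h2, pow_zero, one_smul]
    rw [show Finset.range N = Finset.range (N + 1 - 1) from rfl,
      ← Fin.sum_univ_eq_sum_range (fun n => (-D.ε) ^ (n + 1)
        • word q₁ (apath X q₁ z.1) (n + 1 + 1) q₁ z.2.1) (N + 1 - 1)]
    simp only [show ∀ n : ℕ, n + 1 + 1 = n + 2 from fun n => rfl]
    abel
  have hmp1 : MeasurePreserving (fun z : E d × (E d × (Fin (N + 1) → E d)) => (z.1, z.2.1)) μ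
      ((ExFlow.law D q₁).prod (gam d)) :=
    (MeasurePreserving.id (ExFlow.law D q₁)).prod measurePreserving_fst
  have hcA : Continuous fun x : (E d × E d) × ℝ => apath X q₁ x.1.1 x.2 x.1.2 :=
    ((continuous_apath X hP C.mem C.nonneg).comp
      ((continuous_fst.comp continuous_fst).prodMk continuous_snd)).clm_apply
      (continuous_snd.comp continuous_fst)
  have hcA' : ∀ j, Continuous fun z : E d × E d => apath X q₁ z.1 (g.q j) z.2 := fun j =>
    hcA.comp (continuous_id.prodMk continuous_const)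
  have hcQ : Continuous Q :=
    (intervalIntegral.continuous_parametric_intervalIntegral_of_continuous' hcA 0 q₁).sub
      (continuous_finsetSum _ fun j _ => (hcA' j).const_smul (g.W none j))
  have hcT : ∀ j, Continuous (T1 j) := fun j =>
    ((C.est_cont j).comp (((C.wb_cont j).comp continuous_fst).prodMk continuous_snd)).sub (hcA' j)
  have hT1 : ∀ j, ∫⁻ z, ‖T1 j z‖ₑ ∂(ExFlow.law D q₁).prod (gam d)
      ≤ ENNReal.ofReal (b + Lw * ew) := fun j => est_node_error X hP hH hT C j
  have hWd : ∀ i : Fin (N + 1 - 1), ∫⁻ z, ‖Wd i z‖ₑ ∂μ ≤ ENNReal.ofReal E0 := fun i =>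
    wordV_error X hP hH hT C (by omega) (by omega) (fd ((i : ℕ) + 2)) (hx _) (hwt _ (by omega))
      (hmom _ (by omega)) ht.le ht4 hdq hκ (fun k o m hm => hquad _ k o m (by omega) hm) p
  set c := fun i : Fin (N + 1 - 1) => D.ε ^ ((i : ℕ) + 1) / t ^ ((i : ℕ) + 2)
  have hc : ∀ i : Fin (N + 1 - 1), |(-D.ε) ^ ((i : ℕ) + 1) / t ^ ((i : ℕ) + 2)| = c i := fun i => by
    simp only [c]
    rw [abs_div, abs_pow, abs_pow, abs_neg, abs_of_nonneg hε, abs_of_pos ht]
  have hpt : ∀ z, ‖((∑ j, g.W none j • est j (wb j z.1) z.2.1)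
          + ∑ i : Fin (N + 1 - 1), ((-D.ε) ^ ((i : ℕ) + 1) / t ^ ((i : ℕ) + 2))
              • wordV g (fun j => est j (wb j z.1)) (fd ((i : ℕ) + 2)) t p ((i : ℕ) + 2) z.2.1 z.2.2)
        - X.kOp q₁ z.1 z.2.1‖ₑ
      ≤ (∑ i, ENNReal.ofReal (c i) * ‖Wd i z‖ₑ)
        + ((((∑ j, ENNReal.ofReal |g.W none j| * ‖T1 j (z.1, z.2.1)‖ₑ) + ‖Q (z.1, z.2.1)‖ₑ))
          + ENNReal.ofReal (2 * (D.ε ^ (N + 1) * q₁)) * ‖z.2.1‖ₑ) := by
    intro z
    rw [hid z]
    refine enorm_sub_le.trans ((add_le_add ((enorm_add_le _ _).trans (add_le_add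
      (enorm_sub_le.trans (add_le_add (enorm_sum_le _ _) le_rfl)) (enorm_sum_le _ _)))
        (hRm (z.1, z.2.1))).trans (le_of_eq ?_))
    simp only [enorm_smul_le, hc]
    abel
  set P1 := fun z : E d × E d =>
    ((∑ j, ENNReal.ofReal |g.W none j| * ‖T1 j z‖ₑ) + ‖Q z‖ₑ)
      + ENNReal.ofReal (2 * (D.ε ^ (N + 1) * q₁)) * ‖z.2‖ₑ
  have hmT : ∀ j, Measurable fun z : E d × E d => ENNReal.ofReal |g.W none j| * ‖T1 j z‖ₑ :=
    fun j => measurable_const.mul (hcT j).measurable.enorm
  have hmZ : Measurable fun z : E d × E d => ENNReal.ofReal (2 * (D.ε ^ (N + 1) * q₁)) * ‖z.2‖ₑ :=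
    measurable_const.mul measurable_snd.enorm
  have hP1m : Measurable P1 :=
    ((Finset.measurable_sum _ fun j _ => hmT j).add hcQ.measurable.enorm).add hmZ
  have hP1 : ∫⁻ z, P1 (z.1, z.2.1) ∂μ
      ≤ ENNReal.ofReal (dq + A * (b + Lw * ew) + 2 * (D.ε ^ (N + 1) * q₁) * Real.sqrt d) := by
    rw [hmp1.lintegral_comp hP1m, lintegral_add_right _ hmZ,
      lintegral_add_right _ hcQ.measurable.enorm, lintegral_finsetSum _ fun j _ => hmT j,
      lintegral_const_mul' _ _ ENNReal.ofReal_ne_top]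
    simp only [lintegral_const_mul' _ _ ENNReal.ofReal_ne_top]
    have hz2 : ∫⁻ z : E d × E d, ‖z.2‖ₑ ∂(ExFlow.law D q₁).prod (gam d)
        ≤ ENNReal.ofReal (Real.sqrt d) :=
      (le_of_eq ((measurePreserving_snd (μ := ExFlow.law D q₁) (ν := gam d)).lintegral_comp
        (f := fun y => ‖y‖ₑ) measurable_enorm)).trans (lintegral_norm_gam (d := d))
    refine (add_le_add (add_le_add (Finset.sum_le_sum
      (g := fun j => ENNReal.ofReal (|g.W none j| * (b + Lw * ew)))
      fun j _ => (mul_le_mul_right (hT1 j) _).trans (le_of_eq ?_)) hquad1)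
      (mul_le_mul_right hz2 _)).trans ?_
    · rw [← ENNReal.ofReal_mul (abs_nonneg _)]
    rw [← ENNReal.ofReal_sum_of_nonneg fun j _ => by positivity,
      ← ENNReal.ofReal_mul (by positivity),
      ← ENNReal.ofReal_add (Finset.sum_nonneg fun j _ => by positivity) hdq,
      ← ENNReal.ofReal_add (add_nonneg (Finset.sum_nonneg fun j _ => by positivity) hdq)
        (by positivity), ← Finset.sum_mul]
    refine ENNReal.ofReal_le_ofReal ?_
    have := mul_le_mul_of_nonneg_right (C.sum none) (show 0 ≤ b + Lw * ew by positivity)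
    linarith
  refine (lintegral_mono hpt).trans ?_
  change ∫⁻ z, (∑ i, ENNReal.ofReal (c i) * ‖Wd i z‖ₑ) + P1 (z.1, z.2.1) ∂μ ≤ _
  rw [lintegral_add_right (g := fun z : E d × (E d × (Fin (N + 1) → E d)) => P1 (z.1, z.2.1)) _
    (hP1m.comp hmp1.measurable)]
  have hWm : ∀ i, Measurable fun z => ‖Wd i z‖ₑ := fun i => by
    refine Continuous.measurable ?_ |>.enorm
    have hv : ∀ (σ : ℝ) (k : Fin nr), Continuous fun z : E d × (E d × (Fin (N + 1) → E d)) =>
        sysV g (fun j => est j (wb j z.1)) ((i : ℕ) + 2) (t * (fd ((i : ℕ) + 2)).x k)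
          (lvl (mkBlk (Fin.cons z.2.1 fun l => σ • z.2.2 l))) p none ((i : ℕ) + 2) := fun σ k => by
      refine (continuous_sysV X C _ _ p none _).comp (continuous_fst.prodMk ?_)
      refine (PiLp.continuous_toLp 2 _).comp (continuous_pi fun j => ?_)
      refine Fin.cases ?_ (fun l => ?_) j
      · simp only [Fin.cons_zero]; exact continuous_fst.comp continuous_snd
      · simp only [Fin.cons_succ]
        exact ((continuous_apply l).comp (continuous_snd.comp continuous_snd)).const_smul σ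
    refine Continuous.sub (continuous_finsetSum _ fun k _ => ((hv 1 k).add (hv (-1) k)).const_smul
      ((fd ((i : ℕ) + 2)).wt k / 2)) (Continuous.const_smul ?_ (t ^ ((i : ℕ) + 2)))
    exact continuous_word_end X hP C ((i : ℕ) + 2)
  have hWm' : ∀ i, Measurable fun z => ENNReal.ofReal (c i) * ‖Wd i z‖ₑ :=
    fun i => measurable_const.mul (hWm i)
  rw [lintegral_finsetSum _ fun i _ => hWm' i]
  simp only [lintegral_const_mul' _ _ ENNReal.ofReal_ne_top]
  refine (add_le_add (Finset.sum_le_sum (g := fun i => ENNReal.ofReal (c i * E0))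
    fun i _ => (mul_le_mul_right (hWd i) _).trans (le_of_eq ?_)) hP1).trans ?_
  · rw [← ENNReal.ofReal_mul (by positivity)]
  rw [← ENNReal.ofReal_sum_of_nonneg fun i _ => by positivity,
    ← ENNReal.ofReal_add (Finset.sum_nonneg fun i _ => by positivity) (by positivity)]
  exact ENNReal.ofReal_le_ofReal (le_of_eq (by simp only [c, E0]; ring))

end Vale.Agent.P347.Gamma0.Words
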