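import Vale.Agent.P347.Gamma0.StagePar
import Vale.Agent.P347.Gamma0.WordErr

/-!
P347, towards `γ_* = 0`, piece 4 (regularity): the statements about derivatives in `q` along the
exact flow, in the form of `Build.GridOrd`.  Each integrand agrees on `[0, T]` with a continuous
function whose `n`-th derivative in time is at most `(√τ / (τ - t²))^n C √d` in `L²`.
-/

namespace Vale.Agent.P347.Gamma0

open MeasureTheory Set
open scoped ContDiff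

namespace Reg

/-- `f` agrees on `[0, T]` with a continuous function whose `n`-th time derivative is bounded in
mean square at the rate `√τ / (τ - t²)`. -/
def TimeBound {Ω : Type} [MeasurableSpace Ω] [TopologicalSpace Ω] {d : ℕ} (n : ℕ) (τ T : ℝ)
    (μ : Measure Ω) (f : ℝ → Ω → E d) (B : ℝ) : Prop :=
  ∃ F : ℝ → Ω → E d, Continuous (fun p : ℝ × Ω => F p.1 p.2) ∧
    (∀ t ∈ Icc 0 T, ∀ z, F t z = f t z) ∧
    (∀ z, ∀ t ∈ Icc 0 T, ContDiffAt ℝ n (fun u => F u z) t) ∧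
    ∀ t ∈ Icc 0 T, Picard.L2le μ (fun z => iteratedDeriv n (fun u => F u z) t)
      ((Real.sqrt τ / (τ - t ^ 2)) ^ n * B)

/-- The mean gradient along the flow from a Gaussian start. -/
def RegGq : Prop :=
  ∀ n : ℕ, 1 ≤ n → ∃ C : ℝ, 0 ≤ C ∧ ∀ d : ℕ, ∀ D : Data d, D.τ ≤ 1 → ∀ X : ExFlow D,
    ∀ T : ℝ, 0 ≤ T → T ∈ D.I →
      TimeBound n D.τ T (gam d) (fun t R => D.Gq t (X.Φ 0 t R)) (C * Real.sqrt d)

/-- The first word along the backward trajectory. -/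
def RegApath : Prop :=
  ∀ n : ℕ, 1 ≤ n → ∃ C : ℝ, 0 ≤ C ∧ ∀ d : ℕ, ∀ D : Data d, D.τ ≤ 1 → ∀ X : ExFlow D,
    ∀ q₁ : ℝ, 0 ≤ q₁ → q₁ ∈ D.I →
      TimeBound n D.τ q₁ ((ExFlow.law D q₁).prod (gam d))
        (fun r z => Words.apath X q₁ z.1 r z.2) (C * Real.sqrt d)

/-- The integrand of the word system. -/
def RegSys : Prop :=
  ∀ n : ℕ, 1 ≤ n → ∀ na : ℕ, ∃ C : ℝ, 0 ≤ C ∧ ∀ d : ℕ, ∀ D : Data d, D.τ ≤ 1 → ∀ X : ExFlow D,
    ∀ q₁ : ℝ, 0 ≤ q₁ → q₁ ∈ D.I → ∀ k : ℕ, k ≤ na → ∀ s : ℝ, |s| ≤ 1 → ∀ m : ℕ, m ≤ k →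
      TimeBound n D.τ q₁ ((ExFlow.law D q₁).prod (Words.gamB d na))
        (fun r z => Words.sysInt X k q₁ s r m z) (C * Real.sqrt d)

end Reg

end Vale.Agent.P347.Gamma0
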