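import Vale.Agent.P347.Gamma0.RegBlock
import Vale.Agent.P347.Gamma0.RegPath
import Vale.Agent.P347.Gamma0.RegMoment
import Vale.Agent.P347.Gamma0.RegStmt

/-!
P347, towards `γ_* = 0`, piece 4 (regularity): the time derivatives of the integrand of the word
system along the exact flow.
-/

namespace Vale.Agent.P347.Gamma0

namespace Reg

open MeasureTheory Sobolev Set
open scoped ContDiff ENNReal

set_option linter.unusedSectionVars false

attribute [local irreducible] G nW psi

variable {d na : ℕ}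

/-- The transposed fibre matrix of the word system. -/
noncomputable def sysJ (D : Data d) (k : ℕ) (s : ℝ) :
    Fin (na + 1) × Fin d → Fin (na + 1) × Fin d → ℝ → E d → ℝ :=
  fun c e q w => (-s) * blockJ (fun i : Fin na => Words.phiC k i) (fun a b => aC D b a) c e q w

/-- The starting matrix of a level, transposed. -/
noncomputable def sysM (D : Data d) (k : ℕ) (p : Fin (na + 1)) :
    Fin (na + 1) × Fin d → Fin d → ℝ → E d → ℝ :=
  fun c a q w => bK (fun i : Fin na => Words.phiC k i q) p c.1 * aC D a c.2 q w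

/-- The time derivatives of the integrand of the word system. -/
theorem regSys (hP : PostFacts) (hT : TameFact) (hLT : LawTransport) : RegSys := by
  intro n _ na
  obtain ⟨Ca, hCa0, hCa⟩ := exists_aMul_a hP hT (n + 2) n
  obtain ⟨C, hC0, hC⟩ := exists_seq_mat hP hT n (2 * na * (2 ^ n * Ca)) (2 * na * (2 ^ n * Ca))
  refine ⟨C, hC0, fun d D hτ X q₁ h0 h1 k hk s hs m hm => ?_⟩
  obtain ⟨a, b, Y, W, ha, hb, hI, hYc, hWc, hW, hY, hYeq, hlaw⟩ :=
    exists_sysPath hP (nwHeat_of_post hP) hLT X h1 h0 hτ (na := na) k s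
  have hmna : m < na + 1 := Nat.lt_succ_of_le (hm.trans hk)
  set p₀ : Fin (na + 1) := ⟨m, hmna⟩
  set S := baseSys hP D hT hτ
  have hadm : ∀ t (ht : t ∈ D.I), Adm hP D hT hτ (stdPt hP hT D hτ ht) ∧
      1 ≤ (stdPt hP hT D hτ ht).lam := fun t ht =>
    ⟨(stdPt_adm hP hT D hτ ht).1, (stdPt_adm hP hT D hτ ht).2.2⟩
  have hJat : ∀ t (ht : t ∈ D.I), Sys.AMul (stdPt hP hT D hτ ht) (n + 2) n (sysJ (na := na) D k s)
      ((2 * na * (2 ^ n * Ca)) * (stdPt hP hT D hτ ht).lam) := fun t ht => by
    obtain ⟨hA, hl⟩ := hadm t ht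
    have h := Sys.AMul.smul (-s) n (aMul_blockJ (na := na) hP hT hA hCa0 (hCa d D hτ _ hA).2 k)
    refine Sys.AMul.mono _ _ n h (by positivity) ?_
    rw [abs_neg]
    calc |s| * (2 * na * (2 ^ n * Ca)) ≤ 1 * (2 * na * (2 ^ n * Ca)) := by gcongr
      _ ≤ _ := by
          rw [one_mul]
          exact le_mul_of_one_le_right (by positivity) hl
  have hMat : ∀ t (ht : t ∈ D.I), Sys.AMul (stdPt hP hT D hτ ht) (n + 2) n (sysM (na := na) D k p₀)
      (2 * na * (2 ^ n * Ca)) := fun t ht => by
    obtain ⟨hA, -⟩ := hadm t ht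
    have hB := aMul_blockJ (na := na) hP hT hA hCa0 (hCa d D hτ _ hA).2 k
    have h := Sys.AMul.smul (-1) n (Sys.AMul.conj n opLe_id (opLe_emb (d := d) p₀) hB)
    rw [abs_neg, abs_one, one_mul, one_mul, mul_one] at h
    refine Sys.AMul.congr n h (fun c a => ?_) fun c a q _ w => ?_
    · have hφ : ∀ i : Fin na, ContDiff ℝ ∞ (Words.phiC k i) := fun i => by
        unfold Words.phiC Build.phi
        split_ifs <;> fun_prop
      exact (Alg.qfun (ContDiff.sum fun i _ => (hφ i).mul contDiff_const)).mul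
        ((Sys.AMul.base _ (hCa d D hτ _ hA).1).1 a c.2)
    · simp only [sysM, Sys.conjT, blockJ, emb, bK_swap _ p₀, ite_mul, one_mul, zero_mul,
        mul_ite, mul_one, mul_zero, Fintype.sum_prod_type, ite_and]
      simp [Prod.ext_iff, ite_and, Finset.sum_ite_eq, Finset.sum_ite_eq']
      rw [bK_swap _ c.1 p₀]
      ring
  set Fz : Fin d × (Fin (na + 1) × Fin d) → ℝ → E d → ℝ :=
    fun p => sysM (na := na) D k p₀ p.2 p.1
  have hJok : ∀ c e, S.ok (sysJ (na := na) D k s c e) := fun c e =>
    (Sys.AMul.base _ (hJat 0 D.zero_mem)).1 c e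
  have hFz : S.OkF Fz := fun p => (Sys.AMul.base _ (hMat 0 D.zero_mem)).1 p.2 p.1
  set Fn : ℕ → Fin d × (Fin (na + 1) × Fin d) → ℝ → E d → ℝ :=
    fun j => (Sys.stepF (S := S) (sysJ (na := na) D k s))^[j] Fz
  set f : ℕ → ℝ → E d × Words.Blk d na → E d := fun j r z =>
    WithLp.toLp 2 fun i => ∑ c, Fn j (i, c) r (W r z.1) * Y r z c.1 c.2
  have hab : a ≤ b := by linarith
  have hmem : ∀ r ∈ Icc 0 q₁, r ∈ Ioo a b := fun r hr =>
    ⟨ha.trans_le hr.1, hr.2.trans_lt hb⟩
  have hchain : ∀ z j, ∀ r ∈ Ioo a b, HasDerivAt (fun u => f j u z) (f (j + 1) r z) r := by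
    intro z j r hr
    have hrI : r ∈ D.I := hI ⟨hr.1.le, hr.2.le⟩
    refine (PiLp.continuousLinearEquiv 2 ℝ (fun _ : Fin d => ℝ)).symm.toContinuousLinearMap
      |>.hasFDerivAt.comp_hasDerivAt r (hasDerivAt_pi.2 fun i => ?_)
    simp only [Fn, Function.iterate_succ_apply']
    refine Sys.hasDerivAt_stepF (S := S) (Sys.okF_iter hJok hFz j) (q := r) hrI
      (p := fun u => W u z.1) (hW r hr z.1).2 (fun i => rfl)
      (Y := fun u c => Y u z c.1 c.2) (fun c => ?_) i
    have hproj : HasDerivAt (fun u => Y u z c.1 c.2)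
        ((s • Words.blk (fun i : Fin na => Words.phiC k i r) (D.aq r (W r z.1)) (Y r z)) c.1 c.2) r :=
      ((EuclideanSpace.proj (𝕜 := ℝ) c.2).comp
        (PiLp.proj 2 (fun _ : Fin (na + 1) => E d) c.1 : Words.Blk d na →L[ℝ] E d)).hasFDerivAt
        |>.comp_hasDerivAt r (hY z r hr)
    refine hproj.congr_deriv ?_
    rw [PiLp.smul_apply, PiLp.smul_apply, smul_eq_mul, blk_apply, Finset.mul_sum]
    refine Finset.sum_congr rfl fun e _ => ?_
    simp only [sysJ, blockJ, aC, bK_swap _ c.1 e.1]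
    ring
  refine ⟨fun r z => Words.lvl (Words.blk (fun i : Fin na => Words.phiC k i (clamp a b r))
    (D.aq (clamp a b r) (W (clamp a b r) z.1)) (Y (clamp a b r) z)) m, ?_, ?_, ?_, ?_⟩
  · have hc : Continuous fun p : ℝ × E d × Words.Blk d na => clamp a b p.1 :=
      (continuous_clamp a b).comp continuous_fst
    have hw : Continuous fun p : ℝ × E d × Words.Blk d na => W (clamp a b p.1) p.2.1 :=
      hWc.comp (hc.prodMk (continuous_fst.comp continuous_snd))
    have haq : Continuous fun p : ℝ × E d × Words.Blk d na =>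
        D.aq (clamp a b p.1) (W (clamp a b p.1) p.2.1) :=
      (ExFlow.contDiffOn_aq hP).continuousOn.comp_continuous (hc.prodMk hw)
        fun p => ⟨hI (clamp_mem hab _), mem_univ _⟩
    exact (Words.continuous_lvl m).comp ((Words.continuous_gen_param k hc haq).clm_apply
      (hYc.comp (hc.prodMk continuous_snd)))
  · intro r hr z
    have hr' : r ∈ Icc a b := Ioo_subset_Icc_self (hmem r hr)
    simp only [clamp_eq hr', Words.sysInt, Words.gen, Words.apath, Words.cl_eq hr, hYeq r hr z,
      (hW r (hmem r hr) z.1).1]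
  all_goals
    have hF0 : ∀ z, ∀ r ∈ Ioo a b, Words.lvl (Words.blk (fun i : Fin na => Words.phiC k i (clamp a b r))
        (D.aq (clamp a b r) (W (clamp a b r) z.1)) (Y (clamp a b r) z)) m = f 0 r z := fun z r hr => by
      rw [clamp_eq ⟨hr.1.le, hr.2.le⟩, Words.lvl, dif_pos hmna]
      ext i
      rw [blk_apply]
      simp only [f, Fn, Function.iterate_zero, id_eq, Fz, sysM, aC, p₀]
  · intro z t ht
    refine ((((chain_iterate_open isOpen_Ioo (h := fun j u => f j u z)
      (fun j => hchain z j) n).2 0).congr fun r hr => hF0 z r hr).contDiffAt ?_)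
    exact isOpen_Ioo.mem_nhds (hmem t ht)
  · intro t ht
    have htI : t ∈ D.I := hI (Ioo_subset_Icc_self (hmem t ht))
    have hd : ∀ z, iteratedDeriv n (fun u => Words.lvl (Words.blk
        (fun i : Fin na => Words.phiC k i (clamp a b u))
        (D.aq (clamp a b u) (W (clamp a b u) z.1)) (Y (clamp a b u) z)) m) t = f n t z := fun z => by
      have e : (fun u => Words.lvl (Words.blk (fun i : Fin na => Words.phiC k i (clamp a b u))
          (D.aq (clamp a b u) (W (clamp a b u) z.1)) (Y (clamp a b u) z)) m)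
          =ᶠ[nhds t] fun u => f 0 u z :=
        Filter.eventually_of_mem (isOpen_Ioo.mem_nhds (hmem t ht)) fun r hr => hF0 z r hr
      rw [e.iteratedDeriv_eq n]
      exact (chain_iterate_open isOpen_Ioo (h := fun j u => f j u z) (fun j => hchain z j) n).1 t
        (hmem t ht)
    have htame : ∀ p, Tame (Fn n p t) := fun p =>
      S.ok_tame (Sys.okF_iter hJok hFz n p) t htI
    set Φ : E d × Words.Blk d na → ℝ≥0∞ := fun y =>
      ENNReal.ofReal (∑ i, (∑ p, ∑ e, Fn n (i, (p, e)) t y.1 * y.2 p e) ^ 2)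
    have hΦ : Measurable Φ := by
      refine Measurable.ennreal_ofReal (Continuous.measurable ?_)
      refine continuous_finsetSum _ fun i _ => Continuous.pow ?_ 2
      refine continuous_finsetSum _ fun p _ => continuous_finsetSum _ fun e _ => ?_
      exact ((htame _).continuous.comp continuous_fst).mul
        ((continuous_apply e).comp ((PiLp.continuous_ofLp 2 _).comp
          ((PiLp.continuous_apply 2 _ p).comp continuous_snd)))
    unfold Picard.L2le
    have e1 : ∀ z, ‖iteratedDeriv n (fun u => Words.lvl (Words.blk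
        (fun i : Fin na => Words.phiC k i (clamp a b u))
        (D.aq (clamp a b u) (W (clamp a b u) z.1)) (Y (clamp a b u) z)) m) t‖ₑ ^ 2
        = Φ (W t z.1, Y t z) := fun z => by
      rw [hd z, ← ofReal_norm_eq_enorm, ← ENNReal.ofReal_pow (norm_nonneg _),
        EuclideanSpace.real_norm_sq_eq]
      simp [Φ, f, Fintype.sum_prod_type]
    rw [lintegral_congr e1, (hlaw t ht).lintegral_comp hΦ]
    have := ExFlow.isProb_law hP (nwHeat_of_post hP) hLT htI X
    rw [lintegral_prod _ hΦ.aemeasurable]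
    simp only [Φ, lintegral_matvec_gamB]
    refine (le_of_eq (lintegral_congr fun w => ?_)).trans
      ((hC d D hτ t htI (sysJ (na := na) D k s) (sysM (na := na) D k p₀) (hJat t htI)
        (hMat t htI)).trans_eq ?_)
    · simp only [Fintype.sum_prod_type]
      rfl
    · congr 1
      rw [mul_pow, mul_pow, mul_pow C, Real.sq_sqrt (Nat.cast_nonneg d)]
      ring

end Reg

end Vale.Agent.P347.Gamma0
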