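import Vale.Agent.P347.Gamma0.GReal
import Vale.Agent.P347.MeanAux
import Vale.Agent.P347.Chain

/-!
P347, towards `γ_* = 0`: random maps computed with few evaluations whose law is close, against
`1`-Lipschitz tests, to a target; combinators.
-/

namespace Vale.Agent.P347.Gamma0

open MeasureTheory ProbabilityTheory

variable {d : ℕ} {ι : Type} [Fintype ι]

local instance (m : ℕ) : IsProbabilityMeasure (gam m) := by unfold gam; infer_instance

/-- A quantity depending on the potential, the field and the inputs. -/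
abbrev Dep (d : ℕ) (ι α : Type) := (E d → ℝ) → (E d → E d) → (ι → E d) → α

/-- The inputs extended by one vector. -/
def cons (C : E d) (x : ι → E d) : Option ι → E d := fun o => o.elim C x

lemma continuous_cons (x : ι → E d) : Continuous fun C => cons C x := by
  refine continuous_pi fun o => ?_
  cases o <;> simp only [cons, Option.elim]
  · exact continuous_id
  · exact continuous_const

lemma measurable_cons : Measurable fun p : E d × (ι → E d) => cons p.1 p.2 := by
  refine measurable_pi_lambda _ fun o => ?_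
  cases o <;> simp only [cons, Option.elim]
  · exact measurable_fst
  · exact (measurable_pi_apply _).comp measurable_snd

/-- A random map with at most `cost` evaluations which is `B`-close to the target `T`. -/
def Draws (d cost : ℕ) {ι : Type} [Fintype ι] (T : Dep d ι ((E d → ℝ) → ℝ)) (B : Dep d ι ℝ) :
    Prop :=
  ∃ (Ω : Type) (_ : MeasurableSpace Ω) (μ : Measure Ω) (_ : IsProbabilityMeasure μ)
    (F : (E d → E d) → Ω × (ι → E d) → E d), AlgoRun.Gen μ ∧ GReal d cost F ∧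
    ∀ U g, Pot U g → g 0 = 0 → ∀ x, Integrable (fun w => ‖F g (w, x)‖) μ ∧
      ∀ φ, Lip1 φ → |(∫ w, φ (F g (w, x)) ∂μ) - T U g x φ| ≤ B U g x

/-- The Gaussian target with mean `m` and variance `v`. -/
noncomputable def gT (v : ℝ) (m : Dep d ι (E d)) : Dep d ι ((E d → ℝ) → ℝ) :=
  fun U g x φ => sm v φ (m U g x)

lemma Lip1.norm : Lip1 (fun x : E d => ‖x‖) := lipschitzWith_one_norm

lemma Lip1.abs_le {φ : E d → ℝ} (hφ : Lip1 φ) (x : E d) : |φ x| ≤ |φ 0| + ‖x‖ := by
  have h := hφ.dist_le_mul x 0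
  simp [Real.dist_eq] at h
  linarith [abs_sub_abs_le_abs_sub (φ x) (φ 0)]

lemma Lip1.shift {φ : E d → ℝ} (hφ : Lip1 φ) (a : E d) : Lip1 fun x => φ (x + a) := by
  show LipschitzWith 1 _
  have h : LipschitzWith (1 * 1) (φ ∘ fun x : E d => x + a) :=
    LipschitzWith.comp hφ (by simpa using (LipschitzWith.id (α := E d)).add (LipschitzWith.const a))
  simpa [Function.comp_def] using h

lemma integrable_lip {Ω : Type*} [MeasurableSpace Ω] {μ : Measure Ω} [IsFiniteMeasure μ]
    {φ : E d → ℝ} (hφ : Lip1 φ) {X : Ω → E d} (hX : Measurable X)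
    (hi : Integrable (fun w => ‖X w‖) μ) : Integrable (fun w => φ (X w)) μ :=
  ((integrable_const |φ 0|).add hi).mono' (hφ.continuous.measurable.comp hX).aestronglyMeasurable
    (ae_of_all _ fun w => by simpa [Real.norm_eq_abs] using hφ.abs_le (X w))

lemma integrable_lip_gam {φ : E d → ℝ} (hφ : Lip1 φ) (x : E d) (s : ℝ) :
    Integrable (fun w => φ (x + s • w)) (gam d) := by
  refine integrable_lip hφ (by fun_prop) ?_
  refine ((integrable_const ‖x‖).add ((Mean.integrable_norm d).const_mul |s|)).mono'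
    (by fun_prop) (ae_of_all _ fun w => ?_)
  simpa [norm_smul] using norm_add_le x (s • w)

lemma lip_sm {φ : E d → ℝ} (hφ : Lip1 φ) (v : ℝ) : Lip1 (sm v φ) := by
  refine LipschitzWith.of_dist_le_mul fun x y => ?_
  have h1 := integrable_lip_gam hφ x (Real.sqrt v)
  have h2 := integrable_lip_gam hφ y (Real.sqrt v)
  rw [Real.dist_eq, sm, sm, ← integral_sub h1 h2]
  refine abs_integral_le_integral_abs.trans ?_
  refine (integral_mono (h1.sub h2).abs (integrable_const (dist x y)) fun w => ?_).trans (by simp)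
  simpa [Real.dist_eq, dist_eq_norm] using
    hφ.dist_le_mul (x + Real.sqrt v • w) (y + Real.sqrt v • w)

lemma sm_norm_le (v : ℝ) (a : E d) : sm v (fun x => ‖x‖) a ≤ ‖a‖ + Real.sqrt v * Real.sqrt d := by
  have hi : Integrable (fun w : E d => ‖a‖ + Real.sqrt v * ‖w‖) (gam d) :=
    (integrable_const _).add ((Mean.integrable_norm d).const_mul _)
  refine (integral_mono (integrable_lip_gam Lip1.norm a _) hi fun w => ?_).trans ?_
  · simpa [norm_smul, abs_of_nonneg (Real.sqrt_nonneg v)] using norm_add_le a (Real.sqrt v • w)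
  · rw [integral_add (integrable_const _) ((Mean.integrable_norm d).const_mul _),
      integral_const_mul]
    simpa using mul_le_mul_of_nonneg_left (Mean.integral_norm_le d) (Real.sqrt_nonneg v)

/-- Smoothing twice. -/
lemma sm_add {φ : E d → ℝ} (hφ : Lip1 φ) {a b : ℝ} (ha : 0 ≤ a) (hb : 0 ≤ b) (x : E d) :
    sm (a + b) φ x = sm a (sm b φ) x := by
  have hsq : Real.sqrt a ^ 2 + Real.sqrt b ^ 2 = Real.sqrt (a + b) ^ 2 := by
    rw [Real.sq_sqrt ha, Real.sq_sqrt hb, Real.sq_sqrt (add_nonneg ha hb)]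
  have hg := P157.gauss_add (E := E d) hsq
  have hm : Measurable fun z => φ (x + z) := hφ.continuous.measurable.comp (by fun_prop)
  have h1 : sm (a + b) φ x
      = ∫ z, φ (x + z) ∂(stdGaussian (E d)).map (fun g => Real.sqrt (a + b) • g) := by
    rw [integral_map (Measurable.aemeasurable (by fun_prop)) hm.aestronglyMeasurable]
    rfl
  rw [h1, ← hg, integral_map (Measurable.aemeasurable (by fun_prop)) hm.aestronglyMeasurable,
    integral_prod]
  · simp only [sm, gam, add_assoc]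
  · have hl : Lip1 fun u => φ (x + u) := by simpa [add_comm] using hφ.shift x
    refine integrable_lip (μ := (stdGaussian (E d)).prod (stdGaussian (E d)))
      (φ := fun u => φ (x + u))
      (X := fun p => Real.sqrt a • p.1 + Real.sqrt b • p.2) hl (by fun_prop) ?_
    · have i1 := (((Mean.integrable_norm d).const_mul |Real.sqrt a|).comp_fst (gam d)).add
        (((Mean.integrable_norm d).const_mul |Real.sqrt b|).comp_snd (gam d))
      exact i1.mono' (by fun_prop) (ae_of_all _ fun p => by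
        simpa [norm_smul] using norm_add_le (Real.sqrt a • p.1) (Real.sqrt b • p.2))

lemma integrable_norm_pair {A B : Type*} [MeasurableSpace A] [MeasurableSpace B] {μ : Measure A}
    {ν : Measure B} [IsFiniteMeasure μ] [IsFiniteMeasure ν] {X : A × B → E d} (hX : Measurable X)
    (h : ∀ a, Integrable (fun b => ‖X (a, b)‖) ν) {f : A → ℝ} (hf : Integrable f μ)
    (hb : ∀ a, ∫ b, ‖X (a, b)‖ ∂ν ≤ f a) : Integrable (fun p => ‖X p‖) (μ.prod ν) := by
  rw [integrable_prod_iff hX.norm.aestronglyMeasurable]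
  refine ⟨ae_of_all _ h, hf.mono'
    hX.norm.norm.stronglyMeasurable.integral_prod_right'.aestronglyMeasurable (ae_of_all _ fun a => ?_)⟩
  simp only [norm_norm]
  rw [Real.norm_of_nonneg (integral_nonneg fun b => norm_nonneg _)]
  exact hb a

namespace Draws

variable {cost cost' : ℕ} {T T' : Dep d ι ((E d → ℝ) → ℝ)} {B B' : Dep d ι ℝ}

lemma mono (h : Draws d cost T B) (hc : cost ≤ cost')
    (hB : ∀ U g, Pot U g → g 0 = 0 → ∀ x φ, Lip1 φ → B U g x + |T U g x φ - T' U g x φ| ≤ B' U g x) :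
    Draws d cost' T' B' := by
  obtain ⟨Ω, _, μ, _, F, hG, hF, h⟩ := h
  refine ⟨Ω, inferInstance, μ, inferInstance, F, hG, hF.mono hc, fun U g hU hg x => ?_⟩
  obtain ⟨hi, hb⟩ := h U g hU hg x
  refine ⟨hi, fun φ hφ => ?_⟩
  have := abs_sub_le (∫ w, φ (F g (w, x)) ∂μ) (T U g x φ) (T' U g x φ)
  linarith [hb φ hφ, hB U g hU hg x φ hφ]

/-- A known point plus Gaussian noise. -/
lemma const {e : Expr ι} (s : ℝ) :
    Draws d e.nodes (fun _ g x φ => sm (s ^ 2) φ (e.val (fun _ => g) x)) fun _ _ _ => 0 := by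
  refine ⟨E d, inferInstance, gam d, inferInstance,
    fun g p => e.val (fun _ => g) p.2 + |s| • p.1, AlgoRun.gen_gam d, ?_, fun U g hU hg x => ?_⟩
  · exact (((GReal.expr e).carry (W := E d)).precomp (φ := fun p : E d × (ι → E d) => (p.2, p.1))
      measurable_swap).postcomp (φ := fun p : E d × E d => p.2 + |s| • p.1) (by fun_prop)
  · refine ⟨?_, fun φ hφ => by simp [sm, Real.sqrt_sq_eq_abs]⟩
    exact integrable_lip_gam (φ := fun u => ‖u‖) Lip1.norm (e.val (fun _ => g) x) |s|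

/-- Independent sums. -/
lemma add {v₁ v₂ : ℝ} (h1 : 0 ≤ v₁) (h2 : 0 ≤ v₂) {m₁ m₂ : Dep d ι (E d)} {B₁ B₂ : Dep d ι ℝ}
    {c₁ c₂ : ℕ} (hd₁ : Draws d c₁ (gT v₁ m₁) B₁) (hd₂ : Draws d c₂ (gT v₂ m₂) B₂) :
    Draws d (c₁ + c₂) (gT (v₁ + v₂) fun U g x => m₁ U g x + m₂ U g x)
      fun U g x => B₁ U g x + B₂ U g x := by
  obtain ⟨Ω₁, _, μ₁, _, F₁, hG₁, hF₁, h₁⟩ := hd₁
  obtain ⟨Ω₂, _, μ₂, _, F₂, hG₂, hF₂, h₂⟩ := hd₂
  refine ⟨Ω₁ × Ω₂, inferInstance, μ₁.prod μ₂, inferInstance,
    fun g p => F₁ g (p.1.1, p.2) + F₂ g (p.1.2, p.2), AlgoRun.gen_prod hG₁ hG₂, ?_,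
    fun U g hU hg x => ?_⟩
  · exact ((hF₁.precomp (φ := fun p : (Ω₁ × Ω₂) × (ι → E d) => (p.1.1, p.2)) (by fun_prop)).pair
      (hF₂.precomp (φ := fun p : (Ω₁ × Ω₂) × (ι → E d) => (p.1.2, p.2)) (by fun_prop))).postcomp
      (φ := fun p : E d × E d => p.1 + p.2) (by fun_prop)
  · obtain ⟨i1, b1⟩ := h₁ U g hU hg x
    obtain ⟨i2, b2⟩ := h₂ U g hU hg x
    have hgc := hU.lip.continuous
    have hm1 : Measurable fun w => F₁ g (w, x) := (hF₁.measurable hgc).comp (by fun_prop)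
    have hm2 : Measurable fun w => F₂ g (w, x) := (hF₂.measurable hgc).comp (by fun_prop)
    have hm : Measurable fun w : Ω₁ × Ω₂ => F₁ g (w.1, x) + F₂ g (w.2, x) :=
      (hm1.comp measurable_fst).add (hm2.comp measurable_snd)
    have hi : Integrable (fun w : Ω₁ × Ω₂ => ‖F₁ g (w.1, x) + F₂ g (w.2, x)‖) (μ₁.prod μ₂) :=
      ((i1.comp_fst μ₂).add (i2.comp_snd μ₁)).mono' hm.norm.aestronglyMeasurable
        (ae_of_all _ fun w => by simpa using norm_add_le (F₁ g (w.1, x)) (F₂ g (w.2, x)))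
    refine ⟨hi, fun φ hφ => ?_⟩
    have hψ : Lip1 (sm v₂ fun u => φ (u + 0)) := by simpa using lip_sm hφ v₂
    set ψ : E d → ℝ := fun u => sm v₂ φ (u + m₂ U g x) with hψdef
    have hψl : Lip1 ψ := (lip_sm hφ v₂).shift _
    have hA : ∀ a, |(∫ w, φ (a + F₂ g (w, x)) ∂μ₂) - ψ a| ≤ B₂ U g x := fun a => by
      have := b2 (fun u => φ (u + a)) (hφ.shift a)
      simp only [gT, sm] at this
      simpa [hψdef, sm, add_comm, add_left_comm, add_assoc] using this
    have hI := integrable_lip hφ hm hi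
    rw [integral_prod _ hI]
    have e1 : |(∫ a, (∫ w, φ (F₁ g (a, x) + F₂ g (w, x)) ∂μ₂) ∂μ₁) - ∫ a, ψ (F₁ g (a, x)) ∂μ₁|
        ≤ B₂ U g x := by
      rw [← integral_sub hI.integral_prod_left (integrable_lip hψl hm1 i1)]
      refine abs_integral_le_integral_abs.trans ?_
      refine (integral_mono (hI.integral_prod_left.sub (integrable_lip hψl hm1 i1)).abs
        (integrable_const _) fun a => hA (F₁ g (a, x))).trans (by simp)
    have e2 := b1 ψ hψl
    have e3 : gT v₁ m₁ U g x ψ = gT (v₁ + v₂) (fun U g x => m₁ U g x + m₂ U g x) U g x φ := by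
      simp only [gT, sm_add hφ h1 h2]
      simp only [hψdef, sm]
      congr 1
      funext w
      congr 1
      funext u
      congr 1
      abel
    rw [e3] at e2
    exact ((abs_sub_le _ (∫ a, ψ (F₁ g (a, x)) ∂μ₁) _).trans (add_le_add e1 e2)).trans
      (le_of_eq (add_comm _ _))

/-- A numeric draw followed by a map which uses it as an input. -/
lemma bind {v : ℝ} {m : Dep d ι (E d)} {B₁ : Dep d ι ℝ} {c₁ c₂ : ℕ}
    {T₂ : Dep d (Option ι) ((E d → ℝ) → ℝ)} {B₂ : Dep d (Option ι) ℝ}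
    (α β L : Dep d ι ℝ) (hd₁ : Draws d c₁ (gT v m) B₁) (hd₂ : Draws d c₂ T₂ B₂)
    (hB₂ : ∀ U g, Pot U g → g 0 = 0 → ∀ x, 0 ≤ β U g x ∧ 0 ≤ L U g x ∧
      ∀ C, B₂ U g (cons C x) ≤ α U g x + β U g x * ‖C‖)
    (hT₂ : ∀ U g, Pot U g → g 0 = 0 → ∀ x φ, Lip1 φ → ∀ C C',
      |T₂ U g (cons C x) φ - T₂ U g (cons C' x) φ| ≤ L U g x * ‖C - C'‖) :
    Draws d (c₁ + c₂)
      (fun U g x φ => sm v (fun C => T₂ U g (cons C x) φ) (m U g x))
      (fun U g x => α U g x + β U g x * (‖m U g x‖ + Real.sqrt v * Real.sqrt d + B₁ U g x)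
        + L U g x * B₁ U g x) := by
  obtain ⟨Ω₁, _, μ₁, _, F₁, hG₁, hF₁, h₁⟩ := hd₁
  obtain ⟨Ω₂, _, μ₂, _, F₂, hG₂, hF₂, h₂⟩ := hd₂
  have hc := measurable_cons (d := d) (ι := ι)
  refine ⟨Ω₁ × Ω₂, inferInstance, μ₁.prod μ₂, inferInstance,
    fun g p => F₂ g (p.1.2, cons (F₁ g (p.1.1, p.2)) p.2), AlgoRun.gen_prod hG₁ hG₂, ?_,
    fun U g hU hg x => ?_⟩
  · exact ((hF₁.carry (W := Ω₂ × (ι → E d))).precomp
      (φ := fun p : (Ω₁ × Ω₂) × (ι → E d) => ((p.1.1, p.2), (p.1.2, p.2))) (by fun_prop)).comp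
      (hF₂.precomp (φ := fun p : (Ω₂ × (ι → E d)) × E d => (p.1.1, cons p.2 p.1.2))
        ((measurable_fst.comp measurable_fst).prodMk
          (hc.comp (measurable_snd.prodMk (measurable_snd.comp measurable_fst)))))
  obtain ⟨i1, b1⟩ := h₁ U g hU hg x
  obtain ⟨hβ, hL, hα⟩ := hB₂ U g hU hg x
  have hgc := hU.lip.continuous
  have hm1 : Measurable fun w => F₁ g (w, x) := (hF₁.measurable hgc).comp (by fun_prop)
  have hm : Measurable fun w : Ω₁ × Ω₂ => F₂ g (w.2, cons (F₁ g (w.1, x)) x) :=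
    (hF₂.measurable hgc).comp (measurable_snd.prodMk
      (hc.comp ((hm1.comp measurable_fst).prodMk measurable_const)))
  have key : ∀ φ, Lip1 φ → ∀ C,
      |(∫ w, φ (F₂ g (w, cons C x)) ∂μ₂) - T₂ U g (cons C x) φ| ≤ α U g x + β U g x * ‖C‖ :=
    fun φ hφ C => ((h₂ U g hU hg (cons C x)).2 φ hφ).trans (hα C)
  have lipT : ∀ φ, Lip1 φ →
      LipschitzWith (L U g x).toNNReal fun C => T₂ U g (cons C x) φ := fun φ hφ =>
    LipschitzWith.of_dist_le_mul fun C C' => by
      rw [Real.dist_eq, dist_eq_norm, Real.coe_toNNReal _ hL]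
      exact hT₂ U g hU hg x φ hφ C C'
  have intT : ∀ φ, Lip1 φ → Integrable (fun w => T₂ U g (cons (F₁ g (w, x)) x) φ) μ₁ := fun φ hφ =>
    ((integrable_const |T₂ U g (cons 0 x) φ|).add (i1.const_mul (L U g x))).mono'
      ((lipT φ hφ).continuous.measurable.comp hm1).aestronglyMeasurable (ae_of_all _ fun w => by
        have := hT₂ U g hU hg x φ hφ (F₁ g (w, x)) 0
        simp only [sub_zero] at this
        simp only [Real.norm_eq_abs, Pi.add_apply]
        linarith [abs_sub_abs_le_abs_sub (T₂ U g (cons (F₁ g (w, x)) x) φ) (T₂ U g (cons 0 x) φ)])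
  have iN : Integrable (fun w : Ω₁ × Ω₂ => ‖F₂ g (w.2, cons (F₁ g (w.1, x)) x)‖)
      (μ₁.prod μ₂) :=
    integrable_norm_pair (X := fun w : Ω₁ × Ω₂ => F₂ g (w.2, cons (F₁ g (w.1, x)) x)) hm
      (fun a => (h₂ U g hU hg (cons (F₁ g (a, x)) x)).1)
      (((integrable_const (α U g x)).add (i1.const_mul (β U g x))).add ((intT _ Lip1.norm).abs))
      fun a => by
        have := key _ Lip1.norm (F₁ g (a, x))
        simp only [Pi.add_apply]
        linarith [(abs_le.1 this).2, le_abs_self (T₂ U g (cons (F₁ g (a, x)) x) fun y => ‖y‖)]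
  refine ⟨iN, fun φ hφ => ?_⟩
  have hI := integrable_lip hφ hm iN
  rw [integral_prod _ hI]
  have eN : ∫ a, ‖F₁ g (a, x)‖ ∂μ₁ ≤ ‖m U g x‖ + Real.sqrt v * Real.sqrt d + B₁ U g x := by
    have := (abs_le.1 (b1 _ Lip1.norm)).2
    simp only [gT] at this
    linarith [sm_norm_le v (m U g x)]
  have e1 : |(∫ a, (∫ w, φ (F₂ g (w, cons (F₁ g (a, x)) x)) ∂μ₂) ∂μ₁)
      - ∫ a, T₂ U g (cons (F₁ g (a, x)) x) φ ∂μ₁|
      ≤ α U g x + β U g x * (‖m U g x‖ + Real.sqrt v * Real.sqrt d + B₁ U g x) := by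
    rw [← integral_sub hI.integral_prod_left (intT φ hφ)]
    refine abs_integral_le_integral_abs.trans ?_
    refine (integral_mono (hI.integral_prod_left.sub (intT φ hφ)).abs
      ((integrable_const (α U g x)).add (i1.const_mul (β U g x))) fun a => by
        simpa only [Pi.add_apply, Pi.sub_apply] using key φ hφ (F₁ g (a, x))).trans ?_
    simp only [Pi.add_apply]
    rw [integral_add (integrable_const _) (i1.const_mul _), integral_const_mul]
    simpa using mul_le_mul_of_nonneg_left eN hβ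
  have e2 : |(∫ a, T₂ U g (cons (F₁ g (a, x)) x) φ ∂μ₁)
      - sm v (fun C => T₂ U g (cons C x) φ) (m U g x)| ≤ L U g x * B₁ U g x := by
    rcases hL.eq_or_lt with h0 | h0
    · have hc' : ∀ C, T₂ U g (cons C x) φ = T₂ U g (cons 0 x) φ := fun C => by
        have := hT₂ U g hU hg x φ hφ C 0
        rw [← h0, zero_mul] at this
        exact sub_eq_zero.1 (abs_nonpos_iff.1 this)
      simp [sm, hc', ← h0]
    · have hl : Lip1 fun C => (L U g x)⁻¹ * T₂ U g (cons C x) φ := by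
        refine LipschitzWith.of_dist_le_mul fun C C' => ?_
        rw [Real.dist_eq, ← mul_sub, abs_mul, abs_of_pos (inv_pos.2 h0), NNReal.coe_one, one_mul,
          dist_eq_norm, inv_mul_le_iff₀ h0]
        exact hT₂ U g hU hg x φ hφ C C'
      have := b1 _ hl
      simp only [gT, sm, integral_const_mul, ← mul_sub] at this
      rw [abs_mul, abs_of_pos (inv_pos.2 h0), inv_mul_le_iff₀ h0] at this
      simpa [sm] using this
  linarith [abs_sub_le (∫ a, (∫ w, φ (F₂ g (w, cons (F₁ g (a, x)) x)) ∂μ₂) ∂μ₁)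
    (∫ a, T₂ U g (cons (F₁ g (a, x)) x) φ ∂μ₁) (sm v (fun C => T₂ U g (cons C x) φ) (m U g x))]

end Draws

end Vale.Agent.P347.Gamma0
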