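import Vale.Agent.P347.Gamma0.SamplerPot
import Vale.Agent.P347.Zero

/-!
P347, towards `γ_* = 0`: stages of every order give a sampler of one proximal step.
-/

namespace Vale.Agent.P347.Gamma0

open MeasureTheory ProbabilityTheory Filter

local instance (m : ℕ) : IsProbabilityMeasure (gam m) := by unfold gam; infer_instance

lemma StageShape.mono {na N : ℕ} {S : Stage na N} {ε amp amp' L τ ρ w₀ : ℝ}
    (h : StageShape S ε amp L τ ρ w₀) (ha : amp ≤ amp') (hε : 0 ≤ ε) (hL : 0 ≤ L) :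
    StageShape S ε amp' L τ ρ w₀ where
  s_lo := h.s_lo
  s_hi := h.s_hi
  w_sum := h.w_sum
  mean_coef := h.mean_coef
  mean_size := h.mean_size.trans (by gcongr)
  mean_lip := h.mean_lip
  mean_offset := h.mean_offset
  mean_gates p hp := by
    obtain ⟨h1, h2, h3, h4, h5, h6⟩ := h.mean_gates p hp
    exact ⟨h1, h2, h3.trans (by gcongr), h4.trans ha, fun i => (h5 i).trans ha, h6.trans ha⟩
  shift_coef := h.shift_coef
  shift_size j := (h.shift_size j).trans (by gcongr)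
  shift_lip j i := (h.shift_lip j i).trans (by gcongr)
  shift_offset j := (h.shift_offset j).trans (by gcongr)
  shift_gates j p hp := by
    obtain ⟨h1, h2, h3, h4, h5, h6⟩ := h.shift_gates j p hp
    exact ⟨h1, h2, h3.trans (by gcongr), h4.trans ha, fun i => (h5 i).trans ha, h6.trans ha⟩

lemma tendsto_eps {ι p : ℝ} (hι : 0 < ι) (hp : 0 < p) :
    Tendsto (fun d : ℕ => ((d : ℝ) ^ (-ι)) ^ p) atTop (nhds 0) := by
  refine ((tendsto_rpow_neg_atTop (mul_pos hι hp)).comp tendsto_natCast_atTop_atTop).congr fun d => ?_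
  simp only [Function.comp_apply, ← Real.rpow_mul (Nat.cast_nonneg d), neg_mul]

lemma eps_le_of_exp {ε p q : ℝ} (hε : 0 < ε) (hε1 : ε ≤ 1) (h : q ≤ p) : ε ^ p ≤ ε ^ q :=
  Real.rpow_le_rpow_of_exponent_ge hε hε1 h

/-- The parameters at one dimension. -/
lemma par_of {d C K T b J na X : ℕ} {ι δ a ε w₀ : ℝ} (hd : (2 : ℝ) ≤ d) (hι : 0 < ι)
    (hεdef : ε = (d : ℝ) ^ (-ι)) (hJ : J = 8 * K) (hb : b = (C + 1) * (4 * J + 16))
    (hT : T = b * J) (ha : a = 1 / (4 * (b : ℝ))) (hw : 1 ≤ w₀) (hδ : 0 ≤ δ)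
    (hδX : 2 * δ * (2 * T + 6 : ℕ) ≤ ι * a / 2) (hX : ((X : ℝ) + 5) ≤ (d : ℝ) ^ (2 * δ))
    (h12 : ε ^ (a * (C + 1)) ≤ 1 / 12) (h8 : ε ^ a ≤ 1 / 8)
    (hw0 : ε ^ (a / 2) ≤ 1 / (2 * w₀ ^ 2))
    (hstage : ∀ τ γ : ℝ, 0 < τ → τ ≤ 1 → |γ| * Real.sqrt τ ≤ Real.sqrt (Real.sqrt ε) →
      ∃ (N : ℕ) (S : Stage na N), N ≤ X ∧ S.mean.nodes ≤ X ∧ (∀ j, (S.shift j).nodes ≤ X) ∧
        StageShape S ε (ε ^ (-(a * C))) (|γ| * Real.sqrt τ) τ (ε ^ a) w₀ ∧
        StageAccurate d S ε γ τ (ε ^ a) (ε ^ K)) :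
    Par d T b J na X w₀ ε (ε ^ (-(a * (C + 1)))) (ε ^ (a / 2)) (Real.sqrt ε) (ε ^ (1 / 16 : ℝ)) ∧
      ε ^ (a / 2) < 1 ∧ (ε ^ (a / 2)) ^ T = ε ^ K := by
  have hd0 : (0 : ℝ) < d := by linarith
  have hε : 0 < ε := hεdef ▸ Real.rpow_pos_of_pos hd0 _
  have hε1 : ε < 1 := hεdef ▸ Real.rpow_lt_one_of_one_lt_of_neg (by linarith) (by linarith)
  have hbR : (b : ℝ) = ((C : ℝ) + 1) * (4 * (J : ℝ) + 16) := by rw [hb]; push_cast; ring
  have hb0 : (0 : ℝ) < b := by rw [hbR]; positivity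
  have ha0 : 0 < a := ha ▸ by positivity
  have hab : a * b = 1 / 4 := by rw [ha]; field_simp
  have haC : a * ((C : ℝ) + 1) * (4 * (J : ℝ) + 16) = 1 / 4 := by rw [mul_assoc, ← hbR, hab]
  have haC' : a * ((C : ℝ) + 1) ≤ 1 / 64 := by
    nlinarith [mul_nonneg (mul_nonneg ha0.le (by positivity : (0 : ℝ) ≤ (C : ℝ) + 1))
      (Nat.cast_nonneg (α := ℝ) J)]
  have hu2 : (ε ^ (a / 2)) ^ 2 = ε ^ a := by
    rw [← Real.rpow_natCast, ← Real.rpow_mul hε.le]; norm_num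
  have hTu : (ε ^ (a / 2)) ^ T = ε ^ K := by
    rw [← Real.rpow_natCast, ← Real.rpow_mul hε.le, ← Real.rpow_natCast ε K]
    congr 1
    have : (T : ℝ) = b * (8 * K) := by rw [hT, hJ]; push_cast; ring
    rw [this, show a / 2 * (b * (8 * (K : ℝ))) = a * b * (4 * K) by ring, hab]
    ring
  have hamp2 : (ε ^ (-(a * ((C : ℝ) + 1)))) ^ 2 = ε ^ (-(2 * (a * ((C : ℝ) + 1)))) := by
    rw [← Real.rpow_natCast, ← Real.rpow_mul hε.le]; push_cast; ring_nf
  have hXp : ((X : ℝ) + 5) ^ (2 * T + 6) ≤ ε ^ (-(a / 2)) := by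
    refine (pow_le_pow_left₀ (by positivity) hX _).trans ?_
    rw [← Real.rpow_natCast, ← Real.rpow_mul hd0.le, hεdef, ← Real.rpow_mul hd0.le]
    exact Real.rpow_le_rpow_of_exponent_le (by linarith) (by linarith)
  have hCa : a ≤ 2 * (a * ((C : ℝ) + 1)) := by
    nlinarith [mul_nonneg ha0.le (Nat.cast_nonneg (α := ℝ) C)]
  have hampJ : (ε ^ (-(a * ((C : ℝ) + 1)))) ^ (4 * J + 16) * Real.sqrt ε = ε ^ (1 / 4 : ℝ) := by
    rw [← Real.rpow_natCast, ← Real.rpow_mul hε.le, Real.sqrt_eq_rpow, ← Real.rpow_add hε]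
    congr 1
    push_cast
    linarith
  refine ⟨{
    w_ge := hw, eps_pos := hε, eps_le := hε1.le, u_pos := by positivity
    u_le := Real.rpow_le_one hε.le hε1.le (by linarith)
    amp_ge := ?_, rho := ?_, nodes_amp := ?_, nodes_rho := ?_, mu_ge := le_rfl
    kappa_nonneg := by positivity, kappa_amp := ?_, small := ?_, small' := ?_
    b_pos := ?_, T_le := hT.le, grad := gradFacts postFacts hε.le hε1.le, stages := ?_ },
    Real.rpow_lt_one hε.le hε1 (by linarith), hTu⟩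
  · rw [Real.rpow_neg hε.le, le_inv_comm₀ (by norm_num) (by positivity), ← one_div]
    exact h12
  · rw [hu2, hamp2]
    refine le_trans ?_ (eps_le_of_exp hε hε1.le (show -(2 * (a * ((C : ℝ) + 1))) ≤ -(2 * a) by
      nlinarith [mul_nonneg ha0.le (Nat.cast_nonneg (α := ℝ) C)]))
    rw [Real.rpow_neg hε.le, two_mul, Real.rpow_add hε, mul_inv, div_eq_mul_inv]
    refine mul_le_mul_of_nonneg_right ?_ (by positivity)
    rw [le_inv_comm₀ (by norm_num) (by positivity), ← one_div]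
    exact h8
  · rw [hamp2]
    exact hXp.trans (eps_le_of_exp hε hε1.le (by linarith))
  · rw [hu2]
    calc 2 * w₀ ^ 2 * ε ^ a * ((X : ℝ) + 5) ^ (2 * T + 6)
        ≤ 2 * w₀ ^ 2 * ε ^ a * ε ^ (-(a / 2)) := mul_le_mul_of_nonneg_left hXp (by positivity)
      _ = 2 * w₀ ^ 2 * ε ^ (a / 2) := by rw [mul_assoc, ← Real.rpow_add hε]; ring_nf
      _ ≤ 2 * w₀ ^ 2 * (1 / (2 * w₀ ^ 2)) := mul_le_mul_of_nonneg_left hw0 (by positivity)
      _ = 1 := by field_simp
  · rw [← Real.rpow_add hε]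
    exact Real.rpow_le_one hε.le hε1.le (by linarith)
  · rw [hampJ, ← Real.rpow_natCast (ε ^ (a / 2)), ← Real.rpow_mul hε.le, ← Real.rpow_add hε]
    exact eps_le_of_exp hε hε1.le (by linarith)
  · rw [hampJ, Real.sqrt_eq_rpow ε, Real.sqrt_eq_rpow, ← Real.rpow_mul hε.le]
    exact le_of_eq (by norm_num)
  · rw [hb]; exact Nat.one_le_iff_ne_zero.2 (by positivity)
  · intro τ γ h1 h2 h3
    obtain ⟨N, S, hN, hm, hs, hsh, hacc⟩ := hstage τ γ h1 h2 h3
    rw [hu2, hTu]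
    exact ⟨N, S, hN, hm, hs,
      hsh.mono (eps_le_of_exp hε hε1.le (by linarith)) hε.le (by positivity), hacc⟩

/-- Stages of every order give the sampler of one proximal step. -/
theorem innerSampler (hTmp : Templates) : InnerSampler := by
  intro ι₀ θ hι₀ hθ
  set ι := min ι₀ (1 / 10) with hιdef
  have hι : 0 < ι := lt_min hι₀ (by norm_num)
  obtain ⟨K, hK⟩ : ∃ K : ℕ, 5 ≤ ι * (K : ℝ) ∧ 1 ≤ K := by
    refine ⟨⌈5 / ι⌉₊ + 1, ?_, by omega⟩
    rw [mul_comm, ← div_le_iff₀ hι]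
    push_cast
    linarith [Nat.le_ceil (5 / ι)]
  obtain ⟨C, na, w₀, hw, hTmp⟩ := hTmp K ι hι (min_le_right _ _)
  set J := 8 * K with hJ
  set b := (C + 1) * (4 * J + 16) with hb
  set T := b * J with hT
  set a : ℝ := 1 / (4 * (b : ℝ)) with ha
  have hb1 : 1 ≤ b := hb ▸ Nat.one_le_iff_ne_zero.2 (by positivity)
  have hbR : (1 : ℝ) ≤ b := by exact_mod_cast hb1
  have ha0 : 0 < a := by rw [ha]; positivity
  have haC : a * C ≤ 1 / 8 := by
    rw [ha, div_mul_eq_mul_div, one_mul, div_le_iff₀ (by positivity)]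
    have : ((C : ℝ) + 1) * 16 ≤ b := by
      rw [hb]; push_cast
      nlinarith [Nat.cast_nonneg (α := ℝ) C, Nat.cast_nonneg (α := ℝ) J,
        mul_nonneg (Nat.cast_nonneg (α := ℝ) C) (Nat.cast_nonneg (α := ℝ) J)]
    linarith [Nat.cast_nonneg (α := ℝ) C]
  obtain ⟨A, e, hA, hchain⟩ := chainDraw (T := T) (b := b) (J := J) (na := na) (w₀ := w₀)
    (hT ▸ Nat.one_le_iff_ne_zero.2 (Nat.mul_ne_zero (by omega) (by omega))) hw hb1 T
  set δ := min (ι * a / (4 * (2 * T + 6 : ℕ))) (θ / (2 * ((e : ℝ) + 1))) with hδdef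
  have hδ : 0 < δ := lt_min (by positivity) (by positivity)
  have ev1 := (tendsto_eps hι (show 0 < a * ((C : ℝ) + 1) by positivity)).eventually_le_const
    (show (0 : ℝ) < 1 / 12 by norm_num)
  have ev2 := (tendsto_eps hι ha0).eventually_le_const (show (0 : ℝ) < 1 / 8 by norm_num)
  have ev3 := (tendsto_eps hι (half_pos ha0)).eventually_le_const
    (show (0 : ℝ) < 1 / (2 * w₀ ^ 2) by positivity)
  have ev4 : ∀ᶠ d : ℕ in atTop, (6 : ℝ) ≤ (d : ℝ) ^ δ :=
    ((tendsto_rpow_atTop hδ).comp tendsto_natCast_atTop_atTop).eventually_ge_atTop 6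
  filter_upwards [hTmp a ha0 haC δ hδ, ev1, ev2, ev3, ev4,
    eventually_ge_atTop (max 2 ⌈6 * A⌉₊)] with d hst h12 h8 hw0 h6 hdm
  simp only [max_le_iff] at hdm
  have hd2 : (2 : ℝ) ≤ d := by exact_mod_cast hdm.1
  have hd0 : (0 : ℝ) < d := by linarith
  have hAd : 6 * A ≤ d := (Nat.le_ceil _).trans (by exact_mod_cast hdm.2)
  intro η hlo hhi
  set ε : ℝ := (d : ℝ) ^ (-ι) with hεdef
  have hε : 0 < ε := Real.rpow_pos_of_pos hd0 _
  have hη : 0 < η := lt_of_lt_of_le (by positivity) hlo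
  have hηε : η ≤ ε := hhi.trans
    (Real.rpow_le_rpow_of_exponent_le (by linarith) (by linarith [min_le_left ι₀ (1 / 10 : ℝ)]))
  have hη1 : η ≤ 1 := hηε.trans (Real.rpow_le_one_of_one_le_of_nonpos (by linarith) (by linarith))
  set X := ⌊(d : ℝ) ^ δ⌋₊ with hXdef
  have hX : ((X : ℝ) + 5) ≤ (d : ℝ) ^ (2 * δ) := by
    rw [two_mul, Real.rpow_add hd0]
    have : (X : ℝ) ≤ (d : ℝ) ^ δ := Nat.floor_le (by positivity)
    nlinarith
  obtain ⟨hp, hu1, hTu⟩ := par_of (C := C) (K := K) (T := T) (b := b) (J := J) (na := na) (X := X)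
    (ι := ι) (δ := δ) (a := a) (w₀ := w₀) hd2 hι hεdef hJ hb hT ha hw hδ.le (by
      have : δ ≤ ι * a / (4 * (2 * T + 6 : ℕ)) := min_le_left _ _
      rw [le_div_iff₀ (by positivity)] at this
      push_cast at this ⊢
      linarith) hX h12 h8 hw0 (fun τ γ h1 h2 h3 => by
      obtain ⟨N, S, hN, hm, hs, hsh, hacc⟩ := hst τ γ h1 h2 h3
      exact ⟨N, S, Nat.le_floor hN, Nat.le_floor hm, fun j => Nat.le_floor (hs j), hsh, hacc⟩)
  obtain ⟨S, hS, Ω, _, μ, _, F, hG, hF, hd⟩ :=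
    hchain d X _ _ _ _ _ hp hu1 1 one_pos le_rfl
  refine ⟨(X + 5) ^ e, ?_,
    fun V f y => ∫ p : Ω × E d, f (tsc η • F (pg V ε η) (p.1, fun _ => pc η y) + Real.sqrt η • p.2)
      ∂μ.prod (gam d), ?_, fun V hV f hf hb y hy => ?_⟩
  · push_cast
    refine (pow_le_pow_left₀ (by positivity) hX e).trans ?_
    rw [← Real.rpow_natCast, ← Real.rpow_mul hd0.le]
    refine Real.rpow_le_rpow_of_exponent_le (by linarith) ?_
    have : δ ≤ θ / (2 * ((e : ℝ) + 1)) := min_le_right _ _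
    rw [le_div_iff₀ (by positivity)] at this
    linarith
  · refine ⟨Ω × E d, inferInstance, μ.prod (gam d), inferInstance,
      fun V p => tsc η • F (pg V ε η) (p.1.1, fun _ => pc η p.2) + Real.sqrt η • p.1.2,
      AlgoRun.gen_prod hG (AlgoRun.gen_gam d), ?_, fun V _ f _ _ y => rfl⟩
    have h1 := hF.realizable (tsc η) (tsc η / ε) (-(tsc η ^ 2 / ε))
    simp only [← pg_eq] at h1
    exact ((h1.carry (W := E d)).precomp
      (g := fun p : (Ω × E d) × E d => ((p.1.1, fun _ : Unit => pc η p.2), p.1.2))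
      (by unfold pc; fun_prop)).postcomp (g := fun x : E d × E d => tsc η • x.2 + Real.sqrt η • x.1)
      (by fun_prop)
  · have hU := pot_prox hV hε hη hηε
    have hg0 := pg_zero (ε := ε) (η := η) hV
    set φ : E d → ℝ := fun u => sm η f (tsc η • u) with hφdef
    have hφ : Lip1 φ := lip1_test hη hf hb
    have hφb : ∀ u, |φ u| ≤ 1 := fun u => abs_sm_le_one hb _ _
    set c := pc η y with hc
    obtain ⟨-, hdraw⟩ := hd (pU V ε η) (pg V ε η) hU hg0 fun _ => c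
    have h1 := hdraw φ hφ
    have h2 := (hS (pU V ε η) (pg V ε η) hU hg0 φ hφ).2 hφb c
    simp only [Real.sqrt_one, mul_one] at h1 h2
    have hm : Measurable fun ω => F (pg V ε η) (ω, fun _ : Unit => c) :=
      (hF.measurable hU.lip.continuous).comp (by fun_prop)
    have eT : (∫ p : Ω × E d, f (tsc η • F (pg V ε η) (p.1, fun _ => c) + Real.sqrt η • p.2)
        ∂μ.prod (gam d)) = ∫ ω, φ (F (pg V ε η) (ω, fun _ => c)) ∂μ := by
      rw [integral_prod]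
      · rfl
      · exact (integrable_const (1 : ℝ)).mono' (hf.comp ((Measurable.const_smul
          (hm.comp measurable_fst) (tsc η)).add (by fun_prop))).aestronglyMeasurable
          (ae_of_all _ fun p => hb _)
    dsimp only
    rw [← hc, eT, mop_eq hV hε hη hf hb, ← hc]
    have h3 := abs_sub_le (∫ ω, φ (F (pg V ε η) (ω, fun _ => c)) ∂μ) (S (pU V ε η) (pg V ε η) c φ)
      (∫ u, φ u ∂post (pU V ε η) ε 1 c)
    rw [hTu] at h1 h2
    refine h3.trans ((add_le_add h1 h2).trans ?_)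
    have hu5 : ε ^ K ≤ ((d : ℝ) ^ 5)⁻¹ := by
      rw [hεdef, ← Real.rpow_natCast _ K, ← Real.rpow_mul hd0.le, ← Real.rpow_natCast _ 5,
        ← Real.rpow_neg hd0.le]
      exact Real.rpow_le_rpow_of_exponent_le (by linarith) (by push_cast; linarith [hK.1])
    have hcn : Real.sqrt d + ‖c‖ ≤ 2 * (d : ℝ) ^ 3 := by
      have := norm_pc_le hη hη1 hd2 hlo hy
      have : Real.sqrt d ≤ (d : ℝ) ^ 3 := Real.sqrt_le_iff.2 ⟨by positivity, by
        rw [← pow_mul]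
        exact (le_self_pow₀ (show (1 : ℝ) ≤ d by linarith) (by norm_num))⟩
      rw [← hc] at *
      linarith
    calc A * ε ^ K * (Real.sqrt d + ‖c‖) + A * (ε ^ K + ε ^ K) * (Real.sqrt d + ‖c‖)
        = 3 * A * (ε ^ K * (Real.sqrt d + ‖c‖)) := by ring
      _ ≤ 3 * A * (((d : ℝ) ^ 5)⁻¹ * (2 * (d : ℝ) ^ 3)) :=
          mul_le_mul_of_nonneg_left (mul_le_mul hu5 hcn (by positivity) (by positivity)) (by positivity)
      _ = 6 * A / d * (1 / d) := by field_simp; ring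
      _ ≤ 1 * (1 / d) := mul_le_mul_of_nonneg_right ((div_le_one hd0).2 hAd) (by positivity)
      _ = 1 / d := one_mul _

end Vale.Agent.P347.Gamma0
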