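import Vale.Agent.P347.Gamma0.PostChain
import Vale.Agent.P347.Coord
import Vale.Agent.P347.Contraction
import Vale.Agent.P347.Smooth

/-!
P347, towards `γ_* = 0`: the proximal law as a posterior.
-/

namespace Vale.Agent.P347.Gamma0

open MeasureTheory ProbabilityTheory
open scoped RealInnerProductSpace

variable {d : ℕ} {V : E d → ℝ} {ε η : ℝ}

local instance (m : ℕ) : IsProbabilityMeasure (gam m) := by unfold gam; infer_instance

/-- The scale of the proximal step. -/
noncomputable def tsc (η : ℝ) : ℝ := Real.sqrt (η / (1 + η))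

/-- The potential of the proximal law. -/
noncomputable def pU (V : E d → ℝ) (ε η : ℝ) (u : E d) : ℝ := potR V (tsc η • u) / ε

/-- Its gradient. -/
noncomputable def pg (V : E d → ℝ) (ε η : ℝ) (u : E d) : E d :=
  (tsc η / ε) • gradR V (tsc η • u)

/-- The centre. -/
noncomputable def pc (η : ℝ) (y : E d) : E d := ((1 + η) * tsc η)⁻¹ • y

lemma tsc_pos (hη : 0 < η) : 0 < tsc η := Real.sqrt_pos.2 (by positivity)

lemma tsc_sq (hη : 0 < η) : tsc η ^ 2 = η / (1 + η) := Real.sq_sqrt (by positivity)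

lemma tsc_le (hη : 0 < η) : tsc η ≤ Real.sqrt η :=
  Real.sqrt_le_sqrt (div_le_self hη.le (by linarith))

lemma pot_prox (hV : Admissible d V) (hε : 0 < ε) (hη : 0 < η) (hεη : η ≤ ε) :
    Pot (pU V ε η) (pg V ε η) where
  contDiff := (hV.contDiff_potR.comp (contDiff_id.const_smul _)).div_const _
  grad u := by
    have hl : HasFDerivAt (fun v : E d => tsc η • v) (tsc η • ContinuousLinearMap.id ℝ (E d)) u :=
      (hasFDerivAt_id u).const_smul (tsc η)
    have h := ((hV.hasGradientAt_potR (tsc η • u)).hasFDerivAt.comp u hl).mul_const ε⁻¹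
    rw [hasGradientAt_iff_hasFDerivAt]
    refine (h.congr_fderiv ?_).congr_of_eventuallyEq (Filter.Eventually.of_forall fun v => ?_)
    · ext v
      simp [pg, InnerProductSpace.toDual_apply_apply]
      ring
    · simp [pU, div_eq_mul_inv]
  lip := LipschitzWith.of_dist_le_mul fun u v => by
    have h := hV.lipschitz_gradR.dist_le_mul (tsc η • u) (tsc η • v)
    have ht := tsc_pos hη
    simp only [dist_eq_norm, ← smul_sub, norm_smul, Real.norm_eq_abs, abs_of_pos ht, pg,
      NNReal.coe_one, one_mul, abs_of_pos (div_pos ht hε)] at h ⊢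
    calc tsc η / ε * ‖gradR V (tsc η • u) - gradR V (tsc η • v)‖
        ≤ tsc η / ε * (tsc η * ‖u - v‖) := mul_le_mul_of_nonneg_left h (by positivity)
      _ = (η / (1 + η) / ε) * ‖u - v‖ := by rw [← tsc_sq hη]; ring
      _ ≤ 1 * ‖u - v‖ := by
          refine mul_le_mul_of_nonneg_right ?_ (norm_nonneg _)
          rw [div_le_one hε]
          exact (div_le_self hη.le (by linarith)).trans hεη
      _ = ‖u - v‖ := one_mul _
  mono u v := by
    have h := hV.mono_gradR (tsc η • u) (tsc η • v)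
    have ht := tsc_pos hη
    rw [← smul_sub, real_inner_smul_right] at h
    simp only [pg, ← smul_sub, real_inner_smul_left]
    exact mul_nonneg (by positivity) (nonneg_of_mul_nonneg_right h ht)

lemma pg_zero (hV : Admissible d V) : pg V ε η 0 = 0 := by simp [pg, hV.gradR_zero]

/-- The field in terms of the oracle. -/
lemma pg_eq (V : E d → ℝ) (ε η : ℝ) : pg V ε η
    = fun u => (tsc η / ε) • gradient V (tsc η • u) + (-(tsc η ^ 2 / ε)) • u := by
  funext u
  simp only [pg, gradR, smul_sub, smul_smul]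
  rw [sub_eq_add_neg, ← neg_smul]
  congr 2
  ring

lemma prox_eq_map (hV : Admissible d V) (hε : 0 < ε) (hη : 0 < η) (y : E d) :
    prox V η y = (post (pU V ε η) ε 1 (pc η y)).map fun u => tsc η • u := by
  have ht := tsc_pos hη
  have e : (fun z : E d => V (tsc η • z) + ‖tsc η • z - y‖ ^ 2 / (2 * η))
      = fun z => (‖z - pc η y‖ ^ 2 / (2 * 1) + ε * pU V ε η z)
        + (‖y‖ ^ 2 / (2 * η) - ‖pc η y‖ ^ 2 / 2) := by
    funext z
    have hsq := tsc_sq hη
    have h1 : (0 : ℝ) < 1 + η := by linarith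
    have e2 : tsc η / η = ((1 + η) * tsc η)⁻¹ := by
      field_simp
      rw [hsq]; field_simp
    simp only [pU, potR, pc, norm_sub_sq_real, norm_smul, real_inner_smul_left, inner_smul_right,
      mul_pow, Real.norm_eq_abs, sq_abs]
    have hs' : tsc η ^ 2 * (1 + η) = η := by rw [hsq]; field_simp
    field_simp
    linear_combination (η * ‖z‖ ^ 2 + ((1 + η) * (tsc η ^ 2 * (1 + η)) - η) * ‖z‖ ^ 2
      - 2 * tsc η * (1 + η) * ⟪z, y⟫) * hs'
  have hW : Measurable fun x : E d => V x + ‖x - y‖ ^ 2 / (2 * η) :=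
    (hV.1.continuous.measurable).add (by fun_prop)
  have h := gibbs_map_affine _ hW (0 : E d) ht
  simp only [zero_add] at h
  rw [prox, ← h, e, Gamma0.gibbs_add_const]
  rfl

/-- The test function in the coordinates of the posterior. -/
lemma lip1_test (hη : 0 < η) {f : E d → ℝ} (hf : Measurable f) (hb : ∀ x, |f x| ≤ 1) :
    Lip1 fun u => sm η f (tsc η • u) := by
  refine LipschitzWith.of_dist_le_mul fun u v => ?_
  rw [Real.dist_eq, dist_eq_norm, NNReal.coe_one, one_mul]
  refine (Contraction.sm_lip_of_bounded smoothFacts hη hf hb _ _).trans ?_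
  rw [← smul_sub, norm_smul, Real.norm_eq_abs, abs_of_pos (tsc_pos hη), ← mul_assoc]
  refine mul_le_of_le_one_left (norm_nonneg _) ?_
  rw [div_mul_eq_mul_div, one_mul, div_le_one (Real.sqrt_pos.2 hη)]
  exact tsc_le hη

lemma abs_sm_le_one {f : E d → ℝ} (hb : ∀ x, |f x| ≤ 1) (v : ℝ) (x : E d) : |sm v f x| ≤ 1 :=
  abs_integral_le_integral_abs.trans ((integral_mono_of_nonneg
    (ae_of_all _ fun _ => abs_nonneg _) (integrable_const (1 : ℝ))
    (ae_of_all _ fun _ => hb _)).trans (le_of_eq (by simp)))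

lemma mop_eq (hV : Admissible d V) (hε : 0 < ε) (hη : 0 < η) {f : E d → ℝ} (hf : Measurable f)
    (hb : ∀ x, |f x| ≤ 1) (y : E d) :
    mop V η f y = ∫ u, sm η f (tsc η • u) ∂post (pU V ε η) ε 1 (pc η y) := by
  have hc : Continuous (sm η f) := continuous_lipK (K := 1 / Real.sqrt η)
    (Contraction.sm_lip_of_bounded smoothFacts hη hf hb)
  rw [mop, prox_eq_map hV hε hη, integral_map (Measurable.aemeasurable (by fun_prop))
    hc.measurable.aestronglyMeasurable]

lemma norm_pc_le (hη : 0 < η) (hη1 : η ≤ 1) {D : ℝ} (hD : 2 ≤ D) (hlo : (D ^ 3)⁻¹ ≤ η) {y : E d}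
    (hy : ‖y‖ ≤ D) : ‖pc η y‖ ≤ D ^ 3 := by
  have ht := tsc_pos hη
  have h1 : (D ^ 2)⁻¹ ≤ (1 + η) * tsc η := by
    refine le_trans ?_ (le_mul_of_one_le_left ht.le (by linarith))
    refine Real.le_sqrt_of_sq_le ?_
    calc ((D ^ 2)⁻¹) ^ 2 = (D ^ 3)⁻¹ / D := by rw [inv_pow]; field_simp
      _ ≤ η / 2 := div_le_div₀ hη.le hlo (by norm_num) hD
      _ ≤ η / (1 + η) := div_le_div_of_nonneg_left hη.le (by linarith) (by linarith)
  rw [pc, norm_smul, norm_inv, Real.norm_eq_abs, abs_of_pos (by positivity)]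
  calc ((1 + η) * tsc η)⁻¹ * ‖y‖ ≤ ((D ^ 2)⁻¹)⁻¹ * D :=
        mul_le_mul (inv_anti₀ (by positivity) h1) hy (norm_nonneg _) (by positivity)
    _ = D ^ 3 := by rw [inv_inv]; ring

end Vale.Agent.P347.Gamma0
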