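import Vale.Agent.P347.Gamma0.Appell

/-!
P347, towards `γ* = 0`: Leibniz splittings of tensor families, and the operator norm of a split
kernel.
-/

namespace Vale.Agent.P347.Gamma0

open MeasureTheory Filter Topology
open scoped RealInnerProductSpace ContDiff

variable {d : ℕ}

/-- The sum over all splittings of the index string between two families. -/
def spl : Coeffs d → Coeffs d → ∀ k, (Fin k → Fin d) → ℝ
  | X, Y, 0, idx => X 0 idx * Y 0 idx
  | X, Y, k + 1, idx => spl (shift (idx 0) X) Y k (Fin.tail idx)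
      + spl X (shift (idx 0) Y) k (Fin.tail idx)

lemma spl_add_left : ∀ (k : ℕ) (X X' Y : Coeffs d) (idx : Fin k → Fin d),
    spl (X + X') Y k idx = spl X Y k idx + spl X' Y k idx
  | 0, X, X', Y, idx => by simp [spl, add_mul]
  | k + 1, X, X', Y, idx => by
    simp only [spl, show shift (idx 0) (X + X') = shift (idx 0) X + shift (idx 0) X' from rfl,
      spl_add_left k]
    ring

lemma spl_add_right : ∀ (k : ℕ) (X Y Y' : Coeffs d) (idx : Fin k → Fin d),
    spl X (Y + Y') k idx = spl X Y k idx + spl X Y' k idx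
  | 0, X, Y, Y', idx => by simp [spl, mul_add]
  | k + 1, X, Y, Y', idx => by
    simp only [spl, show shift (idx 0) (Y + Y') = shift (idx 0) Y + shift (idx 0) Y' from rfl,
      spl_add_right k]
    ring

lemma spl_smul_left : ∀ (k : ℕ) (a : ℝ) (X Y : Coeffs d) (idx : Fin k → Fin d),
    spl (a • X) Y k idx = a * spl X Y k idx
  | 0, a, X, Y, idx => by simp [spl, mul_assoc]
  | k + 1, a, X, Y, idx => by
    simp only [spl, show shift (idx 0) (a • X) = a • shift (idx 0) X from rfl, spl_smul_left k]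
    ring

lemma spl_smul_right : ∀ (k : ℕ) (a : ℝ) (X Y : Coeffs d) (idx : Fin k → Fin d),
    spl X (a • Y) k idx = a * spl X Y k idx
  | 0, a, X, Y, idx => by simp [spl]; ring
  | k + 1, a, X, Y, idx => by
    simp only [spl, show shift (idx 0) (a • Y) = a • shift (idx 0) Y from rfl, spl_smul_right k]
    ring

lemma spl_zero_left (k : ℕ) (Y : Coeffs d) (idx : Fin k → Fin d) : spl 0 Y k idx = 0 := by
  have h := spl_smul_left k 0 0 Y idx
  simpa using h

/-- Differentiation of a splitting sum. -/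
lemma hasFDerivAt_spl {A B : E d → Coeffs d} (hA : SmoothCoeffs A) (hB : SmoothCoeffs B) :
    ∀ (k : ℕ) (idx : Fin k → Fin d) (θ : E d), ∃ D : E d →L[ℝ] ℝ,
      HasFDerivAt (fun θ => spl (A θ) (B θ) k idx) D θ ∧
      ∀ v, D (bv v) = spl (dCoeffs (bv v) A θ) (B θ) k idx
        + spl (A θ) (dCoeffs (bv v) B θ) k idx := by
  intro k
  induction k generalizing A B with
  | zero =>
    intro idx θ
    refine ⟨_, (((hA 0 idx).differentiable (by simp)) θ).hasFDerivAt.mul
      (((hB 0 idx).differentiable (by simp)) θ).hasFDerivAt, fun v => ?_⟩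
    simp only [ContinuousLinearMap.add_apply, ContinuousLinearMap.smul_apply, smul_eq_mul, spl,
      dCoeffs]
    ring
  | succ k ih =>
    intro idx θ
    obtain ⟨D1, h1, e1⟩ := ih (A := fun θ => shift (idx 0) (A θ)) (fun l j => hA (l + 1) _) hB
      (Fin.tail idx) θ
    obtain ⟨D2, h2, e2⟩ := ih hA (B := fun θ => shift (idx 0) (B θ)) (fun l j => hB (l + 1) _)
      (Fin.tail idx) θ
    refine ⟨D1 + D2, h1.add h2, fun v => ?_⟩
    rw [ContinuousLinearMap.add_apply, e1, e2,
      show dCoeffs (bv v) (fun θ => shift (idx 0) (A θ)) θ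
        = shift (idx 0) (dCoeffs (bv v) A θ) from rfl,
      show dCoeffs (bv v) (fun θ => shift (idx 0) (B θ)) θ
        = shift (idx 0) (dCoeffs (bv v) B θ) from rfl]
    simp only [spl]
    ring

lemma smooth_spl {A B : E d → Coeffs d} (hA : SmoothCoeffs A) (hB : SmoothCoeffs B) :
    ∀ (k : ℕ) (idx : Fin k → Fin d), ContDiff ℝ ∞ fun θ => spl (A θ) (B θ) k idx := by
  intro k
  induction k generalizing A B with
  | zero => exact fun idx => (hA 0 idx).mul (hB 0 idx)
  | succ k ih =>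
    intro idx
    exact (ih (A := fun θ => shift (idx 0) (A θ)) (fun l j => hA (l + 1) _) hB (Fin.tail idx)).add
      (ih hA (B := fun θ => shift (idx 0) (B θ)) (fun l j => hB (l + 1) _) (Fin.tail idx))

/-- Families with an inner and an outer (differentiated) index string. -/
abbrev Coeffs₂ (d : ℕ) := ∀ t, (Fin t → Fin d) → Coeffs d

/-- Fix the first outer index. -/
def shiftO (v : Fin d) (X : Coeffs₂ d) : Coeffs₂ d := fun t J => X (t + 1) (Fin.cons v J)

/-- Splitting of both index strings. -/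
def spl₂ : Coeffs₂ d → Coeffs₂ d → ∀ t, (Fin t → Fin d) → Coeffs d
  | X, Y, 0, J => fun k idx => spl (X 0 J) (Y 0 J) k idx
  | X, Y, t + 1, J => fun k idx => spl₂ (shiftO (J 0) X) Y t (Fin.tail J) k idx
      + spl₂ X (shiftO (J 0) Y) t (Fin.tail J) k idx

lemma spl₂_add_right : ∀ (t : ℕ) (X Y Y' : Coeffs₂ d) (J : Fin t → Fin d) (k : ℕ)
    (idx : Fin k → Fin d),
    spl₂ X (Y + Y') t J k idx = spl₂ X Y t J k idx + spl₂ X Y' t J k idx
  | 0, X, Y, Y', J, k, idx => by
    simp only [spl₂, show (Y + Y') 0 J = Y 0 J + Y' 0 J from rfl, spl_add_right]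
  | t + 1, X, Y, Y', J, k, idx => by
    simp only [spl₂, show shiftO (J 0) (Y + Y') = shiftO (J 0) Y + shiftO (J 0) Y' from rfl,
      spl₂_add_right t]
    ring

/-- The derivatives of a family, as an outer string. -/
noncomputable def derivs (A : E d → Coeffs d) (θ : E d) : Coeffs₂ d := fun t J k idx =>
  iteratedFDeriv ℝ t (fun θ => A θ k idx) θ (bv ∘ J)

lemma tail_comp_bv {t : ℕ} (J : Fin (t + 1) → Fin d) : Fin.tail (bv ∘ J) = bv ∘ Fin.tail J := rfl

lemma shiftO_derivs {A : E d → Coeffs d} (hA : SmoothCoeffs A) (v : Fin d) (θ : E d) :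
    shiftO v (derivs A θ) = fun t J k idx =>
      fderiv ℝ (fun θ => derivs A θ t J k idx) θ (bv v) := by
  funext t J k idx
  simp only [shiftO, derivs]
  rw [iterated_apply_succ (hA k idx)]
  simp [tail_comp_bv]

lemma hasFDerivAt_spl₂ {X Y : E d → Coeffs₂ d}
    (hX : ∀ t J, SmoothCoeffs fun θ => X θ t J) (hY : ∀ t J, SmoothCoeffs fun θ => Y θ t J) :
    ∀ (t : ℕ) (J : Fin t → Fin d) (k : ℕ) (idx : Fin k → Fin d) (θ : E d), ∃ D : E d →L[ℝ] ℝ,
      HasFDerivAt (fun θ => spl₂ (X θ) (Y θ) t J k idx) D θ ∧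
      ∀ v, D (bv v) = spl₂ (fun t J => dCoeffs (bv v) (fun θ => X θ t J) θ) (Y θ) t J k idx
        + spl₂ (X θ) (fun t J => dCoeffs (bv v) (fun θ => Y θ t J) θ) t J k idx := by
  intro t
  induction t generalizing X Y with
  | zero => exact fun J k idx θ => hasFDerivAt_spl (hX 0 J) (hY 0 J) k idx θ
  | succ t ih =>
    intro J k idx θ
    obtain ⟨D1, h1, e1⟩ := ih (X := fun θ => shiftO (J 0) (X θ)) (fun l j => hX (l + 1) _) hY
      (Fin.tail J) k idx θ
    obtain ⟨D2, h2, e2⟩ := ih hX (Y := fun θ => shiftO (J 0) (Y θ)) (fun l j => hY (l + 1) _)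
      (Fin.tail J) k idx θ
    refine ⟨D1 + D2, h1.add h2, fun v => ?_⟩
    rw [ContinuousLinearMap.add_apply, e1, e2]
    simp only [spl₂]
    rw [add_add_add_comm]
    rfl

/-- Leibniz: derivatives of a splitting sum are double splitting sums. -/
theorem iteratedFDeriv_spl {A B : E d → Coeffs d} (hA : SmoothCoeffs A) (hB : SmoothCoeffs B) :
    ∀ (t : ℕ) (J : Fin t → Fin d) (k : ℕ) (idx : Fin k → Fin d) (θ : E d),
      iteratedFDeriv ℝ t (fun θ => spl (A θ) (B θ) k idx) θ (bv ∘ J)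
        = spl₂ (derivs A θ) (derivs B θ) t J k idx
  | 0, J, k, idx, θ => by
    simp only [iteratedFDeriv_zero_apply, spl₂]
    rfl
  | t + 1, J, k, idx, θ => by
    have sm : ∀ {C : E d → Coeffs d}, SmoothCoeffs C → ∀ t J, SmoothCoeffs fun θ => derivs C θ t J := by
      intro C hC t J k idx
      exact (ContinuousMultilinearMap.apply ℝ (fun _ : Fin t => E d) ℝ (bv ∘ J)).contDiff.comp
        ((hC k idx).iteratedFDeriv_right (m := ∞) (i := t) (by exact_mod_cast le_top))
    obtain ⟨D, hD, hDv⟩ := hasFDerivAt_spl₂ (sm hA) (sm hB) t (Fin.tail J) k idx θ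
    rw [iterated_apply_succ (smooth_spl hA hB k idx), tail_comp_bv,
      show (fun θ => iteratedFDeriv ℝ t (fun θ => spl (A θ) (B θ) k idx) θ (bv ∘ Fin.tail J))
        = fun θ => spl₂ (derivs A θ) (derivs B θ) t (Fin.tail J) k idx from
        funext fun θ' => iteratedFDeriv_spl hA hB t _ k idx θ',
      hD.fderiv, Function.comp_apply, hDv]
    simp only [spl₂, shiftO_derivs hA, shiftO_derivs hB]
    rfl

/-! ### Operator norms of kernels -/

/-- The Euclidean norm of an array. -/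
noncomputable def nrm {ι : Type*} [Fintype ι] (T : ι → ℝ) : ℝ := Real.sqrt (∑ i, T i ^ 2)

lemma nrm_nonneg {ι : Type*} [Fintype ι] (T : ι → ℝ) : 0 ≤ nrm T := Real.sqrt_nonneg _

lemma nrm_sq {ι : Type*} [Fintype ι] (T : ι → ℝ) : nrm T ^ 2 = ∑ i, T i ^ 2 :=
  Real.sq_sqrt (Finset.sum_nonneg fun _ _ => sq_nonneg _)

lemma nrm_comp {ι κ : Type*} [Fintype ι] [Fintype κ] (e : ι ≃ κ) (T : κ → ℝ) :
    nrm (T ∘ e) = nrm T := by
  unfold nrm
  rw [← Equiv.sum_comp e fun i => T i ^ 2]
  rfl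

lemma sum_mul_le_nrm {ι : Type*} [Fintype ι] (S T : ι → ℝ) : ∑ i, S i * T i ≤ nrm S * nrm T :=
  Real.sum_mul_le_sqrt_mul_sqrt _ _ _

/-- `K` has operator norm at most `C`. -/
def OpLe {α β : Type*} [Fintype α] [Fintype β] (C : ℝ) (K : α → β → ℝ) : Prop :=
  ∀ (M : α → ℝ) (N : β → ℝ), |∑ a, ∑ b, M a * N b * K a b| ≤ C * nrm M * nrm N

section kernels

variable {α β α' β' : Type*} [Fintype α] [Fintype β] [Fintype α'] [Fintype β']

lemma OpLe.mono {C C' : ℝ} {K : α → β → ℝ} (h : OpLe C K) (hC : C ≤ C') : OpLe C' K :=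
  fun M N => (h M N).trans
    (mul_le_mul_of_nonneg_right (mul_le_mul_of_nonneg_right hC (nrm_nonneg _)) (nrm_nonneg _))

lemma OpLe.congr {C : ℝ} {K K' : α → β → ℝ} (h : OpLe C K) (e : ∀ a b, K a b = K' a b) :
    OpLe C K' := fun M N => by simpa only [e] using h M N

lemma OpLe.add {C C' : ℝ} {K K' : α → β → ℝ} (h : OpLe C K) (h' : OpLe C' K') :
    OpLe (C + C') fun a b => K a b + K' a b := fun M N => by
  simp only [mul_add, Finset.sum_add_distrib, add_mul]
  exact (abs_add_le _ _).trans (add_le_add (h M N) (h' M N))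

lemma OpLe.sub {C C' : ℝ} {K K' : α → β → ℝ} (h : OpLe C K) (h' : OpLe C' K') :
    OpLe (C + C') fun a b => K a b - K' a b := fun M N => by
  simp only [mul_sub, Finset.sum_sub_distrib, add_mul]
  exact (abs_sub _ _).trans (add_le_add (h M N) (h' M N))

lemma OpLe.reindex {C : ℝ} {K : α → β → ℝ} (h : OpLe C K) (e : α' ≃ α) (f : β' ≃ β) :
    OpLe C fun a b => K (e a) (f b) := fun M N => by
  have := h (M ∘ e.symm) (N ∘ f.symm)
  rw [nrm_comp, nrm_comp, ← Equiv.sum_comp e] at this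
  refine le_of_eq_of_le ?_ this
  congr 1
  refine Finset.sum_congr rfl fun a _ => ?_
  rw [← Equiv.sum_comp f]
  simp

lemma OpLe.zero : OpLe 0 fun (_ : α) (_ : β) => (0 : ℝ) := fun M N => by simp

/-- Some bound always exists. -/
lemma OpLe.exists (K : α → β → ℝ) : ∃ C, 0 ≤ C ∧ OpLe C K := by
  refine ⟨nrm fun p : α × β => K p.1 p.2, nrm_nonneg _, fun M N => ?_⟩
  have e : ∑ a, ∑ b, M a * N b * K a b
      = ∑ p : α × β, (M p.1 * N p.2) * K p.1 p.2 := by rw [Fintype.sum_prod_type]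
  have hn : nrm (fun p : α × β => M p.1 * N p.2) = nrm M * nrm N := by
    simp only [nrm, Fintype.sum_prod_type, mul_pow]
    rw [← Real.sqrt_mul (Finset.sum_nonneg fun _ _ => sq_nonneg _), Finset.sum_mul_sum]
  rw [e, abs_le]
  constructor
  · have h := sum_mul_le_nrm (fun p : α × β => -(M p.1 * N p.2)) fun p => K p.1 p.2
    have hneg : nrm (fun p : α × β => -(M p.1 * N p.2)) = nrm fun p : α × β => M p.1 * N p.2 := by
      simp [nrm]
    rw [hneg, hn] at h
    simp only [neg_mul, Finset.sum_neg_distrib] at h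
    linarith
  · have h := sum_mul_le_nrm (fun p : α × β => M p.1 * N p.2) fun p => K p.1 p.2
    rw [hn] at h
    linarith

lemma OpLe.push {D : ℝ} (hD : 0 ≤ D) {Z : α → β → ℝ} (hZ : OpLe D Z) (m : α → ℝ) :
    ∑ b, (∑ a, m a * Z a b) ^ 2 ≤ D ^ 2 * ∑ a, m a ^ 2 := by
  set n : β → ℝ := fun b => ∑ a, m a * Z a b
  have h := (le_abs_self _).trans (hZ m n)
  have e2 : ∑ a, ∑ b, m a * n b * Z a b = nrm n ^ 2 := by
    rw [nrm_sq, Finset.sum_comm]
    refine Finset.sum_congr rfl fun b _ => ?_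
    rw [sq, show n b * n b = (∑ a, m a * Z a b) * n b from rfl, Finset.sum_mul]
    exact Finset.sum_congr rfl fun a _ => by ring
  rw [e2] at h
  have : nrm n ≤ D * nrm m := by
    rcases eq_or_lt_of_le (nrm_nonneg n) with h0 | h0
    · rw [← h0]; exact mul_nonneg hD (nrm_nonneg m)
    · exact le_of_mul_le_mul_right (by linarith [sq (nrm n)]) h0
  have h2 := pow_le_pow_left₀ (nrm_nonneg n) this 2
  rwa [mul_pow, nrm_sq, nrm_sq] at h2

/-- Tensor products of kernels. -/
lemma OpLe.tensor {C C' : ℝ} (hC : 0 ≤ C) (hC' : 0 ≤ C') {X : α → β → ℝ} {Y : α' → β' → ℝ}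
    (hX : OpLe C X) (hY : OpLe C' Y) :
    OpLe (C * C') fun (a : α × α') (b : β × β') => X a.1 b.1 * Y a.2 b.2 := by
  intro M N
  -- push `M` through `X`
  set M' : β × α' → ℝ := fun p => ∑ a, M (a, p.2) * X a p.1 with hM'
  set N' : β × α' → ℝ := fun p => ∑ b', N (p.1, b') * Y p.2 b' with hN'
  have e : ∑ a : α × α', ∑ b : β × β', M a * N b * (X a.1 b.1 * Y a.2 b.2)
      = ∑ p, M' p * N' p := by
    simp only [hM', hN', Fintype.sum_prod_type, Finset.sum_mul_sum]
    rw [Finset.sum_comm (γ := α) (α := α')]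
    rw [Finset.sum_comm (γ := β) (α := α')]
    refine Finset.sum_congr rfl fun a' _ => ?_
    rw [Finset.sum_comm]
    refine Finset.sum_congr rfl fun b _ => Finset.sum_congr rfl fun a _ =>
      Finset.sum_congr rfl fun b' _ => by ring
  have hM : nrm M' ≤ C * nrm M := by
    refine Real.sqrt_le_iff.2 ⟨mul_nonneg hC (nrm_nonneg _), ?_⟩
    rw [mul_pow, nrm_sq, Fintype.sum_prod_type, Fintype.sum_prod_type, Finset.sum_comm,
      Finset.sum_comm (γ := α) (α := α'), Finset.mul_sum]
    exact Finset.sum_le_sum fun a' _ => hX.push hC fun a => M (a, a')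
  have hY' : OpLe C' fun b' a' => Y a' b' := fun m n => by
    have := hY n m
    rw [mul_right_comm, Finset.sum_comm] at this
    refine le_of_eq_of_le ?_ this
    congr 1
    exact Finset.sum_congr rfl fun _ _ => Finset.sum_congr rfl fun _ _ => by ring
  have hN : nrm N' ≤ C' * nrm N := by
    refine Real.sqrt_le_iff.2 ⟨mul_nonneg hC' (nrm_nonneg _), ?_⟩
    rw [mul_pow, nrm_sq, Fintype.sum_prod_type, Fintype.sum_prod_type, Finset.mul_sum]
    exact Finset.sum_le_sum fun b _ => hY'.push hC' fun b' => N (b, b')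
  rw [e, abs_le]
  have hmn : nrm M' * nrm N' ≤ C * C' * nrm M * nrm N := by
    refine (mul_le_mul hM hN (nrm_nonneg _) (mul_nonneg hC (nrm_nonneg _))).trans (le_of_eq ?_)
    ring
  constructor
  · have h := sum_mul_le_nrm (fun p => -M' p) N'
    have hneg : nrm (fun p => -M' p) = nrm M' := by simp [nrm]
    simp only [hneg, neg_mul, Finset.sum_neg_distrib] at h
    linarith
  · linarith [sum_mul_le_nrm M' N']

end kernels

/-- Move the first index of a string into the prefix. -/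
def moveHead (α : Type*) (d k : ℕ) : α × (Fin (k + 1) → Fin d) ≃ (α × Fin d) × (Fin k → Fin d) :=
  ((Equiv.refl α).prodCongr (Fin.consEquiv fun _ : Fin (k + 1) => Fin d).symm).trans
    (Equiv.prodAssoc α (Fin d) _).symm

lemma moveHead_apply {α : Type*} {k : ℕ} (a : α) (idx : Fin (k + 1) → Fin d) :
    moveHead α d k (a, idx) = ((a, idx 0), Fin.tail idx) := rfl

/-- A split kernel is bounded by the tensor products of its parts. -/
theorem opLe_spl : ∀ (k : ℕ) {α β α' β' : Type} [Fintype α] [Fintype β] [Fintype α'] [Fintype β']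
    (C : ℝ) (X : α → β → Coeffs d) (Y : α' → β' → Coeffs d),
    (∀ a b, a + b = k → ∃ CX CY, 0 ≤ CX ∧ 0 ≤ CY ∧
      OpLe CX (fun (p : α × (Fin a → Fin d)) q => X p.1 q a p.2) ∧
      OpLe CY (fun (p : α' × (Fin b → Fin d)) q => Y p.1 q b p.2) ∧ CX * CY ≤ C) →
    OpLe (2 ^ k * C) fun (p : (α × α') × (Fin k → Fin d)) (q : β × β') =>
      spl (X p.1.1 q.1) (Y p.1.2 q.2) k p.2 := by
  intro k
  induction k with
  | zero =>
    intro α β α' β' _ _ _ _ C X Y h
    obtain ⟨CX, CY, hX0, hY0, hX, hY, hC⟩ := h 0 0 rfl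
    have hX' := hX.reindex (Equiv.prodUnique α (Fin 0 → Fin d)).symm (Equiv.refl β)
    have hY' := hY.reindex (Equiv.prodUnique α' (Fin 0 → Fin d)).symm (Equiv.refl β')
    have ht := ((OpLe.tensor hX0 hY0 hX' hY').reindex (Equiv.prodUnique (α × α') (Fin 0 → Fin d))
      (Equiv.refl _)).mono hC
    refine (ht.mono (by simp)).congr fun p q => ?_
    simp only [spl, Equiv.prodUnique_apply, Equiv.refl_apply]
    congr 1 <;> · congr 1; exact funext fun i => i.elim0
  | succ k ih =>
    intro α β α' β' _ _ _ _ C X Y h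
    have h1 := ih C (fun (p : α × Fin d) q => shift p.2 (X p.1 q)) Y fun a b hab => by
      obtain ⟨CX, CY, hX0, hY0, hX, hY, hC⟩ := h (a + 1) b (by omega)
      refine ⟨CX, CY, hX0, hY0, (hX.reindex (moveHead α d a).symm (Equiv.refl β)).congr
        fun p q => ?_, hY, hC⟩
      rfl
    have h2 := ih C X (fun (p : α' × Fin d) q => shift p.2 (Y p.1 q)) fun a b hab => by
      obtain ⟨CX, CY, hX0, hY0, hX, hY, hC⟩ := h a (b + 1) (by omega)
      refine ⟨CX, CY, hX0, hY0, hX, (hY.reindex (moveHead α' d b).symm (Equiv.refl β')).congr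
        fun p q => ?_, hC⟩
      rfl
    let e1 : (α × α') × (Fin (k + 1) → Fin d) ≃ ((α × Fin d) × α') × (Fin k → Fin d) :=
      (moveHead (α × α') d k).trans (((Equiv.prodAssoc α α' (Fin d)).trans
        (((Equiv.refl α).prodCongr (Equiv.prodComm α' (Fin d))).trans
          (Equiv.prodAssoc α (Fin d) α').symm)).prodCongr (Equiv.refl _))
    let e2 : (α × α') × (Fin (k + 1) → Fin d) ≃ (α × (α' × Fin d)) × (Fin k → Fin d) :=
      (moveHead (α × α') d k).trans ((Equiv.prodAssoc α α' (Fin d)).prodCongr (Equiv.refl _))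
    refine (((h1.reindex e1 (Equiv.refl _)).add (h2.reindex e2 (Equiv.refl _))).congr
      fun p q => ?_).mono (by rw [pow_succ]; ring_nf; rfl)
    rfl

/-- A doubly split kernel is bounded by the tensor products of its parts. -/
theorem opLe_spl₂ : ∀ (t k : ℕ) {α β α' β' : Type} [Fintype α] [Fintype β] [Fintype α'] [Fintype β']
    (C : ℝ) (X : α → β → Coeffs₂ d) (Y : α' → β' → Coeffs₂ d),
    (∀ a b a' b', a + b = k → a' + b' = t → ∃ CX CY, 0 ≤ CX ∧ 0 ≤ CY ∧
      OpLe CX (fun (p : α × (Fin a → Fin d)) (q : β × (Fin a' → Fin d)) => X p.1 q.1 a' q.2 a p.2) ∧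
      OpLe CY (fun (p : α' × (Fin b → Fin d)) (q : β' × (Fin b' → Fin d)) =>
        Y p.1 q.1 b' q.2 b p.2) ∧ CX * CY ≤ C) →
    OpLe (2 ^ t * (2 ^ k * C))
      fun (p : (α × α') × (Fin k → Fin d)) (q : (β × β') × (Fin t → Fin d)) =>
        spl₂ (X p.1.1 q.1.1) (Y p.1.2 q.1.2) t q.2 k p.2 := by
  intro t
  induction t with
  | zero =>
    intro k α β α' β' _ _ _ _ C X Y h
    have h1 := opLe_spl k C (fun p q => X p q 0 Fin.elim0) (fun p q => Y p q 0 Fin.elim0)
      fun a b hab => by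
        obtain ⟨CX, CY, hX0, hY0, hX, hY, hC⟩ := h a b 0 0 hab rfl
        refine ⟨CX, CY, hX0, hY0, (hX.reindex (Equiv.refl _)
          (Equiv.prodUnique β (Fin 0 → Fin d)).symm).congr fun p q => ?_, (hY.reindex (Equiv.refl _)
          (Equiv.prodUnique β' (Fin 0 → Fin d)).symm).congr fun p q => ?_, hC⟩
        · exact congrArg (fun J => X p.1 q 0 J a p.2) (funext fun i => i.elim0)
        · exact congrArg (fun J => Y p.1 q 0 J b p.2) (funext fun i => i.elim0)
    refine ((h1.reindex (Equiv.refl _) (Equiv.prodUnique (β × β') (Fin 0 → Fin d))).mono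
      (by simp)).congr fun p q => ?_
    simp only [spl₂, Equiv.refl_apply, Equiv.prodUnique_apply,
      show q.2 = Fin.elim0 from funext fun i => i.elim0]
  | succ t ih =>
    intro k α β α' β' _ _ _ _ C X Y h
    have h1 := ih k C (fun p (q : β × Fin d) => shiftO q.2 (X p q.1)) Y fun a b a' b' hab hab' => by
      obtain ⟨CX, CY, hX0, hY0, hX, hY, hC⟩ := h a b (a' + 1) b' hab (by omega)
      exact ⟨CX, CY, hX0, hY0, (hX.reindex (Equiv.refl _) (moveHead β d a').symm).congr
        fun p q => rfl, hY, hC⟩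
    have h2 := ih k C X (fun p (q : β' × Fin d) => shiftO q.2 (Y p q.1)) fun a b a' b' hab hab' => by
      obtain ⟨CX, CY, hX0, hY0, hX, hY, hC⟩ := h a b a' (b' + 1) hab (by omega)
      exact ⟨CX, CY, hX0, hY0, hX, (hY.reindex (Equiv.refl _) (moveHead β' d b').symm).congr
        fun p q => rfl, hC⟩
    let e1 : (β × β') × (Fin (t + 1) → Fin d) ≃ ((β × Fin d) × β') × (Fin t → Fin d) :=
      (moveHead (β × β') d t).trans (((Equiv.prodAssoc β β' (Fin d)).trans
        (((Equiv.refl β).prodCongr (Equiv.prodComm β' (Fin d))).trans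
          (Equiv.prodAssoc β (Fin d) β').symm)).prodCongr (Equiv.refl _))
    let e2 : (β × β') × (Fin (t + 1) → Fin d) ≃ (β × (β' × Fin d)) × (Fin t → Fin d) :=
      (moveHead (β × β') d t).trans ((Equiv.prodAssoc β β' (Fin d)).prodCongr (Equiv.refl _))
    refine (((h1.reindex (Equiv.refl _) e1).add (h2.reindex (Equiv.refl _) e2)).congr
      fun p q => ?_).mono (by rw [pow_succ]; ring_nf; rfl)
    rfl

end Vale.Agent.P347.Gamma0
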