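import Vale.Agent.P347.Gamma0.StageRules
import Vale.Agent.P347.Gamma0.OutStage
import Vale.Agent.P347.Gamma0.Sampler

/-!
P347, towards `γ_* = 0`: stages of every order from the bounds on the compiled stage and the
orders of the parameters.
-/

namespace Vale.Agent.P347.Gamma0

namespace Build

open Filter Topology Finset

/-- The syntactic sizes of the compiled stage and the stability of its linear field. -/
structure ShapePieces : Prop where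
  shape : ∃ k : ℕ, ∀ (na : ℕ) (P : Data na) (B w₀ : ℝ), Small P B → (na : ℝ) + 2 ≤ B →
    1 ≤ w₀ → (∑ j, |P.time.W none j|) ≤ w₀ →
      StageShape (stage P) P.ε (P.ρ ^ (-(k : ℝ))) (|P.γ| * Real.sqrt P.τ) P.τ P.ρ w₀
  lip : ∃ k : ℕ, ∀ (d na : ℕ) (P : Data na) (B : ℝ), Small P B → (na : ℝ) + 2 ≤ B →
    EtaLip d P (P.ρ ^ (-(k : ℝ)))
  nodes : ∀ iter : ℕ, ∃ e : ℕ, ∀ (na : ℕ) (P : Data na) (X : ℕ), P.iter = iter → P.M₁ ≤ X →
    P.M₂ ≤ X → P.nh ≤ X → P.nr ≤ X → P.nt ≤ X → na ≤ X →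
      (stage P).mean.nodes ≤ (X + 5) ^ e ∧ ∀ j, ((stage P).shift j).nodes ≤ (X + 5) ^ e

/-- The quadrature of the forward flow. -/
def FwdPiece : Prop :=
  ∀ n : ℕ, 1 ≤ n → ∃ C : ℝ, ∀ (d na : ℕ) (P : Data na) (B η : ℝ), Small P B → 0 ≤ η →
    GridOrd n P.g₂ P.τ P.q₂ η → QuadFwd d P (C * η)

/-- A rule in time of any order. -/
def TimePiece : Prop :=
  ∀ n : ℕ, 1 ≤ n → ∃ (nt : ℕ) (time : Rule nt) (Ct C : ℝ) (E : ℕ), 0 ≤ C ∧
    (∀ i, time.x i ∈ Set.Icc (0 : ℝ) 1) ∧ (∀ o, ∑ j, |time.W o j| ≤ Ct) ∧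
    (∀ o, ∑ j, time.W o j = o.elim 1 time.x) ∧
    ∃ ε₀ : ℝ, 0 < ε₀ ∧ ∀ (d na : ℕ) (P : Data na) (B : ℝ) (h : P.nt = nt),
      (h ▸ P.time) = time → Small P B → P.ε ≤ ε₀ →
        QuadTime d P (C * (|P.γ| * Real.sqrt P.τ) ^ n * P.ρ ^ (-(E : ℝ)))

/-- The compiled linear field has any order. -/
def EtaPiece : Prop :=
  ∀ K : ℕ, ∃ na C₁ : ℕ, 1 ≤ na ∧ ∀ a : ℝ, 0 < a → a * C₁ ≤ 1 / 8 →
    ∃ nh nr it : ℕ, 1 ≤ nh ∧ 1 < nr ∧ ∀ iter : ℕ, it ≤ iter → ∀ n : ℕ, 1 ≤ n → ∀ C₀ : ℝ,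
      ∀ R : Rules na nh nr C₀, ∃ C ε₀ : ℝ, 0 < ε₀ ∧ ∀ (d nt : ℕ) (time : Rule nt) (M₁ M₂ : ℕ)
        (g₁ : Grid M₁) (g₂ : Grid M₂) (ε τ γ η B : ℝ),
        Small (mkData R time g₁ g₂ iter ε τ (ε ^ a) γ) B → (na : ℝ) + 2 ≤ B → ε ≤ ε₀ →
        GridOrd n g₁ τ (Real.sqrt (τ - ε ^ a * τ)) η → 0 ≤ η → η ≤ ε ^ (K + C₁) →
          EtaApprox d (mkData R time g₁ g₂ iter ε τ (ε ^ a) γ) (C * ε ^ K)

lemma small_of_le {C ε p : ℝ} {K : ℕ} (hε : 0 < ε) (hp : (K : ℝ) + 1 ≤ p) (hε1 : ε ≤ 1)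
    (hC : C * ε ≤ 1) (hC0 : 0 ≤ C) : C * ε ^ p ≤ ε ^ K := by
  calc C * ε ^ p ≤ C * ε ^ ((K : ℝ) + 1) :=
        mul_le_mul_of_nonneg_left (Real.rpow_le_rpow_of_exponent_ge hε hε1 hp) hC0
    _ = C * ε * ε ^ K := by rw [Real.rpow_add hε, Real.rpow_natCast, Real.rpow_one]; ring
    _ ≤ 1 * ε ^ K := mul_le_mul_of_nonneg_right hC (by positivity)
    _ = _ := one_mul _

lemma accurate_mono {n N d : ℕ} {S : Stage n N} {ε γ τ ρ e e' : ℝ}
    (h : StageAccurate d S ε γ τ ρ e) (he : e ≤ e') : StageAccurate d S ε γ τ ρ e' where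
  mean_acc U g hU hg c φ hφ := (h.mean_acc U g hU hg c φ hφ).trans (by gcongr)
  moment := h.moment
  out_acc U g hU hg c φ hφ := (h.out_acc U g hU hg c φ hφ).trans (by gcongr)

/-- The accuracy of the compiled stage from the three quadrature bounds. -/
lemma accurate_of {d na : ℕ} (P : Data na) {B A δ₂ δe δ Le : ℝ} (hP : Small P B)
    (hW : TimeOK P A) (hA : 0 ≤ A) (hδ₂ : 0 ≤ δ₂) (hδe : 0 ≤ δe) (hδ : 0 ≤ δ) (hLe : 0 ≤ Le)
    (hεB : P.ε * B ≤ 1 / 2)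
    (hθ : Real.sqrt 2 * |P.γ| * Real.sqrt P.τ * A * (Le + 1) ≤ 1 / 2)
    (hf : QuadFwd d P δ₂) (hl : EtaLip d P Le) (he : EtaApprox d P δe) (ht : QuadTime d P δ) :
    StageAccurate d (stage P) P.ε P.γ P.τ P.ρ (max (2 * P.ε * δ₂ + 4 * (P.ε * B) ^ P.iter)
      (A * δe + 2 * δ
        + 5 * A * (Real.sqrt 2 * |P.γ| * Real.sqrt P.τ * A * (Le + 1)) ^ P.iter)) where
  mean_acc U g hU hg c φ hφ := by
    refine ((mean_acc_of_quad P postFacts lawTransport hP.tau_pos hP.tau_le hP.eps_pos.le hP.eps_le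
      hP.rho_pos (by linarith [hP.rho_le]) hP.g₂_ok hεB (zero_le_one.trans hP.one_le) hδ₂ hf U g hU
      hg c).1 φ hφ).trans ?_
    gcongr
    exact le_max_left _ _
  moment U g hU hg c := by
    exact (mean_acc_of_quad P postFacts lawTransport hP.tau_pos hP.tau_le hP.eps_pos.le hP.eps_le
      hP.rho_pos (by linarith [hP.rho_le]) hP.g₂_ok hεB (zero_le_one.trans hP.one_le) hδ₂ hf U g hU
      hg c).2
  out_acc U g hU hg c φ hφ := by
    refine (out_acc_of_eta P postFacts flowExists lawTransport hP.tau_pos hP.tau_le hP.eps_pos.le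
      hP.eps_le hP.rho_pos (by linarith [hP.rho_le]) hW hA hδ hδe hLe hθ hl he ht U g hU hg c φ
      hφ).trans ?_
    gcongr
    exact le_max_right _ _

/-- The power of the load against that of the scale. -/
lemma load_pow {ε τ γ a : ℝ} {K E : ℕ} (hε : 0 < ε) (hε1 : ε ≤ 1)
    (hload : |γ| * Real.sqrt τ ≤ Real.sqrt (Real.sqrt ε)) (haE : a * E ≤ 1 / 8) :
    (|γ| * Real.sqrt τ) ^ (4 * (K + 3)) * (ε ^ a) ^ (-(E : ℝ)) ≤ ε ^ (K + 1) := by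
  rw [Real.sqrt_eq_rpow (Real.sqrt ε), Real.sqrt_eq_rpow ε, ← Real.rpow_mul hε.le] at hload
  refine (mul_le_mul_of_nonneg_right (pow_le_pow_left₀ (by positivity) hload _)
    (Real.rpow_nonneg (Real.rpow_nonneg hε.le _) _)).trans ?_
  rw [← Real.rpow_natCast, ← Real.rpow_mul hε.le, ← Real.rpow_mul hε.le, ← Real.rpow_add hε,
    ← Real.rpow_natCast ε (K + 1)]
  refine Real.rpow_le_rpow_of_exponent_ge hε hε1 ?_
  push_cast
  linarith

/-- The load of the iteration in time. -/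
lemma theta_le {ε τ γ Ct k : ℝ} (hε : 0 < ε) (hε1 : ε ≤ 1) (hCt : 0 ≤ Ct)
    (hload : |γ| * Real.sqrt τ ≤ Real.sqrt (Real.sqrt ε)) (hk0 : 0 ≤ k)
    (hk : k ≤ ε ^ (-(1 / 8 : ℝ))) (hsm : 4 * Ct * ε ^ (1 / 32 : ℝ) ≤ 1) :
    Real.sqrt 2 * |γ| * Real.sqrt τ * Ct * (k + 1) ≤ ε ^ (1 / 16 : ℝ) := by
  rw [Real.sqrt_eq_rpow (Real.sqrt ε), Real.sqrt_eq_rpow ε, ← Real.rpow_mul hε.le] at hload
  norm_num only at hload
  have h18 : 1 ≤ ε ^ (-(1 / 8 : ℝ)) :=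
    Real.one_le_rpow_of_pos_of_le_one_of_nonpos hε hε1 (by norm_num)
  have h2 : Real.sqrt 2 ≤ 2 := Real.sqrt_le_iff.2 ⟨by norm_num, by norm_num⟩
  calc Real.sqrt 2 * |γ| * Real.sqrt τ * Ct * (k + 1)
      = Real.sqrt 2 * (|γ| * Real.sqrt τ) * Ct * (k + 1) := by ring
    _ ≤ 2 * ε ^ (1 / 4 : ℝ) * Ct * (2 * ε ^ (-(1 / 8 : ℝ))) :=
        mul_le_mul (mul_le_mul_of_nonneg_right (mul_le_mul h2 hload (by positivity) zero_le_two) hCt)
          (by linarith) (by linarith) (by positivity)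
    _ = 4 * Ct * (ε ^ (1 / 4 : ℝ) * ε ^ (-(1 / 8 : ℝ))) := by ring
    _ = 4 * Ct * ε ^ (1 / 32 : ℝ) * ε ^ (3 / 32 : ℝ) := by
        rw [mul_assoc _ (ε ^ (1 / 32 : ℝ)), ← Real.rpow_add hε, ← Real.rpow_add hε]; norm_num
    _ ≤ 1 * ε ^ (1 / 16 : ℝ) :=
        mul_le_mul hsm (Real.rpow_le_rpow_of_exponent_ge hε hε1 (by norm_num)) (by positivity)
          zero_le_one
    _ = _ := one_mul _

/-- The order of the grids. -/
lemma eta_le {d ι δ : ℝ} {n k : ℕ} (hd : 1 ≤ d) (hδ : 0 < δ) (hn : 2 * ι * k / δ + 1 ≤ n) :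
    d ^ (-(δ * n) / 2) ≤ (d ^ (-ι)) ^ k := by
  have hd0 : 0 ≤ d := by linarith
  rw [← Real.rpow_natCast (d ^ (-ι)), ← Real.rpow_mul hd0]
  refine Real.rpow_le_rpow_of_exponent_le hd ?_
  rw [div_add_one hδ.ne', div_le_iff₀ hδ] at hn
  linarith

/-- The number of nodes. -/
lemma nodes_le {d δ δ' : ℝ} {M₁ M₂ c e : ℕ} (hd : 1 ≤ d) (hδ' : 0 ≤ δ')
    (hδ : δ' * (6 * ((e : ℝ) + 1)) ≤ δ) (h₁ : (M₁ : ℝ) ≤ d ^ (3 * δ'))
    (h₂ : (M₂ : ℝ) ≤ d ^ (3 * δ')) (hc : ((c + 6 : ℕ) : ℝ) ≤ d ^ δ') :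
    (((M₁ + M₂ + c : ℕ) : ℝ) + 5) ^ (e + 1) ≤ d ^ δ := by
  have hd0 : 0 < d := by linarith
  push_cast at hc ⊢
  have h3 : d ^ δ' ≤ d ^ (3 * δ') := Real.rpow_le_rpow_of_exponent_le hd (by linarith)
  have h6 : (M₁ : ℝ) + M₂ + c + 5 ≤ d ^ (6 * δ') := by
    rw [show (6 : ℝ) * δ' = 3 * δ' + 3 * δ' by ring, Real.rpow_add hd0]
    nlinarith [Nat.cast_nonneg (α := ℝ) c]
  refine (pow_le_pow_left₀ (by positivity) h6 _).trans ?_
  rw [← Real.rpow_natCast, ← Real.rpow_mul hd0.le]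
  refine Real.rpow_le_rpow_of_exponent_le hd ?_
  push_cast
  linarith

/-- The orders of the errors. -/
lemma order_le {ε B Cf Ce Ctime Ct θl η L R W : ℝ} {K iter n : ℕ} (hε : 0 < ε) (hε1 : ε ≤ 1)
    (hCf : 0 ≤ Cf) (hCe : 0 ≤ Ce) (hCtime : 0 ≤ Ctime) (hCt : 0 ≤ Ct) (hη0 : 0 ≤ η)
    (hη : η ≤ ε ^ (K + 1)) (hB0 : 0 ≤ B) (hεB : ε * B ≤ ε ^ (1 / 2 : ℝ)) (hθ0 : 0 ≤ θl)
    (hθ : θl ≤ ε ^ (1 / 16 : ℝ)) (hit : 16 * (K + 1) ≤ iter) (hLR : L ^ n * R ≤ ε ^ (K + 1))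
    (hW : 2 * Cf + 4 ≤ W) (hW' : Ct * Ce + 2 * Ctime + 5 * Ct ≤ W) (hWε : W * ε ≤ 1) :
    max (2 * ε * (Cf * η) + 4 * (ε * B) ^ iter)
      (Ct * (Ce * ε ^ (K + 1)) + 2 * (Ctime * L ^ n * R) + 5 * Ct * θl ^ iter) ≤ ε ^ K := by
  have hp : ∀ x p : ℝ, 0 ≤ x → x ≤ ε ^ p → (1 / 16 : ℝ) ≤ p → x ^ iter ≤ ε ^ (K + 1) := by
    intro x p hx hxp hp
    refine (pow_le_pow_left₀ hx hxp _).trans ?_
    rw [← Real.rpow_natCast, ← Real.rpow_mul hε.le, ← Real.rpow_natCast ε (K + 1)]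
    refine Real.rpow_le_rpow_of_exponent_ge hε hε1 ?_
    have h1 : ((16 * (K + 1) : ℕ) : ℝ) ≤ iter := by exact_mod_cast hit
    push_cast at h1 ⊢
    have h2 := mul_le_mul_of_nonneg_right hp (Nat.cast_nonneg (α := ℝ) iter)
    linarith
  have g1 := hp θl _ hθ0 hθ le_rfl
  have g2 := hp (ε * B) _ (by positivity) hεB (by norm_num)
  have hεK : ε * ε ^ K = ε ^ (K + 1) := (pow_succ' ε K).symm
  have hfin : ∀ c, c ≤ W → c * ε ^ (K + 1) ≤ ε ^ K := fun c hc => by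
    rw [← hεK, ← mul_assoc]
    exact (mul_le_mul_of_nonneg_right ((mul_le_mul_of_nonneg_right hc hε.le).trans hWε)
      (by positivity)).trans (le_of_eq (one_mul _))
  refine max_le ?_ ?_
  · refine le_trans ?_ (hfin _ hW)
    rw [add_mul, mul_assoc 2 Cf, mul_assoc 2 ε]
    refine add_le_add (mul_le_mul_of_nonneg_left ?_ zero_le_two) (mul_le_mul_of_nonneg_left g2 (by norm_num))
    exact (mul_le_of_le_one_left (by positivity) hε1).trans (mul_le_mul_of_nonneg_left hη hCf)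
  · refine le_trans ?_ (hfin _ hW')
    rw [mul_assoc Ctime, add_mul, add_mul, mul_assoc Ct Ce, mul_assoc 2 Ctime]
    exact add_le_add (add_le_add le_rfl (mul_le_mul_of_nonneg_left
      (mul_le_mul_of_nonneg_left hLR hCtime) zero_le_two)) (mul_le_mul_of_nonneg_left g1 (by positivity))

/-- Stages of every order from the bounds on the compiled stage. -/
theorem templates_of (hS : ShapePieces) (hF : FwdPiece) (hT : TimePiece) (hE : EtaPiece) :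
    Templates := by
  obtain ⟨ks, hshape⟩ := hS.shape
  obtain ⟨kl, hlip⟩ := hS.lip
  intro K ι hι hι1
  obtain ⟨na, C₁, hna, hEta⟩ := hE (K + 1)
  obtain ⟨nt, time, Ct, Ctime, Et, hCtime, hmem, hsum, hconst, εt, hεt, hQT⟩ :=
    hT (4 * (K + 3)) (by omega)
  have hCt : 0 ≤ Ct := (sum_nonneg fun j _ => abs_nonneg _).trans (hsum none)
  set C : ℕ := max (max ks C₁) (max (max Et (kl + 2)) 1024) with hCdef
  refine ⟨C, na, max 1 (∑ j, |time.W none j|), le_max_left _ _, fun a ha haC δ hδ => ?_⟩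
  have haC' : ∀ k : ℕ, k ≤ C → a * k ≤ 1 / 8 := fun k hk =>
    (mul_le_mul_of_nonneg_left (by exact_mod_cast hk) ha.le).trans haC
  obtain ⟨nh, nr, it, hnh, hnr, hEta⟩ :=
    hEta a ha (haC' C₁ ((le_max_right _ _).trans (le_max_left _ _)))
  obtain ⟨C₀, -, ⟨R⟩⟩ := exists_rules na nh nr hnh hnr
  set iter : ℕ := max it (16 * (K + 3)) with hiter
  obtain ⟨e, hnodes⟩ := hS.nodes iter
  have ha' : 1024 * a ≤ 1 := by
    have := haC' 1024 ((le_max_right _ _).trans (le_max_right _ _))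
    norm_num at this
    linarith
  set δ' : ℝ := min (δ / (6 * ((e : ℝ) + 1))) (ι * a / 128) with hδ'def
  have hδ' : 0 < δ' := lt_min (by positivity) (by positivity)
  obtain ⟨n, hn⟩ : ∃ n : ℕ, 2 * ι * ((K + 1 + C₁ : ℕ) : ℝ) / δ' + 1 ≤ n := ⟨_, Nat.le_ceil _⟩
  have hn1 : 1 ≤ n := by
    have : (1 : ℝ) ≤ n := le_trans (le_add_of_nonneg_left (by positivity)) hn
    exact_mod_cast this
  obtain ⟨Cf, hQF⟩ := hF n hn1
  obtain ⟨Ce, εe, hεe, hEta⟩ := hEta iter (le_max_left _ _) n hn1 C₀ R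
  have tp : ∀ {p : ℝ}, 0 < p → Tendsto (fun d : ℕ => (d : ℝ) ^ p) atTop atTop := fun hp =>
    (tendsto_rpow_atTop hp).comp tendsto_natCast_atTop_atTop
  have te : ∀ {p c : ℝ}, 0 < p → 0 < c → ∀ᶠ d : ℕ in atTop, ((d : ℝ) ^ (-ι)) ^ p ≤ c :=
    fun hp hc => (tendsto_eps hι hp).eventually_le_const hc
  obtain ⟨W, hWf, hWe, hW4, hWt⟩ : ∃ W : ℝ, 2 * max Cf 0 + 4 ≤ W ∧
      Ct * max Ce 0 + 2 * Ctime + 5 * Ct ≤ W ∧ 4 ≤ W ∧ 4 * Ct ≤ W :=
    ⟨max (max (2 * max Cf 0 + 4) (Ct * max Ce 0 + 2 * Ctime + 5 * Ct)) (max 4 (4 * Ct)),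
      (le_max_left _ _).trans (le_max_left _ _), (le_max_right _ _).trans (le_max_left _ _),
      (le_max_left _ _).trans (le_max_right _ _), (le_max_right _ _).trans (le_max_right _ _)⟩
  filter_upwards [exists_small R time hmem hsum (iter := iter) hn1 hι ha ha' hδ'
      (by linarith [min_le_right (δ / (6 * ((e : ℝ) + 1))) (ι * a / 128)]),
    te zero_lt_one (show 0 < min (min εt εe) (1 / W) by positivity),
    te (show (0 : ℝ) < 1 / 32 by norm_num) (show (0 : ℝ) < 1 / (W + 4) by positivity),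
    (tp hδ').eventually_ge_atTop ((nt + nh + nr + na + 6 : ℕ) : ℝ), eventually_ge_atTop 1]
    with d hd hεs hεs' hX hd1
  dsimp only at hd ⊢
  obtain ⟨hnaB, hd⟩ := hd
  set ε : ℝ := (d : ℝ) ^ (-ι) with hεdef
  set B : ℝ := ε ^ (-(a / 32))
  have hd1' : (1 : ℝ) ≤ d := by exact_mod_cast hd1
  have hd0 : (0 : ℝ) < d := by linarith
  have hε : 0 < ε := Real.rpow_pos_of_pos hd0 _
  have hε1 : ε ≤ 1 := Real.rpow_le_one_of_one_le_of_nonpos hd1' (by linarith)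
  rw [Real.rpow_one] at hεs
  simp only [le_min_iff] at hεs
  obtain ⟨⟨hεt', hεe'⟩, hεW⟩ := hεs
  have hWε : W * ε ≤ 1 := by rw [le_div_iff₀ (by positivity), mul_comm] at hεW; linarith
  intro τ γ hτ hτ1 hload
  obtain ⟨M₁, M₂, g₁, g₂, hM₁, hM₂, hsm, ho₁, ho₂⟩ := hd τ γ hτ hτ1 hload
  set P := mkData R time g₁ g₂ iter ε τ (ε ^ a) γ
  set η : ℝ := (d : ℝ) ^ (-(δ' * n) / 2)
  have hη : η ≤ ε ^ (K + 1 + C₁) := eta_le hd1' hδ' hn
  refine ⟨nt, stage P, ?_⟩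
  have hXδ := nodes_le (M₁ := M₁) (M₂ := M₂) (c := nt + nh + nr + na) hd1' hδ'.le
    ((le_div_iff₀ (by positivity)).1 (min_le_left _ _)) hM₁ hM₂ hX
  obtain ⟨X, hXdef⟩ : ∃ X, X = M₁ + M₂ + (nt + nh + nr + na) := ⟨_, rfl⟩
  rw [← hXdef] at hXδ
  have hpow : ∀ x : ℕ, x ≤ (X + 5) ^ e → (x : ℝ) ≤ (d : ℝ) ^ δ := fun x hx => by
    refine le_trans (le_trans ?_ (pow_le_pow_right₀ (le_add_of_nonneg_of_le X.cast_nonneg (by norm_num))
      (Nat.le_succ e))) hXδ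
    exact_mod_cast hx
  have hle : ∀ y, y ≤ M₁ ∨ y ≤ M₂ ∨ y ≤ nt ∨ y ≤ nh ∨ y ≤ nr ∨ y ≤ na → y ≤ X := by
    intro y h
    omega
  obtain ⟨hn₁, hn₂⟩ := hnodes na P X rfl (hle M₁ (.inl le_rfl)) (hle M₂ (.inr (.inl le_rfl)))
    (hle nh (.inr (.inr (.inr (.inl le_rfl))))) (hle nr (.inr (.inr (.inr (.inr (.inl le_rfl))))))
    (hle nt (.inr (.inr (.inl le_rfl)))) (hle na (.inr (.inr (.inr (.inr (.inr le_rfl))))))
  refine ⟨?_, hpow _ hn₁, fun j => hpow _ (hn₂ j), ?_, ?_⟩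
  · refine le_trans ?_ hXδ
    refine le_trans ?_ (le_self_pow₀ (le_add_of_nonneg_of_le X.cast_nonneg (by norm_num))
      (Nat.succ_ne_zero e))
    exact le_add_of_le_of_nonneg (Nat.cast_le.2 (hle nt (.inr (.inr (.inl le_rfl))))) (by norm_num)
  · refine StageShape.mono (hshape na P B _ hsm hnaB (le_max_left _ _) (le_max_right _ _)) ?_
      hε.le (by positivity)
    show (ε ^ a) ^ (-(ks : ℝ)) ≤ ε ^ (-(a * C))
    rw [← Real.rpow_mul hε.le]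
    refine Real.rpow_le_rpow_of_exponent_ge hε hε1 ?_
    have hk : (ks : ℝ) ≤ C := Nat.cast_le.2 ((le_max_left _ _).trans (le_max_left _ _))
    rw [mul_neg, neg_le_neg_iff]
    exact mul_le_mul_of_nonneg_left hk ha.le
  have hW' : TimeOK P Ct := ⟨hmem, hsum, hconst⟩
  have hB : B ≤ ε ^ (-(1 / 2 : ℝ)) := Real.rpow_le_rpow_of_exponent_ge hε hε1 (by linarith)
  have hεB : P.ε * B ≤ ε ^ (1 / 2 : ℝ) := by
    calc ε * B ≤ ε * ε ^ (-(1 / 2 : ℝ)) := mul_le_mul_of_nonneg_left hB hε.le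
      _ = _ := by
        nth_rewrite 1 [← Real.rpow_one ε]
        rw [← Real.rpow_add hε]; norm_num
  have hhalf : ε ^ (1 / 32 : ℝ) ≤ 1 / 4 :=
    hεs'.trans (one_div_le_one_div_of_le (by norm_num) (by linarith))
  set θl := Real.sqrt 2 * |γ| * Real.sqrt τ * Ct * (P.ρ ^ (-(kl : ℝ)) + 1)
  have hθl : θl ≤ ε ^ (1 / 16 : ℝ) := by
    refine theta_le hε hε1 hCt hload (Real.rpow_nonneg hsm.rho_pos.le _) ?_ ?_
    · show (ε ^ a) ^ (-(kl : ℝ)) ≤ _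
      rw [← Real.rpow_mul hε.le]
      refine Real.rpow_le_rpow_of_exponent_ge hε hε1 ?_
      have := haC' kl ((Nat.le_add_right kl 2).trans (((le_max_right _ _).trans (le_max_left _ _)).trans
        (le_max_right _ _)))
      linarith
    · refine (mul_le_mul_of_nonneg_left hεs' (by positivity)).trans ?_
      rw [mul_one_div, div_le_one (by positivity)]
      linarith
  have hθ2 : θl ≤ 1 / 2 := by
    refine hθl.trans (le_trans (Real.rpow_le_rpow_of_exponent_ge hε hε1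
      (show (1 / 32 : ℝ) ≤ 1 / 16 by norm_num)) ?_)
    exact hhalf.trans (by norm_num)
  refine accurate_mono (accurate_of P (δ₂ := max Cf 0 * η) (δe := max Ce 0 * ε ^ (K + 1))
    (δ := Ctime * (|γ| * Real.sqrt τ) ^ (4 * (K + 3)) * P.ρ ^ (-(Et : ℝ)))
    (Le := P.ρ ^ (-(kl : ℝ))) hsm hW' hCt (by positivity) (by positivity)
    (by
      have : (0 : ℝ) ≤ P.ρ ^ (-(Et : ℝ)) := Real.rpow_nonneg hsm.rho_pos.le _
      positivity) (Real.rpow_nonneg hsm.rho_pos.le _) ?_ hθ2 ?_ (hlip d na P B hsm hnaB) ?_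
    (hQT d na P B rfl rfl hsm hεt')) ?_
  · exact hεB.trans (le_trans (Real.rpow_le_rpow_of_exponent_ge hε hε1
      (show (1 / 32 : ℝ) ≤ 1 / 2 by norm_num))
      (hhalf.trans (by norm_num)))
  · intro D hDε hDτ X o
    refine (hQF d na P B η hsm (by positivity) ho₂ D hDε hDτ X o).trans (ENNReal.ofReal_le_ofReal ?_)
    gcongr
    exact le_max_left _ _
  · intro D hDε hDτ X
    refine (hEta d nt time M₁ M₂ g₁ g₂ ε τ γ η B hsm hnaB hεe' ho₁ (by positivity) hη D hDε hDτ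
      X).trans (ENNReal.ofReal_le_ofReal ?_)
    gcongr
    exact le_max_left _ _
  refine order_le (W := W) hε hε1 (le_max_right _ _) (le_max_right _ _) hCtime hCt (by positivity)
    (hη.trans (pow_le_pow_of_le_one hε.le hε1 (Nat.le_add_right _ _))) (Real.rpow_nonneg hε.le _)
    hεB ?_ hθl ?_ ?_ hWf hWe hWε
  · have : (0 : ℝ) ≤ P.ρ ^ (-(kl : ℝ)) := Real.rpow_nonneg hsm.rho_pos.le _
    positivity
  · have := le_max_right it (16 * (K + 3))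
    show 16 * (K + 1) ≤ iter
    omega
  · exact load_pow hε hε1 hload (haC' Et
      (((le_max_left _ _).trans (le_max_left _ _)).trans (le_max_right _ _)))

end Build

end Vale.Agent.P347.Gamma0
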