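import Vale.Agent.P347.Gamma0.StagePar
import Vale.Agent.P347.Gamma0.HamBound
import Vale.Agent.P347.Gamma0.Quad

/-!
P347, towards `γ_* = 0`: the numerical rules and grids of a stage exist, with the sizes required of
them once the dimension is large.
-/

namespace Vale.Agent.P347.Gamma0

namespace Build

open Filter Topology Finset

/-- The rules of a stage of fixed degrees, with one bound on their weights. -/
structure Rules (na nh nr : ℕ) (C : ℝ) where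
  ham : Rule nh
  fdθ : Fd nr
  fdt : ℕ → Fd nr
  one_le : 1 ≤ C
  hamRules : HamRules ham fdθ C
  fdt_mem : ∀ n k, |(fdt n).x k| ≤ 1
  fdt_sum : ∀ n, n ≤ na → ∑ k, |(fdt n).wt k| ≤ C
  fdt_mom : ∀ n, n ≤ na → ∀ l, l < nr → ∑ k, (fdt n).wt k * (fdt n).x k ^ l = if l = n then 1 else 0

lemma HamRules.mono {n N : ℕ} {ru : Rule n} {fd : Fd N} {C C' : ℝ} (h : HamRules ru fd C)
    (hC : C ≤ C') : HamRules ru fd C' where
  nonneg := h.nonneg.trans hC
  fd_mem := h.fd_mem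
  fd_sum := h.fd_sum.trans hC
  ru_mem := h.ru_mem
  ru_sum o := (h.ru_sum o).trans hC
  quad Ω _ μ _ d f t M hM hd hm hb o := by
    refine (h.quad Ω μ d f t M hM hd hm hb o).trans (ENNReal.ofReal_le_ofReal ?_)
    have := h.nonneg
    exact pow_le_pow_left₀ (by positivity) (by gcongr) 2
  extract Ω _ μ _ d f θ M hθ hM hd hm hb := by
    refine (h.extract Ω μ d f θ M hθ hM hd hm hb).trans (ENNReal.ofReal_le_ofReal ?_)
    have := h.nonneg
    exact pow_le_pow_left₀ (by positivity) (by gcongr) 2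

theorem exists_rules (na nh nr : ℕ) (hh : 1 ≤ nh) (hr : 1 < nr) :
    ∃ C : ℝ, 1 ≤ C ∧ Nonempty (Rules na nh nr C) := by
  obtain ⟨C₁, ru, fd, hC₁⟩ := exists_hamRules intMatrix richardson hh hr
  choose w hw using fun n : ℕ => exists_weights (node_injective nr)
    (fun k : Fin nr => if (k : ℕ) = n then (1 : ℝ) else 0)
  have hS : ∀ n, n ≤ na → ∑ k, |w n k| ≤ ∑ m ∈ range (na + 1), ∑ k, |w m k| := fun n hn =>
    single_le_sum (f := fun m => ∑ k, |w m k|) (fun m _ => sum_nonneg fun k _ => abs_nonneg _)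
      (mem_range.2 (Nat.lt_succ_of_le hn))
  set S := ∑ m ∈ range (na + 1), ∑ k, |w m k|
  refine ⟨max 1 (max C₁ S), le_max_left _ _, ⟨{
    ham := ru, fdθ := fd, fdt := fun n => ⟨fun i => ((i : ℕ) : ℝ) / nr, w n⟩
    one_le := le_max_left _ _
    hamRules := hC₁.mono ((le_max_left _ _).trans (le_max_right _ _))
    fdt_mem := fun n k => ?_
    fdt_sum := fun n hn => (hS n hn).trans ((le_max_right _ _).trans (le_max_right _ _))
    fdt_mom := fun n _ l hl => hw n ⟨l, hl⟩ }⟩⟩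
  exact abs_le.2 ⟨by linarith [(node_mem nr k).1], (node_mem nr k).2⟩

/-- The data of a stage from rules and grids. -/
noncomputable def mkData {na nh nr nt M₁ M₂ : ℕ} {C : ℝ} (R : Rules na nh nr C) (time : Rule nt)
    (g₁ : Grid M₁) (g₂ : Grid M₂) (iter : ℕ) (ε τ ρ γ : ℝ) : Data na where
  M₁ := M₁
  M₂ := M₂
  nh := nh
  nr := nr
  nt := nt
  ε := ε
  τ := τ
  ρ := ρ
  γ := γ
  θ := ρ ^ 4
  t := Real.sqrt ε
  g₁ := g₁
  g₂ := g₂
  ham := R.ham
  time := time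
  fdθ := R.fdθ
  fdt := R.fdt
  iter := iter

/-- The logarithm of a negative power is below any power. -/
lemma log_two_div_le {x c : ℝ} (hx : 1 ≤ x) (hc : 0 < c) {ρ : ℝ} (hρ : ρ = x ^ (-c)) {δ : ℝ}
    (hδ : 0 < δ) : Real.log (2 / (ρ / 2)) ≤ (c + 2) * ((x ^ δ) / δ + 1) := by
  have hx0 : 0 < x := by linarith
  have h4 : Real.log 4 ≤ 2 := by
    rw [show (4 : ℝ) = 2 ^ 2 by norm_num, Real.log_pow]
    push_cast
    linarith [Real.log_two_lt_d9]
  rw [hρ, show (2 : ℝ) / (x ^ (-c) / 2) = 4 * x ^ c by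
    rw [Real.rpow_neg hx0.le]; field_simp; norm_num, Real.log_mul (by norm_num) (by positivity),
    Real.log_rpow hx0]
  have h1 : Real.log x ≤ x ^ δ / δ := Real.log_le_rpow_div hx0.le hδ
  have h2 : 0 ≤ x ^ δ / δ := by positivity
  nlinarith [Real.log_nonneg hx]

/-- The sizes of assembled data. -/
lemma small_mkData {na nh nr nt M₁ M₂ : ℕ} {C Ct B : ℝ} (R : Rules na nh nr C) (time : Rule nt)
    {g₁ : Grid M₁} {g₂ : Grid M₂} {iter : ℕ} {ε τ ρ γ : ℝ} (hε : 0 < ε) (hε1 : ε ≤ 1 / 10)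
    (hτ : 0 < τ) (hτ1 : τ ≤ 1) (hρ : 0 < ρ) (hρ1 : ρ ≤ 1 / 16)
    (hload : |γ| * Real.sqrt τ ≤ Real.sqrt (Real.sqrt ε)) (hB : 1 ≤ B)
    (habs : (B + 2) ^ 16 * ρ ≤ 1) (hsmall : ε ^ (1 / 16 : ℝ) ≤ ρ ^ 64)
    (h₁ : GridOK g₁ (Real.sqrt (τ - ρ * τ)) B) (h₂ : GridOK g₂ (Real.sqrt (τ - ρ * τ / 2)) B)
    (hs₁ : ∀ o, ∑ j, |g₁.W o j| ≤ B * Real.sqrt τ) (hs₂ : ∀ o, ∑ j, |g₂.W o j| ≤ B * Real.sqrt τ)
    (hC : C ≤ B) (hCt : Ct ≤ B) (hmem : ∀ i, time.x i ∈ Set.Icc (0 : ℝ) 1)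
    (hsum : ∀ o, ∑ j, |time.W o j| ≤ Ct) :
    Small (mkData R time g₁ g₂ iter ε τ ρ γ) B := by
  constructor
  case eps_pos => exact hε
  case eps_le => exact hε1
  case tau_pos => exact hτ
  case tau_le => exact hτ1
  case rho_pos => exact hρ
  case rho_le => exact hρ1
  case theta_eq => exact rfl
  case t_eq => exact rfl
  case load => exact hload
  case one_le => exact hB
  case absorb => exact habs
  case small => exact hsmall
  case g₁_ok => exact h₁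
  case g₂_ok => exact h₂
  case g₁_sum => exact hs₁
  case g₂_sum => exact hs₂
  case fdθ_mem => exact R.hamRules.fd_mem
  case fdθ_sum => exact R.hamRules.fd_sum.trans hC
  case fdt_mem => exact R.fdt_mem
  case fdt_sum => exact fun n hn => (R.fdt_sum n hn).trans hC
  case ham_mem => exact R.hamRules.ru_mem
  case ham_sum => exact fun o => (R.hamRules.ru_sum o).trans hC
  case time_mem => exact hmem
  case time_sum => exact fun o => (hsum o).trans hCt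

/-- Grids, rules and sizes of a stage, once the dimension is large. -/
theorem exists_small {na nh nr nt iter : ℕ} {C : ℝ} (R : Rules na nh nr C) (time : Rule nt)
    {Ct : ℝ} (hmem : ∀ i, time.x i ∈ Set.Icc (0 : ℝ) 1) (hsum : ∀ o, ∑ j, |time.W o j| ≤ Ct)
    {n : ℕ} (hn : 1 ≤ n) {ι a δ : ℝ} (hι : 0 < ι) (ha : 0 < a) (ha' : 1024 * a ≤ 1)
    (hδ : 0 < δ) (hδa : 4 * δ ≤ ι * a / 32) :
    ∀ᶠ d : ℕ in atTop,
      let ε : ℝ := (d : ℝ) ^ (-ι)
      let B : ℝ := ε ^ (-(a / 32))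
      (na : ℝ) + 2 ≤ B ∧
      ∀ τ γ : ℝ, 0 < τ → τ ≤ 1 → |γ| * Real.sqrt τ ≤ Real.sqrt (Real.sqrt ε) →
        ∃ (M₁ M₂ : ℕ) (g₁ : Grid M₁) (g₂ : Grid M₂),
          (M₁ : ℝ) ≤ (d : ℝ) ^ (3 * δ) ∧ (M₂ : ℝ) ≤ (d : ℝ) ^ (3 * δ) ∧
          Small (mkData R time g₁ g₂ iter ε τ (ε ^ a) γ) B ∧
          GridOrd n g₁ τ (Real.sqrt (τ - ε ^ a * τ)) ((d : ℝ) ^ (-(δ * n) / 2)) ∧
          GridOrd n g₂ τ (Real.sqrt (τ - ε ^ a * τ / 2)) ((d : ℝ) ^ (-(δ * n) / 2)) := by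
  obtain ⟨Cg, hCg, hgrid⟩ := Picard.exists_grid n hn
  have hia : 0 < ι * a := mul_pos hι ha
  have tp : ∀ {p : ℝ}, 0 < p → Tendsto (fun d : ℕ => (d : ℝ) ^ p) atTop atTop := fun hp =>
    (tendsto_rpow_atTop hp).comp tendsto_natCast_atTop_atTop
  set K : ℝ := max (max C Ct) ((na : ℝ) + 2)
  set L : ℝ := Cg * (2 * (ι * a + 2) * (1 / δ + 1) + 2)
  filter_upwards [(tp (show 0 < ι * a / 32 by positivity)).eventually_ge_atTop (max K 2),
    (tp hδ).eventually_ge_atTop (max (L + 1) 2),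
    (tp (show 0 < δ * n / 2 by positivity)).eventually_ge_atTop (Cg * 2 ^ n + 1),
    (tp hι).eventually_ge_atTop 10, (tp hia).eventually_ge_atTop 16,
    (tp (show 0 < ι * a / 2 by positivity)).eventually_ge_atTop ((3 : ℝ) ^ 16),
    eventually_ge_atTop 1] with d hK hL hη h10 h16 h3 hd1
  dsimp only
  have hd : (1 : ℝ) ≤ d := by exact_mod_cast hd1
  have hd0 : (0 : ℝ) < d := by linarith
  set ε : ℝ := (d : ℝ) ^ (-ι) with hεdef
  have hε : 0 < ε := Real.rpow_pos_of_pos hd0 _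
  have hρd : ε ^ a = (d : ℝ) ^ (-(ι * a)) := by rw [hεdef, ← Real.rpow_mul hd0.le, neg_mul]
  have hBd : ε ^ (-(a / 32)) = (d : ℝ) ^ (ι * a / 32) := by
    rw [hεdef, ← Real.rpow_mul hd0.le]; ring_nf
  rw [hBd]
  simp only [max_le_iff, K] at hK hL
  obtain ⟨⟨⟨hKC, hKt⟩, hKna⟩, hB2⟩ := hK
  obtain ⟨hLd, hd2⟩ := hL
  refine ⟨hKna, fun τ γ hτ hτ1 hload => ?_⟩
  have hρ : 0 < ε ^ a := Real.rpow_pos_of_pos hε _
  have hρ16 : ε ^ a ≤ 1 / 16 := by
    rw [hρd, Real.rpow_neg hd0.le, inv_le_comm₀ (by positivity) (by norm_num)]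
    linarith
  set m : ℕ := ⌈(d : ℝ) ^ δ⌉₊ with hmdef
  have hm0 : (d : ℝ) ^ δ ≤ m := Nat.le_ceil _
  have hm1 : (m : ℝ) ≤ 2 * (d : ℝ) ^ δ := by
    linarith [Nat.ceil_lt_add_one (show (0 : ℝ) ≤ (d : ℝ) ^ δ by positivity)]
  have hm : 1 ≤ m := by exact_mod_cast (show (1 : ℝ) ≤ m by linarith)
  -- the bound on the number of nodes
  have hX : ∀ σ, ε ^ a / 2 ≤ σ → σ < 1 →
      Cg * ((m : ℝ) * Real.log (2 / σ) + 2) ≤ (d : ℝ) ^ (3 * δ) := by
    intro σ hσ hσ1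
    have hσ0 : 0 < σ := lt_of_lt_of_le (by positivity) hσ
    have h1 : Real.log (2 / σ) ≤ (ι * a + 2) * ((d : ℝ) ^ δ / δ + 1) :=
      (Real.log_le_log (by positivity) (div_le_div_of_nonneg_left two_pos.le (by positivity) hσ)).trans
        (log_two_div_le hd hia hρd hδ)
    have h0 : 0 ≤ Real.log (2 / σ) := Real.log_nonneg ((one_le_div hσ0).2 (by linarith))
    have hu : (1 : ℝ) ≤ (d : ℝ) ^ δ := by linarith
    have h2 : (d : ℝ) ^ δ / δ + 1 ≤ (1 / δ + 1) * (d : ℝ) ^ δ := by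
      rw [add_mul, one_div, inv_mul_eq_div]; linarith
    calc Cg * ((m : ℝ) * Real.log (2 / σ) + 2)
        ≤ Cg * (2 * (d : ℝ) ^ δ * ((ι * a + 2) * ((1 / δ + 1) * (d : ℝ) ^ δ))
            + 2 * ((d : ℝ) ^ δ * (d : ℝ) ^ δ)) := by
          gcongr
          · exact h1.trans (mul_le_mul_of_nonneg_left h2 (by positivity))
          · linarith [one_le_mul_of_one_le_of_one_le hu hu]
      _ = L * ((d : ℝ) ^ δ * (d : ℝ) ^ δ) := by simp only [L]; ring
      _ ≤ (d : ℝ) ^ δ * ((d : ℝ) ^ δ * (d : ℝ) ^ δ) :=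
          mul_le_mul_of_nonneg_right (by linarith) (by positivity)
      _ = (d : ℝ) ^ (3 * δ) := by
          rw [← Real.rpow_add hd0, ← Real.rpow_add hd0]; ring_nf
  have hXB : (d : ℝ) ^ (3 * δ) ≤ (d : ℝ) ^ (ι * a / 32) :=
    Real.rpow_le_rpow_of_exponent_le hd (by linarith)
  have hη' : Cg * (2 / (m : ℝ)) ^ n ≤ (d : ℝ) ^ (-(δ * n) / 2) := by
    have e : (d : ℝ) ^ (-(δ * n) / 2) = (d : ℝ) ^ (δ * n / 2) * ((d : ℝ) ^ δ)⁻¹ ^ n := by
      rw [← Real.rpow_natCast, ← Real.rpow_neg hd0.le, ← Real.rpow_mul hd0.le,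
        ← Real.rpow_add hd0]
      ring_nf
    rw [e, div_pow, div_eq_mul_inv, inv_pow, ← mul_assoc]
    exact mul_le_mul (by linarith)
      (inv_anti₀ (by positivity) (pow_le_pow_left₀ (by positivity) hm0 n)) (by positivity)
      (by positivity)
  obtain ⟨M₁, g₁, hM₁, hg₁, hs₁, ha₁⟩ := hgrid τ (ε ^ a) hτ hρ (by linarith) m hm
  obtain ⟨M₂, g₂, hM₂, hg₂, hs₂, ha₂⟩ :=
    hgrid τ (ε ^ a / 2) hτ (by positivity) (by linarith) m hm
  rw [div_mul_eq_mul_div] at hg₂ hs₂ ha₂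
  have hX₁ := hX (ε ^ a) (by linarith) (by linarith)
  have hX₂ := hX (ε ^ a / 2) le_rfl (by linarith)
  refine ⟨M₁, M₂, g₁, g₂, hM₁.trans hX₁, hM₂.trans hX₂, ?_, fun Ω _ μ _ d' f b hb hf hm' hder o => ?_,
    fun Ω _ μ _ d' f b hb hf hm' hder o => ?_⟩
  · have hT : ∀ σ, 0 ≤ σ → Real.sqrt (τ - σ * τ) ≤ Real.sqrt τ := fun σ hσ =>
      Real.sqrt_le_sqrt (sub_le_self _ (mul_nonneg hσ hτ.le))
    have hgok : ∀ {M : ℕ} {g : Grid M} {T A : ℝ}, GridOK g T A → 0 ≤ T → A ≤ (d : ℝ) ^ (ι * a / 32) →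
        GridOK g T ((d : ℝ) ^ (ι * a / 32)) := fun h hT hA =>
      ⟨h.pos, h.le, fun o => (h.sum o).trans (mul_le_mul_of_nonneg_right hA hT),
        fun o => (h.sum_div o).trans hA⟩
    have hCgB : Cg ≤ (d : ℝ) ^ (ι * a / 32) := by
      refine le_trans ?_ (hX₁.trans hXB)
      refine le_mul_of_one_le_right hCg ?_
      have : 0 ≤ Real.log (2 / ε ^ a) := Real.log_nonneg ((one_le_div hρ).2 (by linarith))
      linarith [mul_nonneg (Nat.cast_nonneg (α := ℝ) m) this]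
    refine small_mkData R time hε ?_ hτ hτ1 hρ hρ16 hload (by linarith) ?_ ?_
      (hgok hg₁ (Real.sqrt_nonneg _) (hX₁.trans hXB)) (hgok hg₂ (Real.sqrt_nonneg _) (hX₂.trans hXB))
      (fun o => (hs₁ o).trans (mul_le_mul hCgB (hT _ hρ.le) (Real.sqrt_nonneg _) (by positivity)))
      (fun o => ?_) hKC hKt hmem hsum
    · show (d : ℝ) ^ (-ι) ≤ 1 / 10
      rw [Real.rpow_neg hd0.le, inv_le_comm₀ (by positivity) (by norm_num)]; linarith
    · have hB : (d : ℝ) ^ (ι * a / 32) + 2 ≤ 3 * (d : ℝ) ^ (ι * a / 32) := by linarith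
      refine (mul_le_mul_of_nonneg_right (pow_le_pow_left₀ (by positivity) hB 16) hρ.le).trans ?_
      rw [mul_pow, ← Real.rpow_natCast ((d : ℝ) ^ _), ← Real.rpow_mul hd0.le, hρd, mul_assoc,
        ← Real.rpow_add hd0, show ι * a / 32 * ((16 : ℕ) : ℝ) + -(ι * a) = -(ι * a / 2) by
          push_cast; ring, Real.rpow_neg hd0.le, mul_inv_le_iff₀ (by positivity), one_mul]
      exact h3
    · rw [← Real.rpow_natCast (ε ^ a), ← Real.rpow_mul hε.le]
      exact Real.rpow_le_rpow_of_exponent_ge hε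
        (Real.rpow_le_one_of_one_le_of_nonpos hd (by linarith)) (by push_cast; linarith)
    · refine (hs₂ o).trans (mul_le_mul hCgB ?_ (Real.sqrt_nonneg _) (by positivity))
      have := hT (ε ^ a / 2) (by positivity)
      rwa [div_mul_eq_mul_div] at this
  · exact (ha₁ Ω μ d' f b hb hf hm' hder o).mono (by positivity) (by gcongr)
  · exact (ha₂ Ω μ d' f b hb hf hm' hder o).mono (by positivity) (by gcongr)

end Build

end Vale.Agent.P347.Gamma0
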