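import Vale.Agent.P347.Gamma0.WordErr

/-!
P347, towards `γ_* = 0`, piece U2: the values of the compiled expressions `Build.est`, `Build.sys`
and `Build.eta` as functions of the values of their arguments.
-/

namespace Vale.Agent.P347.Gamma0.Words

open MeasureTheory

variable {d na : ℕ} {ι : Type} (P : Build.Data na) (Gr : ℝ → E d → E d)

/-- The three arguments of an estimate. -/
def estArgs (c w v : E d) : Fin 3 → E d := ![c, w, v]

/-- The estimate of `a v` at the time `q` and the point `w`. -/
noncomputable def estF (c : E d) (q : ℝ) (w v : E d) : E d :=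
  (Build.est P (.var (0 : Fin 3)) q (.var 1) (.var 2)).val Gr (estArgs c w v)

lemma val_est (ec : Expr ι) (q : ℝ) (ew ev : Expr ι) (x : ι → E d) :
    (Build.est P ec q ew ev).val Gr x = estF P Gr (ec.val Gr x) q (ew.val Gr x) (ev.val Gr x) := by
  have h : ∀ (k : Fin P.nr) (p : ℕ) (o : Option (Fin P.nh)),
      (Build.ham P ec q ew ev k p o).val Gr x
        = (Build.ham P (.var (0 : Fin 3)) q (.var 1) (.var 2) k p o).val Gr
            (estArgs (ec.val Gr x) (ew.val Gr x) (ev.val Gr x)) := by
    intro k p
    induction p with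
    | zero => intro o; simp [Build.ham, Expr.val, estArgs]
    | succ p ih =>
      intro o
      simp [Build.ham, Build.gateAt, Expr.val, Expr.val_sum, ih, estArgs]
  simp [estF, Build.est, Build.gateAt, Expr.val, Expr.val_sum, h, estArgs]

lemma val_sys (ec : Expr ι) (eb : Fin P.M₁ → Expr ι) (n : ℕ) (s : ℝ) (init : ℕ → Expr ι)
    (x : ι → E d) : ∀ (p : ℕ) (o : Option (Fin P.M₁)) (m : ℕ),
      (Build.sys P ec eb n s init p o m).val Gr x
        = sysV P.g₁ (fun j => estF P Gr (ec.val Gr x) (P.g₁.q j) ((eb j).val Gr x)) n s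
            (fun m => (init m).val Gr x) p o m := by
  intro p
  induction p with
  | zero => intro o m; rfl
  | succ p ih =>
    intro o m
    simp only [Build.sys, sysV, Expr.val, Expr.val_sum]
    congr 1
    refine Finset.sum_congr rfl fun j _ => ?_
    congr 1 <;> split_ifs <;> simp only [Expr.val, val_est, ih]

lemma val_sysInit (aux : Fin na → Expr ι) (eZ : Expr ι) (σ : ℝ) (x : ι → E d) :
    (fun m => (Build.sysInit aux eZ σ m).val Gr x)
      = lvl (mkBlk (Fin.cons (eZ.val Gr x) fun i => σ • (aux i).val Gr x)) := by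
  funext m
  rcases m with _ | m
  · simp [Build.sysInit, lvl, mkBlk]
  · by_cases h : m < na
    · have e : (⟨m + 1, Nat.succ_lt_succ h⟩ : Fin (na + 1)) = (⟨m, h⟩ : Fin na).succ := rfl
      simp only [Build.sysInit, dif_pos h, Expr.val, lvl, dif_pos (Nat.succ_lt_succ h), mkBlk, e,
        Fin.cons_succ]
    · simp [Build.sysInit, h, Expr.val, lvl, show ¬ m + 1 < na + 1 by omega]

/-- The value of the compiled `η`: the expression bounded by `etaV_error`. -/
theorem val_eta (ec ew eZ : Expr ι) (aux : Fin na → Expr ι) (x : ι → E d) :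
    (Build.eta P ec ew eZ aux).val Gr x
      = (∑ j, P.g₁.W none j •
          estF P Gr (ec.val Gr x) (P.g₁.q j) ((Build.bwd P ec ew P.iter j).val Gr x) (eZ.val Gr x))
        + ∑ i : Fin (na - 1), ((-P.ε) ^ ((i : ℕ) + 1) / P.t ^ ((i : ℕ) + 2)) •
            wordV P.g₁
              (fun j => estF P Gr (ec.val Gr x) (P.g₁.q j) ((Build.bwd P ec ew P.iter j).val Gr x))
              (P.fdt ((i : ℕ) + 2)) P.t P.iter ((i : ℕ) + 2) (eZ.val Gr x)
              (fun k => (aux k).val Gr x) := by
  simp only [Build.eta, wordV, Expr.val, Expr.val_sum, val_est, val_sys, val_sysInit]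

lemma continuous_estF (hG : ∀ r, Continuous (Gr r)) (c : E d) (q : ℝ) :
    Continuous fun p : E d × E d => estF P Gr c q p.1 p.2 := by
  refine (Expr.continuous_val Gr hG _).comp (continuous_pi fun i => ?_)
  fin_cases i
  · exact continuous_const
  · exact continuous_fst
  · exact continuous_snd

end Vale.Agent.P347.Gamma0.Words
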