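import Vale.Agent.P347.Gamma0.EstBias
import Vale.Agent.P347.Gamma0.StageRules
import Vale.Agent.P347.Gamma0.WordVal

/-!
P347, towards `γ_* = 0`: the bias of the compiled `est` in mean at a node of a stage, in the form
consumed by the word extraction (`Words.Comp.bias`).
-/

namespace Vale.Agent.P347.Gamma0

open MeasureTheory ProbabilityTheory Filter
open scoped ENNReal

attribute [local irreducible] G nW psi

variable {d : ℕ}

/-- The mean is at most the quadratic mean. -/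
lemma lintegral_enorm_le_of_sq {Ω : Type*} [MeasurableSpace Ω] {μ : Measure Ω}
    [IsProbabilityMeasure μ] {F : Ω → E d} (hF : Measurable F) {A : ℝ} (hA : 0 ≤ A)
    (h : ∫⁻ z, ‖F z‖ₑ ^ 2 ∂μ ≤ ENNReal.ofReal (A ^ 2)) :
    ∫⁻ z, ‖F z‖ₑ ∂μ ≤ ENNReal.ofReal A := by
  rcases hA.eq_or_lt with hA0 | hA0
  · have h0 : ∫⁻ z, ‖F z‖ₑ ^ 2 ∂μ = 0 := by simpa [← hA0] using h
    rw [lintegral_eq_zero_iff (hF.enorm.pow_const 2)] at h0
    rw [lintegral_eq_zero_iff hF.enorm |>.2 ?_]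
    · exact zero_le
    · filter_upwards [h0] with z hz
      simpa using hz
  · have hb : ∀ z, ‖F z‖ₑ ≤ ENNReal.ofReal (2 * A)⁻¹ * ‖F z‖ₑ ^ 2 + ENNReal.ofReal (A / 2) := by
      intro z
      rw [← ofReal_norm, ← ENNReal.ofReal_pow (norm_nonneg _),
        ← ENNReal.ofReal_mul (by positivity), ← ENNReal.ofReal_add (by positivity) (by positivity)]
      refine ENNReal.ofReal_le_ofReal ?_
      have e : (2 * A)⁻¹ * ‖F z‖ ^ 2 + A / 2 - ‖F z‖ = (‖F z‖ - A) ^ 2 / (2 * A) := by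
        field_simp; ring
      have : 0 ≤ (‖F z‖ - A) ^ 2 / (2 * A) := by positivity
      linarith
    refine (lintegral_mono hb).trans ?_
    rw [lintegral_add_right _ measurable_const, lintegral_const, measure_univ, mul_one,
      lintegral_const_mul' _ _ ENNReal.ofReal_ne_top]
    refine (add_le_add (mul_le_mul_right h _) le_rfl).trans (le_of_eq ?_)
    rw [← ENNReal.ofReal_mul (by positivity), ← ENNReal.ofReal_add (by positivity) (by positivity)]
    congr 1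
    field_simp
    ring

namespace Build

variable {na : ℕ}

/-- The gradient attached to a scale is continuous. -/
lemma continuous_Gt (hP : PostFacts) (D : Gamma0.Data d) (r : ℝ) :
    Continuous (Gt D.U D.g D.ε r) := by
  unfold Gt
  rcases em (0 < r) with h | h
  · simp only [if_pos h]; exact (D.contDiff_G hP h).continuous
  · simp only [if_neg h]; exact continuous_const

/-- The bias of `est` at a node, in the mean. -/
theorem est_bias_stage (hP : PostFacts) (hT : TameFact) (hF : FlowExists) (hL : LawTransport)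
    (n N : ℕ) (hN : 1 ≤ N) :
    ∃ C : ℝ, 0 ≤ C ∧ ∀ (d na : ℕ) (P : Data na) (B C₀ : ℝ), P.nh = n → P.nr = N → Small P B →
      HamRules P.ham P.fdθ C₀ → C₀ ≤ B → ∀ D : Gamma0.Data d, D.ε = P.ε → D.τ = P.τ →
      ∀ q : ℝ, 0 < q → q ≤ P.q₁ →
        q ∈ D.I ∧
        Continuous (fun p : E d × E d => Words.estF P (Gt D.U D.g D.ε) D.c q p.1 p.2) ∧
        ∫⁻ p, ‖Words.estF P (Gt D.U D.g D.ε) D.c q p.1 p.2 - D.aq q p.1 p.2‖ₑ
            ∂(ExFlow.law D q).prod (gam d)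
          ≤ ENNReal.ofReal (C * B ^ 3 * (P.θ ^ (N - 1) / P.ρ ^ max n N
              + P.ε * P.θ ^ n / P.ρ ^ max n N + (P.ε * P.θ ^ 2 * B) ^ P.iter)
              * (Real.sqrt d + ‖D.c‖)) := by
  obtain ⟨K, hK0, hK⟩ := est_bias hP hT hF hL (max n N)
  refine ⟨K * 4 ^ max n N + 2 ^ (n + 2) * (8 + K * 4 ^ max n N) + 8, by positivity,
    fun d na P B C₀ hn hN' hS hC hCB D hε hτ q hq0 hq1 => ?_⟩
  subst hn hN'
  have hρ := hS.rho_pos
  have hρ1 : P.ρ ≤ 1 := hS.rho_le.trans (by norm_num)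
  have hτ0 := hS.tau_pos
  have h10 : 0 ≤ P.τ - P.ρ * P.τ := by nlinarith
  have hqq : q ^ 2 ≤ P.τ - P.ρ * P.τ := by
    rw [← Real.sq_sqrt h10]
    exact pow_le_pow_left₀ hq0.le hq1 2
  have hq1' : q < Real.sqrt D.τ := hq1.trans_lt (by
    rw [hτ]; exact Real.sqrt_lt_sqrt h10 (by nlinarith))
  have hq : q ∈ D.I := ⟨(neg_nonpos.2 (Real.sqrt_nonneg _)).trans_lt hq0, hq1'⟩
  have hτ1 : D.τ ≤ 1 := hτ ▸ hS.tau_le
  have hθ : 0 < P.θ := hS.theta_eq ▸ pow_pos hρ 4
  have hθ1 : P.θ ≤ 1 := hS.theta_eq ▸ pow_le_one₀ hρ.le hρ1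
  have hB := hS.one_le
  have hε0 := hS.eps_pos
  have hκB : P.ε * P.θ ^ 2 * B ≤ 1 / 2 := by
    have h1 : B * P.ρ ≤ 1 :=
      (mul_le_mul_of_nonneg_right ((by linarith : B ≤ B + 2).trans
        (le_self_pow₀ (by linarith) (by norm_num))) hρ.le).trans hS.absorb
    have h2 : P.θ ^ 2 ≤ P.ρ := by
      rw [hS.theta_eq, ← pow_mul]
      exact pow_le_of_le_one hρ.le hρ1 (by norm_num)
    calc P.ε * P.θ ^ 2 * B ≤ P.ε * P.ρ * B := by gcongr
      _ = P.ε * (B * P.ρ) := by ring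
      _ ≤ P.ε * 1 := by gcongr
      _ ≤ 1 / 2 := by linarith [hS.eps_le]
  set κ := Real.sqrt P.ρ / 2 with hκdef
  have hκ0 : 0 < κ := by positivity
  have hκ1 : κ ≤ 1 := by
    have := Real.sqrt_le_one.2 hρ1
    simp only [κ]; linarith
  have hκq : κ * |q| ≤ Real.sqrt (D.r q) := by
    have h1 : q ≤ Real.sqrt P.τ := hτ ▸ hq1'.le
    have h2 : Real.sqrt (P.ρ * P.τ) ≤ Real.sqrt (D.r q) :=
      Real.sqrt_le_sqrt (by simp only [Gamma0.Data.r, hτ]; linarith)
    rw [Real.sqrt_mul hρ.le] at h2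
    rw [abs_of_pos hq0]
    refine le_trans ?_ h2
    calc κ * q ≤ Real.sqrt P.ρ * q := by gcongr; simp only [κ]; linarith [Real.sqrt_nonneg P.ρ]
      _ ≤ _ := by gcongr
  have hGc := continuous_Gt hP D
  refine ⟨hq, Words.continuous_estF P _ hGc D.c q, ?_⟩
  have hR : Measurable fun z : E d × E d => Words.estArgs D.c z.1 z.2 := by
    refine measurable_pi_lambda _ fun i => ?_
    fin_cases i
    · exact measurable_const
    · exact measurable_fst
    · exact measurable_snd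
  have h := hK d na P D B (hC.mono hCB) hN (le_max_right _ _) (le_max_left _ _) hε hτ hτ1 hθ hθ1
    hκB q hq hq0 κ hκ0 hκ1 hκq (Fin 3) (.var 0) (.var 1) (.var 2)
    (fun z => Words.estArgs D.c z.1 z.2) (fun _ => rfl) (fun _ => rfl) (fun _ => rfl) hR
  have : IsProbabilityMeasure (ExFlow.law D q) := Ham.isProb_law hP hq
  have : IsProbabilityMeasure (gam d) := by unfold gam; infer_instance
  have hm : Measurable fun p : E d × E d =>
      Words.estF P (Gt D.U D.g D.ε) D.c q p.1 p.2 - D.aq q p.1 p.2 := by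
    refine (Words.continuous_estF P _ hGc D.c q).measurable.sub ?_
    exact ((((D.contDiff_G hP (D.r_pos hq)).continuous_fderiv (by simp)).comp
      (continuous_const.add (continuous_fst.const_smul q))).clm_apply continuous_snd).measurable
  refine (lintegral_enorm_le_of_sq hm (by positivity) h).trans (ENNReal.ofReal_le_ofReal ?_)
  set m := max P.nh P.nr
  set H := Real.sqrt d + ‖D.c‖
  have hH : 0 ≤ H := by positivity
  have hκpow : κ ^ (2 * m) = P.ρ ^ m / 4 ^ m := by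
    rw [pow_mul, hκdef, div_pow, Real.sq_sqrt hρ.le, div_pow]
    norm_num
  have hpm : 0 < P.ρ ^ m := pow_pos hρ m
  have hpm1 : P.ρ ^ m ≤ 1 := pow_le_one₀ hρ.le hρ1
  have hM : K * Real.sqrt d / κ ^ (2 * m) ≤ K * 4 ^ m / P.ρ ^ m * H := by
    rw [hκpow, div_div_eq_mul_div, div_mul_eq_mul_div, mul_right_comm]
    gcongr
    exact le_add_of_nonneg_right (norm_nonneg _)
  have h8 : 8 * H ≤ 8 / P.ρ ^ m * H := by
    gcongr
    exact le_div_self (by norm_num) hpm hpm1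
  have hB3 : B ≤ B ^ 3 := le_self_pow₀ hB (by norm_num)
  have hB23 : B ^ 2 ≤ B ^ 3 := pow_le_pow_right₀ hB (by norm_num)
  have hεθ : P.ε * P.θ ≤ 1 := mul_le_one₀ (by linarith [hS.eps_le]) hθ.le hθ1
  set T1 := P.θ ^ (P.nr - 1) / P.ρ ^ m
  set T2 := P.ε * P.θ ^ P.nh / P.ρ ^ m
  set T3 := (P.ε * P.θ ^ 2 * B) ^ P.iter
  set k4 := K * 4 ^ m
  have hT1 : 0 ≤ T1 := by positivity
  have hT2 : 0 ≤ T2 := by positivity
  have hT3 : 0 ≤ T3 := by positivity
  have hk4 : 0 ≤ k4 := by positivity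
  have t1 : B * P.θ ^ (P.nr - 1) * (K * Real.sqrt d / κ ^ (2 * m)) ≤ k4 * B ^ 3 * T1 * H := by
    calc _ ≤ B * P.θ ^ (P.nr - 1) * (k4 / P.ρ ^ m * H) := by gcongr
      _ = k4 * B * T1 * H := by simp only [T1]; ring
      _ ≤ _ := by gcongr
  have t2 : 2 ^ (P.nh + 2) * B ^ 2 * P.ε * P.θ ^ P.nh * (8 * H + K * Real.sqrt d / κ ^ (2 * m))
      ≤ 2 ^ (P.nh + 2) * (8 + k4) * B ^ 3 * T2 * H := by
    calc _ ≤ 2 ^ (P.nh + 2) * B ^ 2 * P.ε * P.θ ^ P.nh * (8 / P.ρ ^ m * H + k4 / P.ρ ^ m * H) := by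
          gcongr
      _ = 2 ^ (P.nh + 2) * (8 + k4) * B ^ 2 * T2 * H := by simp only [T2]; ring
      _ ≤ _ := by gcongr
  have t3 : B ^ 2 * P.ε * P.θ * T3 * (8 * H) ≤ 8 * B ^ 3 * T3 * H := by
    calc _ = 8 * (B ^ 2 * (P.ε * P.θ)) * T3 * H := by ring
      _ ≤ _ := by
        gcongr
        exact (mul_le_of_le_one_right (by positivity) hεθ).trans hB23
  have e : 0 ≤ (2 ^ (P.nh + 2) * (8 + k4) + 8) * B ^ 3 * T1 * H
      + (k4 + 8) * B ^ 3 * T2 * H + (k4 + 2 ^ (P.nh + 2) * (8 + k4)) * B ^ 3 * T3 * H := by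
    positivity
  linarith

end Build

end Vale.Agent.P347.Gamma0
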