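import Vale.Agent.P347.Gamma0.Picard

/-!
P347, towards `γ_* = 0`: the sizes assumed of the numerical data of a stage, and the order of a
grid.  One number `B` bounds all absolute weight sums.
-/

namespace Vale.Agent.P347.Gamma0

namespace Build

open MeasureTheory

variable {na : ℕ}

/-- The sizes of the numerical data of a stage. -/
structure Small (P : Data na) (B : ℝ) : Prop where
  eps_pos : 0 < P.ε
  eps_le : P.ε ≤ 1 / 10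
  tau_pos : 0 < P.τ
  tau_le : P.τ ≤ 1
  rho_pos : 0 < P.ρ
  rho_le : P.ρ ≤ 1 / 16
  theta_eq : P.θ = P.ρ ^ 4
  t_eq : P.t = Real.sqrt P.ε
  load : |P.γ| * Real.sqrt P.τ ≤ Real.sqrt (Real.sqrt P.ε)
  one_le : 1 ≤ B
  absorb : (B + 2) ^ 16 * P.ρ ≤ 1
  small : P.ε ^ (1 / 16 : ℝ) ≤ P.ρ ^ 64
  g₁_ok : GridOK P.g₁ P.q₁ B
  g₂_ok : GridOK P.g₂ P.q₂ B
  g₁_sum : ∀ o, ∑ j, |P.g₁.W o j| ≤ B * Real.sqrt P.τ
  g₂_sum : ∀ o, ∑ j, |P.g₂.W o j| ≤ B * Real.sqrt P.τ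
  fdθ_mem : ∀ k, |P.fdθ.x k| ≤ 1
  fdθ_sum : ∑ k, |P.fdθ.wt k| ≤ B
  fdt_mem : ∀ n k, |(P.fdt n).x k| ≤ 1
  fdt_sum : ∀ n, n ≤ na → ∑ k, |(P.fdt n).wt k| ≤ B
  ham_mem : ∀ i, P.ham.x i ∈ Set.Icc (0 : ℝ) 1
  ham_sum : ∀ o, ∑ l, |P.ham.W o l| ≤ B
  time_mem : ∀ i, P.time.x i ∈ Set.Icc (0 : ℝ) 1
  time_sum : ∀ o, ∑ j, |P.time.W o j| ≤ B

/-- A grid of `[0, T]` which integrates up to `η T B` whatever has `n`-th derivative at most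
`(√τ / (τ - t²))^n B` in `L²`. -/
def GridOrd (n : ℕ) {M : ℕ} (g : Grid M) (τ T η : ℝ) : Prop :=
  ∀ (Ω : Type) [MeasurableSpace Ω] (μ : Measure Ω) [IsProbabilityMeasure μ] (d : ℕ)
    (f : ℝ → Ω → E d) (B : ℝ), 0 ≤ B →
    (∀ z, ∀ t ∈ Set.Icc 0 T, ContDiffAt ℝ n (fun u => f u z) t) →
    Measurable (fun p : ℝ × Ω => f p.1 p.2) →
    (∀ t ∈ Set.Icc 0 T, Picard.L2le μ (fun z => iteratedDeriv n (fun u => f u z) t)
      ((Real.sqrt τ / (τ - t ^ 2)) ^ n * B)) →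
    ∀ o, Picard.L2le μ (fun z => (∫ t in (0 : ℝ)..(g.at' T o), f t z)
        - ∑ j, g.W o j • f (g.q j) z) (η * T * B)

end Build

end Vale.Agent.P347.Gamma0
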