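import Vale.Agent.P347.Gamma0.WordApprox
import Vale.Agent.P347.Gamma0.StagePar

/-!
P347, towards `γ_* = 0`: the accuracy of the compiled linear field from the sizes of a stage, the
bias of the estimates, the error of the backward iterates and the quadrature error.
-/

namespace Vale.Agent.P347.Gamma0

namespace Build

open Words

variable {d na : ℕ}

/-- The error of the compiled linear field in units `√τ (√d + |c|)`. -/
noncomputable def etaDelta (P : Data na) (B η b ew : ℝ) : ℝ :=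
  η + B * (b + 2 * B / P.ρ ^ 4 * ew) + 2 * P.ε ^ na
    + (na : ℝ) * (B * ((4 * Real.sqrt P.ε * B ^ 2 / P.ρ ^ 4) ^ P.iter * 2
      + 2 * (Real.sqrt P.ε * η + 2 * Real.sqrt P.ε * B * (b + 2 * B / P.ρ ^ 4 * ew))
      + 2 * (2 * Real.sqrt P.ε) ^ P.nr))

variable {P : Data na} {B : ℝ}

/-- The elementary bounds hidden in `Small`. -/
lemma Small.bounds (h : Small P B) :
    0 < P.ρ ∧ P.ρ ≤ 1 ∧ B ^ 2 * P.ρ ≤ 1 ∧ B * P.ρ ≤ 1 ∧ Real.sqrt P.ε ≤ P.ρ ^ 64 := by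
  have hρ := h.rho_pos
  have hρ1 : P.ρ ≤ 1 := h.rho_le.trans (by norm_num)
  have hB := h.one_le
  have hp : ∀ n, n ≤ 16 → B ^ n * P.ρ ≤ 1 := fun n hn => le_trans (by
    gcongr ?_ * _
    exact (pow_le_pow_left₀ (by linarith) (by linarith) n).trans
      (pow_le_pow_right₀ (by linarith : (1:ℝ) ≤ B + 2) hn)) h.absorb
  refine ⟨hρ, hρ1, hp 2 (by norm_num), by simpa using hp 1 (by norm_num), le_trans ?_ h.small⟩
  rw [Real.sqrt_eq_rpow]
  exact Real.rpow_le_rpow_of_exponent_ge h.eps_pos (h.eps_le.trans (by norm_num)) (by norm_num)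

/-- The compiled linear field is accurate. -/
theorem eta_approx (hP : PostFacts) (hT : LawTransport) (h : Small P B)
    (hC : HamRules P.ham P.fdθ B) (hna : 1 ≤ na) (hnr : na < P.nr) (hiter : 1 ≤ P.iter)
    (hmom : ∀ n, n ≤ na → ∀ l, l < P.nr →
      ∑ k, (P.fdt n).wt k * (P.fdt n).x k ^ l = if l = n then 1 else 0)
    {η b ew δe : ℝ} (hη : 0 ≤ η) (hb0 : 0 ≤ b) (hew : 0 ≤ ew)
    (hb : EstBias d P b) (hw : BwdPath d P ew) (hq : QuadEta d P (Real.sqrt P.τ * η))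
    (hδe : etaDelta P B η b ew ≤ δe) : EtaApprox d P δe := by
  obtain ⟨hρ, hρ1, hB2, hB1, ht⟩ := h.bounds
  have hB := h.one_le
  have hB0 : 0 ≤ B := by linarith
  have hε0 := h.eps_pos.le
  set t := Real.sqrt P.ε with ht'
  have ht0 : 0 < t := Real.sqrt_pos.2 h.eps_pos
  have htt : t * t = P.ε := Real.mul_self_sqrt hε0
  set s := Real.sqrt P.τ with hs
  have hq10 : 0 ≤ P.q₁ := Real.sqrt_nonneg _
  have hq1s : P.q₁ ≤ s := Real.sqrt_le_sqrt (by nlinarith [h.tau_pos])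
  have hs1 : s ≤ 1 := Real.sqrt_le_one.2 h.tau_le
  have hq11 : P.q₁ ≤ 1 := hq1s.trans hs1
  have hρ64 : P.ρ ^ 64 ≤ (1 / 16) * P.ρ ^ 5 := by
    rw [show P.ρ ^ 64 = P.ρ ^ 59 * P.ρ ^ 5 by ring]
    refine mul_le_mul_of_nonneg_right ?_ (by positivity)
    exact (pow_le_of_le_one hρ.le hρ1 (by norm_num)).trans h.rho_le
  have hsmall : 4 * t * B ^ 2 / P.ρ ^ 4 ≤ 1 / 4 := by
    rw [div_le_iff₀ (by positivity)]
    calc 4 * t * B ^ 2 ≤ 4 * ((1 / 16) * P.ρ ^ 5) * B ^ 2 := by gcongr; exact ht.trans hρ64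
      _ = 1 / 4 * P.ρ ^ 4 * (B ^ 2 * P.ρ) := by ring
      _ ≤ 1 / 4 * P.ρ ^ 4 * 1 := by gcongr
      _ = _ := mul_one _
  have hκθ : P.ε * P.θ ^ 2 * B ≤ 1 / 2 := by
    rw [h.theta_eq, ← htt]
    have h1 : (P.ρ ^ 4) ^ 2 ≤ 1 := pow_le_one₀ (by positivity) (pow_le_one₀ hρ.le hρ1)
    have h2 : t ≤ (1 / 16) * P.ρ :=
      (ht.trans hρ64).trans (mul_le_mul_of_nonneg_left
        (pow_le_of_le_one hρ.le hρ1 (by norm_num)) (by norm_num))
    have h3 : t ≤ 1 := ht.trans (pow_le_one₀ hρ.le hρ1)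
    calc t * t * (P.ρ ^ 4) ^ 2 * B ≤ 1 * ((1 / 16) * P.ρ) * 1 * B := by gcongr
      _ = 1 / 16 * (B * P.ρ) := by ring
      _ ≤ _ := by linarith
  have hθ : (0 : ℝ) < P.θ := h.theta_eq ▸ pow_pos hρ 4
  have ht4 : P.t ≤ 1 / 4 := by
    rw [h.t_eq, ← ht']
    refine (ht.trans hρ64).trans ?_
    linarith [pow_le_one₀ (n := 5) hρ.le hρ1]
  have hκt : 2 * P.t * (B * P.q₁) * (2 * B / P.θ) ≤ 1 / 2 := by
    rw [h.t_eq, h.theta_eq, ← ht',
      show 2 * t * (B * P.q₁) * (2 * B / P.ρ ^ 4) = 4 * t * B ^ 2 / P.ρ ^ 4 * P.q₁ by ring]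
    exact (mul_le_of_le_one_right (by positivity) hq11).trans (hsmall.trans (by norm_num))
  refine etaApprox_of P hP hT hC h.tau_le hρ (h.rho_le.trans_lt (by norm_num)) h.g₁_ok hB0 hθ hκθ
    (h.t_eq ▸ ht0) ht4 hκt hna hnr h.fdt_mem h.fdt_sum hB0 hmom hb0 hb (by positivity) hq hew hw ?_
  refine le_trans ?_ (mul_le_mul_of_nonneg_left hδe (Real.sqrt_nonneg _))
  rw [etaDelta, etaBound, h.t_eq, h.theta_eq, ← hs, ← ht']
  set L := 2 * B / P.ρ ^ 4
  have hL : 0 ≤ L := by positivity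
  have hAs : B * P.q₁ ≤ s * B := by rw [mul_comm s]; gcongr
  rw [mul_add s, mul_add s, mul_add s]
  refine add_le_add (add_le_add (add_le_add le_rfl ?_) ?_) ?_
  · rw [← mul_assoc]; gcongr
  · nlinarith [mul_le_mul_of_nonneg_left hq1s (pow_nonneg hε0 na)]
  have hc : ∀ i : ℕ, P.ε ^ (i + 1) / t ^ (i + 2) ≤ 1 := fun i => by
    rw [← htt, mul_pow, show t ^ (i + 1) * t ^ (i + 1) = t ^ i * t ^ (i + 2) by ring,
      mul_div_assoc, div_self (by positivity), mul_one]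
    exact pow_le_one₀ ht0.le (ht.trans (pow_le_one₀ hρ.le hρ1))
  have hit : (2 * t * (B * P.q₁) * L) ^ P.iter ≤ s * (4 * t * B ^ 2 / P.ρ ^ 4) ^ P.iter := by
    rw [show 2 * t * (B * P.q₁) * L = P.q₁ * (4 * t * B ^ 2 / P.ρ ^ 4) by simp only [L]; ring,
      mul_pow]
    gcongr
    exact (pow_le_of_le_one hq10 hq11 (by omega)).trans hq1s
  have htl : (2 * t * P.q₁) ^ P.nr ≤ s * (2 * t) ^ P.nr := by
    rw [mul_pow, mul_comm s]
    gcongr
    exact (pow_le_of_le_one hq10 hq11 (by omega)).trans hq1s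
  set E0 := B * ((4 * t * B ^ 2 / P.ρ ^ 4) ^ P.iter * 2
    + 2 * (t * η + 2 * t * B * (b + L * ew)) + 2 * (2 * t) ^ P.nr)
  have hE : B * ((2 * t * (B * P.q₁) * L) ^ P.iter * 2
      + 2 * (t * (s * η) + 2 * t * (B * P.q₁) * (b + L * ew)) + 2 * (2 * t * P.q₁) ^ P.nr)
      ≤ s * E0 := by
    have h1 : 2 * t * (B * P.q₁) * (b + L * ew) ≤ 2 * t * (s * B) * (b + L * ew) := by gcongr
    rw [show s * E0 = B * (s * (4 * t * B ^ 2 / P.ρ ^ 4) ^ P.iter * 2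
      + 2 * (t * (s * η) + 2 * t * (s * B) * (b + L * ew)) + 2 * (s * (2 * t) ^ P.nr)) by
        simp only [E0]; ring]
    refine mul_le_mul_of_nonneg_left ?_ hB0
    linarith
  have hsum : ∀ i : Fin (na - 1), P.ε ^ ((i : ℕ) + 1) / t ^ ((i : ℕ) + 2)
      * (B * ((2 * t * (B * P.q₁) * L) ^ P.iter * 2
        + 2 * (t * (s * η) + 2 * t * (B * P.q₁) * (b + L * ew)) + 2 * (2 * t * P.q₁) ^ P.nr))
      ≤ s * E0 := fun i => (mul_le_of_le_one_left (by positivity) (hc i)).trans hE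
  refine (Finset.sum_le_sum fun i _ => hsum i).trans ?_
  rw [Finset.sum_const, Finset.card_univ, Fintype.card_fin, nsmul_eq_mul,
    show s * ((na : ℝ) * E0) = (na : ℝ) * (s * E0) by ring]
  gcongr
  exact Nat.sub_le na 1

/-- With all inputs of order `ε^K` the error is of order `ρ^{-8} ε^K`. -/
theorem etaDelta_le (h : Small P B) {K : ℕ} {η b ew : ℝ} (hη : η ≤ P.ε ^ K) (hb0 : 0 ≤ b)
    (hb : b ≤ P.ε ^ K) (hew0 : 0 ≤ ew) (hew : ew ≤ P.ε ^ K) (hna : K ≤ na)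
    (hnr : 3 * K ≤ P.nr) (hiter : 3 * K ≤ P.iter) :
    etaDelta P B η b ew ≤ 20 * ((na : ℝ) + 1) / P.ρ ^ 8 * P.ε ^ K := by
  obtain ⟨hρ, hρ1, hB2, hB1, ht⟩ := h.bounds
  have hB := h.one_le
  have hB0 : 0 ≤ B := by linarith
  have hε0 := h.eps_pos.le
  have hε1 : P.ε ≤ 1 := h.eps_le.trans (by norm_num)
  rw [etaDelta]
  set t := Real.sqrt P.ε with ht'
  have ht0 : 0 ≤ t := Real.sqrt_nonneg _
  have ht1 : t ≤ 1 := ht.trans (pow_le_one₀ hρ.le hρ1)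
  have htt : t * t = P.ε := Real.mul_self_sqrt hε0
  set e := P.ε ^ K
  have he : 0 ≤ e := by positivity
  set L := 2 * B / P.ρ ^ 4
  have hL : 0 ≤ L := by positivity
  -- a power of a number below `t ^ (2/3)`
  have hpow : ∀ x : ℝ, 0 ≤ x → x ^ 3 ≤ t * t → ∀ n, 3 * K ≤ n → x ^ n ≤ e := by
    intro x hx hx3 n hn
    have hx1 : x ≤ 1 := (pow_le_one_iff_of_nonneg hx (by norm_num : (3 : ℕ) ≠ 0)).1
      (hx3.trans (htt ▸ hε1))
    refine (pow_le_pow_of_le_one hx hx1 hn).trans ?_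
    rw [pow_mul]
    exact pow_le_pow_left₀ (by positivity) (htt ▸ hx3) K
  have hρ15 : 64 * P.ρ ^ 64 ≤ P.ρ ^ 15 := by
    calc 64 * P.ρ ^ 64 = 64 * P.ρ ^ 49 * P.ρ ^ 15 := by ring
      _ ≤ 1 * P.ρ ^ 15 := by
        gcongr
        have := pow_le_pow_of_le_one hρ.le hρ1 (show 2 ≤ 49 by norm_num)
        nlinarith [h.rho_le]
      _ = _ := one_mul _
  have hk1 : (4 * t * B ^ 2 / P.ρ ^ 4) ^ P.iter ≤ e := by
    refine hpow _ (by positivity) ?_ _ hiter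
    have h1 : 4 * t * B ^ 2 / P.ρ ^ 4 ≤ 4 * t / P.ρ ^ 5 := by
      rw [div_le_div_iff₀ (by positivity) (by positivity)]
      calc 4 * t * B ^ 2 * P.ρ ^ 5 = 4 * t * P.ρ ^ 4 * (B ^ 2 * P.ρ) := by ring
        _ ≤ 4 * t * P.ρ ^ 4 * 1 := by gcongr
        _ = _ := mul_one _
    refine (pow_le_pow_left₀ (by positivity) h1 3).trans ?_
    rw [div_pow, div_le_iff₀ (by positivity)]
    calc (4 * t) ^ 3 = t * t * (64 * t) := by ring
      _ ≤ t * t * (64 * P.ρ ^ 64) := by gcongr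
      _ ≤ t * t * P.ρ ^ 15 := by gcongr
      _ = _ := by ring
  have hk2 : (2 * t) ^ P.nr ≤ e := by
    refine hpow _ (by positivity) ?_ _ hnr
    calc (2 * t) ^ 3 = t * t * (8 * t) := by ring
      _ ≤ t * t * (64 * P.ρ ^ 64) := by gcongr; norm_num
      _ ≤ t * t * 1 := by gcongr; exact hρ15.trans (pow_le_one₀ hρ.le hρ1)
      _ = _ := mul_one _
  have hk3 : P.ε ^ na ≤ e := pow_le_pow_of_le_one hε0 hε1 hna
  set R := 1 / P.ρ ^ 4
  have hR : 1 ≤ R := by rw [le_div_iff₀ (by positivity), one_mul]; exact pow_le_one₀ hρ.le hρ1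
  have hBR : B ≤ R := by
    rw [le_div_iff₀ (by positivity)]
    calc B * P.ρ ^ 4 ≤ B * P.ρ := by gcongr; exact pow_le_of_le_one hρ.le hρ1 (by norm_num)
      _ ≤ 1 := hB1
  have hB2R : B ^ 2 ≤ R := by
    rw [le_div_iff₀ (by positivity)]
    calc B ^ 2 * P.ρ ^ 4 ≤ B ^ 2 * P.ρ := by gcongr; exact pow_le_of_le_one hρ.le hρ1 (by norm_num)
      _ ≤ 1 := hB2
  have hR8 : 1 / P.ρ ^ 8 = R * R := by simp only [R]; ring
  have hX : B * (b + L * ew) ≤ 3 * (R * R) * e := by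
    have e1 : B * (b + L * ew) = B * b + 2 * B ^ 2 * R * ew := by simp only [L, R]; ring
    have e2 : B * b ≤ R * R * e :=
      mul_le_mul (hBR.trans (le_mul_of_one_le_right (by linarith) hR)) hb hb0 (by positivity)
    have e3 : 2 * B ^ 2 * R * ew ≤ 2 * R * R * e := by gcongr
    linarith
  have hX0 : 0 ≤ B * (b + L * ew) := by positivity
  have hE : B * ((4 * t * B ^ 2 / P.ρ ^ 4) ^ P.iter * 2
      + 2 * (t * η + 2 * t * B * (b + L * ew)) + 2 * (2 * t) ^ P.nr) ≤ 18 * (R * R) * e := by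
    have e1 : t * η ≤ e := (mul_le_mul_of_nonneg_left hη ht0).trans (mul_le_of_le_one_left he ht1)
    have htB : t * B ≤ 1 := by
      calc t * B ≤ P.ρ * B := by gcongr; exact ht.trans (pow_le_of_le_one hρ.le hρ1 (by norm_num))
        _ ≤ 1 := by rw [mul_comm]; exact hB1
    have e2 : 4 * (t * B) * (B * (b + L * ew)) ≤ 4 * 1 * (3 * (R * R) * e) := by gcongr
    have e3 : B * (2 * e + 2 * e + 2 * e) ≤ R * R * (6 * e) := by
      rw [show 2 * e + 2 * e + 2 * e = 6 * e by ring]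
      exact mul_le_mul_of_nonneg_right (hBR.trans (le_mul_of_one_le_right (by linarith) hR))
        (by positivity)
    have e4 : B * ((4 * t * B ^ 2 / P.ρ ^ 4) ^ P.iter * 2 + 2 * (t * η) + 2 * (2 * t) ^ P.nr)
        ≤ B * (2 * e + 2 * e + 2 * e) := mul_le_mul_of_nonneg_left (by linarith) hB0
    linarith
  rw [show 20 * ((na : ℝ) + 1) / P.ρ ^ 8 * e = 20 * ((na : ℝ) + 1) * (R * R) * e by
    rw [← hR8]; ring]
  have hn := mul_le_mul_of_nonneg_left hE (Nat.cast_nonneg (α := ℝ) na)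
  have hee : e ≤ R * R * e := le_mul_of_one_le_left he (one_le_mul_of_one_le_of_one_le hR hR)
  have hpos : 0 ≤ (na : ℝ) * (R * R * e) := by positivity
  linarith

end Build

end Vale.Agent.P347.Gamma0
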