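import Vale.Agent.P347.Gamma0.StagePar
import Vale.Agent.P347.Gamma0.RegStmt
import Vale.Agent.P347.Gamma0.OutStage

/-!
P347, towards `γ_* = 0`: the grids integrate the exact flow: the quadrature error of the forward
flow and the error of the compiled backward iterates, from a bound on the time derivatives of the
mean gradient along the flow.
-/

namespace Vale.Agent.P347.Gamma0

open MeasureTheory ProbabilityTheory Set Filter
open scoped RealInnerProductSpace ContDiff ENNReal Topology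

variable {d : ℕ}

/-- A bound in quadratic mean is one in mean. -/
lemma L1_of_L2le {Ω : Type*} [MeasurableSpace Ω] {μ : Measure Ω} [IsProbabilityMeasure μ]
    {V : Type*} [NormedAddCommGroup V] {F : Ω → V} {B : ℝ} (hm : AEStronglyMeasurable F μ)
    (hB : 0 ≤ B) (h : Picard.L2le μ F B) : ∫⁻ z, ‖F z‖ₑ ∂μ ≤ ENNReal.ofReal B := by
  have h1 := ENNReal.lintegral_mul_le_Lp_mul_Lq μ Real.HolderConjugate.two_two hm.enorm
    (g := fun _ => (1 : ℝ≥0∞)) aemeasurable_const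
  simp only [Pi.mul_apply, mul_one, ENNReal.one_rpow, lintegral_const, measure_univ,
    ENNReal.rpow_two] at h1
  rw [one_pow, ENNReal.one_rpow, mul_one] at h1
  refine h1.trans ?_
  rw [one_div, ENNReal.rpow_inv_le_iff two_pos, ENNReal.rpow_two, ← ENNReal.ofReal_pow hB]
  exact h

namespace Build

/-- The quadrature error of a grid in mean, from a time bound. -/
lemma GridOrd.l1 {n M : ℕ} {g : Grid M} {τ T η : ℝ} (hg : GridOrd n g τ T η) (hT : 0 ≤ T)
    (hη : 0 ≤ η) (hq : ∀ i, g.q i ∈ Icc 0 T) {Ω : Type} [TopologicalSpace Ω] [MeasurableSpace Ω]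
    [OpensMeasurableSpace Ω] [SecondCountableTopology Ω] {μ : Measure Ω} [IsProbabilityMeasure μ]
    {f : ℝ → Ω → E d} {B : ℝ} (hB : 0 ≤ B) (hf : Reg.TimeBound n τ T μ f B)
    (o : Option (Fin M)) :
    Continuous (fun z => (∫ t in (0 : ℝ)..(g.at' T o), f t z) - ∑ j, g.W o j • f (g.q j) z) ∧
    ∫⁻ z, ‖(∫ t in (0 : ℝ)..(g.at' T o), f t z) - ∑ j, g.W o j • f (g.q j) z‖ₑ ∂μ
      ≤ ENNReal.ofReal (η * T * B) := by
  obtain ⟨F, hFc, heqF, hFd, hFb⟩ := hf
  have hat : g.at' T o ∈ Icc 0 T := by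
    cases o with
    | none => exact ⟨hT, le_rfl⟩
    | some i => exact hq i
  have heq : ∀ z, (∫ t in (0 : ℝ)..(g.at' T o), f t z) - ∑ j, g.W o j • f (g.q j) z
      = (∫ t in (0 : ℝ)..(g.at' T o), F t z) - ∑ j, g.W o j • F (g.q j) z := fun z => by
    congr 1
    · refine intervalIntegral.integral_congr fun t ht => ?_
      rw [uIcc_of_le hat.1] at ht
      exact (heqF t ⟨ht.1, ht.2.trans hat.2⟩ z).symm
    · exact Finset.sum_congr rfl fun j _ => by rw [heqF _ (hq j) z]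
  have hcont : Continuous fun z =>
      (∫ t in (0 : ℝ)..(g.at' T o), F t z) - ∑ j, g.W o j • F (g.q j) z :=
    (intervalIntegral.continuous_parametric_intervalIntegral_of_continuous'
      (f := fun z t => F t z) (hFc.comp (continuous_snd.prodMk continuous_fst)) 0 (g.at' T o)).sub
      (continuous_finsetSum _ fun j _ =>
        (hFc.comp (continuous_const.prodMk continuous_id)).const_smul (g.W o j))
  simp only [heq]
  exact ⟨hcont, L1_of_L2le hcont.aestronglyMeasurable (by positivity)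
    (hg Ω μ d F B hB hFd hFc.measurable hFb o)⟩

/-- The time derivative of order `n` of the mean gradient along the flow, in quadratic mean. -/
def FwdReg (d n : ℕ) (Cr : ℝ) : Prop :=
  ∀ D : Gamma0.Data d, D.τ ≤ 1 → ∀ X : ExFlow D, ∀ T : ℝ, 0 ≤ T → T ∈ D.I →
    Reg.TimeBound n D.τ T (gam d) (fun t z => D.Gq t (X.Φ 0 t z))
      (Cr * (Real.sqrt d + ‖D.c‖))

/-- The regularity of piece 4 gives the bound used here. -/
lemma exists_fwdReg (h : Reg.RegGq) (n : ℕ) (hn : 1 ≤ n) :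
    ∃ Cr : ℝ, 0 ≤ Cr ∧ ∀ d : ℕ, FwdReg d n Cr := by
  obtain ⟨C, hC, h⟩ := h n hn
  refine ⟨C, hC, fun d D hτ X T hT hTI => ?_⟩
  obtain ⟨F, hc, he, hd, hb⟩ := h d D hτ X T hT hTI
  refine ⟨F, hc, he, hd, fun t ht => ?_⟩
  have htI : t ∈ D.I := ⟨D.zero_mem.1.trans_le ht.1, ht.2.trans_lt hTI.2⟩
  have h0 : 0 ≤ (Real.sqrt D.τ / (D.τ - t ^ 2)) ^ n :=
    pow_nonneg (div_nonneg (Real.sqrt_nonneg _) (D.r_pos htI).le) n
  exact (hb t ht).mono (by positivity)
    (mul_le_mul_of_nonneg_left (mul_le_mul_of_nonneg_left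
      (le_add_of_nonneg_right (norm_nonneg _)) hC) h0)

variable {na : ℕ} {P : Data na} {B : ℝ}

lemma Small.eps_mul_le (h : Small P B) : P.ε * B ≤ 1 / 8 := by
  have h1 : P.ε ≤ P.ρ := calc
    P.ε = P.ε ^ (1 : ℝ) := (Real.rpow_one _).symm
    _ ≤ P.ε ^ (1 / 16 : ℝ) :=
      Real.rpow_le_rpow_of_exponent_ge h.eps_pos (h.eps_le.trans (by norm_num)) (by norm_num)
    _ ≤ P.ρ ^ 64 := h.small
    _ ≤ P.ρ := pow_le_of_le_one h.rho_pos.le (h.rho_le.trans (by norm_num)) (by norm_num)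
  have h2 : (8 * B) * P.ρ ≤ (B + 2) ^ 16 * P.ρ := by
    refine mul_le_mul_of_nonneg_right ?_ h.rho_pos.le
    have h3 : (B + 2) ^ 4 ≤ (B + 2) ^ 16 := pow_le_pow_right₀ (by linarith [h.one_le]) (by norm_num)
    nlinarith [h.one_le, sq_nonneg (B - 2), sq_nonneg (B + 2), sq_nonneg ((B + 2) ^ 2 - 8)]
  nlinarith [h.absorb, h.one_le]

attribute [local irreducible] G nW psi

lemma grid_flow_error {D : Gamma0.Data d} (X : ExFlow D) {n M : ℕ} {g : Grid M}
    {T η Cr : ℝ} (hT : 0 ≤ T) (hTI : T ∈ D.I) (hη : 0 ≤ η) (hq : ∀ i, g.q i ∈ Icc 0 T)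
    (hg : GridOrd n g D.τ T η) (hτ : D.τ ≤ 1) (hCr : 0 ≤ Cr)
    (hreg : FwdReg d n Cr) (o : Option (Fin M)) :
    Continuous (fun z => (∫ t in (0 : ℝ)..(g.at' T o), D.Gq t (X.Φ 0 t z))
        - ∑ j, g.W o j • D.Gq (g.q j) (X.Φ 0 (g.q j) z)) ∧
    ∫⁻ z, ‖(∫ t in (0 : ℝ)..(g.at' T o), D.Gq t (X.Φ 0 t z))
        - ∑ j, g.W o j • D.Gq (g.q j) (X.Φ 0 (g.q j) z)‖ₑ ∂gam d
      ≤ ENNReal.ofReal (η * T * (Cr * (Real.sqrt d + ‖D.c‖))) := by
  have : IsProbabilityMeasure (gam d) := by unfold gam; infer_instance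
  exact hg.l1 hT hη hq (by positivity) (hreg D hτ X T hT hTI) o

/-- The grid of the bridge integrates the forward flow. -/
theorem quadFwd_of_reg (h : Small P B) {n : ℕ} {η Cr : ℝ} (hη : 0 ≤ η)
    (hg : GridOrd n P.g₂ P.τ P.q₂ η) (hCr : 0 ≤ Cr) (hreg : FwdReg d n Cr) :
    QuadFwd d P (Real.sqrt P.τ * η * Cr) := by
  intro D hε hτ X o
  obtain ⟨h2, h20⟩ := q₂_mem P (D := D) hτ h.rho_pos (h.rho_le.trans (by norm_num))
  refine ((grid_flow_error X h20.le h2 hη
    (fun i => ⟨(h.g₂_ok.pos i).le, h.g₂_ok.le i⟩) (hτ ▸ hg) (hτ ▸ h.tau_le)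
    hCr hreg o).2).trans (ENNReal.ofReal_le_ofReal ?_)
  have h3 : P.q₂ ≤ Real.sqrt P.τ := hτ ▸ h2.2.le
  calc η * P.q₂ * (Cr * (Real.sqrt d + ‖D.c‖))
      ≤ η * Real.sqrt P.τ * (Cr * (Real.sqrt d + ‖D.c‖)) := by gcongr
    _ = _ := by ring

lemma Small.q₁_mem (h : Small P B) {D : Gamma0.Data d} (hτ : D.τ = P.τ) :
    P.q₁ ∈ D.I ∧ 0 < P.q₁ := by
  have h1 := h.rho_pos
  have h2 := h.rho_le
  have h3 := h.tau_pos
  have h4 : 0 < P.τ - P.ρ * P.τ := by nlinarith
  have h0 : 0 < P.q₁ := Real.sqrt_pos.2 h4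
  refine ⟨⟨D.zero_mem.1.trans h0, ?_⟩, h0⟩
  rw [hτ]
  exact Real.sqrt_lt_sqrt h4.le (by nlinarith)

/-- The compiled backward iterate only sees the centre and the point. -/
lemma val_bwd_pt (Gr : ℝ → E d → E d) (c w Z : E d) (u : Fin na → E d) (p : ℕ) (j : Fin P.M₁) :
    (bwd P (.var (OIn.ctr (n := na))) (.var .pt) p j).val Gr (oPoint c w Z u)
      = (bwd P (.var (OIn.ctr (n := na))) (.var .pt) p j).val Gr (oPoint c w 0 0) :=
  val_bwd_congr P Gr (by rfl) (by rfl) p j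

/-- The compiled backward iterates against the exact flow, on the law at `q₁`. -/
theorem bwd_error (hP : PostFacts) (hT : LawTransport) (h : Small P B) {n : ℕ} {η Cr : ℝ}
    (hη : 0 ≤ η) (hg : GridOrd n P.g₁ P.τ P.q₁ η) (hCr : 0 ≤ Cr) (hreg : FwdReg d n Cr)
    {D : Gamma0.Data d} (hε : D.ε = P.ε) (hτ : D.τ = P.τ) (X : ExFlow D) :
    ∀ p j, ∫⁻ w, ‖(bwd P (.var (OIn.ctr (n := na))) (.var .pt) p j).val (Gt D.U D.g D.ε) (oPoint D.c w 0 0)
        - X.Φ P.q₁ (P.g₁.q j) w‖ₑ ∂ExFlow.law D P.q₁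
      ≤ ENNReal.ofReal ((4 * P.ε * (Real.sqrt P.τ * η * Cr) + 4 * (2 * P.ε * B) ^ p)
          * (Real.sqrt d + ‖D.c‖)) := by
  have hH := nwHeat_of_post hP
  have : IsProbabilityMeasure (gam d) := by unfold gam; infer_instance
  obtain ⟨h1, h10⟩ := h.q₁_mem hτ
  have hτ1 : D.τ ≤ 1 := hτ ▸ h.tau_le
  have hε10 : D.ε ≤ 1 / 10 := hε ▸ h.eps_le
  have hq1 : P.q₁ ≤ 1 := h1.2.le.trans (Real.sqrt_le_one.2 hτ1)
  have hB0 : 0 ≤ B := zero_le_one.trans h.one_le
  have hε0 : 0 ≤ P.ε := h.eps_pos.le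
  set M := Real.sqrt d + ‖D.c‖
  have hM : 0 ≤ M := by positivity
  set Gr := Gt D.U D.g D.ε
  have hqj : ∀ j, P.g₁.q j ∈ D.I := fun j =>
    ⟨D.zero_mem.1.trans (h.g₁_ok.pos j), (h.g₁_ok.le j).trans_lt h1.2⟩
  have hG : ∀ r, LipschitzWith 1 (Gr r) := fun r => by
    simp only [Gr]; unfold Gt
    rcases em (0 < r) with hr | hr
    · simp only [if_pos hr]
      refine lipschitzWith_of_nnnorm_fderiv_le ((D.contDiff_G hP hr).differentiable (by simp))
        fun x => ?_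
      let D' : Gamma0.Data d := ⟨D.U, D.g, D.pot, D.g0, D.ε, D.ε0, D.ε1, r, hr, x⟩
      rw [← NNReal.coe_le_coe, coe_nnnorm, NNReal.coe_one]
      simpa [Gamma0.Data.aq, Gamma0.Data.r, D'] using
        ExFlow.norm_aq_le hP D'.zero_mem (0 : E d)
    · simp only [if_neg hr]; exact LipschitzWith.const' 0
  set v := fun p j z => (bwd P (.var (OIn.ctr (n := na))) (.var .pt) p j).val Gr
    (oPoint D.c (X.Φ 0 P.q₁ z) 0 0)
  have hwc : Continuous fun w : E d => oPoint D.c w (0 : E d) (0 : Fin na → E d) :=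
    continuous_pi fun i => by cases i <;> simp only [oPoint] <;> fun_prop
  have hvc : ∀ p j, Continuous (v p j) := fun p j =>
    ((Expr.continuous_val _ (fun r => (hG r).continuous) _).comp hwc).comp
      (X.continuous_Φ D.zero_mem h1)
  suffices H : ∀ p j, ∫⁻ z, ‖v p j z - X.Φ 0 (P.g₁.q j) z‖ₑ ∂gam d
      ≤ ENNReal.ofReal ((4 * P.ε * (Real.sqrt P.τ * η * Cr) + 4 * (2 * P.ε * B) ^ p) * M) by
    intro p j
    have hmm : Measurable fun w => ‖(bwd P (.var (OIn.ctr (n := na))) (.var .pt) p j).val Gr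
        (oPoint D.c w 0 0) - X.Φ P.q₁ (P.g₁.q j) w‖ₑ :=
      ((((Expr.continuous_val _ (fun r => (hG r).continuous) _).comp hwc).sub
        (X.continuous_Φ h1 (hqj j))).enorm).measurable
    rw [← X.map_gam hP hH hT h1, lintegral_map hmm (X.continuous_Φ D.zero_mem h1).measurable]
    refine le_trans (le_of_eq (lintegral_congr fun z => ?_)) (H p j)
    rw [X.flow.trans 0 D.zero_mem _ h1 _ (hqj j)]
  have hGeq : ∀ j w, Gr (P.rs (P.g₁.q j)) (D.c + P.g₁.q j • w) = D.Gq (P.g₁.q j) w := fun j w => by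
    have hr : 0 < P.rs (P.g₁.q j) := by rw [Data.rs, ← hτ]; exact D.r_pos (hqj j)
    simp only [Gr, Gt, Data.rs, ← hτ] at hr ⊢
    rw [if_pos hr]; rfl
  intro p
  induction p with
  | zero =>
    intro j
    obtain ⟨hi1, hl1⟩ := X.mean_path hP hτ1 h1 h10.le
    obtain ⟨hi2, hl2⟩ := X.mean_path hP hτ1 (hqj j) (h.g₁_ok.pos j).le
    have hi : Integrable (fun z => ‖X.Φ 0 P.q₁ z‖ + ‖X.Φ 0 (P.g₁.q j) z‖) (gam d) := hi1.add hi2
    refine (lintegral_mono (g := fun z =>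
      ENNReal.ofReal (‖X.Φ 0 P.q₁ z‖ + ‖X.Φ 0 (P.g₁.q j) z‖)) fun z => ?_).trans ?_
    · rw [← ofReal_norm]
      exact ENNReal.ofReal_le_ofReal (norm_sub_le _ _)
    rw [← ofReal_integral_eq_lintegral_ofReal hi (Eventually.of_forall fun z => by positivity),
      integral_add hi1 hi2]
    refine ENNReal.ofReal_le_ofReal ?_
    have hexp : Real.exp D.ε ≤ 5 / 4 := by
      have h2 := Real.exp_bound_div_one_sub_of_interval' (by norm_num : (0:ℝ) < 1/10) (by norm_num)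
      have h3 := Real.exp_le_exp.2 hε10
      norm_num at h2
      linarith
    have h4 : (Real.sqrt d + D.ε * (‖D.c‖ + Real.sqrt d)) * Real.exp D.ε ≤ 2 * M := by
      calc _ ≤ (M + 1 / 10 * M) * (5 / 4) := by
            refine mul_le_mul (add_le_add (le_add_of_nonneg_right (norm_nonneg _)) ?_) hexp
              (Real.exp_pos _).le (by positivity)
            simp only [M, add_comm (Real.sqrt d)]; gcongr
        _ ≤ _ := by linarith
    have h5 : 0 ≤ P.ε * (Real.sqrt P.τ * η * Cr) * M := by positivity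
    rw [pow_zero]
    linarith
  | succ p ih =>
    intro i
    set Q := fun o z => (∫ t in (0 : ℝ)..(P.g₁.at' P.q₁ o), D.Gq t (X.Φ 0 t z))
      - ∑ l, P.g₁.W o l • D.Gq (P.g₁.q l) (X.Φ 0 (P.g₁.q l) z)
    have hQ : ∀ o, Continuous (Q o) ∧ ∫⁻ z, ‖Q o z‖ₑ ∂gam d
        ≤ ENNReal.ofReal (η * P.q₁ * (Cr * M)) := fun o =>
      grid_flow_error X h10.le h1 hη (fun i => ⟨(h.g₁_ok.pos i).le, h.g₁_ok.le i⟩)
        (hτ ▸ hg) hτ1 hCr hreg o
    have hftc : ∀ T ∈ D.I, ∀ z, X.Φ 0 T z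
        = z - D.ε • ∫ t in (0 : ℝ)..T, D.Gq t (X.Φ 0 t z) := fun T hT' z => by
      have hsub := ExFlow.uIcc_subset (D := D) hT'
      have hcont : ContinuousOn (fun t => D.Gq t (X.Φ 0 t z)) (uIcc 0 T) :=
        (D.contDiffOn_Gq hP).continuousOn.comp (f := fun t : ℝ => (t, X.Φ 0 t z))
          (continuousOn_id.prodMk fun t ht =>
            (X.flow.deriv 0 D.zero_mem t (hsub ht) z).continuousAt.continuousWithinAt)
          fun t ht => ⟨hsub ht, mem_univ _⟩
      have e := intervalIntegral.integral_eq_sub_of_hasDerivAt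
        (f := fun t => X.Φ 0 t z) (f' := fun t => -(D.ε • D.Gq t (X.Φ 0 t z)))
        (fun t ht => X.flow.deriv 0 D.zero_mem t (hsub ht) z)
        ((hcont.const_smul D.ε).neg.intervalIntegrable)
      rw [intervalIntegral.integral_neg, intervalIntegral.integral_smul,
        X.flow.refl 0 D.zero_mem] at e
      rw [sub_eq_add_neg, e]; abel
    set w := fun l => P.g₁.W none l - P.g₁.W (some i) l
    have hpt : ∀ z, ‖v (p + 1) i z - X.Φ 0 (P.g₁.q i) z‖ₑ
        ≤ ENNReal.ofReal P.ε * ‖Q none z‖ₑ + ENNReal.ofReal P.ε * ‖Q (some i) z‖ₑ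
          + ∑ l, ENNReal.ofReal (P.ε * |w l|) * ‖v p l z - X.Φ 0 (P.g₁.q l) z‖ₑ := fun z => by
      have e : v (p + 1) i z - X.Φ 0 (P.g₁.q i) z
          = P.ε • (-Q none z) + P.ε • Q (some i) z + ∑ l, (P.ε * w l) •
            (D.Gq (P.g₁.q l) (v p l z) - D.Gq (P.g₁.q l) (X.Φ 0 (P.g₁.q l) z)) := by
        have hE : v (p + 1) i z = X.Φ 0 P.q₁ z + ∑ l, (P.ε * w l) • D.Gq (P.g₁.q l) (v p l z) := by
          simp only [v, w, bwd, gateAt, Expr.val, Expr.val_sum, oPoint, ← hGeq]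
        rw [hE, hftc _ h1 z, hftc _ (hqj i) z]
        simp only [Q, Grid.at', w, hε, smul_sub, smul_neg, sub_smul, mul_sub,
          Finset.smul_sum, smul_smul, Finset.sum_sub_distrib]
        abel
      rw [e]
      refine (enorm_add_le _ _).trans (add_le_add ((enorm_add_le _ _).trans (le_of_eq ?_))
        ((enorm_sum_le _ _).trans (Finset.sum_le_sum fun l _ => ?_)))
      · rw [enorm_smul, enorm_smul, enorm_neg, Real.enorm_eq_ofReal hε0]
      · rw [enorm_smul, Real.enorm_eq_ofReal_abs, abs_mul, abs_of_nonneg hε0]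
        refine mul_le_mul_right ?_ _
        rw [← ofReal_norm, ← ofReal_norm]
        refine ENNReal.ofReal_le_ofReal ?_
        rw [← hGeq, ← hGeq]
        refine ((hG _).norm_sub_le _ _).trans ?_
        rw [NNReal.coe_one, one_mul, add_sub_add_left_eq_sub, ← smul_sub, norm_smul,
          Real.norm_eq_abs, abs_of_pos (h.g₁_ok.pos l)]
        exact mul_le_of_le_one_left (norm_nonneg _) ((h.g₁_ok.le l).trans hq1)
    have hm : ∀ l, Measurable fun z => ENNReal.ofReal (P.ε * |w l|) *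
        ‖v p l z - X.Φ 0 (P.g₁.q l) z‖ₑ := fun l =>
      measurable_const.mul ((hvc p l).sub (X.continuous_Φ D.zero_mem (hqj l))).enorm.measurable
    have hmQ : Measurable fun z => ENNReal.ofReal P.ε * ‖Q (some i) z‖ₑ :=
      measurable_const.mul (hQ (some i)).1.enorm.measurable
    refine (lintegral_mono hpt).trans ?_
    rw [lintegral_add_right _ (Finset.measurable_sum _ fun l _ => hm l),
      lintegral_add_right _ hmQ, lintegral_finsetSum _ fun l _ => hm l]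
    simp only [lintegral_const_mul' _ _ ENNReal.ofReal_ne_top]
    refine (add_le_add (add_le_add (mul_le_mul_right (hQ none).2 _)
      (mul_le_mul_right (hQ (some i)).2 _)) (Finset.sum_le_sum fun l _ =>
      mul_le_mul_right (ih l) _)).trans ?_
    simp only [← ENNReal.ofReal_mul hε0, ← ENNReal.ofReal_mul (show 0 ≤ P.ε * |w _| by positivity)]
    rw [← ENNReal.ofReal_sum_of_nonneg fun l _ => by positivity,
      ← ENNReal.ofReal_add (by positivity) (by positivity),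
      ← ENNReal.ofReal_add (by positivity) (by positivity)]
    refine ENNReal.ofReal_le_ofReal ?_
    set S := Real.sqrt P.τ * η * Cr
    set K := (4 * P.ε * S + 4 * (2 * P.ε * B) ^ p) * M
    have hK : 0 ≤ K := by positivity
    have hw : ∑ l, |w l| ≤ 2 * B := by
      refine (Finset.sum_le_sum fun l _ => abs_sub _ _).trans ?_
      rw [Finset.sum_add_distrib]
      linarith [(h.g₁_ok.sum none).trans (mul_le_of_le_one_right hB0 hq1),
        (h.g₁_ok.sum (some i)).trans (mul_le_of_le_one_right hB0 hq1)]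
    rw [← Finset.sum_mul, ← Finset.mul_sum]
    have hs : η * P.q₁ * (Cr * M) ≤ S * M := by
      have h3 : P.q₁ ≤ Real.sqrt P.τ := hτ ▸ h1.2.le
      calc η * P.q₁ * (Cr * M) ≤ η * Real.sqrt P.τ * (Cr * M) := by gcongr
        _ = _ := by simp only [S]; ring
    have hs' := mul_le_mul_of_nonneg_left hs hε0
    have h2 : P.ε * (∑ l, |w l|) * K ≤ 2 * P.ε * B * K :=
      mul_le_mul_of_nonneg_right (by linarith [mul_le_mul_of_nonneg_left hw hε0]) hK
    have h6 := mul_le_mul_of_nonneg_right (h.eps_mul_le) (show 0 ≤ 8 * P.ε * S * M by positivity)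
    have h7 : 0 ≤ P.ε * S * M := by positivity
    have e : 2 * P.ε * B * K = P.ε * B * (8 * P.ε * S * M) + 4 * (2 * P.ε * B) ^ (p + 1) * M := by
      simp only [K]; ring
    rw [e] at h2
    linarith

end Build

end Vale.Agent.P347.Gamma0

namespace Vale.Agent.P347.Gamma0

open MeasureTheory Set

namespace Build

variable {d na : ℕ} {P : Data na} {B : ℝ}

/-- The first quadrature hypothesis of the word analysis. -/
theorem quad_apath (hP : PostFacts) (hT : LawTransport) (h : Small P B) {n : ℕ} {η C : ℝ}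
    (hη : 0 ≤ η) (hg : GridOrd n P.g₁ P.τ P.q₁ η) (hC : 0 ≤ C)
    {D : Gamma0.Data d} (hτ : D.τ = P.τ) (X : ExFlow D)
    (hreg : Reg.TimeBound n D.τ P.q₁ ((ExFlow.law D P.q₁).prod (gam d))
      (fun r z => Words.apath X P.q₁ z.1 r z.2) (C * Real.sqrt d)) :
    ∫⁻ z, ‖(∫ r in (0 : ℝ)..P.q₁, Words.apath X P.q₁ z.1 r z.2)
        - ∑ j, P.g₁.W none j • Words.apath X P.q₁ z.1 (P.g₁.q j) z.2‖ₑ
      ∂(ExFlow.law D P.q₁).prod (gam d) ≤ ENNReal.ofReal (Real.sqrt P.τ * η * C * Real.sqrt d) := by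
  obtain ⟨h1, h10⟩ := h.q₁_mem hτ
  have := ExFlow.isProb_law hP (nwHeat_of_post hP) hT h1 X
  have : IsProbabilityMeasure (gam d) := by unfold gam; infer_instance
  have hT' : GridOrd n P.g₁ D.τ P.q₁ η := hτ ▸ hg
  refine ((hT'.l1 h10.le hη (fun i => ⟨(h.g₁_ok.pos i).le, h.g₁_ok.le i⟩)
    (by positivity) hreg none).2).trans (ENNReal.ofReal_le_ofReal ?_)
  have h3 : P.q₁ ≤ Real.sqrt P.τ := hτ ▸ h1.2.le
  calc η * P.q₁ * (C * Real.sqrt d) ≤ η * Real.sqrt P.τ * (C * Real.sqrt d) := by gcongr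
    _ = _ := by ring

/-- The second quadrature hypothesis of the word analysis. -/
theorem quad_sysInt (hP : PostFacts) (hT : LawTransport) (h : Small P B) {n k m : ℕ} {η C s : ℝ}
    (hη : 0 ≤ η) (hg : GridOrd n P.g₁ P.τ P.q₁ η) (hC : 0 ≤ C)
    {D : Gamma0.Data d} (hτ : D.τ = P.τ) (X : ExFlow D)
    (hreg : Reg.TimeBound n D.τ P.q₁ ((ExFlow.law D P.q₁).prod (Words.gamB d na))
      (fun r z => Words.sysInt X k P.q₁ s r m z) (C * Real.sqrt d)) (o : Option (Fin P.M₁)) :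
    ∫⁻ z, ‖(∫ r in (0 : ℝ)..(P.g₁.at' P.q₁ o), Words.sysInt X k P.q₁ s r m z)
        - ∑ j, P.g₁.W o j • Words.sysInt X k P.q₁ s (P.g₁.q j) m z‖ₑ
      ∂(ExFlow.law D P.q₁).prod (Words.gamB d na)
      ≤ ENNReal.ofReal (Real.sqrt P.τ * η * C * Real.sqrt d) := by
  obtain ⟨h1, h10⟩ := h.q₁_mem hτ
  have := ExFlow.isProb_law hP (nwHeat_of_post hP) hT h1 X
  have : IsProbabilityMeasure (Words.gamB d na) := by unfold Words.gamB; infer_instance
  have hT' : GridOrd n P.g₁ D.τ P.q₁ η := hτ ▸ hg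
  refine ((hT'.l1 h10.le hη (fun i => ⟨(h.g₁_ok.pos i).le, h.g₁_ok.le i⟩)
    (by positivity) hreg o).2).trans (ENNReal.ofReal_le_ofReal ?_)
  have h3 : P.q₁ ≤ Real.sqrt P.τ := hτ ▸ h1.2.le
  calc η * P.q₁ * (C * Real.sqrt d) ≤ η * Real.sqrt P.τ * (C * Real.sqrt d) := by gcongr
    _ = _ := by ring

end Build

end Vale.Agent.P347.Gamma0
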