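import Vale.Agent.P347.Gamma0.FlatBound
import Vale.Agent.P347.Gamma0.PostBase

/-!
P347, towards `γ* = 0`, piece 1: every flattening of every derivative of the posterior mean
gradient is bounded without dimension.  Derivatives of smooth functions are symmetric, so any
flattening is one of the kernels `flat`.
-/

namespace Vale.Agent.P347.Gamma0

open MeasureTheory Filter Topology
open scoped RealInnerProductSpace ContDiff

variable {d : ℕ}

/-- Iterated directional derivatives along a list of directions, the head outermost. -/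
noncomputable def dl (F : E d → ℝ) : List (E d) → E d → ℝ
  | [], η => F η
  | a :: l, η => fderiv ℝ (dl F l) η a

lemma smooth_dl {F : E d → ℝ} (hF : ContDiff ℝ ∞ F) : ∀ l, ContDiff ℝ ∞ (dl F l)
  | [] => hF
  | a :: l => ((contDiff_infty_iff_fderiv.1 (smooth_dl hF l)).2).clm_apply contDiff_const

lemma dl_swap {F : E d → ℝ} (hF : ContDiff ℝ ∞ F) (a b : E d) (l : List (E d)) :
    dl F (a :: b :: l) = dl F (b :: a :: l) := by
  funext η
  have hf := smooth_dl hF l
  have hd : DifferentiableAt ℝ (fderiv ℝ (dl F l)) η :=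
    ((contDiff_infty_iff_fderiv.1 hf).2.differentiable (by simp)) η
  have e : ∀ v w : E d,
      fderiv ℝ (fun y => fderiv ℝ (dl F l) y v) η w = fderiv ℝ (fderiv ℝ (dl F l)) η w v := by
    intro v w
    rw [fderiv_clm_apply hd (differentiableAt_const v)]
    simp
  simp only [dl]
  rw [e, e]
  exact ((hf.contDiffAt (x := η)).isSymmSndFDerivAt (by
    simp only [minSmoothness_of_isRCLikeNormedField]; exact WithTop.coe_le_coe.2 le_top)).eq a b

lemma dl_perm {F : E d → ℝ} (hF : ContDiff ℝ ∞ F) {l l' : List (E d)} (h : l.Perm l') :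
    dl F l = dl F l' := by
  induction h with
  | nil => rfl
  | cons a _ ih => funext η; simp only [dl, ih]
  | swap a b l => exact dl_swap hF b a l
  | trans _ _ ih₁ ih₂ => exact ih₁.trans ih₂

lemma iteratedFDeriv_eq_dl {F : E d → ℝ} (hF : ContDiff ℝ ∞ F) :
    ∀ (k : ℕ) (m : Fin k → E d) (η : E d), iteratedFDeriv ℝ k F η m = dl F (List.ofFn m) η
  | 0, m, η => by simp [dl]
  | k + 1, m, η => by
    rw [iterated_apply_succ hF, List.ofFn_succ]
    simp only [dl]
    congr 2
    funext θ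
    exact iteratedFDeriv_eq_dl hF k (Fin.tail m) θ

lemma dl_dl (F : E d → ℝ) : ∀ l l' : List (E d), dl (dl F l') l = dl F (l ++ l')
  | [], l' => rfl
  | a :: l, l' => by funext η; simp only [List.cons_append, dl, dl_dl F l l']

/-- `D^t D^k` is `D^(k+t)`, in any order. -/
lemma iterated_iterated {F : E d → ℝ} (hF : ContDiff ℝ ∞ F) {k t m : ℕ} (v : Fin k → E d)
    (w : Fin t → E d) (u : Fin m → E d) (h : (List.ofFn w ++ List.ofFn v).Perm (List.ofFn u))
    (η : E d) : iteratedFDeriv ℝ t (fun θ => iteratedFDeriv ℝ k F θ v) η w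
      = iteratedFDeriv ℝ m F η u := by
  rw [show (fun θ => iteratedFDeriv ℝ k F θ v) = dl F (List.ofFn v) from
      funext (iteratedFDeriv_eq_dl hF k v),
    iteratedFDeriv_eq_dl (smooth_dl hF _), iteratedFDeriv_eq_dl hF, dl_dl, dl_perm hF h]

/-- Listing `f` by the two sides of a splitting of `Fin (m+1)`. -/
lemma perm_split {X : Type*} {m k t : ℕ} (e : Fin (m + 1) ≃ Option (Fin k) ⊕ Fin t)
    (h0 : e 0 = Sum.inl none) (f : Fin (m + 1) → X) :
    ((List.ofFn fun j => f (e.symm (Sum.inr j))) ++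
      List.ofFn fun l => f (e.symm (Sum.inl (some l)))).Perm (List.ofFn fun j => f j.succ) := by
  rw [← Multiset.coe_eq_coe, ← Multiset.coe_add]
  refine add_left_cancel (a := ({f 0} : Multiset X)) ?_
  have h1 : ({f 0} : Multiset X) + ↑(List.ofFn fun j => f j.succ) = Finset.univ.val.map f := by
    rw [Fin.univ_val_map, List.ofFn_succ]
    rfl
  have h2 : Finset.univ.val.map f
      = Finset.univ.val.map fun x : Option (Fin k) ⊕ Fin t => f (e.symm x) := by
    conv_lhs => rw [← Finset.map_univ_equiv e.symm]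
    rw [Finset.map_val, Multiset.map_map]
    rfl
  have h3 : (Finset.univ : Finset (Option (Fin k) ⊕ Fin t)).val
      = (Finset.univ : Finset (Option (Fin k))).val.disjSum (Finset.univ : Finset (Fin t)).val := rfl
  have h4 : (Finset.univ : Finset (Option (Fin k))).val
      = none ::ₘ (Finset.univ : Finset (Fin k)).val.map some := rfl
  rw [h1, h2, h3, Multiset.map_disjSum, h4, Multiset.map_cons, Multiset.map_map, Fin.univ_val_map,
    Fin.univ_val_map, ← h0, e.symm_apply_apply, ← Multiset.singleton_add]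
  simp only [Function.comp_def]
  abel

/-! ### Derivatives of the posterior mean gradient -/

variable {U : E d → ℝ} {g : E d → E d} {ε : ℝ}

lemma derivT_G_eq (hU : Pot U g) (hε : 0 ≤ ε) {r : ℝ} (hr : 0 < r) (c : E d) {m : ℕ}
    (i : Fin (m + 1) → Fin d) :
    derivT m (G U g ε r) c i
      = r⁻¹ ^ m * iteratedFDeriv ℝ m (meanT U ε r⁻¹ fun x => g x (i 0)) (r⁻¹ • c)
          fun j => bv (i j.succ) := by
  set L : E d →L[ℝ] E d := r⁻¹ • ContinuousLinearMap.id ℝ (E d) with hL
  have h1 := (PiLp.proj 2 (fun _ : Fin d => ℝ) (i 0) : E d →L[ℝ] ℝ).iteratedFDeriv_comp_left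
    (x := c) ((contDiff_G_apply hU hε hr).contDiffAt (x := c))
    (i := m) (WithTop.coe_le_coe.2 le_top)
  have h2 : (⇑(PiLp.proj 2 (fun _ : Fin d => ℝ) (i 0) : E d →L[ℝ] ℝ)) ∘ G U g ε r
      = (meanT U ε r⁻¹ fun x => g x (i 0)) ∘ ⇑L := funext fun y => G_apply hU hε hr y (i 0)
  have hM : ContDiff ℝ ∞ (meanT U ε r⁻¹ fun x => g x (i 0)) :=
    contDiff_mean_theta hU hε (inv_pos.2 hr) (obs_comp hU (i 0))
  rw [h2, L.iteratedFDeriv_comp_right hM c
    (WithTop.coe_le_coe.2 le_top)] at h1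
  have h3 := congrArg (fun T : ContinuousMultilinearMap ℝ (fun _ : Fin m => E d) ℝ =>
    T fun j => bv (i j.succ)) h1
  simp only [ContinuousMultilinearMap.compContinuousLinearMap_apply,
    ContinuousLinearMap.compContinuousMultilinearMap_coe, Function.comp_apply, PiLp.proj_apply] at h3
  rw [derivT, ← h3]
  simp only [hL, ContinuousLinearMap.smul_apply, ContinuousLinearMap.id_apply]
  rw [ContinuousMultilinearMap.map_smul_univ]
  simp

/-- A flattening with the value leg on the first side. -/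
lemma flat_bound (hU : Pot U g) (hε : 0 ≤ ε) {r : ℝ} (hr : 0 < r) (c : E d) {m : ℕ} {K : ℕ → ℕ → ℝ}
    (hK : ∀ k t, t ≠ 0 → OpLe (K k t / Real.sqrt r⁻¹ ^ (k + t + 1))
      (flat U g ε r⁻¹ (r⁻¹ • c) k t))
    {C : ℝ} (hC : ∀ k t, t ≠ 0 → k + t = m → K k t ≤ C)
    {α β : Type} [Fintype α] [DecidableEq α] [Fintype β] [DecidableEq β]
    (e : Fin (m + 1) ≃ α ⊕ β) (a₀ : α) (h0 : e 0 = Sum.inl a₀) [Nonempty β]
    (M : (α → Fin d) → ℝ) (N : (β → Fin d) → ℝ) :
    |∑ i : Fin (m + 1) → Fin d, derivT m (G U g ε r) c i * M (fun a => i (e.symm (Sum.inl a)))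
        * N (fun b => i (e.symm (Sum.inr b)))|
      ≤ r⁻¹ ^ m * (C / Real.sqrt r⁻¹ ^ (m + 1)) * nrm M * nrm N := by
  set k := Fintype.card {a : α // a ≠ a₀}
  set t := Fintype.card β
  have ht : t ≠ 0 := Fintype.card_ne_zero
  let eα : α ≃ Option (Fin k) :=
    (Equiv.optionSubtypeNe a₀).symm.trans (Equiv.optionCongr (Fintype.equivFin _))
  let eβ : β ≃ Fin t := Fintype.equivFin β
  let e' : Fin (m + 1) ≃ Option (Fin k) ⊕ Fin t := e.trans (Equiv.sumCongr eα eβ)
  have h0' : e' 0 = Sum.inl none := by simp [e', eα, h0]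
  have hkt : k + t = m := by
    have h := Fintype.card_congr e'
    simp only [Fintype.card_fin, Fintype.card_sum, Fintype.card_option] at h
    omega
  let fA : (α → Fin d) ≃ Fin d × (Fin k → Fin d) :=
    (Equiv.arrowCongr eα (Equiv.refl _)).trans (Equiv.piOptionEquivProd (β := fun _ => Fin d))
  let fB : (β → Fin d) ≃ (Fin t → Fin d) := Equiv.arrowCongr eβ (Equiv.refl _)
  let glue : (α → Fin d) × (β → Fin d) ≃ (Fin (m + 1) → Fin d) :=
    (Equiv.sumArrowEquivProdArrow α β (Fin d)).symm.trans (Equiv.arrowCongr e.symm (Equiv.refl _))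
  have hT : ∀ a b, derivT m (G U g ε r) c (glue (a, b))
      = r⁻¹ ^ m * flat U g ε r⁻¹ (r⁻¹ • c) k t (fA a) (fB b) := by
    intro a b
    set i := glue (a, b) with hi
    have hii : ∀ x, i (e.symm x) = Sum.elim a b x := fun x => by
      rcases x with x | x <;> simp [hi, glue]
    have hf := contDiff_mean_theta hU hε (inv_pos.2 hr) (obs_comp hU (i 0))
    rw [derivT_G_eq hU hε hr, flat, derivs]
    congr 1
    have e0 : (fA a).1 = i 0 := by
      rw [show i 0 = i (e.symm (Sum.inl a₀)) by rw [← h0, e.symm_apply_apply], hii]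
      simp [fA, (Equiv.symm_apply_eq eα).2 (show none = eα a₀ by simp [eα])]
    rw [e0]
    simp only [dMean]
    symm
    refine iterated_iterated hf _ _ _ ?_ _
    have hw : (bv ∘ fB b : Fin t → E d) = fun j => bv (i (e'.symm (Sum.inr j))) := funext fun j => by
      simp [fB, e', hii, Equiv.sumCongr]
    have hv : (bv ∘ (fA a).2 : Fin k → E d) = fun l => bv (i (e'.symm (Sum.inl (some l)))) :=
      funext fun l => by
      simp [fA, e', hii, Equiv.sumCongr]
    rw [hw, hv]
    exact perm_split e' h0' fun j => bv (i j)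
  have h := (hK k t ht).reindex fA fB M N
  have e1 : ∑ i : Fin (m + 1) → Fin d, derivT m (G U g ε r) c i
        * M (fun a => i (e.symm (Sum.inl a))) * N (fun b => i (e.symm (Sum.inr b)))
      = r⁻¹ ^ m * ∑ a, ∑ b, M a * N b * flat U g ε r⁻¹ (r⁻¹ • c) k t (fA a) (fB b) := by
    rw [← Equiv.sum_comp glue, Fintype.sum_prod_type, Finset.mul_sum]
    refine Finset.sum_congr rfl fun a _ => ?_
    rw [Finset.mul_sum]
    refine Finset.sum_congr rfl fun b _ => ?_
    rw [hT]
    simp [glue]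
    ring
  have hr' : 0 ≤ r⁻¹ := (inv_pos.2 hr).le
  rw [e1, abs_mul, abs_of_nonneg (pow_nonneg hr' m), mul_assoc _ _ (nrm M), mul_assoc _ _ (nrm N)]
  refine mul_le_mul_of_nonneg_left (h.trans ?_) (pow_nonneg hr' m)
  rw [hkt]
  refine mul_le_mul_of_nonneg_right (mul_le_mul_of_nonneg_right ?_ (nrm_nonneg _)) (nrm_nonneg _)
  exact div_le_div_of_nonneg_right (hC k t ht hkt) (pow_nonneg (Real.sqrt_nonneg _) _)

lemma scale_eq {r : ℝ} (hr : 0 < r) {m : ℕ} (hm : 1 ≤ m) (C : ℝ) :
    r⁻¹ ^ m * (C / Real.sqrt r⁻¹ ^ (m + 1)) = C / Real.sqrt r ^ (m - 1) := by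
  obtain ⟨n, rfl⟩ : ∃ n, m = n + 1 := ⟨m - 1, by omega⟩
  have hs : 0 < Real.sqrt r := Real.sqrt_pos.2 hr
  have e : r = Real.sqrt r ^ 2 := (Real.sq_sqrt hr.le).symm
  rw [Real.sqrt_inv, Nat.add_sub_cancel]
  conv_lhs => arg 1; rw [e]
  simp only [inv_pow, ← pow_mul]
  field_simp
  ring

theorem tameFact : TameFact := by
  intro m hm
  choose K hK0 hK using exists_opLe_flat
  set K' : ℕ → ℕ → ℝ := fun k t => if h : t ≠ 0 then K k t h else 0 with hK'
  have hK'0 : ∀ k t, 0 ≤ K' k t := fun k t => by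
    simp only [hK']; split_ifs with h
    · exact hK0 k t h
    · exact le_rfl
  set C := ∑ k ∈ Finset.range (m + 1), ∑ t ∈ Finset.range (m + 1), K' k t with hC
  refine ⟨C, Finset.sum_nonneg fun k _ => Finset.sum_nonneg fun t _ => hK'0 k t, ?_⟩
  intro d U g hU ε hε _ r hr _ c S hS hSc M N
  have hKC : ∀ k t, t ≠ 0 → k + t = m → K' k t ≤ C := fun k t _ hkt => by
    refine (Finset.single_le_sum (f := fun t => K' k t) (fun j _ => hK'0 k j)
      (Finset.mem_range.2 (by omega : t < m + 1))).trans ?_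
    exact Finset.single_le_sum (f := fun k => ∑ t ∈ Finset.range (m + 1), K' k t)
      (fun j _ => Finset.sum_nonneg fun t _ => hK'0 j t) (Finset.mem_range.2 (by omega : k < m + 1))
  have hKop : ∀ k t, t ≠ 0 →
      OpLe (K' k t / Real.sqrt r⁻¹ ^ (k + t + 1)) (flat U g ε r⁻¹ (r⁻¹ • c) k t) :=
    fun k t ht => by
      simpa [hK', ht] using hK k t ht d U g ε hU hε r⁻¹ (inv_pos.2 hr) (r⁻¹ • c)
  let es : {x // x ∈ S} ⊕ {x // x ∈ Sᶜ} ≃ Fin (m + 1) :=
    (Equiv.sumCongr (Equiv.refl _) (Equiv.subtypeEquivRight fun x => Finset.mem_compl)).trans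
      (Equiv.sumCompl _)
  have hsl : ∀ a, es (Sum.inl a) = a.1 := fun a => rfl
  have hsr : ∀ b, es (Sum.inr b) = b.1 := fun b => rfl
  have : Nonempty {x // x ∈ S} := ⟨⟨_, hS.choose_spec⟩⟩
  have : Nonempty {x // x ∈ Sᶜ} := ⟨⟨_, hSc.choose_spec⟩⟩
  rw [← scale_eq hr hm C]
  change _ ≤ r⁻¹ ^ m * (C / Real.sqrt r⁻¹ ^ (m + 1)) * nrm M * nrm N
  by_cases h0 : (0 : Fin (m + 1)) ∈ S
  · have h := flat_bound hU hε hr c hKop hKC es.symm ⟨0, h0⟩
      ((Equiv.symm_apply_eq es).2 (hsl ⟨0, h0⟩).symm) M N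
    simpa only [Equiv.symm_symm, hsl, hsr] using h
  · have h0' : (0 : Fin (m + 1)) ∈ Sᶜ := Finset.mem_compl.2 h0
    have h := flat_bound hU hε hr c hKop hKC (es.symm.trans (Equiv.sumComm _ _)) ⟨0, h0'⟩
      (by simp [(Equiv.symm_apply_eq es).2 (hsr ⟨0, h0'⟩).symm]) N M
    simp only [Equiv.symm_trans_apply, Equiv.sumComm_symm, Equiv.sumComm_apply, Sum.swap_inl,
      Sum.swap_inr, Equiv.symm_symm, hsl, hsr] at h
    rw [mul_right_comm _ (nrm N) (nrm M)] at h
    refine le_of_eq_of_le ?_ h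
    congr 1
    exact Finset.sum_congr rfl fun i _ => by ring

end Vale.Agent.P347.Gamma0
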