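import Vale.Agent.P347.Gamma0.StageAsm
import Vale.Agent.P347.Gamma0.StageBias
import Vale.Agent.P347.Gamma0.StageEta
import Vale.Agent.P347.Gamma0.StageQuad
import Vale.Agent.P347.Gamma0.Tame

/-!
P347, towards `γ_* = 0`: the compiled linear field of a stage has any order, from the bounds on
the derivatives in time along the exact flow.
-/

namespace Vale.Agent.P347.Gamma0

namespace Build

open MeasureTheory

attribute [local irreducible] G nW psi

/-- A larger bound on the weights. -/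
lemma Small.mono {na : ℕ} {P : Data na} {B B' : ℝ} (h : Small P B) (hB : B ≤ B')
    (habs : (B' + 2) ^ 16 * P.ρ ≤ 1) : Small P B' := by
  constructor
  case eps_pos => exact h.eps_pos
  case eps_le => exact h.eps_le
  case tau_pos => exact h.tau_pos
  case tau_le => exact h.tau_le
  case rho_pos => exact h.rho_pos
  case rho_le => exact h.rho_le
  case theta_eq => exact h.theta_eq
  case t_eq => exact h.t_eq
  case load => exact h.load
  case one_le => exact h.one_le.trans hB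
  case absorb => exact habs
  case small => exact h.small
  case g₁_ok =>
    exact ⟨h.g₁_ok.pos, h.g₁_ok.le,
      fun o => (h.g₁_ok.sum o).trans (mul_le_mul_of_nonneg_right hB (Real.sqrt_nonneg _)),
      fun o => (h.g₁_ok.sum_div o).trans hB⟩
  case g₂_ok =>
    exact ⟨h.g₂_ok.pos, h.g₂_ok.le,
      fun o => (h.g₂_ok.sum o).trans (mul_le_mul_of_nonneg_right hB (Real.sqrt_nonneg _)),
      fun o => (h.g₂_ok.sum_div o).trans hB⟩
  case g₁_sum => exact fun o => (h.g₁_sum o).trans (mul_le_mul_of_nonneg_right hB (Real.sqrt_nonneg _))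
  case g₂_sum => exact fun o => (h.g₂_sum o).trans (mul_le_mul_of_nonneg_right hB (Real.sqrt_nonneg _))
  case fdθ_mem => exact h.fdθ_mem
  case fdθ_sum => exact h.fdθ_sum.trans hB
  case fdt_mem => exact h.fdt_mem
  case fdt_sum => exact fun n hn => (h.fdt_sum n hn).trans hB
  case ham_mem => exact h.ham_mem
  case ham_sum => exact fun o => (h.ham_sum o).trans hB
  case time_mem => exact h.time_mem
  case time_sum => exact fun o => (h.time_sum o).trans hB

/-- A constant is absorbed by one power. -/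
lemma absorb_pow {ε c x : ℝ} {K : ℕ} (hε : 0 < ε) (hc : 0 ≤ c) (hce : c * ε ≤ 1)
    (hx : x ≤ ε ^ (K + 2)) : c * x ≤ ε ^ (K + 1) :=
  calc c * x ≤ c * ε ^ (K + 2) := mul_le_mul_of_nonneg_left hx hc
    _ = c * ε * ε ^ (K + 1) := by ring
    _ ≤ 1 * ε ^ (K + 1) := mul_le_mul_of_nonneg_right hce (by positivity)
    _ = _ := one_mul _

/-- The orders of the bias of the estimates. -/
lemma bias_order {ε a ρ θ B : ℝ} {K N iter : ℕ} (hε : 0 < ε) (hε1 : ε ≤ 1) (ha : 0 < a)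
    (ha8 : 3 * a ≤ 1) (hρ : ρ = ε ^ a) (hθ : θ = ρ ^ 4) (hB : 0 ≤ B) (hBρ : B * ρ ≤ 1)
    (hN : (K : ℝ) + 2 ≤ a * N) (hN7 : 7 ≤ N) (hit : K + 3 ≤ iter) :
    B ^ 3 * (θ ^ (N - 1) / ρ ^ N + ε * θ ^ N / ρ ^ N + (ε * θ ^ 2 * B) ^ iter)
      ≤ 3 * ε ^ (K + 2) := by
  have hρ0 : 0 < ρ := hρ ▸ Real.rpow_pos_of_pos hε a
  have hρ1 : ρ ≤ 1 := hρ ▸ Real.rpow_le_one hε.le hε1 ha.le
  obtain ⟨M, rfl⟩ : ∃ M, N = M + 7 := ⟨N - 7, by omega⟩
  have hB3 : B ^ 3 * ρ ^ 3 ≤ 1 := by rw [← mul_pow]; exact pow_le_one₀ (by positivity) hBρ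
  have hρN : ρ ^ (M + 7) ≤ ε ^ (K + 2) := by
    rw [hρ, ← Real.rpow_natCast, ← Real.rpow_mul hε.le, ← Real.rpow_natCast ε (K + 2)]
    refine Real.rpow_le_rpow_of_exponent_ge hε hε1 ?_
    push_cast at hN ⊢
    exact hN
  have h1 : B ^ 3 * (θ ^ (M + 7 - 1) / ρ ^ (M + 7)) ≤ ε ^ (K + 2) := by
    calc B ^ 3 * (θ ^ (M + 7 - 1) / ρ ^ (M + 7)) = B ^ 3 * ρ ^ 3 * ρ ^ (3 * M + 14) := by
          rw [hθ, show M + 7 - 1 = M + 6 by omega, ← pow_mul, mul_assoc, ← pow_add,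
            div_eq_iff (by positivity) |>.2]
          rw [← pow_add]; congr 1; omega
      _ ≤ 1 * ρ ^ (M + 7) := mul_le_mul hB3 (pow_le_pow_of_le_one hρ0.le hρ1 (by omega))
          (by positivity) zero_le_one
      _ ≤ _ := by rw [one_mul]; exact hρN
  have h2 : B ^ 3 * (ε * θ ^ (M + 7) / ρ ^ (M + 7)) ≤ ε ^ (K + 2) := by
    have e : θ ^ (M + 7) / ρ ^ (M + 7) = ρ ^ 3 * ρ ^ (3 * M + 18) := by
      rw [hθ, div_eq_iff (by positivity)]; ring
    calc B ^ 3 * (ε * θ ^ (M + 7) / ρ ^ (M + 7)) = ε * (B ^ 3 * ρ ^ 3 * ρ ^ (3 * M + 18)) := by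
          rw [mul_div_assoc, e]; ring
      _ ≤ 1 * (1 * ρ ^ (M + 7)) := mul_le_mul hε1 (mul_le_mul hB3
          (pow_le_pow_of_le_one hρ0.le hρ1 (by omega)) (by positivity) zero_le_one)
          (by positivity) zero_le_one
      _ ≤ _ := by rw [one_mul, one_mul]; exact hρN
  have h3 : B ^ 3 * (ε * θ ^ 2 * B) ^ iter ≤ ε ^ (K + 2) := by
    have e1 : θ ^ 2 * B ≤ 1 := by
      rw [hθ, ← pow_mul]
      calc ρ ^ (4 * 2) * B ≤ ρ * B := by gcongr; exact pow_le_of_le_one hρ0.le hρ1 (by norm_num)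
        _ ≤ 1 := by rw [mul_comm]; exact hBρ
    have hερ : ε ≤ ρ ^ 3 := by
      rw [hρ, ← Real.rpow_natCast, ← Real.rpow_mul hε.le]
      conv_lhs => rw [← Real.rpow_one ε]
      refine Real.rpow_le_rpow_of_exponent_ge hε hε1 ?_
      push_cast
      linarith
    calc B ^ 3 * (ε * θ ^ 2 * B) ^ iter ≤ B ^ 3 * ε ^ (K + 3) := by
          gcongr
          refine le_trans (pow_le_pow_left₀ (by rw [hθ]; positivity) ?_ _)
            (pow_le_pow_of_le_one hε.le hε1 hit)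
          rw [mul_assoc]
          exact mul_le_of_le_one_right hε.le e1
      _ = B ^ 3 * ε * ε ^ (K + 2) := by ring
      _ ≤ B ^ 3 * ρ ^ 3 * ε ^ (K + 2) := by gcongr
      _ ≤ 1 * ε ^ (K + 2) := by gcongr
      _ = _ := one_mul _
  rw [mul_add, mul_add]
  linarith

set_option linter.unusedVariables false in
/-- The compiled linear field has any order. -/
theorem etaPiece_of (hA : Reg.RegApath) (hS : Reg.RegSys) (hG : Reg.RegGq) : EtaPiece := by
  intro K
  refine ⟨K + 1, 64, by omega, fun a ha haC => ?_⟩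
  have ha64 : a ≤ 1 / 512 := by norm_num at haC; linarith
  obtain ⟨N₀, hN₀⟩ : ∃ N₀ : ℕ, ((K : ℝ) + 2) / a ≤ N₀ := ⟨_, Nat.le_ceil _⟩
  set N : ℕ := N₀ + 3 * K + 7 with hNdef
  have hN : (K : ℝ) + 2 ≤ a * N := by
    rw [div_le_iff₀ ha, mul_comm] at hN₀
    refine hN₀.trans (mul_le_mul_of_nonneg_left ?_ ha.le)
    exact_mod_cast (by omega : N₀ ≤ N)
  refine ⟨N, N, 3 * (K + 3), by omega, by omega, fun iter hiter n hn C₀ R => ?_⟩
  obtain ⟨Cb, hCb, hbias⟩ := est_bias_stage postFacts tameFact flowExists lawTransport N N (by omega)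
  obtain ⟨Ca, hCa, hregA⟩ := hA n hn
  obtain ⟨Cs, hCs, hregS⟩ := hS n hn (K + 1)
  obtain ⟨Cr, hCr, hfwd⟩ := exists_fwdReg hG n hn
  set W : ℝ := 3 * Cb + Ca + Cs + 4 * Cr + 4 with hW
  have hW0 : 0 < W := by positivity
  set c₀ : ℝ := 1 / (max C₀ 1 + 2) ^ 16
  have hc0 : 0 < c₀ := by positivity
  refine ⟨20 * (((K + 1 : ℕ) : ℝ) + 1), min (1 / W) (c₀ ^ (1 / a)),
    lt_min (by positivity) (Real.rpow_pos_of_pos hc0 _),
    fun d nt time M₁ M₂ g₁ g₂ ε τ γ η B hsm₀ _ hεs hgrid hη hηle => ?_⟩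
  set P := mkData R time g₁ g₂ iter ε τ (ε ^ a) γ
  have hε : 0 < ε := hsm₀.eps_pos
  have hε1 : ε ≤ 1 := le_trans hsm₀.eps_le (by norm_num)
  obtain ⟨hεW, hεc⟩ := le_min_iff.1 hεs
  have hWε : W * ε ≤ 1 := by rw [le_div_iff₀ hW0, mul_comm] at hεW; exact hεW
  have hρc : P.ρ ≤ c₀ := by
    show ε ^ a ≤ c₀
    refine (Real.rpow_le_rpow hε.le hεc ha.le).trans (le_of_eq ?_)
    rw [← Real.rpow_mul hc0.le, one_div_mul_cancel ha.ne', Real.rpow_one]
  set B₁ := max B C₀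
  have hsm : Small P B₁ := by
    refine hsm₀.mono (le_max_left _ _) ?_
    rcases le_total C₀ B with h | h
    · rw [show B₁ = B from max_eq_left h]; exact hsm₀.absorb
    · rw [show B₁ = C₀ from max_eq_right h]
      calc (C₀ + 2) ^ 16 * P.ρ ≤ (max C₀ 1 + 2) ^ 16 * c₀ := by
            refine mul_le_mul ?_ hρc hsm₀.rho_pos.le (by positivity)
            exact pow_le_pow_left₀ (by linarith [R.one_le]) (by linarith [le_max_left C₀ 1]) _
        _ = 1 := mul_one_div_cancel (by positivity)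
  obtain ⟨hρ, hρ1, -, hB1, ht⟩ := hsm.bounds
  have hB0 : 0 ≤ B₁ := zero_le_one.trans hsm.one_le
  have hC : HamRules P.ham P.fdθ B₁ := R.hamRules.mono (le_max_right _ _)
  have hηe : η ≤ ε ^ (K + 2) := hηle.trans (pow_le_pow_of_le_one hε.le hε1 (by omega))
  set Cq := Ca + Cs
  set eta' := η * Cq
  set b := Cb * B₁ ^ 3 * (P.θ ^ (N - 1) / P.ρ ^ N + P.ε * P.θ ^ N / P.ρ ^ N
    + (P.ε * P.θ ^ 2 * B₁) ^ iter) with hbdef
  set ew := 4 * P.ε * (Real.sqrt P.τ * η * Cr) + 4 * (2 * P.ε * B₁) ^ iter with hewdef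
  have hPε : P.ε = ε := rfl
  have hτs : Real.sqrt P.τ ≤ 1 := Real.sqrt_le_one.2 hsm.tau_le
  have hθ0 : 0 ≤ P.θ := by rw [hsm.theta_eq]; positivity
  have hb0 : 0 ≤ b := by have := hPε ▸ hε.le; positivity
  have hew0 : 0 ≤ ew := by have := hPε ▸ hε.le; positivity
  have hη' : eta' ≤ P.ε ^ (K + 1) := by
    rw [hPε]
    simp only [eta']
    rw [mul_comm]
    exact absorb_pow hε (by positivity) ((mul_le_mul_of_nonneg_right
      (by simp only [W, Cq]; linarith) hε.le).trans hWε) hηe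
  have hb : b ≤ P.ε ^ (K + 1) := by
    rw [hbdef, hPε, mul_assoc]
    refine (mul_le_mul_of_nonneg_left (bias_order hε hε1 ha (by linarith) rfl hsm.theta_eq hB0 hB1
      hN (by omega) (by omega)) hCb).trans ?_
    rw [← mul_assoc]
    exact absorb_pow hε (by positivity) ((mul_le_mul_of_nonneg_right
      (by simp only [W]; linarith) hε.le).trans hWε) le_rfl
  have hew : ew ≤ P.ε ^ (K + 1) := by
    rw [hewdef, hPε]
    have hs : Real.sqrt ε ≤ P.ρ ^ 64 := ht
    have h1 : 2 * ε * B₁ ≤ Real.sqrt ε := by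
      have e : 2 * Real.sqrt ε * B₁ ≤ 1 := by
        calc 2 * Real.sqrt ε * B₁ ≤ 2 * (P.ρ ^ 64) * B₁ := by gcongr
          _ = 2 * P.ρ ^ 63 * (B₁ * P.ρ) := by ring
          _ ≤ 2 * (1 / 16) * 1 := by
              gcongr
              exact (pow_le_of_le_one hρ.le hρ1 (by norm_num)).trans hsm.rho_le
          _ ≤ 1 := by norm_num
      calc 2 * ε * B₁ = (2 * Real.sqrt ε * B₁) * Real.sqrt ε := by
            nth_rw 1 [← Real.mul_self_sqrt hε.le]; ring
        _ ≤ 1 * Real.sqrt ε := by gcongr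
        _ = _ := one_mul _
    have h2 : (2 * ε * B₁) ^ iter ≤ ε ^ (K + 2) := by
      refine (pow_le_pow_left₀ (by positivity) h1 _).trans ?_
      calc Real.sqrt ε ^ iter ≤ Real.sqrt ε ^ (2 * (K + 2)) :=
            pow_le_pow_of_le_one (Real.sqrt_nonneg _) (Real.sqrt_le_one.2 hε1) (by omega)
        _ = _ := by rw [pow_mul, Real.sq_sqrt hε.le]
    have h3 : 4 * ε * (Real.sqrt P.τ * η * Cr) ≤ 4 * Cr * ε ^ (K + 2) := by
      calc 4 * ε * (Real.sqrt P.τ * η * Cr) ≤ 4 * 1 * (1 * ε ^ (K + 2) * Cr) := by gcongr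
        _ = _ := by ring
    calc _ ≤ 4 * Cr * ε ^ (K + 2) + 4 * ε ^ (K + 2) := add_le_add h3 (by linarith)
      _ = (4 * Cr + 4) * ε ^ (K + 2) := by ring
      _ ≤ _ := absorb_pow hε (by positivity) ((mul_le_mul_of_nonneg_right
          (by simp only [W]; linarith) hε.le).trans hWε) le_rfl
  refine eta_approx postFacts lawTransport hsm hC (by omega)
    (show K + 1 < N by omega) (show 1 ≤ iter by omega) R.fdt_mom
    (η := eta') (b := b) (ew := ew) (by positivity) hb0 hew0 ?_ ?_ ?_ ?_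
  · intro D hDε hDτ j
    refine (hbias d (K + 1) P B₁ C₀ rfl rfl hsm R.hamRules (le_max_right _ _) D hDε hDτ _
      (hsm.g₁_ok.pos j) (hsm.g₁_ok.le j)).2.2.trans (le_of_eq ?_)
    simp only [max_self, hbdef]
    rfl
  · intro D hDε hDτ X j
    refine (le_of_eq (lintegral_congr fun w => ?_)).trans
      (bwd_error postFacts lawTransport hsm hη hgrid hCr (hfwd d) hDε hDτ X iter j)
    congr 2
    exact val_bwd_congr P _ (ec := .var (0 : Fin 2)) (ew := .var 1) (x := ![D.c, w])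
      (ec' := .var OIn.ctr) (ew' := .var .pt)
      (x' := oPoint D.c w 0 (0 : Fin (K + 1) → E d)) rfl rfl iter j
  · intro D hDε hDτ X
    have hτ1 : D.τ ≤ 1 := hDτ ▸ hsm.tau_le
    obtain ⟨h1, h10⟩ := hsm.q₁_mem hDτ
    have hle : ∀ C, 0 ≤ C → C ≤ Cq → Real.sqrt P.τ * η * C * Real.sqrt d
        ≤ Real.sqrt P.τ * eta' * (Real.sqrt d + ‖D.c‖) := fun C hC hCq => by
      calc Real.sqrt P.τ * η * C * Real.sqrt d
          ≤ Real.sqrt P.τ * η * Cq * (Real.sqrt d + ‖D.c‖) := by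
            gcongr; exact le_add_of_nonneg_right (norm_nonneg _)
        _ = _ := by simp only [eta']; ring
    refine ⟨(quad_apath postFacts lawTransport hsm hη hgrid hCa hDτ X
      (hregA d D hτ1 X P.q₁ h10.le h1)).trans (ENNReal.ofReal_le_ofReal
        (hle Ca hCa (le_add_of_nonneg_right hCs))), fun m k o l hm hl => ?_⟩
    refine (quad_sysInt postFacts lawTransport hsm hη hgrid hCs hDτ X
      (hregS d D hτ1 X P.q₁ h10.le h1 m hm _ ?_ l hl) o).trans (ENNReal.ofReal_le_ofReal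
        (hle Cs hCs (le_add_of_nonneg_left hCa)))
    rw [abs_mul, hsm.t_eq, abs_of_nonneg (Real.sqrt_nonneg _)]
    exact mul_le_one₀ (ht.trans (pow_le_one₀ hρ.le hρ1)) (abs_nonneg _) (hsm.fdt_mem _ _)
  · refine (etaDelta_le hsm hη' hb0 hb hew0 hew le_rfl (show 3 * (K + 1) ≤ N by omega)
      (show 3 * (K + 1) ≤ iter by omega)).trans ?_
    rw [div_mul_eq_mul_div, mul_div_assoc]
    refine mul_le_mul_of_nonneg_left ?_ (by positivity)
    rw [div_le_iff₀ (by positivity), hPε, pow_succ]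
    refine mul_le_mul_of_nonneg_left ?_ (by positivity)
    show ε ≤ (ε ^ a) ^ 8
    rw [← Real.rpow_natCast, ← Real.rpow_mul hε.le]
    conv_lhs => rw [← Real.rpow_one ε]
    refine Real.rpow_le_rpow_of_exponent_ge hε hε1 ?_
    push_cast
    linarith

end Build

end Vale.Agent.P347.Gamma0
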