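import Vale.Agent.P347.Gamma0.StageAsm
import Vale.Agent.P347.Gamma0.StageQuad

/-!
P347, towards `γ_* = 0`: the forward piece of the assembly from the regularity along the flow.
-/

namespace Vale.Agent.P347.Gamma0

namespace Build

/-- The quadrature of the forward flow has the order of the grid. -/
theorem fwdPiece_of (hG : Reg.RegGq) : FwdPiece := by
  intro n hn
  obtain ⟨Cr, hCr, hreg⟩ := exists_fwdReg hG n hn
  refine ⟨Cr, fun d na P B η hP hη hg D hε hτ X o => ?_⟩
  refine (quadFwd_of_reg hP hη hg hCr (hreg d) D hε hτ X o).trans (ENNReal.ofReal_le_ofReal ?_)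
  have h := mul_le_mul_of_nonneg_right (Real.sqrt_le_one.2 hP.tau_le) (mul_nonneg hη hCr)
  refine mul_le_mul_of_nonneg_right ?_ (by positivity)
  linarith

end Build

end Vale.Agent.P347.Gamma0
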