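import Vale.Agent.P347.Gamma0.EtaLip
import Vale.Agent.P347.Gamma0.HamBound
import Vale.Agent.P347.Gamma0.PostDeriv
import Vale.Agent.P347.Gamma0.StagePar

/-!
P347, towards `γ_* = 0`: the compiled linear field of a stage is Lipschitz with a constant that is
a negative power of `ρ`.
-/

namespace Vale.Agent.P347.Gamma0

namespace Build

open Set

variable {d na : ℕ}

/-- The bounds on the rules of the difference quotient which its stability uses. -/
structure RuleSums (P : Data na) (C : ℝ) : Prop where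
  nonneg : 0 ≤ C
  fd_mem : ∀ i, |P.fdθ.x i| ≤ 1
  fd_sum : ∑ i, |P.fdθ.wt i| ≤ C
  ru_mem : ∀ i, P.ham.x i ∈ Icc (0 : ℝ) 1
  ru_sum : ∀ o, ∑ l, |P.ham.W o l| ≤ C

variable (P : Data na)

lemma abs_hamTime_le' {C : ℝ} (hC : RuleSums P C) (hθ : 0 ≤ P.θ) (k : Fin P.nr)
    (o : Option (Fin P.nh)) : |hamTime P k o| ≤ P.θ := by
  have h : |o.elim (1 : ℝ) P.ham.x| ≤ 1 := by
    cases o with
    | none => simp
    | some i => simpa [abs_of_nonneg (hC.ru_mem i).1] using (hC.ru_mem i).2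
  rw [hamTime, abs_mul, abs_mul, abs_of_nonneg hθ]
  exact mul_le_of_le_one_right (by positivity) h |>.trans (mul_le_of_le_one_right hθ (hC.fd_mem k))

/-- The coefficients of one Picard step. -/
lemma step_coef_le' {C : ℝ} (hC : RuleSums P C) (hθ : 0 ≤ P.θ) (k : Fin P.nr)
    (o : Option (Fin P.nh)) :
    ∑ l, |P.θ * P.fdθ.x k * P.ham.W o l * Real.sin (hamTime P k o - hamTime P k (some l))|
      ≤ P.θ ^ 2 * C := by
  have ho : o.elim (1 : ℝ) P.ham.x ∈ Icc (0 : ℝ) 1 := by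
    cases o with
    | none => simp
    | some i => exact hC.ru_mem i
  calc _ ≤ ∑ l, P.θ ^ 2 * |P.ham.W o l| := Finset.sum_le_sum fun l _ => ?_
    _ ≤ P.θ ^ 2 * C := by
      rw [← Finset.mul_sum]
      exact mul_le_mul_of_nonneg_left (hC.ru_sum o) (sq_nonneg _)
  have h1 : |Real.sin (hamTime P k o - hamTime P k (some l))| ≤ P.θ := by
    refine Real.abs_sin_le_abs.trans ?_
    rw [hamTime, hamTime, ← mul_sub, abs_mul, abs_mul, abs_of_nonneg hθ, mul_assoc]
    refine mul_le_of_le_one_right hθ (mul_le_one₀ (hC.fd_mem k) (abs_nonneg _) ?_)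
    exact abs_sub_le_iff.2 ⟨by simpa using (sub_le_sub ho.2 (hC.ru_mem l).1),
      by simpa using (sub_le_sub (hC.ru_mem l).2 ho.1)⟩
  rw [abs_mul, abs_mul, abs_mul, abs_of_nonneg hθ]
  calc _ ≤ P.θ * 1 * |P.ham.W o l| * P.θ := by
        gcongr
        exact hC.fd_mem k
    _ = _ := by ring

/-- The iterates are Lipschitz. -/
theorem ham_lip' {ι : Type} {Gr : ℝ → E d → E d} (hG : ∀ r, LipschitzWith 1 (Gr r)) {C : ℝ}
    (hC : RuleSums P C) (hε : 0 ≤ P.ε) (hθ : 0 ≤ P.θ)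
    (hκ : P.ε * P.θ ^ 2 * C ≤ 1 / 2) {q : ℝ} (hq0 : 0 ≤ q) (hq1 : q ≤ 1) (ec ew eD : Expr ι)
    (x y : ι → E d) (hc : ec.val Gr x = ec.val Gr y) (k : Fin P.nr) :
    ∀ p o, ‖(ham P ec q ew eD k p o).val Gr x - (ham P ec q ew eD k p o).val Gr y‖
      ≤ 2 * (‖ew.val Gr x - ew.val Gr y‖ + ‖eD.val Gr x - eD.val Gr y‖) := by
  set a := ‖ew.val Gr x - ew.val Gr y‖
  set b := ‖eD.val Gr x - eD.val Gr y‖
  have hab : 0 ≤ a + b := by positivity
  have base : ∀ t, ‖(Real.cos t • ew.val Gr x + Real.sin t • eD.val Gr x)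
      - (Real.cos t • ew.val Gr y + Real.sin t • eD.val Gr y)‖ ≤ a + b := fun t => by
    rw [add_sub_add_comm, ← smul_sub, ← smul_sub]
    refine (norm_add_le _ _).trans (add_le_add ?_ ?_) <;> rw [norm_smul, Real.norm_eq_abs]
    · exact mul_le_of_le_one_left (norm_nonneg _) (Real.abs_cos_le_one _)
    · exact mul_le_of_le_one_left (norm_nonneg _) (Real.abs_sin_le_one _)
  intro p
  induction p with
  | zero => intro o; simp only [ham, Expr.val]; exact (base _).trans (by linarith)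
  | succ p ih =>
    intro o
    simp only [ham, gateAt, Expr.val, Expr.val_sum, hc]
    rw [add_sub_add_comm, ← Finset.sum_sub_distrib]
    refine (norm_add_le _ _).trans ?_
    refine (add_le_add (base _) ((norm_sum_le _ _).trans (Finset.sum_le_sum
      (g := fun l => P.ε * q * |P.θ * P.fdθ.x k * P.ham.W o l *
        Real.sin (hamTime P k o - hamTime P k (some l))| * (q * (2 * (a + b))))
      fun l _ => ?_))).trans ?_
    · rw [← smul_sub, norm_smul, Real.norm_eq_abs, abs_neg, mul_assoc (P.ε * q), abs_mul,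
        abs_of_nonneg (mul_nonneg hε hq0)]
      refine mul_le_mul_of_nonneg_left (((hG _).norm_sub_le _ _).trans ?_) (by positivity)
      rw [NNReal.coe_one, one_mul, add_sub_add_left_eq_sub, ← smul_sub, norm_smul,
        Real.norm_eq_abs, abs_of_nonneg hq0]
      exact mul_le_mul_of_nonneg_left (ih _) hq0
    · rw [← Finset.sum_mul, ← Finset.mul_sum]
      have h := step_coef_le' P hC hθ k o
      have h2 : q * q ≤ 1 := mul_le_one₀ hq1 hq0 hq1
      have h3 : P.ε * q * (P.θ ^ 2 * C) * (q * (2 * (a + b))) ≤ a + b := by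
        have h4 : (P.ε * P.θ ^ 2 * C) * (q * q) ≤ 1 / 2 :=
          (mul_le_of_le_one_right (by have := hC.nonneg; positivity) h2).trans hκ
        calc _ = (P.ε * P.θ ^ 2 * C) * (q * q) * (2 * (a + b)) := by ring
          _ ≤ 1 / 2 * (2 * (a + b)) := mul_le_mul_of_nonneg_right h4 (by positivity)
          _ = _ := by ring
      have h5 := mul_le_mul_of_nonneg_right (mul_le_mul_of_nonneg_left h (mul_nonneg hε hq0))
        (show 0 ≤ q * (2 * (a + b)) by positivity)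
      linarith

/-- The difference quotient is Lipschitz `1/θ`. -/
theorem est_lip' {ι : Type} {Gr : ℝ → E d → E d} (hG : ∀ r, LipschitzWith 1 (Gr r)) {C : ℝ}
    (hC : RuleSums P C) (hε : 0 ≤ P.ε) (hθ : 0 < P.θ)
    (hκ : P.ε * P.θ ^ 2 * C ≤ 1 / 2) {q : ℝ} (hq0 : 0 < q) (hq1 : q ≤ 1) (ec ew eD : Expr ι)
    (x y : ι → E d) (hc : ec.val Gr x = ec.val Gr y) :
    ‖(est P ec q ew eD).val Gr x - (est P ec q ew eD).val Gr y‖
      ≤ 2 * C / P.θ * (‖ew.val Gr x - ew.val Gr y‖ + ‖eD.val Gr x - eD.val Gr y‖) := by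
  set B := 2 * (‖ew.val Gr x - ew.val Gr y‖ + ‖eD.val Gr x - eD.val Gr y‖)
  simp only [est, gateAt, Expr.val, Expr.val_sum, hc]
  rw [← Finset.sum_sub_distrib]
  refine (norm_sum_le _ _).trans ((Finset.sum_le_sum (g := fun k => |P.fdθ.wt k| * (B / P.θ))
    fun k _ => ?_).trans ?_)
  · rw [← smul_sub, norm_smul, Real.norm_eq_abs, abs_div, abs_of_pos (mul_pos hq0 hθ)]
    calc _ ≤ |P.fdθ.wt k| / (q * P.θ) * (q * B) := by
          refine mul_le_mul_of_nonneg_left (((hG _).norm_sub_le _ _).trans ?_) (by positivity)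
          rw [NNReal.coe_one, one_mul, add_sub_add_left_eq_sub, ← smul_sub, norm_smul,
            Real.norm_eq_abs, abs_of_pos hq0]
          exact mul_le_mul_of_nonneg_left
            (ham_lip' P hG hC hε hθ.le hκ hq0.le hq1 ec ew eD x y hc k _ _) hq0.le
      _ = _ := by field_simp
  · rw [← Finset.sum_mul]
    calc (∑ k, |P.fdθ.wt k|) * (B / P.θ) ≤ C * (B / P.θ) :=
          mul_le_mul_of_nonneg_right hC.fd_sum (by positivity)
      _ = _ := by simp only [B]; ring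

/-- The compiled linear field of a stage is stable. -/
theorem stage_lip : ∃ k : ℕ, ∀ (d na : ℕ) (P : Data na) (B : ℝ), Small P B → (na : ℝ) + 2 ≤ B →
    EtaLip d P (P.ρ ^ (-(k : ℝ))) := by
  refine ⟨10, fun d na P B h hnaB => ?_⟩
  have hρ := h.rho_pos
  have hρ1 : P.ρ ≤ 1 := h.rho_le.trans (by norm_num)
  have hB := h.one_le
  have hB0 : 0 ≤ B := by linarith
  have hp : ∀ n, n ≤ 16 → B ^ n * P.ρ ≤ 1 := fun n hn => le_trans (by
    gcongr ?_ * _
    exact (pow_le_pow_left₀ hB0 (by linarith) n).trans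
      (pow_le_pow_right₀ (by linarith : (1 : ℝ) ≤ B + 2) hn)) h.absorb
  have hB1 : B * P.ρ ≤ 1 := by simpa using hp 1 (by norm_num)
  have hε0 := h.eps_pos.le
  have hε1 : P.ε ≤ 1 := h.eps_le.trans (by norm_num)
  have ht : Real.sqrt P.ε ≤ P.ρ ^ 64 := by
    refine le_trans ?_ h.small
    rw [Real.sqrt_eq_rpow]
    exact Real.rpow_le_rpow_of_exponent_ge h.eps_pos hε1 (by norm_num)
  have htρ : Real.sqrt P.ε ≤ P.ρ := ht.trans (pow_le_of_le_one hρ.le hρ1 (by norm_num))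
  have hεt : P.ε ≤ Real.sqrt P.ε := by
    nth_rw 1 [← Real.mul_self_sqrt hε0]
    exact mul_le_of_le_one_left (Real.sqrt_nonneg _) (htρ.trans hρ1)
  have hθ : 0 < P.θ := h.theta_eq ▸ pow_pos hρ 4
  have hθ1 : P.θ ≤ 1 := h.theta_eq ▸ pow_le_one₀ hρ.le hρ1
  have hεB : P.ε * B ≤ 1 / 16 := by
    have hερ : P.ε ≤ P.ρ ^ 64 := hεt.trans ht
    calc P.ε * B ≤ P.ρ ^ 64 * B := by gcongr
      _ = P.ρ ^ 63 * (B * P.ρ) := by ring
      _ ≤ 1 / 16 * 1 := by
          gcongr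
          exact (pow_le_of_le_one hρ.le hρ1 (by norm_num)).trans h.rho_le
      _ = _ := mul_one _
  have hRS : RuleSums P B := ⟨hB0, h.fdθ_mem, h.fdθ_sum, h.ham_mem, h.ham_sum⟩
  have hκθ : P.ε * P.θ ^ 2 * B ≤ 1 / 2 := by
    calc P.ε * P.θ ^ 2 * B ≤ P.ε * 1 * B := by gcongr; exact pow_le_one₀ hθ.le hθ1
      _ ≤ 1 / 2 := by linarith
  have hest : ∀ U g, Pot U g → g 0 = 0 → EstLipAt (d := d) P (Gt U g P.ε) (2 * B / P.θ) :=
    fun U g hU hg q hq0 hq1 ec ew eD x y hc =>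
      est_lip' P (lipschitz_Gt_of_post postFacts hU hg hε0 hε1) hRS hε0 hθ hκθ hq0 hq1 ec ew eD x y hc
  have hL : 2 * B / P.θ ≤ 2 / P.ρ ^ 5 := by
    rw [h.theta_eq, div_le_div_iff₀ (by positivity) (by positivity)]
    calc 2 * B * P.ρ ^ 5 = 2 * P.ρ ^ 4 * (B * P.ρ) := by ring
      _ ≤ 2 * P.ρ ^ 4 * 1 := by gcongr
      _ = _ := mul_one _
  have hκ : 2 * P.t * B * (2 * B / P.θ) ≤ 1 / 2 := by
    rw [h.t_eq]
    calc 2 * Real.sqrt P.ε * B * (2 * B / P.θ) ≤ 2 * P.ρ ^ 64 * B * (2 / P.ρ ^ 5) := by gcongr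
      _ = 4 * P.ρ ^ 58 * (B * P.ρ) := by field_simp; ring
      _ ≤ 4 * (1 / 16) * 1 := by
          gcongr
          exact (pow_le_of_le_one hρ.le hρ1 (by norm_num)).trans h.rho_le
      _ ≤ _ := by norm_num
  have hbase := etaLip_of_est (d := d) (P := P) (A := B) postFacts hε0 hε1 hρ.le h.tau_pos h.tau_le
    h.g₁_ok hB0 (by linarith) (by positivity) hest hB0 (h.t_eq ▸ Real.sqrt_pos.2 h.eps_pos)
    (h.t_eq ▸ hεt) hκ h.fdt_mem (fun n _ hn => h.fdt_sum n hn)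
  intro U g hU hg c w w' Z Z' u
  refine (hbase U g hU hg c w w' Z Z' u).trans ?_
  refine mul_le_mul_of_nonneg_right (mul_le_mul_of_nonneg_left ?_ (Real.sqrt_nonneg _)) (by positivity)
  rw [Real.rpow_neg hρ.le, Real.rpow_natCast]
  have hna : (1 : ℝ) + 4 * B * na ≤ 5 * B ^ 2 := by nlinarith
  calc 2 * B * (2 * B / P.θ) * (1 + 4 * B * na) ≤ 2 * B * (2 / P.ρ ^ 5) * (5 * B ^ 2) := by gcongr
    _ = 20 * (B ^ 3 * P.ρ) / P.ρ ^ 6 := by field_simp; ring
    _ ≤ 20 * 1 / P.ρ ^ 6 := by gcongr; exact hp 3 (by norm_num)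
    _ ≤ (P.ρ ^ 10)⁻¹ := by
      rw [inv_eq_one_div, div_le_div_iff₀ (by positivity) (by positivity)]
      have hρ4 : 20 * P.ρ ^ 4 ≤ 1 := by
        have := pow_le_pow_left₀ hρ.le h.rho_le 4
        norm_num at this ⊢
        linarith
      calc 20 * 1 * P.ρ ^ 10 = 20 * P.ρ ^ 4 * P.ρ ^ 6 := by ring
        _ ≤ 1 * P.ρ ^ 6 := by gcongr

end Build

end Vale.Agent.P347.Gamma0
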