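import Vale.Agent.P347.Gamma0.Build

/-!
P347, towards `γ_* = 0`: the number of nodes of the compiled stage is polynomial in the sizes of
the rules when the number of iterations is fixed.
-/

namespace Vale.Agent.P347.Gamma0

namespace Build

section

variable {na : ℕ} {ι : Type} {P : Data na} {X : ℕ}

/-- A bounded number of nodes costs two powers. -/
private lemma up {x a b : ℕ} (h : x ≤ 3 * (X + 5) ^ a + 12) (hab : a + 2 ≤ b) :
    x ≤ (X + 5) ^ b := by
  refine le_trans ?_ (Nat.pow_le_pow_right (by omega) hab)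
  have h1 : 1 ≤ (X + 5) ^ a := Nat.one_le_pow _ _ (by omega)
  rw [pow_add, pow_two]
  nlinarith [Nat.mul_le_mul_left ((X + 5) ^ a)
    (Nat.mul_le_mul (show 5 ≤ X + 5 by omega) (show 5 ≤ X + 5 by omega))]

private lemma nodes_sum {n a b : ℕ} (hn : n ≤ X) (hab : a + 2 ≤ b) {f : Fin n → Expr ι}
    (hf : ∀ i, (f i).nodes ≤ (X + 5) ^ a) : (Expr.sum f).nodes ≤ (X + 5) ^ b := by
  suffices h : ∀ (m : ℕ) (g : Fin m → Expr ι) (N : ℕ), (∀ i, (g i).nodes ≤ N) →
      (Expr.sum g).nodes ≤ m * (N + 1) + 1 by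
    refine (h n f _ hf).trans (le_trans ?_ (Nat.pow_le_pow_right (by omega) hab))
    have h1 : 1 ≤ (X + 5) ^ a := Nat.one_le_pow _ _ (by omega)
    rw [pow_add, pow_two]
    nlinarith [Nat.mul_le_mul_right ((X + 5) ^ a + 1) hn,
      Nat.mul_le_mul_left ((X + 5) * (X + 5)) h1]
  intro m
  induction m with
  | zero => intro g N _; simp [Expr.sum, Expr.nodes]
  | succ m ih =>
    intro g N hN
    simp only [Expr.sum, Expr.nodes]
    have := ih (fun i => g i.succ) N fun i => hN _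
    have := hN 0
    rw [Nat.succ_mul]
    omega

private lemma nodes_add {e₁ e₂ : Expr ι} {a b : ℕ} (h₁ : e₁.nodes ≤ (X + 5) ^ a)
    (h₂ : e₂.nodes ≤ (X + 5) ^ a) (hab : a + 2 ≤ b) : (Expr.add e₁ e₂).nodes ≤ (X + 5) ^ b :=
  up (by simp only [Expr.nodes]; omega) hab

private lemma nodes_smul {e : Expr ι} {s : ℝ} {a b : ℕ} (h : e.nodes ≤ (X + 5) ^ a)
    (hab : a + 2 ≤ b) : (Expr.smul s e).nodes ≤ (X + 5) ^ b :=
  up (by simp only [Expr.nodes]; omega) hab

private lemma nodes_gateAt {c w : Expr ι} {q : ℝ} {a b : ℕ} (hc : c.nodes ≤ (X + 5) ^ a)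
    (hw : w.nodes ≤ (X + 5) ^ a) (hab : a + 2 ≤ b) :
    (gateAt P c q w).nodes ≤ (X + 5) ^ b :=
  up (by simp only [gateAt, Expr.nodes]; omega) hab

private lemma mono {x a b : ℕ} (h : x ≤ (X + 5) ^ a) (hab : a ≤ b) : x ≤ (X + 5) ^ b :=
  h.trans (Nat.pow_le_pow_right (by omega) hab)

private lemma nodes_fwd (hM : P.M₂ ≤ X) {c R : Expr ι} {a : ℕ} (hc : c.nodes ≤ (X + 5) ^ a)
    (hR : R.nodes ≤ (X + 5) ^ a) :
    ∀ p o, (fwd P c R p o).nodes ≤ (X + 5) ^ (a + 8 * p) := by
  intro p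
  induction p with
  | zero => intro o; simpa [fwd] using hR
  | succ p ih =>
    intro o
    simp only [fwd]
    refine nodes_add (mono hR (Nat.le_add_right a (8 * p + 6)))
      (nodes_sum (a := a + 8 * p + 4) hM (by omega) fun j => ?_) (by omega)
    exact nodes_smul (nodes_gateAt (mono hc (Nat.le_add_right a (8 * p))) (ih _) le_rfl) (by omega)

private lemma nodes_bwd (hM : P.M₁ ≤ X) {c w : Expr ι} {a : ℕ} (hc : c.nodes ≤ (X + 5) ^ a)
    (hw : w.nodes ≤ (X + 5) ^ a) :
    ∀ p i, (bwd P c w p i).nodes ≤ (X + 5) ^ (a + 8 * p) := by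
  intro p
  induction p with
  | zero => intro i; simpa [bwd] using hw
  | succ p ih =>
    intro i
    simp only [bwd]
    refine nodes_add (mono hw (Nat.le_add_right a (8 * p + 6)))
      (nodes_sum (a := a + 8 * p + 4) hM (by omega) fun j => ?_) (by omega)
    exact nodes_smul (nodes_gateAt (mono hc (Nat.le_add_right a (8 * p))) (ih _) le_rfl) (by omega)

private lemma nodes_ham (hh : P.nh ≤ X) {c w D : Expr ι} {q : ℝ} {k : Fin P.nr} {a : ℕ}
    (hc : c.nodes ≤ (X + 5) ^ a) (hw : w.nodes ≤ (X + 5) ^ a) (hD : D.nodes ≤ (X + 5) ^ a) :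
    ∀ p o, (ham P c q w D k p o).nodes ≤ (X + 5) ^ (a + 2 + 8 * p) := by
  have hb : ∀ s t : ℝ, (Expr.add (.smul s w) (.smul t D)).nodes ≤ (X + 5) ^ (a + 2) := fun s t =>
    up (by simp only [Expr.nodes]; omega) le_rfl
  intro p
  induction p with
  | zero => intro o; simpa [ham] using hb _ _
  | succ p ih =>
    intro o
    simp only [ham]
    refine nodes_add (mono (hb _ _) (Nat.le_add_right (a + 2) (8 * p + 6)))
      (nodes_sum (a := a + 2 + 8 * p + 4) hh (by omega) fun l => ?_) (by omega)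
    exact nodes_smul (nodes_gateAt (mono hc (by omega)) (ih _) le_rfl) (by omega)

private lemma nodes_est (hh : P.nh ≤ X) (hr : P.nr ≤ X) {c w D : Expr ι} {q : ℝ} {a b : ℕ}
    (hc : c.nodes ≤ (X + 5) ^ a) (hw : w.nodes ≤ (X + 5) ^ a) (hD : D.nodes ≤ (X + 5) ^ a)
    (hab : a + 8 * P.iter + 8 ≤ b) : (est P c q w D).nodes ≤ (X + 5) ^ b := by
  rw [est]
  refine nodes_sum (a := a + 8 * P.iter + 6) hr (by omega) fun k => nodes_smul
    (a := a + 8 * P.iter + 4)
    (nodes_gateAt (a := a + 2 + 8 * P.iter) (mono hc (by omega)) (nodes_ham hh hc hw hD _ _)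
      (by omega)) (by omega)

private lemma nodes_sys (hM : P.M₁ ≤ X) (hh : P.nh ≤ X) (hr : P.nr ≤ X) {c : Expr ι}
    {wb : Fin P.M₁ → Expr ι} {n : ℕ} {s : ℝ} {init : ℕ → Expr ι} {a : ℕ}
    (hc : c.nodes ≤ (X + 5) ^ a) (hw : ∀ j, (wb j).nodes ≤ (X + 5) ^ a)
    (hi : ∀ m, (init m).nodes ≤ (X + 5) ^ a) :
    ∀ p o m, (sys P c wb n s init p o m).nodes ≤ (X + 5) ^ (a + p * (8 * P.iter + 16)) := by
  intro p
  induction p with
  | zero => intro o m; simpa [sys] using hi m
  | succ p ih =>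
    intro o m
    rw [Nat.succ_mul, ← Nat.add_assoc]
    set A := a + p * (8 * P.iter + 16) with hA
    have h1 : ∀ (t q : ℝ) (j : Fin P.M₁) (m' : ℕ) (prop : Prop) [Decidable prop],
        (if prop then Expr.smul t (est P c q (wb j) (sys P c wb n s init p (some j) m'))
          else .zero).nodes ≤ (X + 5) ^ (A + 8 * P.iter + 10) := by
      intro t q j m' prop _
      split_ifs
      · exact nodes_smul (nodes_est hh hr (mono hc (Nat.le_add_right a _))
          (mono (hw j) (Nat.le_add_right a _)) (ih _ _) le_rfl) le_rfl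
      · simpa [Expr.nodes] using Nat.one_le_pow _ _ (by omega)
    simp only [sys]
    refine nodes_add (a := A + 8 * P.iter + 14) (mono (hi m) (by omega))
      (nodes_sum (a := A + 8 * P.iter + 12) hM le_rfl fun j => ?_) (by omega)
    exact nodes_add (h1 _ _ j _ _) (h1 _ _ j _ _) le_rfl

private lemma nodes_eta (hM : P.M₁ ≤ X) (hh : P.nh ≤ X) (hr : P.nr ≤ X) (hn : na ≤ X)
    {c w Z : Expr ι} {aux : Fin na → Expr ι} {a : ℕ} (hc : c.nodes ≤ (X + 5) ^ a)
    (hw : w.nodes ≤ (X + 5) ^ a) (hZ : Z.nodes ≤ (X + 5) ^ a)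
    (ha : ∀ i, (aux i).nodes ≤ (X + 5) ^ a) :
    (eta P c w Z aux).nodes ≤ (X + 5) ^ (a + (8 * P.iter * P.iter + 24 * P.iter + 16)) := by
  set i := P.iter with hi
  have hb : ∀ j, (bwd P c w P.iter j).nodes ≤ (X + 5) ^ (a + 8 * i) := fun j =>
    nodes_bwd hM hc hw _ j
  have hinit : ∀ (σ : ℝ) m, (sysInit aux Z σ m).nodes ≤ (X + 5) ^ (a + 8 * i + 2) := by
    intro σ m
    cases m with
    | zero => simpa [sysInit] using mono hZ (by omega)
    | succ m =>
      simp only [sysInit]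
      split_ifs
      · exact nodes_smul (ha _) (by omega)
      · simpa [Expr.nodes] using Nat.one_le_pow _ _ (by omega)
  have hs : ∀ n s σ m, (sys P c (bwd P c w P.iter) n s (sysInit aux Z σ) P.iter none m).nodes ≤
      (X + 5) ^ (a + 8 * i + 2 + i * (8 * i + 16)) := fun n s σ m =>
    nodes_sys hM hh hr (mono hc (by omega)) (fun j => mono (hb j) (by omega)) (hinit σ) _ _ _
  have hi2 : i * (8 * i + 16) = 8 * i * i + 16 * i := by ring
  simp only [eta]
  refine nodes_add (a := a + (8 * i * i + 24 * i + 14)) ?_ ?_ (by omega)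
  · refine nodes_sum (a := a + 16 * i + 10) hM (by omega) fun j => nodes_smul (a := a + 16 * i + 8) ?_
      le_rfl
    exact nodes_est hh hr (mono hc (Nat.le_add_right a (8 * i))) (hb j) (mono hZ (by omega))
      (by omega)
  · refine nodes_sum (a := a + (8 * i * i + 24 * i + 12)) (le_trans (Nat.sub_le _ _) hn) (by omega)
      fun j => nodes_smul (a := a + (8 * i * i + 24 * i + 10)) ?_ (by omega)
    refine nodes_sum (a := a + (8 * i * i + 24 * i + 8)) hr (by omega) fun k =>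
      nodes_smul (a := a + (8 * i * i + 24 * i + 6)) ?_ (by omega)
    exact nodes_add (hs _ _ _ _) (hs _ _ _ _) (by omega)

private lemma nodes_lift (hM : P.M₁ ≤ X) (hh : P.nh ≤ X) (hr : P.nr ≤ X) (ht : P.nt ≤ X)
    (hn : na ≤ X) :
    ∀ p o, (lift P p o).1.nodes ≤
        (X + 5) ^ (p * (8 * P.iter * P.iter + 24 * P.iter + 30)) ∧
      (lift P p o).2.nodes ≤ (X + 5) ^ (p * (8 * P.iter * P.iter + 24 * P.iter + 30)) := by
  intro p
  induction p with
  | zero => intro o; simp [lift, Expr.nodes]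
  | succ p ih =>
    intro o
    rw [Nat.succ_mul]
    set f := 8 * P.iter * P.iter + 24 * P.iter with hf
    set A := p * (f + 30) with hA
    have h1 : 1 ≤ (X + 5) ^ (A + 2) := Nat.one_le_pow _ _ (by omega)
    simp only [lift]
    constructor
    · refine nodes_sum (a := A + (f + 20)) ht (by omega) fun j => ?_
      refine nodes_smul (nodes_eta hM hh hr hn (a := A + 2) ?_
        (up (a := A) (by simp only [wAt, Expr.nodes]; have := (ih (some j)).1; omega) le_rfl)
        (mono (ih _).2 (by omega)) fun k => ?_) (by omega)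
      · simpa [Expr.nodes] using h1
      · simpa [Expr.nodes] using h1
    · refine nodes_add (a := A + 6) (by simpa [Expr.nodes] using Nat.one_le_pow _ _ (by omega))
        (nodes_sum (a := A + 4) ht le_rfl fun j => nodes_smul (a := A + 2) ?_ le_rfl) (by omega)
      exact up (a := A) (by simp only [Expr.nodes]; have := (ih (some j)).1; omega) le_rfl

end

/-- The nodes of the compiled stage are polynomial in the sizes of the rules. -/
theorem stage_nodes : ∀ iter : ℕ, ∃ e : ℕ, ∀ (na : ℕ) (P : Data na) (X : ℕ), P.iter = iter →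
    P.M₁ ≤ X → P.M₂ ≤ X → P.nh ≤ X → P.nr ≤ X → P.nt ≤ X → na ≤ X →
      (stage P).mean.nodes ≤ (X + 5) ^ e ∧ ∀ j, ((stage P).shift j).nodes ≤ (X + 5) ^ e := by
  intro iter
  refine ⟨8 * iter + 12 + iter * (8 * iter * iter + 24 * iter + 30),
    fun na P X hi hM₁ hM₂ hh hr ht hn => ?_⟩
  subst hi
  refine ⟨?_, fun j => mono (nodes_lift hM₁ hh hr ht hn _ _).1 (by omega)⟩
  have h1 : ∀ v : MIn, (Expr.var v).nodes ≤ (X + 5) ^ 1 := fun v => by
    simp [Expr.nodes]
  show (Expr.add _ _).nodes ≤ _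
  refine nodes_add (a := 8 * P.iter + 9) (mono (nodes_smul (h1 _) le_rfl) (by omega))
    (nodes_smul (a := 8 * P.iter + 7) ?_ le_rfl) (by omega)
  exact nodes_add (a := 8 * P.iter + 5) (mono (h1 _) (by omega))
    (nodes_smul (a := 8 * P.iter + 1) (mono (nodes_fwd hM₂ (h1 _) (h1 _) _ _) (by omega))
      (by omega)) le_rfl

end Build

end Vale.Agent.P347.Gamma0
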