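import Vale.Agent.P347.Gamma0.StageShapeMean

/-!
P347, towards `γ_* = 0`: the syntactic sizes of the compiled shifts of a stage.  The fluctuation
scale, the Lipschitz constants and the offsets obey the same rules under the operations of an
expression, so they are bounded at once.
-/

namespace Vale.Agent.P347.Gamma0

namespace Build

variable {na : ℕ}

/-- A size of expressions in the inputs of the output of a stage, with its values at the inputs. -/
structure Meas (P : Data na) where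
  μ : Expr (OIn na) → ℝ
  u : ℝ
  π : ℝ
  za : ℝ
  zn : ℝ
  nonneg : ∀ e, 0 ≤ μ e
  u0 : 0 ≤ u
  map_add : ∀ e e', μ (.add e e') = μ e + μ e'
  map_smul : ∀ a e, μ (.smul a e) = |a| * μ e
  map_zero : μ .zero = 0
  gate_le : ∀ r e, r ≤ P.τ → μ (.gate r e) ≤ u + μ e
  gateAt_le : ∀ q e, 0 ≤ q → μ (gateAt P (.var .ctr) q e) ≤ u + q * μ e
  ctr_pt : μ (.var .ctr) + μ (.var .pt) ≤ π
  noi : μ (.var .noi) ≤ zn
  aux : ∀ i, μ (.var (.aux i)) ≤ za
  za0 : 0 ≤ za

namespace Meas

variable {P : Data na} (M : Meas P)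

lemma π0 : 0 ≤ M.π := (add_nonneg (M.nonneg _) (M.nonneg _)).trans M.ctr_pt

lemma zn0 : 0 ≤ M.zn := (M.nonneg _).trans M.noi

lemma map_sum : ∀ {n : ℕ} (f : Fin n → Expr (OIn na)), M.μ (Expr.sum f) = ∑ i, M.μ (f i)
  | 0, f => by simp [Expr.sum, M.map_zero]
  | n + 1, f => by simp [Expr.sum, M.map_add, map_sum, Fin.sum_univ_succ]

/-- The reference value. -/
def S : ℝ := M.u + M.π + M.za + M.zn

lemma S0 : 0 ≤ M.S := by
  have := M.u0; have := M.π0; have := M.za0; have := M.zn0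
  unfold S; linarith

end Meas

/-- The numerical facts about the constants of a stage used for its shape. -/
structure Consts (P : Data na) (B : ℝ) : Prop where
  B0 : 0 ≤ B
  q_pos : 0 < P.q₁
  q_le : P.q₁ ≤ 1
  tau0 : 0 ≤ P.τ
  q_sqrt : P.q₁ ≤ Real.sqrt P.τ
  θ0 : 0 < P.θ
  θ1 : P.θ ≤ 1
  ε0 : 0 ≤ P.ε
  c_le : P.ε * B ≤ 1 / 16
  t0 : 0 < P.t
  t_sq : P.ε ≤ P.t * P.t
  t1 : P.t ≤ 1
  g_pos : ∀ j, 0 < P.g₁.q j
  g_le : ∀ j, P.g₁.q j ≤ P.q₁
  g_sum : ∀ o, ∑ j, |P.g₁.W o j| ≤ B * P.q₁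
  g_div : ∀ o, ∑ j, |P.g₁.W o j| / P.g₁.q j ≤ B
  fdθ_mem : ∀ k, |P.fdθ.x k| ≤ 1
  fdθ_sum : ∑ k, |P.fdθ.wt k| ≤ B
  ham_sum : ∀ o, ∑ l, |P.ham.W o l| ≤ B
  fdt_mem : ∀ n k, |(P.fdt n).x k| ≤ 1
  fdt_sum : ∀ n, n ≤ na → ∑ k, |(P.fdt n).wt k| ≤ B
  time_sum : ∀ o, ∑ j, |P.time.W o j| ≤ B
  κ_le : 2 * P.t * (2 * B / P.θ) * B ≤ 1 / 16

/-- The contraction of the word system. -/
noncomputable def kap (P : Data na) (B : ℝ) : ℝ := 2 * P.t * (2 * B / P.θ) * B

/-- The load of one step in time. -/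
noncomputable def lamT (P : Data na) (B : ℝ) : ℝ := Real.sqrt 2 * (|P.γ| * Real.sqrt P.τ) * B

/-- The size of the linear field. -/
noncomputable def Ketav (P : Data na) (B : ℝ) : ℝ := 2 * (2 * (2 * B / P.θ) * B + na * B)

/-- The bound for the arguments of all gates of the shifts. -/
noncomputable def argT (P : Data na) (B : ℝ) (M : Meas P) : ℝ :=
  64 * (P.ε * B + kap P B + 4 * lamT P B * Ketav P B + lamT P B) * M.S
    + 16 * (M.π + M.za + M.zn)

/-- A gate of a shift is in range and its argument is small in every size. -/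
def GateB (P : Data na) (B : ℝ) (x : ℝ × Expr (OIn na)) : Prop :=
  (x.1 ≤ P.τ ∧ (P.τ - P.q₁ ^ 2 ≤ x.1 ∨ P.ρ * P.τ ≤ x.1)) ∧ ∀ M : Meas P, M.μ x.2 ≤ argT P B M

variable {P : Data na} {B : ℝ}

namespace Consts

variable (H : Consts P B) (M : Meas P)

include H

lemma gq_le (j : Fin P.M₁) : P.g₁.q j ≤ 1 := (H.g_le j).trans H.q_le

lemma rs_range (j : Fin P.M₁) :
    P.rs (P.g₁.q j) ≤ P.τ ∧ P.τ - P.q₁ ^ 2 ≤ P.rs (P.g₁.q j) := by
  refine ⟨sub_le_self _ (sq_nonneg _), ?_⟩
  simp only [Data.rs]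
  linarith [pow_le_pow_left₀ (H.g_pos j).le (H.g_le j) 2]

lemma bwd_le (w : Expr (OIn na)) : ∀ p i,
    M.μ (bwd P (.var .ctr) w p i) ≤ 2 * M.μ w + 4 * (P.ε * B) * M.u := by
  have hc0 : 0 ≤ P.ε * B := mul_nonneg H.ε0 H.B0
  intro p
  induction p with
  | zero =>
    intro i
    show M.μ w ≤ _
    linarith [M.nonneg w, mul_nonneg hc0 M.u0]
  | succ p ih =>
    intro i
    set X := 2 * M.μ w + 4 * (P.ε * B) * M.u
    have hX : 0 ≤ X := by have := M.nonneg w; have := M.u0; positivity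
    simp only [bwd, M.map_add, M.map_sum, M.map_smul]
    refine (add_le_add le_rfl ((Finset.sum_le_sum (g := fun j =>
      P.ε * (|P.g₁.W none j| + |P.g₁.W (some i) j|) * (M.u + X)) fun j _ => ?_).trans_eq
        (by rw [← Finset.sum_mul, ← Finset.mul_sum, Finset.sum_add_distrib]))).trans ?_
    · refine mul_le_mul ?_ ((M.gateAt_le _ _ (H.g_pos j).le).trans (add_le_add le_rfl
        ((mul_le_of_le_one_left (M.nonneg _) (H.gq_le j)).trans (ih j)))) (M.nonneg _)
        (mul_nonneg H.ε0 (by positivity))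
      rw [abs_mul, abs_of_nonneg H.ε0]
      exact mul_le_mul_of_nonneg_left (abs_sub _ _) H.ε0
    · have hB := (mul_le_of_le_one_right H.B0 H.q_le)
      have h1 := (H.g_sum none).trans hB
      have h2 := (H.g_sum (some i)).trans hB
      have h3 : P.ε * (∑ j, |P.g₁.W none j| + ∑ j, |P.g₁.W (some i) j|) * (M.u + X)
          ≤ 2 * (P.ε * B) * (M.u + X) := by
        refine mul_le_mul_of_nonneg_right ?_ (add_nonneg M.u0 hX)
        linarith [mul_le_mul_of_nonneg_left (add_le_add h1 h2) H.ε0]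
      have h4 := mul_le_mul_of_nonneg_right H.c_le hX
      simp only [X] at h3 h4 ⊢
      linarith [M.nonneg w, mul_nonneg hc0 M.u0]

lemma ham_le {q : ℝ} (hq0 : 0 ≤ q) (hq1 : q ≤ 1) (w D : Expr (OIn na)) (k : Fin P.nr) :
    ∀ p o, q * M.μ (ham P (.var .ctr) q w D k p o)
      ≤ 2 * (q * M.μ w + q * M.μ D) + 2 * (P.ε * B) * M.u := by
  have hc0 : 0 ≤ P.ε * B := mul_nonneg H.ε0 H.B0
  set S := q * M.μ w + q * M.μ D
  have hS : 0 ≤ S := by have := M.nonneg w; have := M.nonneg D; positivity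
  have hb : ∀ x, q * (|Real.cos x| * M.μ w + |Real.sin x| * M.μ D) ≤ S := fun x => by
    simp only [S, ← mul_add]
    refine mul_le_mul_of_nonneg_left (add_le_add ?_ ?_) hq0
    · exact mul_le_of_le_one_left (M.nonneg w) (Real.abs_cos_le_one _)
    · exact mul_le_of_le_one_left (M.nonneg D) (Real.abs_sin_le_one _)
  intro p
  induction p with
  | zero =>
    intro o
    simp only [ham, M.map_add, M.map_smul]
    linarith [hb (hamTime P k o), mul_nonneg hc0 M.u0]
  | succ p ih =>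
    intro o
    set X := 2 * S + 2 * (P.ε * B) * M.u
    have hX : 0 ≤ X := by have := M.u0; positivity
    simp only [ham, M.map_add, M.map_smul, M.map_sum, mul_add q, Finset.mul_sum]
    refine (add_le_add (le_of_eq (mul_add q _ _).symm |>.trans (hb (hamTime P k o)))
      ((Finset.sum_le_sum (g := fun l => P.ε * |P.ham.W o l| * (M.u + X)) fun l _ => ?_).trans_eq
        (by rw [← Finset.sum_mul, ← Finset.mul_sum]))).trans ?_
    · rw [← mul_assoc]
      refine mul_le_mul ?_ ((M.gateAt_le _ _ hq0).trans (add_le_add le_rfl (ih (some l))))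
        (M.nonneg _) (mul_nonneg H.ε0 (abs_nonneg _))
      rw [abs_neg, abs_mul, abs_mul, abs_mul, abs_mul, abs_mul, abs_of_nonneg H.ε0,
        abs_of_nonneg hq0, abs_of_pos H.θ0]
      calc q * (P.ε * q * (P.θ * |P.fdθ.x k| * |P.ham.W o l|) *
            |Real.sin (hamTime P k o - hamTime P k (some l))|)
          ≤ 1 * (P.ε * 1 * (1 * 1 * |P.ham.W o l|) * 1) := by
            have := H.ε0; have := H.θ0.le; have := H.θ1; have := H.fdθ_mem k
            gcongr
            exact Real.abs_sin_le_one _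
        _ = _ := by ring
    · have h3 : P.ε * (∑ l, |P.ham.W o l|) * (M.u + X) ≤ P.ε * B * (M.u + X) :=
        mul_le_mul_of_nonneg_right (mul_le_mul_of_nonneg_left (H.ham_sum o) H.ε0)
          (add_nonneg M.u0 hX)
      have h4 := mul_le_mul_of_nonneg_right H.c_le hX
      simp only [X] at h3 h4 ⊢
      linarith [mul_nonneg hc0 M.u0]

lemma est_le {q : ℝ} (hq0 : 0 < q) (hq1 : q ≤ 1) (w D : Expr (OIn na)) :
    M.μ (est P (.var .ctr) q w D) ≤ 2 * B / P.θ * (M.u / q + M.μ w + M.μ D) := by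
  have hc := H.c_le
  simp only [est, M.map_sum, M.map_smul]
  refine (Finset.sum_le_sum (g := fun k => |P.fdθ.wt k| * (2 / P.θ * (M.u / q + M.μ w + M.μ D)))
    fun k _ => ?_).trans ?_
  · rw [abs_div, abs_of_pos (mul_pos hq0 H.θ0), div_mul_eq_mul_div,
      div_le_iff₀ (mul_pos hq0 H.θ0), mul_assoc]
    refine mul_le_mul_of_nonneg_left ((M.gateAt_le _ _ hq0.le).trans ?_) (abs_nonneg _)
    have h := H.ham_le M hq0.le hq1 w D k P.iter none
    have h2 := mul_le_mul_of_nonneg_right hc M.u0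
    rw [show 2 / P.θ * (M.u / q + M.μ w + M.μ D) * (q * P.θ)
      = 2 * M.u + 2 * (q * M.μ w + q * M.μ D) by have := H.θ0; field_simp; ring]
    linarith [M.u0]
  · rw [← Finset.sum_mul]
    refine (mul_le_mul_of_nonneg_right H.fdθ_sum ?_).trans (le_of_eq (by ring))
    have := H.θ0; have := M.u0; have := M.nonneg w; have := M.nonneg D
    positivity

lemma est_sum_le (o : Option (Fin P.M₁)) {w D : Fin P.M₁ → Expr (OIn na)} {a b : ℝ}
    (ha : 0 ≤ a) (hb : 0 ≤ b) (hw : ∀ j, M.μ (w j) ≤ a) (hD : ∀ j, M.μ (D j) ≤ b) :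
    ∑ j, |P.g₁.W o j| * M.μ (est P (.var .ctr) (P.g₁.q j) (w j) (D j))
      ≤ 2 * B / P.θ * B * (M.u + P.q₁ * a + P.q₁ * b) := by
  have hL : 0 ≤ 2 * B / P.θ := by have := H.B0; have := H.θ0; positivity
  refine (Finset.sum_le_sum (g := fun j => 2 * B / P.θ *
    (M.u * (|P.g₁.W o j| / P.g₁.q j) + |P.g₁.W o j| * (a + b))) fun j _ => ?_).trans ?_
  · refine (mul_le_mul_of_nonneg_left ((H.est_le M (H.g_pos j) (H.gq_le j) _ _).trans
      (mul_le_mul_of_nonneg_left (add_le_add (add_le_add le_rfl (hw j)) (hD j)) hL))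
      (abs_nonneg _)).trans (le_of_eq (by ring))
  · rw [← Finset.mul_sum, mul_assoc (2 * B / P.θ), Finset.sum_add_distrib, ← Finset.mul_sum,
      ← Finset.sum_mul]
    refine mul_le_mul_of_nonneg_left ?_ hL
    linarith [mul_le_mul_of_nonneg_left (H.g_div o) M.u0,
      mul_le_mul_of_nonneg_right (H.g_sum o) (add_nonneg ha hb)]

lemma phi_le {j : Fin P.M₁} (m : ℕ) : |phi m (P.g₁.q j)| ≤ 1 := by
  unfold phi
  split_ifs
  · simp
  · rw [abs_of_pos (H.g_pos j)]; exact H.gq_le j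

omit H in
lemma ite_le (p : Prop) [Decidable p] {a t b : ℝ} {e : Expr (OIn na)} (ha : |a| ≤ t) (hb : M.μ e ≤ b)
    (ht : 0 ≤ t) : M.μ (if p then .smul a e else .zero) ≤ t * b := by
  split_ifs
  · rw [M.map_smul]; exact mul_le_mul ha hb (M.nonneg _) ht
  · rw [M.map_zero]; exact mul_nonneg ht ((M.nonneg e).trans hb)

lemma kap0 : 0 ≤ kap P B := by
  have := H.B0; have := H.t0.le; have := H.θ0.le
  unfold kap; positivity

lemma sys_le {wb : Fin P.M₁ → Expr (OIn na)} {a z za : ℝ} (ha : 0 ≤ a) (hza : 0 ≤ za)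
    (hwb : ∀ j, M.μ (wb j) ≤ a) (n : ℕ) {s : ℝ} (hs : |s| ≤ P.t) {init : ℕ → Expr (OIn na)}
    (hi : ∀ m, M.μ (init m) ≤ z) (hi1 : ∀ m, 1 ≤ m → M.μ (init m) ≤ za) :
    ∀ p o m, M.μ (sys P (.var .ctr) wb n s init p o m)
        ≤ 2 * z + 2 * kap P B * (M.u + P.q₁ * a) ∧
      (1 ≤ m → M.μ (sys P (.var .ctr) wb n s init p o m)
        ≤ za + 2 * kap P B * (M.u + P.q₁ * a + P.q₁ * z)) := by
  have hz : 0 ≤ z := (M.nonneg _).trans (hi 0)
  have hk := H.kap0
  have hk1 : kap P B ≤ 1 / 16 := H.κ_le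
  have hq := H.q_pos.le
  have hu := M.u0
  intro p
  induction p with
  | zero =>
    intro o m
    refine ⟨(hi m).trans ?_, fun hm => (hi1 m hm).trans ?_⟩ <;>
      linarith [show 0 ≤ kap P B * (M.u + P.q₁ * a) by positivity,
        show 0 ≤ kap P B * (P.q₁ * z) by positivity]
  | succ p ih =>
    intro o m
    set X := 2 * z + 2 * kap P B * (M.u + P.q₁ * a)
    have hX : 0 ≤ X := by positivity
    have key : M.μ (sys P (.var .ctr) wb n s init (p + 1) o m)
        ≤ M.μ (init m) + kap P B * (M.u + P.q₁ * a + P.q₁ * X) := by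
      simp only [sys, M.map_add, M.map_sum]
      refine add_le_add le_rfl ((Finset.sum_le_sum (g := fun j =>
        P.t * (|P.g₁.W o j| * M.μ (est P (.var .ctr) (P.g₁.q j) (wb j)
          (sys P (.var .ctr) wb n s init p (some j) (m - 1))))
        + P.t * (|P.g₁.W o j| * M.μ (est P (.var .ctr) (P.g₁.q j) (wb j)
          (sys P (.var .ctr) wb n s init p (some j) (m + 1))))) fun j _ => ?_).trans ?_)
      · have h0 : ∀ m', |s * P.g₁.W o j * phi m' (P.g₁.q j)| ≤ P.t * |P.g₁.W o j| := fun m' => by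
          rw [abs_mul, abs_mul]
          refine (mul_le_of_le_one_right (by positivity) (H.phi_le m')).trans ?_
          exact mul_le_mul_of_nonneg_right hs (abs_nonneg _)
        have ht := H.t0.le
        refine add_le_add ?_ ?_ <;> rw [← mul_assoc] <;>
          refine ite_le M _ ?_ le_rfl (by positivity)
        · exact h0 _
        · rw [abs_neg]; exact h0 _
      · rw [Finset.sum_add_distrib, ← Finset.mul_sum, ← Finset.mul_sum]
        have h1 := mul_le_mul_of_nonneg_left (H.est_sum_le M o ha hX hwb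
          fun j => (ih (some j) (m - 1)).1) H.t0.le
        have h2 := mul_le_mul_of_nonneg_left (H.est_sum_le M o ha hX hwb
          fun j => (ih (some j) (m + 1)).1) H.t0.le
        refine (add_le_add h1 h2).trans (le_of_eq ?_)
        unfold kap
        ring
    have e1 := mul_le_mul_of_nonneg_right H.q_le hX
    have e2 := mul_le_mul_of_nonneg_right hk1 (show 0 ≤ kap P B * (M.u + P.q₁ * a) by positivity)
    have e3 : kap P B * (P.q₁ * X) ≤ kap P B * X := mul_le_mul_of_nonneg_left (by linarith) hk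
    refine ⟨key.trans ?_, fun hm => key.trans ?_⟩
    · have e4 := mul_le_mul_of_nonneg_right hk1 hz
      simp only [X] at e3 ⊢
      linarith [hi m, show 0 ≤ kap P B * (M.u + P.q₁ * a) by positivity]
    · have e5 : kap P B * (P.q₁ * X)
          = kap P B * (2 * (P.q₁ * z)) + P.q₁ * (2 * (kap P B * (kap P B * (M.u + P.q₁ * a)))) := by
        simp only [X]; ring
      have e6 := mul_le_mul_of_nonneg_right H.q_le
        (show 0 ≤ 2 * (kap P B * (kap P B * (M.u + P.q₁ * a))) by positivity)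
      linarith [hi1 m hm, show 0 ≤ kap P B * (M.u + P.q₁ * a) by positivity]

omit H in
lemma init_le (Z : Expr (OIn na)) (σ : ℝ) (hσ : |σ| = 1) : ∀ m,
    M.μ (sysInit (fun k => .var (.aux k)) Z σ m) ≤ M.μ Z + M.za ∧
      (1 ≤ m → M.μ (sysInit (fun k => .var (.aux k)) Z σ m) ≤ M.za)
  | 0 => ⟨le_add_of_nonneg_right M.za0, fun h => absurd h (by omega)⟩
  | m + 1 => by
    have h : M.μ (sysInit (fun k => .var (.aux k)) Z σ (m + 1)) ≤ M.za := by
      simp only [sysInit]
      split_ifs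
      · rw [M.map_smul, hσ, one_mul]; exact M.aux _
      · rw [M.map_zero]; exact M.za0
    exact ⟨h.trans (le_add_of_nonneg_left (M.nonneg Z)), fun _ => h⟩

lemma coef_le (i : ℕ) : |(-P.ε) ^ (i + 1) / P.t ^ (i + 2)| ≤ 1 := by
  have ht := H.t0
  rw [abs_div, abs_pow, abs_pow, abs_neg, abs_of_nonneg H.ε0, abs_of_pos ht,
    div_le_one (pow_pos ht _)]
  calc P.ε ^ (i + 1) ≤ (P.t * P.t) ^ (i + 1) := pow_le_pow_left₀ H.ε0 H.t_sq _
    _ = P.t ^ (i + 2) * P.t ^ i := by ring
    _ ≤ P.t ^ (i + 2) * 1 :=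
      mul_le_mul_of_nonneg_left (pow_le_one₀ ht.le H.t1) (by positivity)
    _ = _ := mul_one _

lemma eta_le (w Z : Expr (OIn na)) :
    M.μ (eta P (.var .ctr) w Z fun k => .var (.aux k))
      ≤ Ketav P B * (M.u + P.q₁ * M.μ w + P.q₁ * M.μ Z + M.za) := by
  have hk := H.kap0
  have hk1 : kap P B ≤ 1 / 16 := H.κ_le
  have hu := M.u0; have hza := M.za0; have hw0 := M.nonneg w; have hZ := M.nonneg Z
  have hq := H.q_pos.le
  have hB := H.B0
  set a := 2 * M.μ w + 4 * (P.ε * B) * M.u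
  have hc0 : 0 ≤ P.ε * B := mul_nonneg H.ε0 hB
  have ha : 0 ≤ a := by positivity
  have hqa : P.q₁ * a ≤ 2 * (P.q₁ * M.μ w) + M.u := by
    have h1 := mul_le_mul_of_nonneg_right H.c_le hu
    have h2 : P.q₁ * (4 * (P.ε * B) * M.u) ≤ M.u :=
      (mul_le_of_le_one_left (by positivity) H.q_le).trans (by linarith)
    simp only [a]; linarith
  set V := M.u + P.q₁ * M.μ w + P.q₁ * M.μ Z + M.za
  have hV : 0 ≤ V := by positivity
  have h1 : (∑ j, |P.g₁.W none j| * M.μ (est P (.var .ctr) (P.g₁.q j)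
      (bwd P (.var .ctr) w P.iter j) Z)) ≤ 2 * B / P.θ * B * (2 * V) := by
    refine (H.est_sum_le M none (a := a) (b := M.μ Z) ha hZ (fun j => H.bwd_le M w P.iter j)
      fun j => le_rfl).trans (mul_le_mul_of_nonneg_left ?_ ?_)
    · simp only [V]; linarith [mul_nonneg hq hw0, mul_nonneg hq hZ]
    · have := H.θ0; positivity
  simp only [eta, M.map_add, M.map_sum, M.map_smul]
  refine (add_le_add h1 ((Finset.sum_le_sum (g := fun _ : Fin (na - 1) => 2 * B * V)
    fun i _ => ?_).trans_eq (by rw [Finset.sum_const, Finset.card_fin, nsmul_eq_mul]))).trans ?_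
  · refine (mul_le_of_le_one_left (Finset.sum_nonneg fun k _ =>
      mul_nonneg (abs_nonneg _) (add_nonneg (M.nonneg _) (M.nonneg _))) (H.coef_le i)).trans ?_
    refine (Finset.sum_le_sum (g := fun k => |(P.fdt ((i : ℕ) + 2)).wt k| * (2 * V))
      fun k _ => ?_).trans ?_
    · have hs : |P.t * (P.fdt ((i : ℕ) + 2)).x k| ≤ P.t := by
        rw [abs_mul, abs_of_pos H.t0]
        exact mul_le_of_le_one_right H.t0.le (H.fdt_mem _ _)
      have hS : ∀ σ : ℝ, |σ| = 1 → M.μ (sys P (.var .ctr) (bwd P (.var .ctr) w P.iter) ((i : ℕ) + 2)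
          (P.t * (P.fdt ((i : ℕ) + 2)).x k) (sysInit (fun k => .var (.aux k)) Z σ) P.iter none
          ((i : ℕ) + 2)) ≤ 2 * V := fun σ hσ => by
        refine ((H.sys_le M ha hza (fun j => H.bwd_le M w P.iter j) _ hs
          (fun m => (init_le M Z σ hσ m).1) (fun m hm => (init_le M Z σ hσ m).2 hm)
          P.iter none _).2 (by omega)).trans ?_
        have e1 := mul_le_mul_of_nonneg_right H.q_le hza
        have hX0 : 0 ≤ M.u + P.q₁ * a + P.q₁ * (M.μ Z + M.za) := by positivity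
        have e2 := mul_le_mul_of_nonneg_right hk1 hX0
        simp only [V]
        linarith [mul_nonneg hq hw0, mul_nonneg hq hZ]
      rw [abs_div, abs_two]
      refine (mul_le_mul_of_nonneg_left (add_le_add (hS 1 (by simp)) (hS (-1) (by simp)))
        (by positivity)).trans (le_of_eq (by ring))
    · rw [← Finset.sum_mul]
      refine (mul_le_mul_of_nonneg_right (H.fdt_sum _ (by have := i.isLt; omega))
        (by positivity)).trans (le_of_eq (by ring))
  · have hn : ((na - 1 : ℕ) : ℝ) * (2 * B * V) ≤ (na : ℝ) * (2 * B * V) :=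
      mul_le_mul_of_nonneg_right (by exact_mod_cast Nat.sub_le na 1) (by positivity)
    have h4 : 0 ≤ 2 * B / P.θ * B * V := by have := H.θ0; positivity
    simp only [Ketav]
    linarith

lemma Keta0 : 0 ≤ Ketav P B := by
  have := H.B0; have := H.θ0.le
  unfold Ketav; positivity

lemma lam0 : 0 ≤ lamT P B := by
  have := H.B0
  unfold lamT; positivity

lemma step_coef (o : Option (Fin P.nt)) :
    ∑ j, P.q₁ * |Real.sqrt 2 * P.γ * P.time.W o j| ≤ lamT P B := by
  have hq := H.q_pos.le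
  calc ∑ j, P.q₁ * |Real.sqrt 2 * P.γ * P.time.W o j|
      = Real.sqrt 2 * (|P.γ| * P.q₁) * ∑ j, |P.time.W o j| := by
        rw [Finset.mul_sum]
        refine Finset.sum_congr rfl fun j _ => ?_
        rw [abs_mul, abs_mul, abs_of_nonneg (Real.sqrt_nonneg _)]; ring
    _ ≤ Real.sqrt 2 * (|P.γ| * Real.sqrt P.τ) * B :=
        mul_le_mul (by gcongr; exact H.q_sqrt) (H.time_sum o)
          (Finset.sum_nonneg fun j _ => abs_nonneg _) (by positivity)

lemma qwAt_le (Δ : Expr (OIn na)) : P.q₁ * M.μ (wAt P Δ) ≤ M.π + M.μ Δ := by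
  simp only [wAt, M.map_smul, M.map_add]
  rw [abs_of_pos (inv_pos.2 H.q_pos), ← mul_assoc, mul_inv_cancel₀ H.q_pos.ne', one_mul, abs_neg,
    abs_one, one_mul]
  linarith [M.ctr_pt]

lemma lift_le (hρτ : P.ρ * P.τ ≤ P.τ) (hl : lamT P B ≤ 1 / 16)
    (hσ : 4 * lamT P B * Ketav P B ≤ 1 / 16) :
    ∀ p o, M.μ (lift P p o).1 ≤ 4 * lamT P B * Ketav P B * M.S ∧
      P.q₁ * M.μ (lift P p o).2 ≤ M.zn + 4 * lamT P B * M.S := by
  have hlam := H.lam0; have hK := H.Keta0; have hS := M.S0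
  have hu := M.u0; have hπ := M.π0; have hza := M.za0; have hzn := M.zn0
  have hq := H.q_pos.le
  intro p
  induction p with
  | zero =>
    intro o
    simp only [lift, M.map_zero]
    refine ⟨by positivity, ?_⟩
    linarith [(mul_le_of_le_one_left (M.nonneg _) H.q_le).trans M.noi, mul_nonneg hlam hS]
  | succ p ih =>
    intro o
    set σS := 4 * lamT P B * Ketav P B * M.S
    have hσS : σS ≤ 1 / 16 * M.S := mul_le_mul_of_nonneg_right hσ hS
    have hlS := mul_le_mul_of_nonneg_right hl hS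
    refine ⟨?_, ?_⟩
    · simp only [lift, M.map_sum, M.map_smul]
      refine (Finset.sum_le_sum (g := fun j =>
        P.q₁ * |Real.sqrt 2 * P.γ * P.time.W o j| * (Ketav P B * (4 * M.S))) fun j _ => ?_).trans ?_
      · rw [abs_neg, show P.q₁ * (Real.sqrt 2 * P.γ) * P.time.W o j
          = P.q₁ * (Real.sqrt 2 * P.γ * P.time.W o j) by ring, abs_mul, abs_of_pos H.q_pos]
        refine mul_le_mul_of_nonneg_left ((H.eta_le M _ _).trans
          (mul_le_mul_of_nonneg_left ?_ hK)) (by positivity)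
        have h1 := H.qwAt_le M (lift P p (some j)).1
        obtain ⟨h2, h3⟩ := ih (some j)
        simp only [Meas.S] at hσS hlS h2 h3 ⊢
        linarith
      · rw [← Finset.sum_mul]
        refine (mul_le_mul_of_nonneg_right (H.step_coef o) (by positivity)).trans (le_of_eq ?_)
        simp only [σS]; ring
    · simp only [lift, M.map_add, M.map_sum, M.map_smul, mul_add P.q₁, Finset.mul_sum]
      refine add_le_add ((mul_le_of_le_one_left (M.nonneg _) H.q_le).trans M.noi) ?_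
      refine (Finset.sum_le_sum (g := fun j =>
        P.q₁ * |Real.sqrt 2 * P.γ * P.time.W o j| * (4 * M.S)) fun j _ => ?_).trans ?_
      · rw [abs_neg, abs_one, one_mul, ← mul_assoc]
        refine mul_le_mul_of_nonneg_left ((add_le_add (M.gate_le _ _ hρτ)
          (M.gate_le _ _ le_rfl)).trans ?_) (by positivity)
        rw [M.map_add]
        have h2 := (ih (some j)).1
        have h4 := M.ctr_pt
        simp only [Meas.S] at hσS h2 ⊢
        linarith [M.nonneg (.var .ctr), M.nonneg (.var .pt)]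
      · rw [← Finset.sum_mul]
        refine (mul_le_mul_of_nonneg_right (H.step_coef o) (by positivity)).trans (le_of_eq ?_)
        ring

/-- A node argument `c + q e` is small. -/
lemma arg_node {e : Expr (OIn na)} (j : Fin P.M₁)
    (he : ∀ M : Meas P, M.π + P.g₁.q j * M.μ e ≤ argT P B M) :
    GateB P B (P.rs (P.g₁.q j), .add (.var .ctr) (.smul (P.g₁.q j) e)) := by
  refine ⟨⟨(H.rs_range j).1, Or.inl (H.rs_range j).2⟩, fun M => ?_⟩
  rw [M.map_add, M.map_smul, abs_of_pos (H.g_pos j)]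
  linarith [he M, M.ctr_pt, M.nonneg (.var .pt)]

/-- The bound for the point variable in units `q₁⁻¹`. -/
lemma gates_bwd {w : Expr (OIn na)}
    (hw : ∀ M : Meas P, P.q₁ * M.μ w ≤ M.π + 4 * lamT P B * Ketav P B * M.S)
    (hg : ∀ x ∈ w.gates, GateB P B x) :
    ∀ p i, ∀ x ∈ (bwd P (.var .ctr) w p i).gates, GateB P B x := by
  intro p
  induction p with
  | zero => intro i x hx; exact hg x hx
  | succ p ih =>
    intro i x hx
    simp only [bwd, Expr.gates, List.mem_append] at hx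
    rcases hx with hx | hx
    · exact hg x hx
    obtain ⟨j, hj⟩ := Expr.mem_gates_fsum _ hx
    simp only [gateAt, Expr.gates, List.nil_append, List.mem_cons] at hj
    rcases hj with rfl | hj
    · refine H.arg_node j fun M => ?_
      have h1 := H.bwd_le M w p j
      have hc0 : 0 ≤ P.ε * B * M.u := mul_nonneg (mul_nonneg H.ε0 H.B0) M.u0
      have h2 : P.g₁.q j * M.μ (bwd P (.var .ctr) w p j)
          ≤ P.q₁ * (2 * M.μ w + 4 * (P.ε * B) * M.u) :=
        mul_le_mul (H.g_le j) h1 (M.nonneg _) H.q_pos.le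
      have h3 : P.q₁ * (P.ε * B * M.u) ≤ P.ε * B * M.u := mul_le_of_le_one_left hc0 H.q_le
      have h4 : P.ε * B * M.u ≤ P.ε * B * M.S := by
        refine mul_le_mul_of_nonneg_left ?_ (mul_nonneg H.ε0 H.B0)
        simp only [Meas.S]; linarith [M.π0, M.za0, M.zn0]
      have h5 := mul_nonneg H.kap0 M.S0
      have h6 := mul_nonneg H.lam0 M.S0
      have h7 : 0 ≤ 4 * lamT P B * Ketav P B * M.S :=
        mul_nonneg (mul_nonneg (mul_nonneg (by norm_num) H.lam0) H.Keta0) M.S0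
      simp only [argT]
      linarith [hw M, M.π0, M.za0, M.zn0]
    · exact ih j x hj

/-- The gates of an estimate. -/
lemma gates_est {w D : Expr (OIn na)} (j : Fin P.M₁)
    (hw : ∀ M : Meas P, P.q₁ * M.μ w
      ≤ 2 * M.π + (8 * lamT P B * Ketav P B + 4 * (P.ε * B)) * M.S)
    (hD : ∀ M : Meas P, P.q₁ * M.μ D
      ≤ 2 * M.zn + 2 * M.za + (8 * lamT P B + 10 * kap P B) * M.S)
    (hgw : ∀ x ∈ w.gates, GateB P B x) (hgD : ∀ x ∈ D.gates, GateB P B x) :
    ∀ x ∈ (est P (.var .ctr) (P.g₁.q j) w D).gates, GateB P B x := by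
  have harg : ∀ k p o, GateB P B (P.rs (P.g₁.q j), .add (.var .ctr)
      (.smul (P.g₁.q j) (ham P (.var .ctr) (P.g₁.q j) w D k p o))) := fun k p o => by
    refine H.arg_node j fun M => ?_
    have h := H.ham_le M (H.g_pos j).le (H.gq_le j) w D k p o
    have h1 : P.g₁.q j * M.μ w ≤ P.q₁ * M.μ w := mul_le_mul_of_nonneg_right (H.g_le j) (M.nonneg _)
    have h2 : P.g₁.q j * M.μ D ≤ P.q₁ * M.μ D := mul_le_mul_of_nonneg_right (H.g_le j) (M.nonneg _)
    have h4 : P.ε * B * M.u ≤ P.ε * B * M.S := by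
      refine mul_le_mul_of_nonneg_left ?_ (mul_nonneg H.ε0 H.B0)
      simp only [Meas.S]; linarith [M.π0, M.za0, M.zn0]
    have h5 := mul_nonneg H.kap0 M.S0
    have h6 := mul_nonneg H.lam0 M.S0
    have h7 : 0 ≤ lamT P B * Ketav P B * M.S := mul_nonneg (mul_nonneg H.lam0 H.Keta0) M.S0
    have h8 := mul_nonneg (mul_nonneg H.ε0 H.B0) M.S0
    simp only [argT]
    linarith [hw M, hD M, M.π0, M.za0, M.zn0]
  have hham : ∀ k p o, ∀ x ∈ (ham P (.var .ctr) (P.g₁.q j) w D k p o).gates, GateB P B x := by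
    intro k p
    induction p with
    | zero =>
      intro o x hx
      simp only [ham, Expr.gates, List.mem_append] at hx
      exact hx.elim (hgw x) (hgD x)
    | succ p ih =>
      intro o x hx
      simp only [ham, Expr.gates, List.mem_append] at hx
      rcases hx with (hx | hx) | hx
      · exact hgw x hx
      · exact hgD x hx
      obtain ⟨l, hl⟩ := Expr.mem_gates_fsum _ hx
      simp only [gateAt, Expr.gates, List.nil_append, List.mem_cons] at hl
      rcases hl with rfl | hl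
      · exact harg k p _
      · exact ih (some l) x hl
  intro x hx
  simp only [est] at hx
  obtain ⟨k, hk⟩ := Expr.mem_gates_fsum _ hx
  simp only [gateAt, Expr.gates, List.nil_append, List.mem_cons] at hk
  rcases hk with rfl | hk
  · exact harg k _ _
  · exact hham k _ _ x hk

lemma gates_eta {w Z : Expr (OIn na)}
    (hw : ∀ M : Meas P, P.q₁ * M.μ w ≤ M.π + 4 * lamT P B * Ketav P B * M.S)
    (hZ : ∀ M : Meas P, P.q₁ * M.μ Z ≤ M.zn + 4 * lamT P B * M.S)
    (hσ : 4 * lamT P B * Ketav P B ≤ 1 / 16)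
    (hgw : ∀ x ∈ w.gates, GateB P B x) (hgZ : ∀ x ∈ Z.gates, GateB P B x) :
    ∀ x ∈ (eta P (.var .ctr) w Z fun k => .var (.aux k)).gates, GateB P B x := by
  have hgb := H.gates_bwd hw hgw P.iter
  have hwb : ∀ (M : Meas P) (j : Fin P.M₁), P.q₁ * M.μ (bwd P (.var .ctr) w P.iter j)
      ≤ 2 * M.π + (8 * lamT P B * Ketav P B + 4 * (P.ε * B)) * M.S := fun M j => by
    have h := mul_le_mul_of_nonneg_left (H.bwd_le M w P.iter j) H.q_pos.le
    have hc0 : 0 ≤ 4 * (P.ε * B) * M.u := by have := mul_nonneg H.ε0 H.B0; have := M.u0; positivity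
    have h3 := mul_le_of_le_one_left hc0 H.q_le
    have h4 : P.ε * B * M.u ≤ P.ε * B * M.S := by
      refine mul_le_mul_of_nonneg_left ?_ (mul_nonneg H.ε0 H.B0)
      simp only [Meas.S]; linarith [M.π0, M.za0, M.zn0]
    linarith [hw M]
  intro x hx
  simp only [eta, Expr.gates, List.mem_append] at hx
  rcases hx with hx | hx
  · obtain ⟨j, hj⟩ := Expr.mem_gates_fsum _ hx
    simp only [Expr.gates] at hj
    refine H.gates_est j (fun M => hwb M j) (fun M => ?_) (hgb j) hgZ x hj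
    linarith [hZ M, M.za0, M.zn0, mul_nonneg H.lam0 M.S0, mul_nonneg H.kap0 M.S0]
  obtain ⟨i, hi⟩ := Expr.mem_gates_fsum _ hx
  simp only [Expr.gates] at hi
  obtain ⟨k, hk⟩ := Expr.mem_gates_fsum _ hi
  simp only [Expr.gates, List.mem_append] at hk
  set s := P.t * (P.fdt ((i : ℕ) + 2)).x k
  have hs : |s| ≤ P.t := by
    simp only [s]
    rw [abs_mul, abs_of_pos H.t0]
    exact mul_le_of_le_one_right H.t0.le (H.fdt_mem _ _)
  have hsys : ∀ σ : ℝ, |σ| = 1 → ∀ p o m, ∀ x ∈ (sys P (.var .ctr) (bwd P (.var .ctr) w P.iter)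
      ((i : ℕ) + 2) s (sysInit (fun k => .var (.aux k)) Z σ) p o m).gates, GateB P B x := by
    intro σ hσ1
    have hgi : ∀ m, ∀ x ∈ (sysInit (fun k => Expr.var (OIn.aux k)) Z σ m).gates, GateB P B x := by
      intro m x hx
      cases m with
      | zero => exact hgZ x hx
      | succ m =>
        simp only [sysInit] at hx
        split_ifs at hx <;> simp [Expr.gates] at hx
    have hsD : ∀ p o m (M : Meas P), P.q₁ * M.μ (sys P (.var .ctr) (bwd P (.var .ctr) w P.iter)
        ((i : ℕ) + 2) s (sysInit (fun k => .var (.aux k)) Z σ) p o m)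
        ≤ 2 * M.zn + 2 * M.za + (8 * lamT P B + 10 * kap P B) * M.S := fun p o m M => by
      have ha : 0 ≤ 2 * M.μ w + 4 * (P.ε * B) * M.u := by
        have := M.nonneg w; have := mul_nonneg H.ε0 H.B0; have := M.u0; positivity
      have h := mul_le_mul_of_nonneg_left (H.sys_le M ha M.za0 (fun j => H.bwd_le M w P.iter j) ((i : ℕ) + 2) hs
        (fun m => (init_le M Z σ hσ1 m).1) (fun m hm => (init_le M Z σ hσ1 m).2 hm) p o m).1 H.q_pos.le
      have hX : M.u + P.q₁ * (2 * M.μ w + 4 * (P.ε * B) * M.u) ≤ 5 * M.S := by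
        have h1 := hw M
        have h2 := mul_le_mul_of_nonneg_right hσ M.S0
        have h3 : P.q₁ * (4 * (P.ε * B) * M.u) ≤ M.u := by
          refine (mul_le_of_le_one_left (by
            have := mul_nonneg H.ε0 H.B0; have := M.u0; positivity) H.q_le).trans ?_
          linarith [mul_le_mul_of_nonneg_right H.c_le M.u0, M.u0]
        simp only [Meas.S] at h1 h2 ⊢
        linarith [M.u0, M.π0, M.za0, M.zn0]
      have h5 : P.q₁ * (2 * kap P B * (M.u + P.q₁ * (2 * M.μ w + 4 * (P.ε * B) * M.u)))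
          ≤ 2 * kap P B * (5 * M.S) := by
        have hk := H.kap0
        refine (mul_le_of_le_one_left ?_ H.q_le).trans
          (mul_le_mul_of_nonneg_left hX (by positivity))
        have := M.u0; have := M.nonneg w; have := H.q_pos.le; have := mul_nonneg H.ε0 H.B0
        positivity
      linarith [hZ M, mul_le_of_le_one_left M.za0 H.q_le]
    intro p
    induction p with
    | zero => intro o m x hx; exact hgi m x hx
    | succ p ih =>
      intro o m x hx
      simp only [sys, Expr.gates, List.mem_append] at hx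
      rcases hx with hx | hx
      · exact hgi m x hx
      obtain ⟨j, hj⟩ := Expr.mem_gates_fsum _ hx
      simp only [Expr.gates, List.mem_append] at hj
      rcases hj with hj | hj <;> split_ifs at hj <;>
        simp only [Expr.gates, List.not_mem_nil] at hj
      all_goals exact H.gates_est j (fun M => hwb M j) (hsD p (some j) _) (hgb j) (ih (some j) _) x hj
  rcases hk with hk | hk
  · exact hsys 1 (by simp) _ _ _ x hk
  · exact hsys (-1) (by simp) _ _ _ x hk

lemma gates_lift (hρτ : P.ρ * P.τ ≤ P.τ) (hl : lamT P B ≤ 1 / 16)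
    (hσ : 4 * lamT P B * Ketav P B ≤ 1 / 16) :
    ∀ p o, (∀ x ∈ (lift P p o).1.gates, GateB P B x) ∧ ∀ x ∈ (lift P p o).2.gates, GateB P B x := by
  intro p
  induction p with
  | zero =>
    intro o
    constructor <;> intro x hx <;> simp [lift, Expr.gates] at hx
  | succ p ih =>
    intro o
    constructor <;> intro x hx
    · simp only [lift] at hx
      obtain ⟨j, hj⟩ := Expr.mem_gates_fsum _ hx
      simp only [Expr.gates] at hj
      refine H.gates_eta (fun M => (H.qwAt_le M _).trans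
        (add_le_add le_rfl (H.lift_le M hρτ hl hσ p (some j)).1))
        (fun M => (H.lift_le M hρτ hl hσ p (some j)).2) hσ ?_ (ih (some j)).2 x hj
      intro y hy
      simp only [wAt, Expr.gates, List.nil_append, List.append_nil] at hy
      exact (ih (some j)).1 y hy
    · simp only [lift, Expr.gates, List.nil_append] at hx
      obtain ⟨j, hj⟩ := Expr.mem_gates_fsum _ hx
      simp only [Expr.gates, List.nil_append, List.mem_append, List.mem_cons, List.not_mem_nil,
        or_false] at hj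
      rcases hj with (rfl | hj) | rfl
      · refine ⟨⟨hρτ, Or.inr le_rfl⟩, fun M => ?_⟩
        rw [M.map_add]
        simp only [argT]
        linarith [(H.lift_le M hρτ hl hσ p (some j)).1, M.ctr_pt, M.nonneg (.var .ctr), M.π0,
          M.za0, M.zn0, mul_nonneg (mul_nonneg H.ε0 H.B0) M.S0, mul_nonneg H.kap0 M.S0,
          mul_nonneg H.lam0 M.S0, mul_nonneg (mul_nonneg H.lam0 H.Keta0) M.S0]
      · exact (ih (some j)).1 x hj
      · refine ⟨⟨le_rfl, Or.inr hρτ⟩, fun M => ?_⟩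
        simp only [argT]
        linarith [M.ctr_pt, M.nonneg (.var .pt), M.π0, M.za0, M.zn0,
          mul_nonneg (mul_nonneg H.ε0 H.B0) M.S0, mul_nonneg H.kap0 M.S0,
          mul_nonneg H.lam0 M.S0, mul_nonneg (mul_nonneg H.lam0 H.Keta0) M.S0]

end Consts

/-! ### The coefficient of the centre -/

lemma coef_est (q : ℝ) (c w D : Expr (OIn na)) :
    Expr.coef OIn.ctr (est P c q w D) = 0 := by
  simp [est, gateAt, Expr.coef, Expr.coef_fsum]

lemma coef_sys (c : Expr (OIn na)) (wb : Fin P.M₁ → Expr (OIn na)) (n : ℕ) (s : ℝ)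
    {init : ℕ → Expr (OIn na)} (hi : ∀ m, 1 ≤ m → Expr.coef OIn.ctr (init m) = 0) :
    ∀ p o m, 1 ≤ m → Expr.coef OIn.ctr (sys P c wb n s init p o m) = 0
  | 0, _, m, hm => hi m hm
  | p + 1, o, m, hm => by
    simp only [sys, Expr.coef, Expr.coef_fsum, hi m hm, zero_add]
    refine Finset.sum_eq_zero fun j _ => ?_
    split_ifs <;> simp [Expr.coef, coef_est]

lemma coef_eta (c w Z : Expr (OIn na)) :
    Expr.coef OIn.ctr (eta P c w Z fun k => .var (.aux k)) = 0 := by
  have hi : ∀ σ m, 1 ≤ m →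
      Expr.coef OIn.ctr (sysInit (fun k => Expr.var (OIn.aux k)) Z σ m) = 0 := fun σ m hm => by
    obtain ⟨j, rfl⟩ := Nat.exists_eq_add_of_le' hm
    simp only [sysInit]
    split_ifs <;> simp [Expr.coef]
  simp [eta, Expr.coef, Expr.coef_fsum, coef_est,
    fun n s p o m hm σ => coef_sys (P := P) c (bwd P c w P.iter) n s (hi σ) p o m hm]

lemma coef_lift : ∀ p o, Expr.coef OIn.ctr (lift P p o).1 = 0
  | 0, _ => rfl
  | p + 1, o => by simp [lift, Expr.coef, Expr.coef_fsum, coef_eta]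

/-! ### The sizes used -/

variable (P)

/-- The fluctuation scale as a size. -/
noncomputable def Meas.ofSize : Meas P where
  μ := Expr.size
  u := Real.sqrt P.τ
  π := 0
  za := 0
  zn := 0
  nonneg := Expr.size_nonneg
  u0 := Real.sqrt_nonneg _
  map_add _ _ := rfl
  map_smul _ _ := rfl
  map_zero := rfl
  gate_le r e hr := by
    simp only [Expr.size]
    linarith [Real.sqrt_le_sqrt hr, Expr.size_nonneg e]
  gateAt_le q e hq := by
    simp only [gateAt, Expr.size]
    have h : P.rs q ≤ P.τ := sub_le_self _ (sq_nonneg q)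
    linarith [Real.sqrt_le_sqrt h, mul_nonneg hq (Expr.size_nonneg e)]
  ctr_pt := by simp [Expr.size]
  noi := le_rfl
  aux _ := le_rfl
  za0 := le_rfl

/-- The offset as a size. -/
noncomputable def Meas.ofOffset : Meas P where
  μ := Expr.offset
  u := Real.sqrt P.τ
  π := 0
  za := 0
  zn := 0
  nonneg := Expr.offset_nonneg
  u0 := Real.sqrt_nonneg _
  map_add _ _ := rfl
  map_smul _ _ := rfl
  map_zero := rfl
  gate_le r e hr := by
    simp only [Expr.offset]
    linarith [Real.sqrt_le_sqrt hr]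
  gateAt_le q e hq := by
    simp only [gateAt, Expr.offset, abs_of_nonneg hq]
    have h : P.rs q ≤ P.τ := sub_le_self _ (sq_nonneg q)
    linarith [Real.sqrt_le_sqrt h]
  ctr_pt := by simp [Expr.offset]
  noi := le_rfl
  aux _ := le_rfl
  za0 := le_rfl

/-- A Lipschitz constant as a size. -/
noncomputable def Meas.ofLip (i : OIn na) : Meas P where
  μ := Expr.lip i
  u := 1
  π := 2
  za := 1
  zn := 1
  nonneg := Expr.lip_nonneg i
  u0 := zero_le_one
  map_add _ _ := rfl
  map_smul _ _ := rfl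
  map_zero := rfl
  gate_le r e _ := by simp only [Expr.lip]; linarith
  gateAt_le q e hq := by
    simp only [gateAt, Expr.lip, abs_of_nonneg hq]
    split_ifs <;> linarith
  ctr_pt := by simp only [Expr.lip]; split_ifs <;> norm_num
  noi := by simp only [Expr.lip]; split_ifs <;> norm_num
  aux _ := by simp only [Expr.lip]; split_ifs <;> norm_num
  za0 := zero_le_one

lemma coef_le_lip (i : OIn na) : ∀ e : Expr (OIn na), Expr.coef i e ≤ Expr.lip i e
  | .var _ => le_rfl
  | .zero => le_rfl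
  | .add e₁ e₂ => add_le_add (coef_le_lip i e₁) (coef_le_lip i e₂)
  | .smul c e => mul_le_mul_of_nonneg_left (coef_le_lip i e) (abs_nonneg c)
  | .gate _ e => Expr.lip_nonneg i e

variable {P}

/-- The constants of a stage at negative powers of `ρ`. -/
structure ShapeNums (P : Data na) (B : ℝ) : Prop where
  consts : Consts P B
  lam_le : lamT P B ≤ 1 / 16
  sig_le : 4 * lamT P B * Ketav P B ≤ 1 / 16
  sig_load : 4 * lamT P B * Ketav P B ≤ |P.γ| * Real.sqrt P.τ * P.ρ⁻¹ ^ 11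
  delta_le : P.ε * B + kap P B + 4 * lamT P B * Ketav P B + lamT P B ≤ 1
  delta_load : P.ε * B + kap P B + 4 * lamT P B * Ketav P B + lamT P B
    ≤ 2 * (Real.sqrt P.ε + |P.γ| * Real.sqrt P.τ) * P.ρ⁻¹ ^ 11
  inv_ge : 16 ≤ P.ρ⁻¹

lemma Small.shapeNums (h : Small P B) (hnaB : (na : ℝ) + 2 ≤ B) : ShapeNums P B := by
  have hρ := h.rho_pos
  have hρ1 : P.ρ ≤ 1 := h.rho_le.trans (by norm_num)
  have hρ16 := h.rho_le
  have hτ := h.tau_pos
  have hB := h.one_le
  have hB0 : 0 ≤ B := by linarith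
  have hε := h.eps_pos
  have hε1 : P.ε ≤ 1 := h.eps_le.trans (by norm_num)
  have hs1 : Real.sqrt P.τ ≤ 1 := Real.sqrt_le_one.2 h.tau_le
  have hs0 : 0 ≤ Real.sqrt P.τ := Real.sqrt_nonneg _
  have hBρ : B * P.ρ ≤ 1 := by
    refine le_trans ?_ h.absorb
    gcongr
    exact (by linarith : B ≤ B + 2).trans (le_self_pow₀ (by linarith) (by norm_num))
  have hsmall : P.ε ^ (1 / 16 : ℝ) ≤ P.ρ ^ 64 := h.small
  have ht64 : Real.sqrt P.ε ≤ P.ρ ^ 64 := by
    refine le_trans ?_ hsmall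
    rw [Real.sqrt_eq_rpow]
    exact Real.rpow_le_rpow_of_exponent_ge hε hε1 (by norm_num)
  set L := |P.γ| * Real.sqrt P.τ with hLdef
  have hL0 : 0 ≤ L := by positivity
  have hL : L ≤ P.ρ ^ 64 := by
    refine h.load.trans (le_trans ?_ hsmall)
    rw [Real.sqrt_eq_rpow, Real.sqrt_eq_rpow, ← Real.rpow_mul hε.le]
    exact Real.rpow_le_rpow_of_exponent_ge hε hε1 (by norm_num)
  have hq1s : P.q₁ ≤ Real.sqrt P.τ := Real.sqrt_le_sqrt (sub_le_self _ (by positivity))
  have hq0 : 0 < P.q₁ := Real.sqrt_pos.2 (by nlinarith)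
  have hρ2 : P.ρ * P.τ ≤ P.τ := mul_le_of_le_one_left hτ.le hρ1
  have hεt : P.ε ≤ Real.sqrt P.ε := by
    nth_rw 1 [← Real.mul_self_sqrt hε.le]
    exact mul_le_of_le_one_left (Real.sqrt_nonneg _) (Real.sqrt_le_one.2 hε1)
  set R := P.ρ⁻¹ with hR
  have hR1 : 16 ≤ R := by rw [hR, le_inv_comm₀ (by norm_num) hρ]; linarith
  have hR0 : 1 ≤ R := by linarith
  have hBR : B ≤ R := by rw [hR, inv_eq_one_div, le_div_iff₀ hρ]; exact hBρ
  have hθR : 2 * B / P.θ ≤ R ^ 6 := by
    rw [h.theta_eq, div_eq_mul_inv, ← inv_pow, ← hR]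
    calc 2 * B * R ^ 4 ≤ R * R * R ^ 4 := by gcongr; linarith
      _ = _ := by ring
  have hna : (na : ℝ) ≤ R := by linarith
  have hθ0 : 0 < P.θ := h.theta_eq ▸ pow_pos hρ 4
  have hK : Ketav P B ≤ R ^ 8 := by
    unfold Ketav
    calc 2 * (2 * (2 * B / P.θ) * B + na * B) ≤ 2 * (2 * R ^ 6 * R + R * R) := by gcongr
      _ ≤ 2 * (2 * R ^ 7 + R ^ 7) := by
          have : R * R ≤ R ^ 7 := by rw [← pow_two]; exact pow_le_pow_right₀ hR0 (by norm_num)
          linarith [show R ^ 6 * R = R ^ 7 by ring]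
      _ ≤ R * R ^ 7 := by
          have h7 : 0 ≤ R ^ 7 := by positivity
          linarith [mul_le_mul_of_nonneg_right hR1 h7]
      _ = _ := by ring
  have hlam : lamT P B ≤ L * R ^ 2 := by
    unfold lamT
    have h2 : Real.sqrt 2 ≤ R := (Real.sqrt_le_iff.2 ⟨by norm_num, by norm_num⟩ : Real.sqrt 2 ≤ 2).trans (by linarith)
    calc Real.sqrt 2 * (|P.γ| * Real.sqrt P.τ) * B ≤ R * L * R := by gcongr
      _ = _ := by ring
  have hkap : kap P B ≤ Real.sqrt P.ε * R ^ 8 := by
    unfold kap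
    rw [h.t_eq]
    calc 2 * Real.sqrt P.ε * (2 * B / P.θ) * B ≤ R * Real.sqrt P.ε * R ^ 6 * R := by gcongr; linarith
      _ = _ := by ring
  have hpow : ∀ n, n ≤ 30 → P.ρ ^ 64 * R ^ n ≤ 1 / 256 := fun n hn => by
    rw [hR, inv_pow, ← div_eq_mul_inv, div_le_iff₀ (by positivity)]
    calc P.ρ ^ 64 = P.ρ ^ (64 - n) * P.ρ ^ n := by rw [← pow_add]; congr 1; omega
      _ ≤ P.ρ ^ 2 * P.ρ ^ n := by
          gcongr ?_ * _
          exact pow_le_pow_of_le_one hρ.le hρ1 (by omega)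
      _ ≤ _ := by gcongr; nlinarith
  have hl16 : lamT P B ≤ 1 / 16 := by
    refine hlam.trans ((mul_le_mul_of_nonneg_right hL (by positivity)).trans ?_)
    linarith [hpow 2 (by norm_num)]
  have hK0 : 0 ≤ Ketav P B := by unfold Ketav; positivity
  have hlam0 : 0 ≤ lamT P B := by unfold lamT; positivity
  have hσ : 4 * lamT P B * Ketav P B ≤ L * R ^ 11 := by
    calc 4 * lamT P B * Ketav P B ≤ R * (L * R ^ 2) * R ^ 8 := by gcongr; linarith
      _ = _ := by ring
  have hσ16 : 4 * lamT P B * Ketav P B ≤ 1 / 16 := by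
    refine hσ.trans ((mul_le_mul_of_nonneg_right hL (by positivity)).trans ?_)
    linarith [hpow 11 (by norm_num)]
  have H : Consts P B :=
    { B0 := hB0
      q_pos := hq0
      q_le := hq1s.trans hs1
      tau0 := hτ.le
      q_sqrt := hq1s
      θ0 := hθ0
      θ1 := h.theta_eq ▸ pow_le_one₀ hρ.le hρ1
      ε0 := hε.le
      c_le := by
        calc P.ε * B ≤ P.ρ ^ 64 * R := by gcongr; exact hεt.trans ht64
          _ ≤ 1 / 16 := by linarith [show P.ρ ^ 64 * R ^ 1 ≤ 1 / 256 from hpow 1 (by norm_num), pow_one R]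
      t0 := h.t_eq ▸ Real.sqrt_pos.2 hε
      t_sq := by rw [h.t_eq, Real.mul_self_sqrt hε.le]
      t1 := by rw [h.t_eq]; exact Real.sqrt_le_one.2 hε1
      g_pos := h.g₁_ok.pos
      g_le := h.g₁_ok.le
      g_sum := h.g₁_ok.sum
      g_div := h.g₁_ok.sum_div
      fdθ_mem := h.fdθ_mem
      fdθ_sum := h.fdθ_sum
      ham_sum := h.ham_sum
      fdt_mem := h.fdt_mem
      fdt_sum := h.fdt_sum
      time_sum := h.time_sum
      κ_le := by
        change kap P B ≤ 1 / 16
        refine hkap.trans ((mul_le_mul_of_nonneg_right ht64 (by positivity)).trans ?_)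
        linarith [hpow 8 (by norm_num)] }
  set δ := P.ε * B + kap P B + 4 * lamT P B * Ketav P B + lamT P B
  have hδ1 : δ ≤ 1 := by linarith [H.c_le, H.κ_le, hl16, hσ16, show kap P B ≤ 1 / 16 from H.κ_le]
  have hδ2 : δ ≤ 2 * (Real.sqrt P.ε + L) * R ^ 11 := by
    have e1 : P.ε * B ≤ Real.sqrt P.ε * R ^ 11 :=
      mul_le_mul hεt (hBR.trans (le_self_pow₀ hR0 (by norm_num))) hB0 (Real.sqrt_nonneg _)
    have e2 := mul_le_mul_of_nonneg_left (pow_le_pow_right₀ hR0 (show 2 ≤ 11 by norm_num)) hL0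
    have e3 := mul_le_mul_of_nonneg_left (pow_le_pow_right₀ hR0 (show 8 ≤ 11 by norm_num))
      (Real.sqrt_nonneg P.ε)
    simp only [δ]
    linarith [hkap, hσ, hlam]
  exact ⟨H, hl16, hσ16, hσ, hδ1, hδ2, hR1⟩

/-- The noise of the bridge. -/
lemma Small.s_bounds (h : Small P B) :
    Real.sqrt (P.ρ * P.τ) / 4 ≤ P.s ∧ P.s ≤ Real.sqrt P.τ := by
  have hρ := h.rho_pos
  have hτ := h.tau_pos
  have hρ16 := h.rho_le
  have h0 : P.ρ * P.τ ≤ P.τ / 16 := by nlinarith
  have hlo : 1 / 2 ≤ P.lam := by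
    rw [Data.lam, le_div_iff₀ (by nlinarith)]; nlinarith
  have hhi : P.lam ≤ 1 := div_le_one_of_le₀ (by nlinarith) (by nlinarith)
  refine ⟨le_trans (le_of_eq ?_) (Real.sqrt_le_sqrt (x := P.ρ * P.τ / 16) ?_), Real.sqrt_le_sqrt ?_⟩
  · rw [Real.sqrt_div' _ (by norm_num : (0 : ℝ) ≤ 16), show (16 : ℝ) = 4 ^ 2 by norm_num,
      Real.sqrt_sq (by norm_num : (0 : ℝ) ≤ 4)]
  · nlinarith [mul_pos hρ hτ]
  · nlinarith [mul_le_mul_of_nonneg_right hhi (show 0 ≤ P.ρ * P.τ / 2 by positivity)]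

/-- A gate of a shift is within the shape. -/
lemma ShapeNums.gate_shape (h : Small P B) (N : ShapeNums P B) {x : ℝ × Expr (OIn na)}
    (hx : GateB P B x) :
    P.ρ * P.τ / 8 ≤ x.1 ∧ x.1 ≤ P.τ ∧
      x.2.size ≤ P.ρ⁻¹ ^ 14 * (Real.sqrt P.ε + |P.γ| * Real.sqrt P.τ) * Real.sqrt x.1 ∧
      Expr.coef OIn.ctr x.2 ≤ P.ρ⁻¹ ^ 14 ∧
      (∀ i, Expr.lip i x.2 ≤ P.ρ⁻¹ ^ 14) ∧ x.2.offset ≤ P.ρ⁻¹ ^ 14 := by
  obtain ⟨⟨hxτ, hxr⟩, hT⟩ := hx
  obtain ⟨H, -, -, -, hδ1, hδ2, hR1⟩ := N
  have hρ := h.rho_pos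
  have hτ := h.tau_pos
  have hρ16 := h.rho_le
  have hs1 : Real.sqrt P.τ ≤ 1 := Real.sqrt_le_one.2 h.tau_le
  have hs0 := Real.sqrt_nonneg P.τ
  set R := P.ρ⁻¹ with hR
  have hR0 : 1 ≤ R := by linarith
  set δ := P.ε * B + kap P B + 4 * lamT P B * Ketav P B + lamT P B with hδ
  set W := Real.sqrt P.ε + |P.γ| * Real.sqrt P.τ
  have hW : 0 ≤ W := by positivity
  have hδ0 : 0 ≤ δ := by
    have := H.kap0; have := H.lam0; have := H.Keta0; have := H.ε0; have := H.B0
    positivity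
  have hlo : P.ρ * P.τ ≤ x.1 := by
    rcases hxr with h1 | h1
    · refine le_trans (le_of_eq ?_) h1
      rw [Data.q₁, Real.sq_sqrt (by nlinarith)]; ring
    · exact h1
  have hρs : P.ρ * Real.sqrt P.τ ≤ Real.sqrt x.1 := by
    refine le_trans ?_ (Real.sqrt_le_sqrt hlo)
    rw [Real.sqrt_mul hρ.le]
    exact mul_le_mul_of_nonneg_right (Real.le_sqrt_of_sq_le (by nlinarith)) hs0
  have hR14 : (256 : ℝ) ≤ R ^ 14 :=
    le_trans (by nlinarith) (pow_le_pow_right₀ hR0 (show 2 ≤ 14 by norm_num))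
  have hTl : ∀ i, Expr.lip i x.2 ≤ R ^ 14 := fun i => by
    refine (hT (Meas.ofLip P i)).trans (le_trans ?_ (pow_le_pow_right₀ hR0 (show 3 ≤ 14 by norm_num)))
    simp only [argT, Meas.S, Meas.ofLip, ← hδ]
    norm_num
    nlinarith [pow_le_pow_left₀ (by norm_num : (0:ℝ) ≤ 16) hR1 3]
  refine ⟨by linarith [mul_pos hρ hτ], hxτ, ?_, (coef_le_lip _ _).trans (hTl _), hTl, ?_⟩
  · refine (hT (Meas.ofSize P)).trans ?_
    simp only [argT, Meas.S, Meas.ofSize, ← hδ, add_zero, mul_zero]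
    calc 64 * δ * Real.sqrt P.τ ≤ 64 * (2 * W * R ^ 11) * Real.sqrt P.τ := by gcongr
      _ = 128 * (W * R ^ 11 * Real.sqrt P.τ) := by ring
      _ ≤ R ^ 2 * (W * R ^ 11 * Real.sqrt P.τ) := by gcongr; nlinarith
      _ = R ^ 14 * W * (P.ρ * Real.sqrt P.τ) := by rw [hR]; field_simp
      _ ≤ _ := by gcongr
  · refine (hT (Meas.ofOffset P)).trans ?_
    simp only [argT, Meas.S, Meas.ofOffset, ← hδ, add_zero, mul_zero]
    calc 64 * δ * Real.sqrt P.τ ≤ 64 * 1 * 1 := by gcongr
      _ ≤ _ := by linarith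

/-- The shifts in the sizes. -/
lemma ShapeNums.shift_le (h : Small P B) (N : ShapeNums P B) (M : Meas P) (j : Fin P.nt) :
    M.μ ((stage P).shift j) ≤ |P.γ| * Real.sqrt P.τ * P.ρ⁻¹ ^ 11 * M.S :=
  ((N.consts.lift_le M (mul_le_of_le_one_left h.tau_pos.le (h.rho_le.trans (by norm_num))) N.lam_le
    N.sig_le P.iter (some j)).1).trans (mul_le_mul_of_nonneg_right N.sig_load M.S0)

/-- The syntactic sizes of the compiled stage. -/
theorem stage_shape : ∃ k : ℕ, ∀ (na : ℕ) (P : Data na) (B w₀ : ℝ), Small P B →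
    (na : ℝ) + 2 ≤ B → 1 ≤ w₀ → (∑ j, |P.time.W none j|) ≤ w₀ →
      StageShape (stage P) P.ε (P.ρ ^ (-(k : ℝ))) (|P.γ| * Real.sqrt P.τ) P.τ P.ρ w₀ := by
  refine ⟨14, fun na P B w₀ h hnaB _ hw => ?_⟩
  obtain ⟨m1, m2, m3, m4, m5⟩ := stage_shape_mean h (k := 14) (by norm_num)
  have N := h.shapeNums hnaB
  have hρ := h.rho_pos
  have hR1 := N.inv_ge
  set R := P.ρ⁻¹ with hR
  set L := |P.γ| * Real.sqrt P.τ
  have hR0 : 1 ≤ R := by linarith
  have hL0 : 0 ≤ L := by positivity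
  have hamp : P.ρ ^ (-((14 : ℕ) : ℝ)) = R ^ 14 := by
    rw [Real.rpow_neg hρ.le, Real.rpow_natCast, hR, inv_pow]
  have hρs : P.ρ * Real.sqrt P.τ ≤ Real.sqrt (P.ρ * P.τ) := by
    rw [Real.sqrt_mul hρ.le]
    exact mul_le_mul_of_nonneg_right (Real.le_sqrt_of_sq_le (by nlinarith [h.rho_le]))
      (Real.sqrt_nonneg _)
  have hs1 : Real.sqrt P.τ ≤ 1 := Real.sqrt_le_one.2 h.tau_le
  constructor
  case s_lo => exact h.s_bounds.1
  case s_hi => exact h.s_bounds.2
  case w_sum => exact hw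
  case mean_coef => exact m1
  case mean_size => exact m2
  case mean_lip => exact m3
  case mean_offset => exact m4
  case mean_gates => exact m5
  case shift_coef => exact fun j => coef_lift P.iter (some j)
  case shift_size =>
    intro j
    refine (N.shift_le h (Meas.ofSize P) j).trans ?_
    simp only [Meas.S, Meas.ofSize, add_zero]
    rw [hamp]
    calc L * R ^ 11 * Real.sqrt P.τ ≤ L * R ^ 13 * Real.sqrt P.τ := by
          gcongr <;> first | exact hR0 | norm_num
      _ = R ^ 14 * L * (P.ρ * Real.sqrt P.τ) := by rw [hR]; field_simp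
      _ ≤ _ := by gcongr
  case shift_lip =>
    intro j i
    refine (N.shift_le h (Meas.ofLip P i) j).trans ?_
    simp only [Meas.S, Meas.ofLip]
    rw [hamp]
    calc L * R ^ 11 * (1 + 2 + 1 + 1) ≤ L * R ^ 11 * R := by gcongr; linarith
      _ = R ^ 12 * L := by ring
      _ ≤ _ := by gcongr <;> first | exact hR0 | norm_num
  case shift_offset =>
    intro j
    refine (N.shift_le h (Meas.ofOffset P) j).trans ?_
    simp only [Meas.S, Meas.ofOffset, add_zero]
    rw [hamp]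
    calc L * R ^ 11 * Real.sqrt P.τ ≤ L * R ^ 11 * 1 := by gcongr
      _ = R ^ 11 * L := by ring
      _ ≤ _ := by gcongr <;> first | exact hR0 | norm_num
  case shift_gates =>
    intro j x hx
    rw [hamp]
    exact N.gate_shape h ((N.consts.gates_lift
      (mul_le_of_le_one_left h.tau_pos.le (h.rho_le.trans (by norm_num))) N.lam_le N.sig_le
      P.iter (some j)).1 x hx)

end Build

end Vale.Agent.P347.Gamma0
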