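import Vale.Agent.P347.Gamma0.StageAsm
import Vale.Agent.P347.Gamma0.RegHam
import Vale.Agent.P347.Gamma0.Flow
import Vale.Agent.P347.Gamma0.Tame

/-!
P347, towards `γ_* = 0`: the rule in time of a stage has any order.  Along the lifted field the time
derivative is the generator `δ (J ∇)` with `J = q⁻¹ [[0, K], [-Kᵀ, 0]]`, up to the speed, so the
derivatives of the two integrands are bounded in `L²` by powers of the scale.
-/

namespace Vale.Agent.P347.Gamma0

open MeasureTheory ProbabilityTheory Set Sobolev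
open scoped RealInnerProductSpace ContDiff ENNReal

/-- The regularity of the linear field. -/
def KBound : Prop :=
  ∀ m : ℕ, ∃ B : ℝ, 0 ≤ B ∧ ∃ ε₀ : ℝ, 0 < ε₀ ∧ ∀ (d : ℕ) (D : Data d), D.τ ≤ 1 → D.ε ≤ ε₀ →
    ∀ X : ExFlow D, ∀ q ∈ D.I, 0 ≤ q → ∀ κ : ℝ, 0 ≤ κ → κ ≤ 1 → κ * q ≤ Real.sqrt (D.r q) →
      (∀ j i, Tame fun w => X.kOp q w (bv j) i) ∧
      MulBound κ m (fun j i w => X.kOp q w (bv j) i) (B * q) ∧
      MulBound κ m (fun i j w => X.kOp q w (bv j) i) (B * q)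

namespace Reg

section General

variable {ι α : Type} [Fintype ι] [DecidableEq ι]

/-- With an antisymmetric matrix the generator is a vector field. -/
lemma gen_antisymm {Ψ : EuclideanSpace ℝ ι → ℝ} {J : ι → ι → EuclideanSpace ℝ ι → ℝ}
    (hJ : ∀ a b, Tame (J a b)) (hs : ∀ a b x, J a b x = -J b a x)
    {F : α → EuclideanSpace ℝ ι → ℝ} (hF : TameF F) (a : α) (x : EuclideanSpace ℝ ι) :
    gen Ψ J F a x
      = ∑ j, (∑ i, (pd i Ψ x * J i j x - pd i (J i j) x)) * pd j (F a) x := by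
  have e : ∀ i, pd i (mulF J (grad F) (a, i)) x
      = ∑ j, (pd i (J i j) x * pd j (F a) x + J i j x * pd i (pd j (F a)) x) := fun i => by
    rw [show mulF J (grad F) (a, i) = fun y => ∑ j, J i j y * pd j (F a) y from rfl,
      pd_sum (f := fun j y => J i j y * pd j (F a) y) Finset.univ
      fun j _ => (hJ i j).mul ((hF a).pdTame j)]
    exact Finset.sum_congr rfl fun j _ => pd_mul (hJ i j) ((hF a).pdTame j) i x
  have h0 : ∑ i, ∑ j, J i j x * pd i (pd j (F a)) x = 0 := by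
    have h : ∑ i, ∑ j, J i j x * pd i (pd j (F a)) x
        = -∑ i, ∑ j, J i j x * pd i (pd j (F a)) x := by
      conv_lhs => rw [Finset.sum_comm]
      simp only [← Finset.sum_neg_distrib]
      refine Finset.sum_congr rfl fun i _ => Finset.sum_congr rfl fun j _ => ?_
      rw [hs j i, pd_comm (hF a) j i, neg_mul]
    linarith
  simp only [gen, dv, e]
  simp only [mulF, grad, Finset.mul_sum, ← Finset.sum_sub_distrib, Finset.sum_mul]
  rw [Finset.sum_comm (f := fun j i => (pd i Ψ x * J i j x - pd i (J i j) x) * pd j (F a) x),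
    ← sub_zero (∑ i, ∑ j, (pd i Ψ x * J i j x - pd i (J i j) x) * pd j (F a) x), ← h0]
  simp only [← Finset.sum_sub_distrib]
  exact Finset.sum_congr rfl fun i _ => Finset.sum_congr rfl fun j _ => by ring

/-- A chain of derivatives on an open set. -/
lemma chain_iterate_time {V : Type} [NormedAddCommGroup V] [NormedSpace ℝ V] {h : ℕ → ℝ → V}
    {I : Set ℝ} (hI : IsOpen I) (hh : ∀ k, ∀ t ∈ I, HasDerivAt (h k) (h (k + 1) t) t) (n : ℕ) :
    EqOn (iteratedDeriv n (h 0)) (h n) I ∧ ∀ k, ContDiffOn ℝ n (h k) I := by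
  induction n with
  | zero => exact ⟨fun t _ => by rw [iteratedDeriv_zero], fun k => contDiffOn_zero.2
      fun t ht => (hh k t ht).continuousAt.continuousWithinAt⟩
  | succ n ih =>
    refine ⟨fun t ht => ?_, fun k => ?_⟩
    · rw [iteratedDeriv_succ, (ih.1.eventuallyEq_of_mem (hI.mem_nhds ht)).deriv_eq]
      exact (hh n t ht).deriv
    · rw [Nat.cast_succ, contDiffOn_succ_iff_deriv_of_isOpen hI]
      exact ⟨fun t ht => (hh k t ht).differentiableAt.differentiableWithinAt, by simp,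
        (ih.2 (k + 1)).congr fun t ht => (hh k t ht).deriv⟩

end General

end Reg

namespace TimeGen

open Reg

variable {d : ℕ} {D : Data d} (X : ExFlow D)

attribute [local irreducible] G nW psi

/-- The matrix of `k`. -/
noncomputable def kMat (q : ℝ) (a b : Fin d) (w : E d) : ℝ := X.kOp q w (bv b) a

/-- The antisymmetric matrix of the lifted field, per unit of speed. -/
noncomputable def liftJ (q : ℝ) :
    Fin d ⊕ Fin d → Fin d ⊕ Fin d → EuclideanSpace ℝ (Fin d ⊕ Fin d) → ℝ := fun i j z =>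
  q⁻¹ * (Reg.conj (fun i a => if i = Sum.inl a then 1 else 0)
      (fun a b z => kMat X q a b (fstL z)) (fun b j => if j = Sum.inr b then 1 else 0) i j z
    + -1 * Reg.conj (fun i b => if i = Sum.inr b then 1 else 0)
      (fun b a z => kMat X q a b (fstL z)) (fun a j => if j = Sum.inl a then 1 else 0) i j z)

lemma liftJ_eq (q : ℝ) :
    (∀ a b, liftJ X q (Sum.inl a) (Sum.inr b) = fun z => q⁻¹ * kMat X q a b (fstL z)) ∧
    (∀ a b, liftJ X q (Sum.inr b) (Sum.inl a) = fun z => -(q⁻¹ * kMat X q a b (fstL z))) ∧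
    (∀ a b, liftJ X q (Sum.inl a) (Sum.inl b) = fun _ => 0) ∧
    ∀ a b, liftJ X q (Sum.inr a) (Sum.inr b) = fun _ => 0 := by
  refine ⟨fun a b => ?_, fun a b => ?_, fun a b => ?_, fun a b => ?_⟩ <;>
    funext z <;> simp [liftJ, Reg.conj]

lemma liftJ_antisymm (q : ℝ) (i j : Fin d ⊕ Fin d) (z : EuclideanSpace ℝ (Fin d ⊕ Fin d)) :
    liftJ X q i j z = -liftJ X q j i z := by
  obtain ⟨h1, h2, h3, h4⟩ := liftJ_eq X q
  rcases i with a | a <;> rcases j with b | b <;> simp [h1, h2, h3, h4]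

section KB

variable {q : ℝ} (hKt : ∀ j i, Tame fun w => X.kOp q w (bv j) i)
include hKt

lemma tame_kMat_fst (a b : Fin d) :
    Tame fun z : EuclideanSpace ℝ (Fin d ⊕ Fin d) => kMat X q a b (fstL z) :=
  (hKt b a).comp (fstL (ι₁ := Fin d) (ι₂ := Fin d)).hasTemperateGrowth

lemma tame_liftJ (i j : Fin d ⊕ Fin d) : Tame (liftJ X q i j) :=
  (Function.HasTemperateGrowth.const q⁻¹).mul
    ((conj_tame (fun a b => tame_kMat_fst X hKt a b) i j).add
      ((Function.HasTemperateGrowth.const (-1 : ℝ)).mul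
        (conj_tame (fun b a => tame_kMat_fst X hKt a b) i j)))

lemma mulBound_liftJ {κ B : ℝ} {m : ℕ} (hq : 0 < q) (hB : 0 ≤ B)
    (h1 : MulBound κ m (fun j i w => X.kOp q w (bv j) i) (B * q))
    (h2 : MulBound κ m (fun i j w => X.kOp q w (bv j) i) (B * q)) :
    MulBound κ m (liftJ X q) (2 * B) := by
  have a1 := MulBound.conj (ι := Fin d ⊕ Fin d) (opLe_inr' (ι₁ := Fin d) (ι₂ := Fin d)) m
    (opLe_inl (ι₁ := Fin d) (ι₂ := Fin d)) (fun a b => tame_kMat_fst X hKt a b)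
    (MulBound.lift_fst m (fun a b => hKt b a) h2)
  have a2 := MulBound.conj (ι := Fin d ⊕ Fin d) (opLe_inl' (ι₁ := Fin d) (ι₂ := Fin d)) m
    (opLe_inr (ι₁ := Fin d) (ι₂ := Fin d)) (fun b a => tame_kMat_fst X hKt a b)
    (MulBound.lift_fst m (fun b a => hKt b a) h1)
  rw [one_mul, mul_one] at a1 a2
  have t1 := fun i j => conj_tame (L := fun (i : Fin d ⊕ Fin d) a => if i = Sum.inl a then (1:ℝ) else 0)
    (R := fun b (j : Fin d ⊕ Fin d) => if j = Sum.inr b then (1:ℝ) else 0)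
    (fun a b => tame_kMat_fst X hKt a b) i j
  have t2 := fun i j => conj_tame (L := fun (i : Fin d ⊕ Fin d) b => if i = Sum.inr b then (1:ℝ) else 0)
    (R := fun a (j : Fin d ⊕ Fin d) => if j = Sum.inl a then (1:ℝ) else 0)
    (fun b a => tame_kMat_fst X hKt a b) i j
  have hq0 : 0 ≤ B * q := mul_nonneg hB hq.le
  have a3 := MulBound.smul (-1) m t2 a2
  rw [abs_neg, abs_one, one_mul] at a3
  have a4 := MulBound.smul q⁻¹ m
    (fun i j => (t1 i j).add ((Function.HasTemperateGrowth.const (-1 : ℝ)).mul (t2 i j)))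
    (MulBound.add hq0 hq0 m t1
      (fun i j => (Function.HasTemperateGrowth.const (-1 : ℝ)).mul (t2 i j)) a1 a3)
  rw [show |q⁻¹| * (B * q + B * q) = 2 * B by
    rw [abs_of_pos (inv_pos.2 hq)]; field_simp; ring] at a4
  exact a4

end KB

/-- The lifted field per unit of speed. -/
noncomputable def liftV (q : ℝ) (z : EuclideanSpace ℝ (Fin d ⊕ Fin d)) :
    EuclideanSpace ℝ (Fin d ⊕ Fin d) :=
  glueL (-(q⁻¹ • X.kOp q (fstL z) (sndL z)), q⁻¹ • (D.Gq q (fstL z) - G D.U D.g D.ε D.τ D.c))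

/-- The linear field as a function of the pair. -/
noncomputable def pairK (q : ℝ) : Fin d → EuclideanSpace ℝ (Fin d ⊕ Fin d) → ℝ :=
  fun i z => X.kOp q (fstL z) (sndL z) i

lemma kOp_coord (q : ℝ) (w Z : E d) (a : Fin d) :
    X.kOp q w Z a = ∑ b, kMat X q a b w * Z b := by
  conv_lhs => rw [← (EuclideanSpace.basisFun (Fin d) ℝ).sum_repr Z, map_sum]
  simp [kMat, bv, mul_comm]

lemma pairK_eq (q : ℝ) : pairK X q = fun i =>
    mulF (fun a b (z : EuclideanSpace ℝ (Fin d ⊕ Fin d)) => kMat X q a b (fstL z))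
      (fun (p : Unit × Fin d) z => z (Sum.inr p.2)) ((), i) := by
  funext i z
  simp [pairK, mulF, kOp_coord]

variable (hP : PostFacts) (hT : TameFact) (hτ : D.τ ≤ 1) {q : ℝ} (hq : q ∈ D.I)
include hP hT hτ hq

lemma pd_pairPot (i : Fin d ⊕ Fin d) (z : EuclideanSpace ℝ (Fin d ⊕ Fin d)) :
    pd i (pairPot D q) z
      = Sum.elim (fun a => D.gψ q (fstL z) a) (fun b => sndL z b) i := by
  unfold pairPot
  rw [pd_blocks (Law.tame_psi D hP hT hτ hq) ibp_gam.tame]
  rcases i with a | a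
  · simp only [Sum.elim_inl, pd_psi hP D hq]
  · simp only [Sum.elim_inr, pd_halfSq]

/-- The generator is the derivative along the lifted field. -/
lemma gen_liftJ (hL : LawTransport) (hKt : ∀ j i, Tame fun w => X.kOp q w (bv j) i) {α : Type}
    {F : α → EuclideanSpace ℝ (Fin d ⊕ Fin d) → ℝ} (hF : TameF F) (a : α)
    (z : EuclideanSpace ℝ (Fin d ⊕ Fin d)) :
    gen (pairPot D q) (liftJ X q) F a z = fderiv ℝ (F a) z (liftV X q z) := by
  obtain ⟨h1, h2, h3, h4⟩ := liftJ_eq X q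
  rw [gen_antisymm (tame_liftJ X hKt) (liftJ_antisymm X q) hF, fderiv_eq_sum]
  refine Finset.sum_congr rfl fun j _ => ?_
  congr 1
  rw [Fintype.sum_sum_type]
  rcases j with a | b
  · have e : ∀ c, pd (Sum.inr c) (fun z => -(q⁻¹ * kMat X q a c (fstL z))) z = 0 := fun c => by
      rw [pd_neg, pd_const_mul (tame_kMat_fst X hKt a c), pd_comp_clm (f := kMat X q a c)
        (hKt c a).differentiable fstL, fstL_single]
      simp
    simp only [h3, h2, pd_pairPot hP hT hτ hq, e, pd_const, Sum.elim_inl, Sum.elim_inr,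
      mul_zero, sub_zero, Finset.sum_const_zero, zero_add, liftV, glueL_inl, PiLp.neg_apply,
      PiLp.smul_apply, smul_eq_mul, kOp_coord, Finset.mul_sum, ← Finset.sum_neg_distrib]
    exact Finset.sum_congr rfl fun c _ => by ring
  · have hd := X.delta_k hP (nwHeat_of_post hP) hL hq (bv b) (fstL z)
    rw [DeltaAux.inner_bv] at hd
    have e : ∀ c, pd (Sum.inl c) (fun z => q⁻¹ * kMat X q c b (fstL z)) z
        = q⁻¹ * fderiv ℝ (X.k q (bv b)) (fstL z) (bv c) c := fun c => by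
      rw [pd_const_mul (tame_kMat_fst X hKt c b), pd_comp_clm (f := kMat X q c b)
        (hKt b c).differentiable fstL, fstL_single, Sum.elim_inl]
      have e1 : kMat X q c b = fun w => X.k q (bv b) w c :=
        funext fun w => by rw [kMat, X.kOp_apply hP hq]
      have e2 : HasFDerivAt (fun w => X.k q (bv b) w c) ((EuclideanSpace.proj (𝕜 := ℝ) c).comp
          (fderiv ℝ (X.k q (bv b)) (fstL z))) (fstL z) :=
        (EuclideanSpace.proj (𝕜 := ℝ) c).hasFDerivAt.comp _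
          (X.hasFDerivAt_k hP hq _ _).differentiableAt.hasFDerivAt
      rw [show fderiv ℝ (kMat X q c b) = _ from congrArg (fderiv ℝ) e1, e2.fderiv]
      rfl
    simp only [h1, h4, pd_pairPot hP hT hτ hq, e, pd_const, Sum.elim_inl, Sum.elim_inr,
      mul_zero, sub_zero, Finset.sum_const_zero, add_zero, liftV, glueL_inr, PiLp.smul_apply,
      smul_eq_mul, ← hd, delta, dvg, PiLp.inner_apply, RCLike.inner_apply, conj_trivial, mul_sub,
      Finset.mul_sum, ← Finset.sum_sub_distrib]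
    refine Finset.sum_congr rfl fun c _ => ?_
    rw [show kMat X q c b (fstL z) = X.k q (bv b) (fstL z) c by rw [kMat, X.kOp_apply hP hq]]
    ring

omit hP hT hτ hq in
lemma tame_pairK (hKt : ∀ j i, Tame fun w => X.kOp q w (bv j) i) : TameF (pairK X q) := by
  rw [pairK_eq]
  exact fun i => TameF.mulTame (fun a b => tame_kMat_fst X hKt a b)
    (fun p => (EuclideanSpace.proj (𝕜 := ℝ) (Sum.inr p.2)).hasTemperateGrowth) ((), i)

lemma sob_pairK {κ B : ℝ} (hκ0 : 0 ≤ κ) (hκ : κ ≤ 1) (m : ℕ)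
    (hKt : ∀ j i, Tame fun w => X.kOp q w (bv j) i)
    (h2 : MulBound κ m (fun i j w => X.kOp q w (bv j) i) (B * q)) :
    sob (pairLaw D q) κ m (pairK X q) ≤ 4 ^ m * (B * q) ^ 2 * (2 * d) := by
  have hμ := ibp_pair D hP hT hτ hq
  have := isProb_pair D hP hT hτ hq
  set Z : Unit × Fin d → EuclideanSpace ℝ (Fin d ⊕ Fin d) → ℝ := fun p z => z (Sum.inr p.2)
  have hZ : TameF Z := fun p =>
    (EuclideanSpace.proj (𝕜 := ℝ) (Sum.inr p.2 : Fin d ⊕ Fin d)).hasTemperateGrowth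
  have hpd : ∀ (b : Fin d) i x, pd i (fun z : EuclideanSpace ℝ (Fin d ⊕ Fin d) => z (Sum.inr b)) x
      = if i = Sum.inr b then 1 else 0 := fun b i x => by
    unfold Sobolev.pd
    rw [show (fun z : EuclideanSpace ℝ (Fin d ⊕ Fin d) => z (Sum.inr b))
      = EuclideanSpace.proj (𝕜 := ℝ) (Sum.inr b : Fin d ⊕ Fin d) from rfl,
      ContinuousLinearMap.fderiv]
    simp [eq_comm]
  have hl : l2 (pairLaw D q) Z = d := by
    rw [l2, integral_finsetSum (f := fun p z => Z p z ^ 2) _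
      fun p _ => hμ.integrable _ ((hZ p).pow 2)]
    have e : ∀ p, ∫ z, Z p z ^ 2 ∂pairLaw D q = 1 := fun p => by
      have h := hμ.ibp _ (Sum.inr p.2) (hZ p)
      simp only [Z, hpd, if_true, integral_const, probReal_univ, one_smul,
        pd_pairPot hP hT hτ hq, Sum.elim_inr, sndL_apply] at h
      rw [h]
      exact integral_congr_ae (ae_of_all _ fun z => sq _)
    simp [e]
  have hg : grad Z = fun p _ => if p.2 = Sum.inr p.1.2 then 1 else 0 :=
    funext₂ fun p z => hpd p.1.2 p.2 z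
  have hs : sob (pairLaw D q) κ m Z ≤ 2 * d := by
    cases m with
    | zero => rw [sob_zero, hl]; linarith [Nat.cast_nonneg (α := ℝ) d]
    | succ m =>
      rw [sob_succ, hl, hg, sob_const_fn]
      have e : ∑ p : (Unit × Fin d) × (Fin d ⊕ Fin d),
          (if p.2 = Sum.inr p.1.2 then (1 : ℝ) else 0) ^ 2 = d := by
        rw [Fintype.sum_prod_type]
        simp
      rw [e]
      have := mul_le_of_le_one_left (Nat.cast_nonneg (α := ℝ) d) (pow_le_one₀ (n := 2) hκ0 hκ)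
      linarith
  rw [pairK_eq, ← show (fun i : Fin d => mulF (fun a b (z : EuclideanSpace ℝ (Fin d ⊕ Fin d)) =>
      kMat X q a b (fstL z)) Z ((Equiv.punitProd (Fin d)).symm i)) = fun i => mulF _ Z ((), i)
      from rfl, sob_reindex]
  refine (hμ.sob_mulF_le m (fun a b => tame_kMat_fst X hKt a b)
    (MulBound.lift_fst m (fun a b => hKt b a) h2) hZ).trans ?_
  exact mul_le_mul_of_nonneg_left hs (by positivity)

end TimeGen

namespace Build

open Reg TimeGen

variable {d na : ℕ}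

attribute [local irreducible] G nW psi

/-- The rule integrates whatever has a small `n`-th derivative in mean square. -/
def RuleAcc {nt : ℕ} (time : Rule nt) (n : ℕ) (C : ℝ) : Prop :=
  ∀ (Ω : Type) [MeasurableSpace Ω] (μ : Measure Ω) [IsProbabilityMeasure μ] (d : ℕ)
    (f : ℝ → Ω → E d) (s h M : ℝ), 0 ≤ h → 0 ≤ M →
    (∀ z, ∀ t ∈ Icc s (s + h), ContDiffAt ℝ n (fun u => f u z) t) →
    Measurable (fun p : ℝ × Ω => f p.1 p.2) →
    (∀ t ∈ Icc s (s + h), ∫⁻ z, ‖iteratedDeriv n (fun u => f u z) t‖ₑ ^ 2 ∂μ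
      ≤ ENNReal.ofReal (M ^ 2)) →
    ∀ o, ∫⁻ z, ‖Picard.panelErr time.x time.W f s h o z‖ₑ ^ 2 ∂μ
      ≤ ENNReal.ofReal ((C * h ^ (n + 1) * M) ^ 2)

lemma l1_le_l2 {Ω : Type*} [MeasurableSpace Ω] {μ : Measure Ω} [IsProbabilityMeasure μ] {d : ℕ}
    {F : Ω → E d} {B : ℝ} (hB : 0 ≤ B) (hm : AEStronglyMeasurable F μ)
    (h : ∫⁻ z, ‖F z‖ₑ ^ 2 ∂μ ≤ ENNReal.ofReal (B ^ 2)) :
    ∫⁻ z, ‖F z‖ₑ ∂μ ≤ ENNReal.ofReal B := by
  have h2 := ENNReal.lintegral_mul_le_Lp_mul_Lq μ Real.HolderConjugate.two_two hm.enorm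
    (g := fun _ => 1) aemeasurable_const
  simp only [Pi.mul_apply, mul_one, ENNReal.rpow_two, one_pow, lintegral_one, measure_univ,
    ENNReal.one_rpow] at h2
  refine h2.trans ((ENNReal.rpow_le_rpow h (by norm_num)).trans (le_of_eq ?_))
  rw [ENNReal.ofReal_rpow_of_nonneg (sq_nonneg B) (by norm_num), ← Real.sqrt_eq_rpow,
    Real.sqrt_sq hB]

section Flow

variable (P : Data na) {D : Gamma0.Data d} (X : ExFlow D)
  {Ψ : ℝ → ℝ → E (d + d) → E (d + d)}
  (hΨ : IsFlow (X.liftVel (Real.sqrt 2 * P.γ) P.q₁) (Ioo (-1 : ℝ) 2) Ψ)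
  (hP : PostFacts) (hT : TameFact) (hL : LawTransport) (hτ : D.τ ≤ 1) (hq : P.q₁ ∈ D.I)
  (hq0 : 0 < P.q₁)
include hΨ hP hT hL hτ hq hq0

omit hT hτ in
/-- The law is kept by any flow of the lifted field. -/
lemma lift_inv {t : ℝ} (ht : t ∈ Ioo (-1 : ℝ) 2) :
    ((ExFlow.law D P.q₁).prod (gam d)).map (path Ψ t) = (ExFlow.law D P.q₁).prod (gam d) := by
  have hH := nwHeat_of_post hP
  obtain ⟨C, hC⟩ := X.growth_liftVel hP hq hq0.le (Real.sqrt 2 * P.γ)
  have := ExFlow.isProb_law hP hH hL hq X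
  have : IsProbabilityMeasure (gam d) := by unfold gam; infer_instance
  have hψc : ContDiff ℝ ∞ (D.ψ P.q₁) := ExFlow.continuous_law_test hP hq
  have hpair : (gibbs (ExFlow.liftPot D P.q₁)).map (split d)
      = (ExFlow.law D P.q₁).prod (gam d) := by
    have e : gibbs (fun z : E d => ‖z‖ ^ 2 / 2) = gam d := by
      simpa [tilt] using Tilt.tilt_zero D.U
    rw [← e]
    exact gibbs_pair hψc.continuous (D.integrable_exp_psi hP hq)
  have hint : Integrable fun x => Real.exp (-ExFlow.liftPot D P.q₁ x) := by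
    have hi : Integrable (fun p : E d × E d =>
        Real.exp (-D.ψ P.q₁ p.1) * Real.exp (-(‖p.2‖ ^ 2 / 2)))
        ((volume : Measure (E d)).prod (volume : Measure (E d))) :=
      (D.integrable_exp_psi hP hq).mul_prod integrable_exp_half
    refine ((measurePreserving_split d).integrable_comp_of_integrable hi).congr
      (Filter.Eventually.of_forall fun x => ?_)
    simp only [ExFlow.liftPot, Function.comp_apply, neg_add, Real.exp_add]
  have h := hL (d + d) (-1) 2 (by norm_num) _ Ψ hΨ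
    ((X.contDiff_liftVel hP hq _ 0).comp contDiff_snd).contDiffOn
    (fun _ _ _ _ => ⟨C, fun s _ x => hC s x⟩) (fun _ => ExFlow.liftPot D P.q₁)
    (((hψc.comp (contDiff_fst.comp (split d).contDiff)).add
      (((contDiff_norm_sq ℝ).comp (contDiff_snd.comp (split d).contDiff)).div_const 2)).comp
        contDiff_snd).contDiffOn (fun _ _ => hint)
    (fun s _ x => X.lift_continuity hP hH hL hq _ s x) 0 (by norm_num) t ht
  have hm : Measurable (Ψ 0 t) := (hΨ.smooth 0 (by norm_num) t ht).continuous.measurable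
  have hm' : Measurable (path Ψ t) :=
    (split d).continuous.measurable.comp (hm.comp (split d).symm.continuous.measurable)
  rw [← hpair, Measure.map_map hm' (split d).continuous.measurable]
  conv_rhs => rw [← h]
  rw [Measure.map_map (split d).continuous.measurable hm]
  congr 1
  funext x
  simp [path]

omit hT hτ hL hP hq in
/-- A trajectory in one vector. -/
lemma hasDerivAt_glue {t : ℝ} (ht : t ∈ Ioo (-1 : ℝ) 2) (p : E d × E d) :
    HasDerivAt (fun u => glueL (path Ψ u p))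
      ((Real.sqrt 2 * P.γ * P.q₁) • liftV X P.q₁ (glueL (path Ψ t p))) t := by
  refine ((glueL.comp (split d : E (d + d) →L[ℝ] E d × E d)).hasFDerivAt.comp_hasDerivAt t
    (hΨ.deriv 0 (by norm_num) t ht ((split d).symm p))).congr_deriv ?_
  rw [ExFlow.liftVel, map_smul, ContinuousLinearMap.comp_apply, ContinuousLinearEquiv.coe_coe,
    ContinuousLinearEquiv.apply_symm_apply, liftV, ← map_smul glueL, ← map_smul glueL]
  congr 1
  simp only [path, fstL_glueL, sndL_glueL, Prod.smul_mk, smul_neg, smul_smul,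
    mul_inv_cancel_right₀ hq0.ne']

/-- The error of a rule on an observable of the pair. -/
lemma obs_err {nt n : ℕ} {time : Rule nt} {C₀ : ℝ} (hR : RuleAcc time (n + 1) C₀) (hC₀ : 0 ≤ C₀)
    (hKt : ∀ j i, Tame fun w => X.kOp P.q₁ w (bv j) i)
    {F : Fin d → EuclideanSpace ℝ (Fin d ⊕ Fin d) → ℝ} (hF : TameF F) {g : E d × E d → E d}
    (hg : ∀ p, g p = WithLp.toLp 2 fun i => F i (glueL p)) (htx : ∀ j, time.x j ∈ Icc (0 : ℝ) 1)
    {M : ℝ} (hM : 0 ≤ M)
    (hb : (Real.sqrt 2 * P.γ * P.q₁) ^ (2 * (n + 1))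
      * l2 (pairLaw D P.q₁) ((gen (pairPot D P.q₁) (liftJ X P.q₁))^[n + 1] F) ≤ M ^ 2)
    (o : Option (Fin nt)) :
    AEMeasurable (fun p => ‖(∫ t in (0 : ℝ)..o.elim 1 time.x, g (path Ψ t p))
        - ∑ j, time.W o j • g (path Ψ (time.x j) p)‖ₑ) ((ExFlow.law D P.q₁).prod (gam d)) ∧
      ∫⁻ p, ‖(∫ t in (0 : ℝ)..o.elim 1 time.x, g (path Ψ t p))
        - ∑ j, time.W o j • g (path Ψ (time.x j) p)‖ₑ ∂(ExFlow.law D P.q₁).prod (gam d)
        ≤ ENNReal.ofReal (C₀ * M) := by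
  classical
  set c := Real.sqrt 2 * P.γ * P.q₁
  set μ := (ExFlow.law D P.q₁).prod (gam d)
  have := ExFlow.isProb_law hP (nwHeat_of_post hP) hL hq X
  have : IsProbabilityMeasure (gam d) := by unfold gam; infer_instance
  have hμ := ibp_pair D hP hT hτ hq
  set J := liftJ X P.q₁
  have hJ : ∀ a b, Tame (J a b) := tame_liftJ X hKt
  have hTk : ∀ k, TameF ((gen (pairPot D P.q₁) J)^[k] F) := gen_iter_tame hμ.tame hJ hF
  set I : Set ℝ := Ioo (-1 : ℝ) 2 with hIdef
  have hI : IsOpen I := isOpen_Ioo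
  have hz : (0 : ℝ) ∈ I := by rw [hIdef]; norm_num
  set vec : ℕ → EuclideanSpace ℝ (Fin d ⊕ Fin d) → E d :=
    fun k z => WithLp.toLp 2 fun i => (gen (pairPot D P.q₁) J)^[k] F i z
  set H : ℕ → ℝ → E d × E d → E d :=
    fun k t p => if t ∈ I then c ^ k • vec k (glueL (path Ψ t p)) else 0
  have hsub : ∀ t ∈ Icc (0 : ℝ) 1, t ∈ I := fun t ht => ⟨by linarith [ht.1], by linarith [ht.2]⟩
  have hH0 : ∀ t ∈ Icc (0 : ℝ) 1, ∀ p, H 0 t p = g (path Ψ t p) := fun t ht p => by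
    simp [H, hsub t ht, hg, vec]
  have hchain : ∀ p k, ∀ t ∈ I, HasDerivAt (fun u => H k u p) (H (k + 1) t p) t := by
    intro p k t ht
    have hγ := hasDerivAt_glue P X hΨ hq0 ht p
    have h1 : HasDerivAt (fun u => vec k (glueL (path Ψ u p)))
        (c • vec (k + 1) (glueL (path Ψ t p))) t := by
      have h0 : HasDerivAt
          (fun u => fun i : Fin d => (gen (pairPot D P.q₁) J)^[k] F i (glueL (path Ψ u p)))
          (c • fun i : Fin d => (gen (pairPot D P.q₁) J)^[k + 1] F i (glueL (path Ψ t p))) t := by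
        refine hasDerivAt_pi.2 fun i => ?_
        refine (((hTk k i).differentiable _).hasFDerivAt.comp_hasDerivAt t hγ).congr_deriv ?_
        rw [map_smul, Function.iterate_succ_apply', Pi.smul_apply]
        congr 1
        exact (gen_liftJ X hP hT hτ hq hL hKt (hTk k) i _).symm
      exact (PiLp.continuousLinearEquiv 2 ℝ (fun _ : Fin d => ℝ)).symm.toContinuousLinearMap
        |>.hasFDerivAt.comp_hasDerivAt t h0
    refine ((h1.const_smul (c ^ k)).congr_deriv ?_).congr_of_eventuallyEq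
      (Filter.eventuallyEq_of_mem (hI.mem_nhds ht) fun u hu => if_pos hu)
    simp [H, ht, smul_smul, pow_succ]
  have hmeas : Measurable fun u : ℝ × (E d × E d) => H 0 u.1 u.2 := by
    have hpath : ContinuousOn (fun u : ℝ × (E d × E d) => path Ψ u.1 u.2) (I ×ˢ univ) :=
      (split d).continuous.comp_continuousOn (hΨ.cont.comp
        (f := fun u : ℝ × (E d × E d) => ((0 : ℝ), u.1, (split d).symm u.2))
        (by fun_prop) fun u hu => ⟨hz, hu.1, mem_univ _⟩)
    have hv : Continuous (vec 0) := (PiLp.continuous_toLp 2 fun _ : Fin d => ℝ).comp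
      (continuous_pi fun i => (hF i).continuous)
    have e : (fun u : ℝ × (E d × E d) => H 0 u.1 u.2)
        = (I ×ˢ univ).piecewise (fun u => vec 0 (glueL (path Ψ u.1 u.2))) 0 := by
      funext u
      simp [H, Set.piecewise]
    rw [e]
    exact ((hv.comp glueL.continuous).comp_continuousOn hpath).measurable_piecewise
      continuousOn_const (measurableSet_Ioo.prod MeasurableSet.univ)
  have hbd : ∀ t ∈ Icc (0 : ℝ) (0 + 1),
      ∫⁻ p, ‖iteratedDeriv (n + 1) (fun u => H 0 u p) t‖ₑ ^ 2 ∂μ ≤ ENNReal.ofReal (M ^ 2) := by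
    intro t ht
    rw [zero_add] at ht
    have e : ∀ p, iteratedDeriv (n + 1) (fun u => H 0 u p) t
        = c ^ (n + 1) • vec (n + 1) (glueL (path Ψ t p)) := fun p => by
      rw [(chain_iterate_time (h := fun k u => H k u p) hI (hchain p) (n + 1)).1 (hsub t ht)]
      simp [H, hsub t ht]
    simp only [e, enorm_smul, mul_pow]
    rw [lintegral_const_mul' _ _ (by simp)]
    have hpt : Measurable (path Ψ t) := ((split d).continuous.comp ((hΨ.smooth 0 hz t
        (hsub t ht)).continuous.comp (split d).symm.continuous)).measurable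
    have hpm : Measurable fun p => glueL (path Ψ t p) := glueL.continuous.measurable.comp hpt
    have hmap : μ.map (fun p => glueL (path Ψ t p)) = pairLaw D P.q₁ := by
      rw [show (fun p => glueL (path Ψ t p)) = glueL ∘ path Ψ t from rfl,
        ← Measure.map_map glueL.continuous.measurable hpt,
        lift_inv P X hΨ hP hL hq hq0 (hsub t ht)]
      rfl
    rw [lintegral_vec hμ hpm hmap (hTk (n + 1)), ← ofReal_norm,
      ← ENNReal.ofReal_pow (norm_nonneg _), ← ENNReal.ofReal_mul (sq_nonneg _), Real.norm_eq_abs,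
      sq_abs, ← pow_mul, mul_comm (n + 1) 2]
    exact ENNReal.ofReal_le_ofReal hb
  have hacc := hR (E d × E d) μ d (H 0) 0 1 M zero_le_one hM
    (fun p t ht => ((chain_iterate_time (h := fun k u => H k u p) hI (hchain p) (n + 1)).2 0).contDiffAt
      (hI.mem_nhds (hsub t (by simpa using ht)))) hmeas hbd o
  have ho : o.elim 1 time.x ∈ Icc (0 : ℝ) 1 := by
    cases o with
    | none => simp
    | some j => exact htx j
  have heq : ∀ p, Picard.panelErr time.x time.W (H 0) 0 1 o p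
      = (∫ t in (0 : ℝ)..o.elim 1 time.x, g (path Ψ t p))
        - ∑ j, time.W o j • g (path Ψ (time.x j) p) := fun p => by
    simp only [Picard.panelErr, zero_add, one_mul, one_smul, hH0 _ (htx _)]
    congr 1
    refine intervalIntegral.integral_congr fun t ht => hH0 t ?_ p
    rw [uIcc_of_le ho.1] at ht
    exact ⟨ht.1, ht.2.trans ho.2⟩
  simp only [← heq]
  have hm := Picard.panelErr_meas (μ := μ) time.x time.W hmeas 0 1 o
  refine ⟨hm.enorm, l1_le_l2 (by positivity) hm (hacc.trans (le_of_eq ?_))⟩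
  rw [one_pow, mul_one]

end Flow

/-- The rule of degree `n` is exact on constants. -/
lemma sum_eq_of_acc {nt n : ℕ} {time : Rule nt} {C : ℝ} (hR : RuleAcc time (n + 1) C)
    (o : Option (Fin nt)) : ∑ j, time.W o j = o.elim 1 time.x := by
  have h := hR PUnit.{1} (Measure.dirac PUnit.unit) 1 (fun _ _ => bv 0) 0 1 0 zero_le_one le_rfl
    (fun _ _ _ => contDiffAt_const) measurable_const (fun t _ => by simp [iteratedDeriv_const]) o
  simp only [Picard.panelErr, intervalIntegral.integral_const, zero_add, sub_zero, one_mul,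
    one_smul, ← Finset.sum_smul, ← sub_smul, lintegral_dirac, mul_zero, pow_two,
    ENNReal.ofReal_zero, nonpos_iff_eq_zero, mul_self_eq_zero, enorm_eq_zero, smul_eq_zero,
    sub_eq_zero] at h
  rcases h with h | h
  · exact h.symm
  · exact absurd (congrArg norm h) (by simp [bv])

/-- A rule in time of any order, given the regularity of the linear field. -/
theorem timePiece_of (hK : KBound) : TimePiece := by
  intro n hn
  obtain ⟨m, rfl⟩ : ∃ m, n = m + 1 := ⟨n - 1, by omega⟩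
  obtain ⟨C₀, hC₀, x, w, hx, hw, hI⟩ := intMatrix (m + 1) hn
  have hR : RuleAcc (⟨x, w⟩ : Rule (m + 1)) (m + 1) C₀ := fun Ω _ μ _ d f s h M => hI Ω μ d f s h M
  obtain ⟨Bk, hBk, ε₀, hε₀, hKB⟩ := hK (2 * m + 2)
  obtain ⟨Bh, hBh, hHess⟩ := exists_mulBound_hess postFacts tameFact (2 * m + 1)
  obtain ⟨A, hA, hAa⟩ := exists_mulBound_a postFacts tameFact (2 * m + 1)
  obtain ⟨Cg, hCg, hgen⟩ := sob_gen_iter_le (Bh + 1) (2 * Bk) (by linarith) m 0
  set C₂ : ℝ := Cg * (4 ^ (2 * m + 2) * Bk ^ 2 * 2 + 4 ^ (2 * m + 1) * A ^ 2) with hC₂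
  refine ⟨m + 1, ⟨x, w⟩, C₀, 2 * (C₀ * (Real.sqrt C₂ * (Real.sqrt 2 * 4) ^ (m + 1))), m + 1,
    by positivity, hx, hw, sum_eq_of_acc hR, ε₀, hε₀, fun d na P B h htime hS hε => ?_⟩
  obtain ⟨M₁, M₂, nh, nr, nt, ε, τ, ρ, γ, θ, t', g₁, g₂, ham, time, fdθ, fdt, iter⟩ := P
  dsimp only at h
  subst h
  dsimp only at htime
  subst htime
  set P : Data na :=
    ⟨M₁, M₂, nh, nr, m + 1, ε, τ, ρ, γ, θ, t', g₁, g₂, ham, ⟨x, w⟩, fdθ, fdt, iter⟩
  intro D hDε hDτ X Ψ hΨ o
  have hτ1 : D.τ ≤ 1 := hDτ ▸ hS.tau_le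
  have h10 : 0 < P.τ - P.ρ * P.τ := by nlinarith [hS.tau_pos, hS.rho_le]
  have hq0 : 0 < P.q₁ := Real.sqrt_pos.2 h10
  have hτρ : P.τ - P.ρ * P.τ < P.τ := by nlinarith [hS.tau_pos, hS.rho_pos]
  have hq : P.q₁ ∈ D.I :=
    ⟨D.zero_mem.1.trans hq0, hDτ ▸ Real.sqrt_lt_sqrt h10.le hτρ⟩
  have hr : D.r P.q₁ = P.ρ * P.τ := by
    show D.τ - P.q₁ ^ 2 = _
    rw [hDτ, show P.q₁ ^ 2 = P.τ - P.ρ * P.τ from Real.sq_sqrt h10.le]
    ring
  have hqs : P.q₁ ≤ Real.sqrt P.τ := Real.sqrt_le_sqrt hτρ.le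
  set κ : ℝ := Real.sqrt P.ρ / 2 with hκdef
  have hκ0 : 0 < κ := by have := hS.rho_pos; positivity
  have hκ1 : κ ≤ 1 := by
    have := Real.sqrt_le_one.2 (hS.rho_le.trans (by norm_num : (1 : ℝ) / 16 ≤ 1))
    rw [hκdef]; linarith
  have hκq : κ * P.q₁ ≤ Real.sqrt (D.r P.q₁) := by
    rw [hr, Real.sqrt_mul hS.rho_pos.le]
    refine mul_le_mul ?_ hqs hq0.le (Real.sqrt_nonneg _)
    rw [hκdef]; linarith [Real.sqrt_nonneg P.ρ]
  obtain ⟨hKt, hK1, hK2⟩ := hKB d D hτ1 (hDε ▸ hε) X P.q₁ hq hq0.le κ hκ0.le hκ1 hκq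
  have hκq' : κ * |P.q₁| ≤ Real.sqrt (D.r P.q₁) := by rwa [abs_of_pos hq0]
  obtain ⟨ha, hat⟩ := hAa d D hτ1 P.q₁ hq κ hκ0.le hκq'
  have hμ := ibp_pair D postFacts tameFact hτ1 hq
  have hH := mulBound_pair D postFacts tameFact hτ1 hq hBh _ (hHess d D hτ1 P.q₁ hq κ hκ0.le hκq')
  set J := liftJ X P.q₁
  have hJb : MulBound κ (2 * m + 1) J (2 * Bk) :=
    mulBound_liftJ X hKt hq0 hBk hK1.lower hK2.lower
  have hG := fun {F : Fin d → EuclideanSpace ℝ (Fin d ⊕ Fin d) → ℝ} (hF : TameF F) =>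
    hgen (J := J) hμ hκ0.le hκ1 (by rwa [Nat.zero_add]) (tame_liftJ X hKt) (by rwa [Nat.zero_add])
      hF
  set c := Real.sqrt 2 * P.γ * P.q₁ with hc
  set M := Real.sqrt C₂ * |c| ^ (m + 1) * P.q₁ * Real.sqrt d / κ ^ (2 * (m + 1)) with hMdef
  have hC₂0 : 0 ≤ C₂ := by rw [hC₂]; positivity
  have hM : ∀ L : ℝ, κ ^ (4 * (m + 1)) * L ≤ C₂ * (P.q₁ ^ 2 * d) →
      c ^ (2 * (m + 1)) * L ≤ M ^ 2 := fun L hL => by
    have e : M ^ 2 = c ^ (2 * (m + 1)) * (C₂ * (P.q₁ ^ 2 * d) / κ ^ (4 * (m + 1))) := by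
      rw [show M ^ 2 = Real.sqrt C₂ ^ 2 * (|c| ^ 2) ^ (m + 1) * P.q₁ ^ 2 * Real.sqrt d ^ 2
        / κ ^ (4 * (m + 1)) by rw [hMdef]; ring, Real.sq_sqrt hC₂0,
        Real.sq_sqrt (Nat.cast_nonneg d), sq_abs, ← pow_mul]
      ring
    rw [e]
    refine mul_le_mul_of_nonneg_left ?_ ((even_two_mul (m + 1)).pow_nonneg c)
    rw [le_div_iff₀ (by positivity), mul_comm]
    exact hL
  have hKb : κ ^ (4 * (m + 1))
      * l2 (pairLaw D P.q₁) ((gen (pairPot D P.q₁) J)^[m + 1] (pairK X P.q₁))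
      ≤ C₂ * (P.q₁ ^ 2 * d) := by
    have hF := tame_pairK X hKt
    have h1 := hG hF
    rw [sob_zero, Nat.zero_add] at h1
    have h2 := (sob_grad_le (pairLaw D P.q₁) κ (2 * m + 1) (pairK X P.q₁)).trans
      (sob_pairK X postFacts tameFact hτ1 hq hκ0.le hκ1 (2 * m + 2) hKt hK2)
    calc κ ^ (4 * (m + 1)) * _
        = κ ^ 2 * (κ ^ (4 * m + 2) * _) := by ring
      _ ≤ κ ^ 2 * (Cg * sob (pairLaw D P.q₁) κ (2 * m + 1) (grad (pairK X P.q₁))) :=
          mul_le_mul_of_nonneg_left h1 (sq_nonneg κ)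
      _ = Cg * (κ ^ 2 * sob (pairLaw D P.q₁) κ (2 * m + 1) (grad (pairK X P.q₁))) := by ring
      _ ≤ Cg * (4 ^ (2 * m + 2) * (Bk * P.q₁) ^ 2 * (2 * d)) := mul_le_mul_of_nonneg_left h2 hCg
      _ = Cg * (4 ^ (2 * m + 2) * Bk ^ 2 * 2) * (P.q₁ ^ 2 * d) := by ring
      _ ≤ _ := mul_le_mul_of_nonneg_right (by
          rw [hC₂]; exact mul_le_mul_of_nonneg_left (le_add_of_nonneg_right (by positivity)) hCg)
          (by positivity)
  have hGb : κ ^ (4 * (m + 1))
      * l2 (pairLaw D P.q₁) ((gen (pairPot D P.q₁) J)^[m + 1] (pairG D P.q₁))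
      ≤ C₂ * (P.q₁ ^ 2 * d) := by
    have h1 := hG (tame_pairG D postFacts tameFact hτ1 hq)
    rw [sob_zero, Nat.zero_add] at h1
    have h2 := sob_grad_pairG D postFacts tameFact hτ1 hq (2 * m + 1) ha hat
    calc κ ^ (4 * (m + 1)) * _
        = κ ^ 2 * (κ ^ (4 * m + 2) * _) := by ring
      _ ≤ 1 * (Cg * (4 ^ (2 * m + 1) * A ^ 2 * (P.q₁ ^ 2 * d))) :=
          mul_le_mul (pow_le_one₀ hκ0.le hκ1) (h1.trans (mul_le_mul_of_nonneg_left h2 hCg))
            (mul_nonneg (by positivity) (l2_nonneg _ _)) zero_le_one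
      _ = Cg * (4 ^ (2 * m + 1) * A ^ 2) * (P.q₁ ^ 2 * d) := by ring
      _ ≤ _ := mul_le_mul_of_nonneg_right (by
          rw [hC₂]; exact mul_le_mul_of_nonneg_left (le_add_of_nonneg_left (by positivity)) hCg)
          (by positivity)
  have hM0 : 0 ≤ M := by positivity
  obtain ⟨hm1, e1⟩ := obs_err P X hΨ postFacts tameFact lawTransport hτ1 hq hq0 hR hC₀ hKt
    (tame_pairK X hKt) (g := fun p => X.kOp P.q₁ p.1 p.2)
    (fun p => by ext i; simp [pairK]) hx hM0 (hM _ hKb) o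
  obtain ⟨-, e2⟩ := obs_err P X hΨ postFacts tameFact lawTransport hτ1 hq hq0 hR hC₀ hKt
    (tame_pairG D postFacts tameFact hτ1 hq) (g := fun p => D.Gq P.q₁ p.1)
    (fun p => by ext i; simp [pairG]) hx hM0 (hM _ hGb) o
  have e3 : ∫⁻ p, timeErr P X Ψ o p ∂(ExFlow.law D P.q₁).prod (gam d)
      ≤ ENNReal.ofReal (C₀ * M) + ENNReal.ofReal (C₀ * M) := by
    simp only [timeErr, tAt]
    rw [lintegral_add_left' hm1]
    exact add_le_add e1 e2
  refine e3.trans ?_
  rw [← ENNReal.ofReal_add (by positivity) (by positivity)]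
  refine ENNReal.ofReal_le_ofReal ?_
  have hcle : |c| ≤ Real.sqrt 2 * (|P.γ| * Real.sqrt P.τ) := by
    rw [hc, abs_mul, abs_mul, abs_of_nonneg (Real.sqrt_nonneg 2), abs_of_pos hq0, mul_assoc]
    gcongr
  have hκp : κ ^ (2 * (m + 1)) = P.ρ ^ (m + 1) / 4 ^ (m + 1) := by
    rw [pow_mul, hκdef, div_pow, Real.sq_sqrt hS.rho_pos.le, div_pow]
    norm_num
  have hMle : M ≤ Real.sqrt C₂ * (Real.sqrt 2 * 4) ^ (m + 1) * (|P.γ| * Real.sqrt P.τ) ^ (m + 1)
      * Real.sqrt P.τ * Real.sqrt d * P.ρ ^ (-((m + 1 : ℕ) : ℝ)) := by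
    rw [hMdef, Real.rpow_neg hS.rho_pos.le, Real.rpow_natCast, hκp, div_div_eq_mul_div,
      div_eq_mul_inv, mul_pow (Real.sqrt 2) 4]
    calc Real.sqrt C₂ * |c| ^ (m + 1) * P.q₁ * Real.sqrt d * 4 ^ (m + 1) * (P.ρ ^ (m + 1))⁻¹
        ≤ Real.sqrt C₂ * (Real.sqrt 2 * (|P.γ| * Real.sqrt P.τ)) ^ (m + 1) * Real.sqrt P.τ
            * Real.sqrt d * 4 ^ (m + 1) * (P.ρ ^ (m + 1))⁻¹ := by
          have := hS.rho_pos
          gcongr
      _ = _ := by ring
  have hd : Real.sqrt d ≤ Real.sqrt d + ‖D.c‖ := le_add_of_nonneg_right (norm_nonneg _)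
  calc C₀ * M + C₀ * M = 2 * C₀ * M := by ring
    _ ≤ 2 * C₀ * (Real.sqrt C₂ * (Real.sqrt 2 * 4) ^ (m + 1)
          * (|P.γ| * Real.sqrt P.τ) ^ (m + 1) * Real.sqrt P.τ * (Real.sqrt d + ‖D.c‖)
          * P.ρ ^ (-((m + 1 : ℕ) : ℝ))) := by
        refine mul_le_mul_of_nonneg_left (hMle.trans ?_) (by positivity)
        have := Real.rpow_nonneg hS.rho_pos.le (-((m + 1 : ℕ) : ℝ))
        gcongr
    _ = _ := by ring

end Build

end Vale.Agent.P347.Gamma0
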