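import Vale.Agent.P347.Gamma0.MulCalc
import Vale.Agent.P347.Gamma0.RegHam
import Vale.Agent.P347.Gamma0.Lift

/-!
P347, towards `γ_* = 0`, piece TAME-K: the operator `k = ∫₀^{q₁} DΦ a` of the exact flow and its
transpose are multipliers of every order, with a bound `B q₁`, without loss in the scale `κ`.
-/

namespace Vale.Agent.P347.Gamma0

namespace TameK

open MeasureTheory Sobolev Reg MulCalc Set Filter
open scoped ContDiff RealInnerProductSpace Topology

attribute [local irreducible] G nW psi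

variable {d : ℕ} {κ : ℝ}

/-- The matrix of a field of operators, rows the argument. -/
noncomputable def ent (T : E d → E d →L[ℝ] E d) (j i : Fin d) (w : E d) : ℝ := T w (bv j) i

lemma smoOn_ent {I : Set ℝ} {T : ℝ → E d → E d →L[ℝ] E d}
    (hT : ContDiffOn ℝ ∞ (fun p : ℝ × E d => T p.1 p.2) (I ×ˢ univ)) :
    SmoOn I fun s => ent (T s) := fun j i =>
  (EuclideanSpace.proj (𝕜 := ℝ) i).contDiff.comp_contDiffOn
    (hT.clm_apply contDiffOn_const)

/-- `∫ L e^{2 L (b - s)}`. -/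
lemma integral_weight (L q b : ℝ) :
    ∫ s in q..b, L * Real.exp (2 * L * (b - s)) = (Real.exp (2 * L * (b - q)) - 1) / 2 := by
  have h : ∀ s ∈ uIcc q b, HasDerivAt (fun u => -(Real.exp (2 * L * (b - u)) / 2))
      (L * Real.exp (2 * L * (b - s))) s := fun s _ => by
    have := ((((hasDerivAt_id s).const_sub b).const_mul (2 * L)).exp.div_const 2).neg
    refine this.congr_deriv ?_
    simp only [id]
    ring
  rw [intervalIntegral.integral_eq_sub_of_hasDerivAt h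
    ((by fun_prop : Continuous fun s => L * Real.exp (2 * L * (b - s))).intervalIntegrable q b)]
  simp
  ring

/-- A linear integral equation bounds every scaled derivative, whatever the a priori bound. -/
lemma bootstrap {β γ : Type} [Fintype β] [Fintype γ] [DecidableEq β] {I : Set ℝ} (hI : IsOpen I)
    {b L : ℝ} (hb : 0 ≤ b) (hsub : Icc 0 b ⊆ I) (hL : 0 ≤ L) {M N : ℝ → β → γ → E d → ℝ}
    {A : β → γ → ℝ} (hA : OpLe A 1) (hM : SmoOn I M) (hN : SmoOn I N) (m : ℕ) (x : E d)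
    (hstep : ∀ s ∈ Icc 0 b, ∀ B : ℝ, 0 ≤ B → MulAt κ m (M s) B x → MulAt κ m (N s) (L * B) x)
    (heq : ∀ q ∈ Icc 0 b, M q = fun i j w => A i j + ∫ s in q..b, N s i j w) :
    ∀ q ∈ Icc 0 b, MulAt κ m (M q) (3 * Real.exp (2 * L * b)) x := by
  obtain ⟨P0, hP0, hP0b⟩ := exists_mulAt (κ := κ) hI isCompact_Icc hsub x m hM
  have key : ∀ n, ∃ P, 0 ≤ P ∧ P ≤ 2 + P0 / 2 ^ n ∧
      ∀ q ∈ Icc 0 b, MulAt κ m (M q) (P * Real.exp (2 * L * (b - q))) x := by
    intro n
    induction n with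
    | zero =>
      refine ⟨P0, hP0, by simp, fun q hq => MulAt.mono hP0 ?_ m (hP0b q hq)⟩
      exact le_mul_of_one_le_right hP0 (Real.one_le_exp (by nlinarith [hq.2]))
    | succ n ih =>
      obtain ⟨P, hP, hPle, hPb⟩ := ih
      refine ⟨1 + P / 2, by linarith, ?_, fun q hq => ?_⟩
      · rw [pow_succ]
        have : P0 / 2 ^ n / 2 = P0 / (2 ^ n * 2) := div_div _ _ _
        linarith
      · have hs : Icc q b ⊆ Icc 0 b := Icc_subset_Icc_left hq.1
        have hint := MulAt.intM_var (κ := κ) hI hq.2 (hs.trans hsub)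
          (Bf := fun s => L * (P * Real.exp (2 * L * (b - s))))
          (by fun_prop : Continuous fun s => L * (P * Real.exp (2 * L * (b - s)))).continuousOn
          (fun s _ => by positivity) m hN
          (fun s hsq => hstep s (hs hsq) _ (by positivity) (hPb s (hs hsq)))
        have e : ∫ s in q..b, L * (P * Real.exp (2 * L * (b - s)))
            = P * ((Real.exp (2 * L * (b - q)) - 1) / 2) := by
          rw [← integral_weight, ← intervalIntegral.integral_const_mul]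
          congr 1
          funext s
          ring
        rw [e] at hint
        have h1 : (1 : ℝ) ≤ Real.exp (2 * L * (b - q)) := Real.one_le_exp (by nlinarith [hq.2])
        have hcd : ∀ i j, ContDiff ℝ ∞ fun w => ∫ s in q..b, N s i j w := fun i j =>
          contDiff_infty.2 fun k => contDiff_intervalIntegral hI
            (by rw [uIcc_of_le hq.2]; exact hs.trans hsub) k
            (fun p : ℝ × E d => N p.1 i j p.2) (hN i j)
        rw [heq q hq]
        refine MulAt.mono (by nlinarith) ?_ m (MulAt.add zero_le_one (by nlinarith) m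
          (M := fun i j (_ : E d) => A i j) (N := fun i j w => ∫ s in q..b, N s i j w)
          (fun i j => contDiff_const) hcd (mulAt_const hA m x) hint)
        nlinarith
  obtain ⟨n, hn⟩ := pow_unbounded_of_one_lt P0 (one_lt_two (α := ℝ))
  obtain ⟨P, hP, hPle, hPb⟩ := key n
  have hn' : P0 / 2 ^ n ≤ 1 := (div_le_one (by positivity)).2 hn.le
  intro q hq
  refine MulAt.mono (by positivity) ?_ m (hPb q hq)
  refine mul_le_mul (by linarith) (Real.exp_le_exp.2 ?_) (Real.exp_pos _).le (by norm_num)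
  nlinarith [hq.1]

/-- Bounded scaled derivatives of every order make a field tame. -/
lemma norm_iteratedFDeriv_le_of_mulBound {γ : Type} [Fintype γ] [DecidableEq γ] {B : ℝ}
    (hκ : 0 < κ) (hB : 0 ≤ B) (m : ℕ) : ∀ {β : Type} [Fintype β] {M : β → γ → E d → ℝ},
      (∀ b c, ContDiff ℝ ∞ (M b c)) → MulBound κ m M B →
        ∀ b c x, ‖iteratedFDeriv ℝ m (M b c) x‖ ≤ (d / κ) ^ m * B := by
  have entry : ∀ {β : Type} [Fintype β] {A : β → γ → ℝ}, OpLe A B → ∀ b c, |A b c| ≤ B := by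
    intro β _ A h b c
    have h1 := h (Pi.single c 1)
    simp [Pi.single_apply, apply_ite (· ^ 2)] at h1
    have h2 := (Finset.single_le_sum (f := fun b => A b c ^ 2) (fun b _ => sq_nonneg _)
      (Finset.mem_univ b)).trans h1
    exact abs_le_of_sq_le_sq h2 hB
  induction m with
  | zero =>
    intro β _ M _ h b c x
    rw [norm_iteratedFDeriv_zero, Real.norm_eq_abs, pow_zero, one_mul]
    exact entry (h x) b c
  | succ m ih =>
    intro β _ M hM h b c x
    have hpd : ∀ i, ContDiff ℝ ∞ (Sobolev.pd i (M b c)) := fun i =>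
      ((hM b c).fderiv_right (by simp)).clm_apply contDiff_const
    have hb : ∀ i, ‖iteratedFDeriv ℝ m (Sobolev.pd i (M b c)) x‖ ≤ κ⁻¹ * ((d / κ) ^ m * B) := by
      intro i
      have h1 := ih (M := dMul κ M)
        (fun p c => contDiff_const.mul (((hM p.1 c).fderiv_right (by simp)).clm_apply
          contDiff_const)) h.2 (b, i) c x
      have e : dMul κ M (b, i) c = fun y => κ • Sobolev.pd i (M b c) y := rfl
      rw [e, iteratedFDeriv_const_smul_apply' ((hpd i).of_le (by exact_mod_cast le_top)).contDiffAt,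
        norm_smul, Real.norm_eq_abs, abs_of_pos hκ] at h1
      rw [le_inv_mul_iff₀ hκ]
      exact h1
    have e : fderiv ℝ (M b c)
        = fun y => ∑ i, Sobolev.pd i (M b c) y • EuclideanSpace.proj (𝕜 := ℝ) i := by
      funext y
      ext u
      conv_lhs => rw [← (EuclideanSpace.basisFun (Fin d) ℝ).sum_repr u]
      simp [Sobolev.pd, mul_comm]
    rw [← norm_iteratedFDeriv_fderiv, e]
    have hS : ∀ i, ContDiff ℝ ∞ fun y => Sobolev.pd i (M b c) y • EuclideanSpace.proj (𝕜 := ℝ) i :=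
      fun i => (hpd i).smul contDiff_const
    rw [iteratedFDeriv_fun_sum_apply
      (fun i _ => ((hS i).of_le (by exact_mod_cast le_top)).contDiffAt)]
    refine (norm_sum_le _ _).trans ((Finset.sum_le_sum fun i _ =>
      (?_ : _ ≤ κ⁻¹ * ((d / κ) ^ m * B))).trans_eq ?_)
    · have hc : (fun y => Sobolev.pd i (M b c) y • EuclideanSpace.proj (𝕜 := ℝ) i)
          = ContinuousLinearMap.smulRight (ContinuousLinearMap.id ℝ ℝ)
              (EuclideanSpace.proj (𝕜 := ℝ) i) ∘ Sobolev.pd i (M b c) := rfl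
      rw [hc]
      refine (ContinuousLinearMap.norm_iteratedFDeriv_comp_left _ (hpd i).contDiffAt
        (by exact_mod_cast le_top)).trans ?_
      refine (mul_le_of_le_one_left (norm_nonneg _) ?_).trans (hb i)
      rw [ContinuousLinearMap.norm_smulRight_apply]
      refine mul_le_one₀ ContinuousLinearMap.norm_id_le (norm_nonneg _) ?_
      exact ContinuousLinearMap.opNorm_le_bound _ zero_le_one fun u => by
        simpa using PiLp.norm_apply_le u i
    · rw [Finset.sum_const, Finset.card_univ, Fintype.card_fin, nsmul_eq_mul, pow_succ]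
      field_simp

/-- Bounded scaled derivatives of every order make a field tame. -/
lemma tame_of_mulBound {β γ : Type} [Fintype β] [Fintype γ] [DecidableEq γ]
    {M : β → γ → E d → ℝ} (hM : ∀ b c, ContDiff ℝ ∞ (M b c)) (hκ : 0 < κ)
    (h : ∀ m, ∃ B, 0 ≤ B ∧ MulBound κ m M B) (b : β) (c : γ) : Tame (M b c) := by
  refine ⟨hM b c, fun m => ?_⟩
  obtain ⟨B, hB, hm⟩ := h m
  exact ⟨0, (d / κ) ^ m * B, fun x => by
    simpa using norm_iteratedFDeriv_le_of_mulBound hκ hB m hM hm b c x⟩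

/-! ### The flow -/

variable {D : Data d} (X : ExFlow D) {q₁ : ℝ}

/-- The derivative of the flow from `q₁` down to `s`. -/
noncomputable def kd (q₁ s : ℝ) (w : E d) : E d →L[ℝ] E d := fderiv ℝ (X.Φ q₁ s) w

/-- The derivative of the flow from `s` up to `q₁`, seen from `q₁`. -/
noncomputable def pu (q₁ s : ℝ) (w : E d) : E d →L[ℝ] E d :=
  fderiv ℝ (X.Φ s q₁) (X.Φ q₁ s w)

/-- The Hessian seen from `q₁`. -/
noncomputable def af (q₁ s : ℝ) (w : E d) : E d →L[ℝ] E d := D.aq s (X.Φ q₁ s w)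

lemma pu_comp_kd (h1 : q₁ ∈ D.I) {s : ℝ} (hs : s ∈ D.I) (w : E d) :
    (pu X q₁ s w).comp (kd X q₁ s w) = ContinuousLinearMap.id ℝ (E d) := by
  have e : X.Φ s q₁ ∘ X.Φ q₁ s = id := funext fun z => by
    simp [X.flow.trans q₁ h1 s hs q₁ h1, X.flow.refl q₁ h1]
  rw [pu, kd, ← fderiv_comp w ((X.flow.smooth s hs q₁ h1).differentiable (by simp) _)
    ((X.flow.smooth q₁ h1 s hs).differentiable (by simp) _), e, fderiv_id]

lemma kd_comp_pu (h1 : q₁ ∈ D.I) {s : ℝ} (hs : s ∈ D.I) (w : E d) :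
    (kd X q₁ s w).comp (pu X q₁ s w) = ContinuousLinearMap.id ℝ (E d) := by
  have e : X.Φ q₁ s ∘ X.Φ s q₁ = id := funext fun z => by
    simp [X.flow.trans s hs q₁ h1 s hs, X.flow.refl s hs]
  have h := fderiv_comp (X.Φ q₁ s w) ((X.flow.smooth q₁ h1 s hs).differentiable (by simp) _)
    ((X.flow.smooth s hs q₁ h1).differentiable (by simp) _)
  rw [e, fderiv_id, X.flow.trans q₁ h1 s hs q₁ h1, X.flow.refl q₁ h1] at h
  exact h.symm

lemma kd_self (h1 : q₁ ∈ D.I) (w : E d) : kd X q₁ q₁ w = ContinuousLinearMap.id ℝ (E d) := by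
  rw [kd, show X.Φ q₁ q₁ = id from funext (X.flow.refl q₁ h1), fderiv_id]

lemma pu_self (h1 : q₁ ∈ D.I) (w : E d) : pu X q₁ q₁ w = ContinuousLinearMap.id ℝ (E d) := by
  rw [pu, show X.Φ q₁ q₁ = id from funext (X.flow.refl q₁ h1), fderiv_id]

lemma smooth_kd (h1 : q₁ ∈ D.I) :
    ContDiffOn ℝ ∞ (fun p : ℝ × E d => kd X q₁ p.1 p.2) (D.I ×ˢ univ) := by
  set F : ℝ × E d → E d := fun p => X.Φ q₁ p.1 p.2
  have hF : ContDiffOn ℝ ∞ F (D.I ×ˢ univ) :=
    X.joint.comp (contDiff_const.prodMk (contDiff_fst.prodMk contDiff_snd)).contDiffOn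
      fun p hp => ⟨h1, hp.1, mem_univ _⟩
  have h2 : ContDiffOn ℝ ∞ (fun p => (fderiv ℝ F p).comp
      ((0 : E d →L[ℝ] ℝ).prod (ContinuousLinearMap.id ℝ (E d)))) (D.I ×ˢ univ) :=
    (hF.fderiv_of_isOpen D.isOpen_I (by simp)).clm_comp contDiffOn_const
  refine h2.congr fun p hp => ContinuousLinearMap.ext fun e => ?_
  rw [kd, fderiv_partial (F := F)
    ((hF.contDiffAt (D.isOpen_I.mem_nhds hp)).differentiableAt (by simp)) e]
  simp

lemma smooth_back (h1 : q₁ ∈ D.I) :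
    ContDiffOn ℝ ∞ (fun p : ℝ × E d => (p.1, X.Φ q₁ p.1 p.2)) (D.I ×ˢ univ) :=
  contDiffOn_fst.prodMk
    (X.joint.comp (contDiff_const.prodMk (contDiff_fst.prodMk contDiff_snd)).contDiffOn
      fun p hp => ⟨h1, hp.1, mem_univ _⟩)

lemma smooth_pu (h1 : q₁ ∈ D.I) :
    ContDiffOn ℝ ∞ (fun p : ℝ × E d => pu X q₁ p.1 p.2) (D.I ×ˢ univ) :=
  (X.contDiffOn_DΦ h1).comp (smooth_back X h1) fun p hp => ⟨hp.1, mem_univ _⟩

variable (hP : PostFacts)
include hP

lemma smooth_af (h1 : q₁ ∈ D.I) :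
    ContDiffOn ℝ ∞ (fun p : ℝ × E d => af X q₁ p.1 p.2) (D.I ×ˢ univ) :=
  (ExFlow.contDiffOn_aq hP).comp (smooth_back X h1) fun p hp => ⟨hp.1, mem_univ _⟩

lemma hasDerivAt_kd (h1 : q₁ ∈ D.I) {s : ℝ} (hs : s ∈ D.I) (w : E d) :
    HasDerivAt (fun u => kd X q₁ u w)
      (-((D.ε * s) • (af X q₁ s w).comp (kd X q₁ s w))) s := by
  have hdiff : DifferentiableAt ℝ (fun u => kd X q₁ u w) s :=
    (((smooth_kd X h1).contDiffAt (D.isOpen_I.mem_nhds ⟨hs, mem_univ w⟩)).comp s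
      (f := fun u : ℝ => (u, w)) (contDiff_id.prodMk contDiff_const).contDiffAt).differentiableAt
        (by simp)
  refine hdiff.hasDerivAt.congr_deriv (ContinuousLinearMap.ext fun h => ?_)
  have h2 : HasDerivAt (fun u => kd X q₁ u w h) (deriv (fun u => kd X q₁ u w) s h) s :=
    (ContinuousLinearMap.apply ℝ (E d) h).hasFDerivAt.comp_hasDerivAt s hdiff.hasDerivAt
  have h3 := X.flow.variational q₁ h1 s hs w h
  have hv : HasFDerivAt (D.v s) (-(D.ε • (s • D.aq s (X.Φ q₁ s w)))) (X.Φ q₁ s w) :=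
    ((D.hasFDerivAt_Gq hP hs _).const_smul D.ε).neg
  rw [hv.fderiv] at h3
  rw [h2.unique h3]
  simp [kd, af, smul_smul]

lemma hasDerivAt_pu (h1 : q₁ ∈ D.I) {s : ℝ} (hs : s ∈ D.I) (w : E d) :
    HasDerivAt (fun u => pu X q₁ u w)
      ((D.ε * s) • (pu X q₁ s w).comp (af X q₁ s w)) s := by
  have hdiff : DifferentiableAt ℝ (fun u => pu X q₁ u w) s :=
    (((smooth_pu X h1).contDiffAt (D.isOpen_I.mem_nhds ⟨hs, mem_univ w⟩)).comp s
      (f := fun u : ℝ => (u, w)) (contDiff_id.prodMk contDiff_const).contDiffAt).differentiableAt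
        (by simp)
  refine hdiff.hasDerivAt.congr_deriv ?_
  have hc := (hdiff.hasDerivAt.clm_comp (hasDerivAt_kd X hP h1 hs w))
  have hconst : HasDerivAt (fun u => (pu X q₁ u w).comp (kd X q₁ u w)) 0 s := by
    refine (hasDerivAt_const s (ContinuousLinearMap.id ℝ (E d))).congr_of_eventuallyEq ?_
    filter_upwards [isOpen_Ioo.mem_nhds hs] with u hu
    exact pu_comp_kd X h1 hu w
  have h0 := congrArg (fun T : E d →L[ℝ] E d => T.comp (pu X q₁ s w)) (hc.unique hconst)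
  simp only [ContinuousLinearMap.add_comp, ContinuousLinearMap.comp_assoc,
    ContinuousLinearMap.neg_comp, ContinuousLinearMap.comp_neg, ContinuousLinearMap.smul_comp,
    ContinuousLinearMap.comp_smul, kd_comp_pu X h1 hs, ContinuousLinearMap.comp_id,
    ContinuousLinearMap.zero_comp] at h0
  exact eq_of_sub_eq_zero (by rw [← h0]; module)

omit X hP in
/-- The operator applied through coordinates. -/
lemma apply_sum (T : E d →L[ℝ] E d) (v : E d) (i : Fin d) : T v i = ∑ c, v c * T (bv c) i := by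
  conv_lhs => rw [← (EuclideanSpace.basisFun (Fin d) ℝ).sum_repr v]
  simp [bv]

omit hP in
/-- The integral equation of an entry of a family of operators. -/
lemma entry_eq (h1 : q₁ ∈ D.I) {T T' : ℝ → E d →L[ℝ] E d}
    (hT : ∀ s ∈ D.I, HasDerivAt T (T' s) s) (hT' : ContinuousOn T' D.I)
    (h0 : T q₁ = ContinuousLinearMap.id ℝ (E d)) {q : ℝ} (hq : q ∈ D.I) (j i : Fin d) :
    T q (bv j) i = (if j = i then (1 : ℝ) else 0) + ∫ s in q..q₁, -(T' s (bv j) i) := by
  have hsub : uIcc q q₁ ⊆ D.I := ordConnected_Ioo.uIcc_subset hq h1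
  set L : (E d →L[ℝ] E d) →L[ℝ] ℝ :=
    (EuclideanSpace.proj (𝕜 := ℝ) i).comp (ContinuousLinearMap.apply ℝ (E d) (bv j))
  have h := intervalIntegral.integral_eq_sub_of_hasDerivAt (f := fun s => L (T s))
    (fun s hs => L.hasFDerivAt.comp_hasDerivAt s (hT s (hsub hs)))
    ((L.continuous.comp_continuousOn (hT'.mono hsub)).intervalIntegrable)
  rw [intervalIntegral.integral_neg]
  simp only [L, ContinuousLinearMap.comp_apply, ContinuousLinearMap.apply_apply] at h
  rw [h0] at h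
  change ∫ s in q..q₁, T' s (bv j) i = _ - T q (bv j) i at h
  rw [h]
  simp [bv, eq_comm]

omit hP in
lemma continuousOn_slice {F : ℝ → E d → E d →L[ℝ] E d}
    (hF : ContDiffOn ℝ ∞ (fun p : ℝ × E d => F p.1 p.2) (D.I ×ˢ univ)) (w : E d) :
    ContinuousOn (fun s => F s w) D.I :=
  hF.continuousOn.comp (f := fun s : ℝ => (s, w))
    (continuous_id.prodMk continuous_const).continuousOn fun s hs => ⟨hs, mem_univ _⟩

/-- Integral equation of the backward derivative. -/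
lemma kd_eq (h1 : q₁ ∈ D.I) {q : ℝ} (hq : q ∈ D.I) :
    ent (kd X q₁ q) = fun j i w => (if j = i then (1 : ℝ) else 0)
      + ∫ s in q..q₁, (D.ε * s) * ∑ c, ent (kd X q₁ s) j c w * ent (af X q₁ s) c i w := by
  funext j i w
  rw [ent, entry_eq h1 (T := fun s => kd X q₁ s w) (fun s hs => hasDerivAt_kd X hP h1 hs w)
    ((((continuous_const.mul continuous_id).continuousOn).smul
      ((continuousOn_slice (smooth_af X hP h1) w).clm_comp
        (continuousOn_slice (smooth_kd X h1) w))).neg) (kd_self X h1 w) hq j i]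
  congr 1
  refine intervalIntegral.integral_congr fun s _ => ?_
  simp only [neg_apply, PiLp.neg_apply, neg_neg, smul_apply, ContinuousLinearMap.comp_apply,
    PiLp.smul_apply, smul_eq_mul, ent]
  rw [apply_sum]

/-- Integral equation of the forward derivative. -/
lemma pu_eq (h1 : q₁ ∈ D.I) {q : ℝ} (hq : q ∈ D.I) :
    ent (pu X q₁ q) = fun j i w => (if j = i then (1 : ℝ) else 0)
      + ∫ s in q..q₁, -(D.ε * s) * ∑ c, ent (af X q₁ s) j c w * ent (pu X q₁ s) c i w := by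
  funext j i w
  rw [ent, entry_eq h1 (T := fun s => pu X q₁ s w) (fun s hs => hasDerivAt_pu X hP h1 hs w)
    (((continuous_const.mul continuous_id).continuousOn).smul
      ((continuousOn_slice (smooth_pu X h1) w).clm_comp
        (continuousOn_slice (smooth_af X hP h1) w))) (pu_self X h1 w) hq j i]
  congr 1
  refine intervalIntegral.integral_congr fun s _ => ?_
  simp only [smul_apply, ContinuousLinearMap.comp_apply, PiLp.smul_apply, smul_eq_mul, ent]
  rw [apply_sum, neg_mul]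

/-- The Hessian is symmetric. -/
lemma ent_af_symm {s : ℝ} (hs : s ∈ D.I) (j c : Fin d) (w : E d) :
    ent (af X q₁ s) j c w = ent (af X q₁ s) c j w := by
  simp only [ent, af]
  rw [← DeltaAux.inner_bv (D.aq s _ (bv j)) c, D.fderiv_Gq_symm hP hs _ (bv j) (bv c),
    DeltaAux.inner_bv]

/-- Integral equation of the transpose of the forward derivative. -/
lemma puT_eq (h1 : q₁ ∈ D.I) {q : ℝ} (hq : q ∈ D.I) :
    (fun i j w => ent (pu X q₁ q) j i w) = fun i j w => (if i = j then (1 : ℝ) else 0)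
      + ∫ s in q..q₁, -(D.ε * s) * ∑ c, ent (pu X q₁ s) c i w * ent (af X q₁ s) c j w := by
  funext i j w
  rw [congrFun (congrFun (congrFun (pu_eq X hP h1 hq) j) i) w]
  refine congrArg₂ (· + ·) (if_congr eq_comm rfl rfl) ?_
  refine intervalIntegral.integral_congr fun s hs => ?_
  have hsI : s ∈ D.I := ordConnected_Ioo.uIcc_subset hq h1 hs
  simp only [ent_af_symm X hP hsI j, mul_comm]

omit hP in
lemma smoOn_step {N : ℝ → Fin d → Fin d → E d → ℝ} {R : ℝ → Fin d → Fin d → E d → ℝ}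
    (c₀ : ℝ) (hN : SmoOn D.I N) (hR : SmoOn D.I R) :
    SmoOn D.I fun s j i w => (c₀ * s) * ∑ c, N s j c w * R s c i w := fun j i =>
  (contDiffOn_const.mul contDiffOn_fst).mul (ContDiffOn.sum fun c _ => (hN j c).mul (hR c i))

omit hP in
/-- One step of an integral equation. -/
lemma mulAt_step (m : ℕ) {B A c₀ : ℝ} (hc : |c₀| ≤ 1)
    {N R : Fin d → Fin d → E d → ℝ} (hN : ∀ b c, ContDiff ℝ ∞ (N b c))
    (hR : ∀ b c, ContDiff ℝ ∞ (R b c)) {x : E d} {B₁ B₂ : ℝ} (hB₁ : 0 ≤ B₁) (hB₂ : 0 ≤ B₂)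
    (hNb : MulAt κ m N B₁ x) (hRb : MulAt κ m R B₂ x) (hle : B₁ * B₂ ≤ A * B) :
    MulAt κ m (fun j i w => c₀ * ∑ c, N j c w * R c i w) (2 ^ m * A * B) x := by
  refine MulAt.mono (by positivity) ?_ m (MulAt.smul c₀ m (M := mulM N R) (Smo.mulM hN hR)
    (MulAt.mulM hB₁ hB₂ m hN hR hNb hRb))
  calc |c₀| * (2 ^ m * (B₁ * B₂)) ≤ 1 * (2 ^ m * (B₁ * B₂)) := by gcongr
    _ = 2 ^ m * (B₁ * B₂) := by ring
    _ ≤ 2 ^ m * (A * B) := by gcongr
    _ = _ := by ring

omit X hP in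
lemma abs_coef_le (hτ : D.τ ≤ 1) {s : ℝ} (hs : s ∈ D.I) : |D.ε * s| ≤ 1 := by
  rw [abs_mul, abs_of_nonneg D.ε0]
  refine mul_le_one₀ D.ε1 (abs_nonneg _) ((abs_le.2 ⟨hs.1.le, hs.2.le⟩).trans ?_)
  exact Real.sqrt_le_one.2 hτ

omit X hP in
lemma Icc_sub (h1 : q₁ ∈ D.I) : Icc 0 q₁ ⊆ D.I := fun _ hs =>
  ⟨D.zero_mem.1.trans_le hs.1, hs.2.trans_lt h1.2⟩

/-- From the Hessian along the flow to the derivatives of the flow, at one order. -/
lemma flow_bound (hτ : D.τ ≤ 1) (h1 : q₁ ∈ D.I) (h0 : 0 ≤ q₁) (m : ℕ) {A : ℝ} (hA : 0 ≤ A)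
    (hAb : ∀ s ∈ Icc 0 q₁, MulBound κ m (ent (af X q₁ s)) A) :
    ∀ s ∈ Icc 0 q₁,
      MulBound κ m (ent (kd X q₁ s)) (3 * Real.exp (2 * (2 ^ m * A))) ∧
      MulBound κ m (ent (pu X q₁ s)) (3 * Real.exp (2 * (2 ^ m * A))) ∧
      MulBound κ m (fun i j w => ent (pu X q₁ s) j i w) (3 * Real.exp (2 * (2 ^ m * A))) := by
  set L := 2 ^ m * A
  have hL : 0 ≤ L := by positivity
  have hI : IsOpen D.I := isOpen_Ioo
  have hsub := Icc_sub h1
  have hq1 : q₁ ≤ 1 := h1.2.le.trans (Real.sqrt_le_one.2 hτ)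
  have hexp : 3 * Real.exp (2 * L * q₁) ≤ 3 * Real.exp (2 * L) := by
    have : Real.exp (2 * L * q₁) ≤ Real.exp (2 * L) :=
      Real.exp_le_exp.2 (mul_le_of_le_one_right (by linarith) hq1)
    linarith
  have hid : OpLe (fun b c : Fin d => if b = c then (1 : ℝ) else 0) 1 := opLe_id
  have sk := smoOn_ent (smooth_kd X h1)
  have sp := smoOn_ent (smooth_pu X h1)
  have sa := smoOn_ent (smooth_af X hP h1)
  have spT : SmoOn D.I fun s i j w => ent (pu X q₁ s) j i w := fun i j => sp j i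
  intro s hs
  have sa' : ∀ u ∈ Icc 0 q₁, ∀ x, MulAt κ m (ent (af X q₁ u)) A x := fun u hu x =>
    (mulBound_iff m).1 (hAb u hu) x
  refine ⟨(mulBound_iff m).2 fun x => ?_, (mulBound_iff m).2 fun x => ?_,
    (mulBound_iff m).2 fun x => ?_⟩ <;> refine MulAt.mono (by positivity) hexp m ?_
  · refine bootstrap hI h0 hsub hL hid sk (smoOn_step D.ε sk sa) m x
      (fun u hu B hB hMB => ?_) (fun q hq => kd_eq X hP h1 (hsub hq)) s hs
    exact mulAt_step m (abs_coef_le hτ (hsub hu)) (sk.smo (hsub hu))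
      (sa.smo (hsub hu)) hB hA hMB (sa' u hu x) (mul_comm B A).le
  · refine bootstrap hI h0 hsub hL hid sp (smoOn_step (-D.ε) sa sp) m x
      (fun u hu B hB hMB => ?_) (fun q hq => ?_) s hs
    · exact mulAt_step m (by rw [neg_mul, abs_neg]; exact abs_coef_le hτ (hsub hu))
        (sa.smo (hsub hu)) (sp.smo (hsub hu)) hA hB (sa' u hu x) hMB le_rfl
    · rw [pu_eq X hP h1 (hsub hq)]
      simp only [neg_mul]
  · refine bootstrap hI h0 hsub hL hid spT (smoOn_step (-D.ε) spT sa) m x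
      (fun u hu B hB hMB => ?_) (fun q hq => ?_) s hs
    · exact mulAt_step m (by rw [neg_mul, abs_neg]; exact abs_coef_le hτ (hsub hu))
        (spT.smo (hsub hu)) (sa.smo (hsub hu)) hB hA hMB (sa' u hu x) (mul_comm B A).le
    · rw [puT_eq X hP h1 (hsub hq)]
      simp only [neg_mul]

omit X in
/-- The Hessian along the backward flow, at every order. -/
lemma exists_mulBound_af (hT : TameFact) (m : ℕ) :
    ∃ A : ℝ, 0 ≤ A ∧ ∀ (d : ℕ) (D : Data d), D.τ ≤ 1 → ∀ X : ExFlow D, ∀ q₁ ∈ D.I, 0 ≤ q₁ →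
      ∀ κ : ℝ, 0 ≤ κ → κ * q₁ ≤ Real.sqrt (D.r q₁) → ∀ s ∈ Icc 0 q₁,
        MulBound κ m (ent (af X q₁ s)) A := by
  have hκs : ∀ {d : ℕ} (D : Data d) {q₁ κ s : ℝ}, 0 ≤ κ → κ * q₁ ≤ Real.sqrt (D.r q₁) →
      s ∈ Icc 0 q₁ → κ * |s| ≤ Real.sqrt (D.r s) := by
    intro d D q₁ κ s hκ hκq hs
    rw [abs_of_nonneg hs.1]
    refine (mul_le_mul_of_nonneg_left hs.2 hκ).trans (hκq.trans (Real.sqrt_le_sqrt ?_))
    simp only [Data.r]
    nlinarith [hs.1, hs.2]
  induction m with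
  | zero =>
    obtain ⟨C, hC, hCb⟩ := exists_mulBound_a hP hT 0
    refine ⟨C, hC, fun d D hτ X q₁ h1 h0 κ hκ hκq s hs x => ?_⟩
    exact (hCb d D hτ s (Icc_sub h1 hs) κ hκ (hκs D hκ hκq hs)).1 (X.Φ q₁ s x)
  | succ m ih =>
    obtain ⟨A, hA, hAb⟩ := ih
    obtain ⟨C, hC, hCb⟩ := exists_mulBound_a hP hT (m + 1)
    set P := 3 * Real.exp (2 * (2 ^ m * A))
    refine ⟨2 ^ ((m + 1) ^ 2) * (C * P ^ (m + 1)), by positivity, fun d D hτ X q₁ h1 h0 κ hκ hκq s hs => ?_⟩
    have hsI := Icc_sub h1 hs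
    obtain ⟨ha, hat⟩ := hCb d D hτ s hsI κ hκ (hκs D hκ hκq hs)
    have hk := (flow_bound X hP hτ h1 h0 m hA (hAb d D hτ X q₁ h1 h0 κ hκ hκq) s hs).1
    have hP1 : 1 ≤ P := by
      have : 1 ≤ Real.exp (2 * (2 ^ m * A)) := Real.one_le_exp (by positivity)
      linarith
    have e2 : ent (af X q₁ s) = fun b c x =>
        (fun j i w => D.aq s w (bv j) i) b c (X.Φ q₁ s x) := rfl
    rw [e2]
    refine mulBound_comp (M := fun j i w => D.aq s w (bv j) i) (Φ := X.Φ q₁ s)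
      (X.flow.smooth q₁ h1 s hsI) hC hP1 (smo_of_tame hat) (m + 1) ha ?_
    have e : jacT (X.Φ q₁ s) = ent (kd X q₁ s) := by
      funext i j x
      have hd : HasFDerivAt (fun y => X.Φ q₁ s y j)
          ((EuclideanSpace.proj (𝕜 := ℝ) j).comp (fderiv ℝ (X.Φ q₁ s) x)) x :=
        (EuclideanSpace.proj (𝕜 := ℝ) j).hasFDerivAt.comp x
          ((X.flow.smooth q₁ h1 s hsI).differentiable (by simp) x).hasFDerivAt
      simp only [jacT, Sobolev.pd, hd.fderiv]
      rfl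
    rw [e]
    exact hk

omit hP in
/-- The matrix of `kOp` as an integral of products. -/
lemma kOp_ent (hP : PostFacts) (h1 : q₁ ∈ D.I) (j i : Fin d) (w : E d) :
    X.kOp q₁ w (bv j) i
      = ∫ s in (0 : ℝ)..q₁, ∑ c, ent (af X q₁ s) j c w * ent (pu X q₁ s) c i w := by
  have hc : ContinuousOn (fun s => (pu X q₁ s w).comp (af X q₁ s w)) (uIcc 0 q₁) :=
    ((continuousOn_slice (smooth_pu X h1) w).clm_comp
      (continuousOn_slice (smooth_af X hP h1) w)).mono (ExFlow.uIcc_subset h1)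
  set L : (E d →L[ℝ] E d) →L[ℝ] ℝ :=
    (EuclideanSpace.proj (𝕜 := ℝ) i).comp (ContinuousLinearMap.apply ℝ (E d) (bv j))
  have h : L (∫ s in (0 : ℝ)..q₁, X.kOpInt q₁ s w) = ∫ s in (0 : ℝ)..q₁, L (X.kOpInt q₁ s w) :=
    (L.intervalIntegral_comp_comm hc.intervalIntegrable).symm
  refine h.trans (intervalIntegral.integral_congr fun s _ => ?_)
  change fderiv ℝ (X.Φ s q₁) (X.Φ q₁ s w) (D.aq s (X.Φ q₁ s w) (bv j)) i = _
  rw [apply_sum]
  rfl

omit hP X in
/-- TAME-K: `k` and its transpose are multipliers of every order, bounded by `B q₁`. -/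
theorem kOp_mulBound (hP : PostFacts) (hT : TameFact) (m : ℕ) :
    ∃ B : ℝ, 0 ≤ B ∧ ∀ (d : ℕ) (D : Data d), D.τ ≤ 1 → ∀ X : ExFlow D, ∀ q₁ ∈ D.I, 0 ≤ q₁ →
      ∀ κ : ℝ, 0 ≤ κ → κ * q₁ ≤ Real.sqrt (D.r q₁) →
        MulBound κ m (fun j i w => X.kOp q₁ w (bv j) i) (B * q₁) ∧
        MulBound κ m (fun i j w => X.kOp q₁ w (bv j) i) (B * q₁) := by
  obtain ⟨A, hA, hAb⟩ := exists_mulBound_af hP hT m
  set P := 3 * Real.exp (2 * (2 ^ m * A))
  refine ⟨2 ^ m * A * P, by positivity, fun d D hτ X q₁ h1 h0 κ hκ hκq => ?_⟩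
  have hsub := Icc_sub h1
  have hfl := flow_bound X hP hτ h1 h0 m hA (hAb d D hτ X q₁ h1 h0 κ hκ hκq)
  have sp := smoOn_ent (smooth_pu X h1)
  have sa := smoOn_ent (smooth_af X hP h1)
  have spT : SmoOn D.I fun s i j w => ent (pu X q₁ s) j i w := fun i j => sp j i
  have main : ∀ N R : ℝ → Fin d → Fin d → E d → ℝ, SmoOn D.I N → SmoOn D.I R →
      (∀ s ∈ Icc 0 q₁, ∀ x, ∃ B₁ B₂, 0 ≤ B₁ ∧ 0 ≤ B₂ ∧ B₁ * B₂ ≤ A * P ∧
        MulAt κ m (N s) B₁ x ∧ MulAt κ m (R s) B₂ x) →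
      MulBound κ m (fun j i w => ∫ s in (0 : ℝ)..q₁, ∑ c, N s j c w * R s c i w)
        (2 ^ m * A * P * q₁) := by
    intro N R hN hR hb
    refine (mulBound_iff m).2 fun x => ?_
    have h := MulAt.intM_var (κ := κ) (I := D.I) isOpen_Ioo h0 hsub
      (Bf := fun _ => 2 ^ m * A * P) continuousOn_const (fun _ _ => by positivity) (x := x) m
      (M := fun s j i w => ∑ c, N s j c w * R s c i w)
      (fun j i => ContDiffOn.sum fun c _ => (hN j c).mul (hR c i)) (fun s hs => by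
        obtain ⟨B₁, B₂, hB₁, hB₂, hle, hNb, hRb⟩ := hb s hs x
        refine MulAt.mono (by positivity) ?_ m
          (MulAt.mulM hB₁ hB₂ m (hN.smo (hsub hs)) (hR.smo (hsub hs)) hNb hRb)
        rw [mul_assoc (2 ^ m : ℝ)]
        exact mul_le_mul_of_nonneg_left hle (by positivity))
    rwa [intervalIntegral.integral_const, sub_zero, smul_eq_mul, mul_comm q₁] at h
  constructor
  · simp only [kOp_ent X hP h1]
    exact main _ _ sa sp fun s hs x => ⟨A, P, hA, by positivity, le_rfl,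
      (mulBound_iff m).1 (hAb d D hτ X q₁ h1 h0 κ hκ hκq s hs) x,
      (mulBound_iff m).1 (hfl s hs).2.1 x⟩
  · have e : (fun i j w => X.kOp q₁ w (bv j) i) = fun i j w =>
        ∫ s in (0 : ℝ)..q₁, ∑ c, ent (pu X q₁ s) c i w * ent (af X q₁ s) c j w := by
      funext i j w
      rw [kOp_ent X hP h1]
      refine intervalIntegral.integral_congr fun s hs => ?_
      have hsI : s ∈ D.I := ExFlow.uIcc_subset h1 hs
      simp only [ent_af_symm X hP hsI j, mul_comm]
    rw [e]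
    exact main _ _ spT sa fun s hs x => ⟨P, A, by positivity, hA, (mul_comm P A).le,
      (mulBound_iff m).1 (hfl s hs).2.2 x,
      (mulBound_iff m).1 (hAb d D hτ X q₁ h1 h0 κ hκ hκq s hs) x⟩

omit hP in
/-- The entries of `kOp` are smooth with all derivatives of polynomial growth. -/
theorem tame_kOp (hP : PostFacts) (hT : TameFact) (hτ : D.τ ≤ 1) (h1 : q₁ ∈ D.I) (h0 : 0 ≤ q₁)
    (j i : Fin d) : Tame fun w => X.kOp q₁ w (bv j) i := by
  have hr := D.r_pos h1
  have hκ0 : 0 < Real.sqrt (D.r q₁) := Real.sqrt_pos.2 hr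
  have hq1 : q₁ ≤ 1 := h1.2.le.trans (Real.sqrt_le_one.2 hτ)
  refine tame_of_mulBound (M := fun j i w => X.kOp q₁ w (bv j) i) (fun b c => ?_) hκ0
    (fun m => ?_) j i
  · exact (EuclideanSpace.proj (𝕜 := ℝ) c).contDiff.comp
      ((X.contDiff_kOp hP h1).clm_apply contDiff_const)
  · obtain ⟨B, hB, hBb⟩ := kOp_mulBound hP hT m
    exact ⟨B * q₁, mul_nonneg hB h0,
      (hBb d D hτ X q₁ h1 h0 _ hκ0.le (mul_le_of_le_one_right hκ0.le hq1)).1⟩

omit hP X in
/-- TAME-K in the form consumed by the time quadrature of a stage. -/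
theorem kBound (hP : PostFacts) (hT : TameFact) (m : ℕ) :
    ∃ B : ℝ, 0 ≤ B ∧ ∃ ε₀ : ℝ, 0 < ε₀ ∧ ∀ (d : ℕ) (D : Data d), D.τ ≤ 1 → D.ε ≤ ε₀ →
      ∀ X : ExFlow D, ∀ q ∈ D.I, 0 ≤ q → ∀ κ : ℝ, 0 ≤ κ → κ ≤ 1 →
        κ * q ≤ Real.sqrt (D.r q) →
          (∀ j i, Sobolev.Tame fun w => X.kOp q w (bv j) i) ∧
          Sobolev.MulBound κ m (fun j i w => X.kOp q w (bv j) i) (B * q) ∧
          Sobolev.MulBound κ m (fun i j w => X.kOp q w (bv j) i) (B * q) := by
  obtain ⟨B, hB, hb⟩ := kOp_mulBound hP hT m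
  exact ⟨B, hB, 1, one_pos, fun d D hτ _ X q hq h0 κ hκ _ hκq =>
    ⟨fun j i => tame_kOp X hP hT hτ hq h0 j i, hb d D hτ X q hq h0 κ hκ hκq⟩⟩

end TameK

end Vale.Agent.P347.Gamma0
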