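import Vale.Agent.P347.Gamma0.StageAsm
import Vale.Agent.P347.Gamma0.StageEtaPiece
import Vale.Agent.P347.Gamma0.StageFwd
import Vale.Agent.P347.Gamma0.StageLip
import Vale.Agent.P347.Gamma0.StageNodes
import Vale.Agent.P347.Gamma0.StageShape
import Vale.Agent.P347.Gamma0.StageTime
import Vale.Agent.P347.Gamma0.TameK
import Vale.Agent.P347.Gamma0.RegGq
import Vale.Agent.P347.Gamma0.RegApath
import Vale.Agent.P347.Gamma0.RegSys
import Vale.Agent.P347.Gamma0.Flow
import Vale.Agent.P347.Gamma0.PostDeriv

/-!
P347: `γ_* = 0`, assembling the proved bounds on the compiled stage.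
-/

namespace Vale.Agent.P347.Gamma0

/-- Stages of every order exist. -/
theorem templates : Templates :=
  have hG := Reg.regGq postFacts (nwHeat_of_post postFacts) lawTransport tameFact
  Build.templates_of ⟨Build.stage_shape, Build.stage_lip, Build.stage_nodes⟩ (Build.fwdPiece_of hG)
    (Build.timePiece_of fun m => TameK.kBound postFacts tameFact m)
    (Build.etaPiece_of (Reg.regApath postFacts tameFact lawTransport)
      (Reg.regSys postFacts tameFact lawTransport) hG)

end Vale.Agent.P347.Gamma0
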