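import Vale.Agent.P347.Gamma0.StagePar

/-!
P347, towards `γ_* = 0`: the syntactic sizes of the compiled bridge mean of a stage.
-/

namespace Vale.Agent.P347.Gamma0

namespace Expr

variable {ι : Type}

lemma size_fsum : ∀ {n : ℕ} (f : Fin n → Expr ι), (sum f).size = ∑ i, (f i).size
  | 0, f => by simp [sum, size]
  | n + 1, f => by simp [sum, size, size_fsum, Fin.sum_univ_succ]

lemma coef_fsum [DecidableEq ι] (i : ι) :
    ∀ {n : ℕ} (f : Fin n → Expr ι), coef i (sum f) = ∑ k, coef i (f k)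
  | 0, f => by simp [sum, coef]
  | n + 1, f => by simp [sum, coef, coef_fsum, Fin.sum_univ_succ]

lemma lip_fsum [DecidableEq ι] (i : ι) :
    ∀ {n : ℕ} (f : Fin n → Expr ι), lip i (sum f) = ∑ k, lip i (f k)
  | 0, f => by simp [sum, lip]
  | n + 1, f => by simp [sum, lip, lip_fsum, Fin.sum_univ_succ]

lemma offset_fsum : ∀ {n : ℕ} (f : Fin n → Expr ι), (sum f).offset = ∑ i, (f i).offset
  | 0, f => by simp [sum, offset]
  | n + 1, f => by simp [sum, offset, offset_fsum, Fin.sum_univ_succ]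

lemma mem_gates_fsum : ∀ {n : ℕ} (f : Fin n → Expr ι) {p : ℝ × Expr ι},
    p ∈ gates (sum f) → ∃ i, p ∈ gates (f i)
  | 0, f, p, h => by simp [sum, gates] at h
  | n + 1, f, p, h => by
    simp only [sum, gates, List.mem_append] at h
    rcases h with h | h
    · exact ⟨0, h⟩
    · obtain ⟨i, hi⟩ := mem_gates_fsum _ h
      exact ⟨i.succ, hi⟩

end Expr

namespace Build

variable {na : ℕ} {P : Data na} {B : ℝ}

/-- What the fields of `StageShape` about the bridge mean need at one iterate. -/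
structure FwdShape (P : Data na) (B : ℝ) (e : Expr MIn) : Prop where
  coef0 : Expr.coef MIn.ctr e = 0
  size_le : e.size ≤ P.ε * B * Real.sqrt P.τ
  lip_le : ∀ i, Expr.lip i e ≤ (if MIn.seed = i then 1 else 0) + 3 * P.ε * B
  offset_le : e.offset ≤ 2 * P.ε * B
  gate_le : ∀ p ∈ e.gates, P.ρ * P.τ / 8 ≤ p.1 ∧ p.1 ≤ P.τ ∧
    p.2.size ≤ P.ρ ^ (-(2 : ℝ)) * P.ε * Real.sqrt p.1 ∧ Expr.coef MIn.ctr p.2 ≤ 1 ∧
    (∀ i, Expr.lip i p.2 ≤ 3) ∧ p.2.offset ≤ 1

lemma Small.fwd_shape (h : Small P B) :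
    ∀ p o, FwdShape P B (fwd P (.var MIn.ctr) (.var .seed) p o) := by
  have hρ := h.rho_pos
  have hρ1 : P.ρ ≤ 1 := h.rho_le.trans (by norm_num)
  have hB := h.one_le
  have hB0 : 0 ≤ B := by linarith
  have hε := h.eps_pos
  have hB1 : B * P.ρ ≤ 1 := by
    refine le_trans ?_ h.absorb
    gcongr
    exact (by linarith : B ≤ B + 2).trans (le_self_pow₀ (by linarith) (by norm_num))
  have hεB : P.ε * B ≤ 1 / 16 := by
    have h1 : P.ε ≤ P.ρ ^ 64 := by
      refine le_trans ?_ h.small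
      conv_lhs => rw [← Real.rpow_one P.ε]
      exact Real.rpow_le_rpow_of_exponent_ge hε (h.eps_le.trans (by norm_num)) (by norm_num)
    calc P.ε * B ≤ P.ρ ^ 64 * B := by gcongr
      _ = P.ρ ^ 63 * (B * P.ρ) := by ring
      _ ≤ 1 / 16 * 1 := by
          gcongr
          exact (pow_le_of_le_one hρ.le hρ1 (by norm_num)).trans h.rho_le
      _ = _ := mul_one _
  have hτ := h.tau_pos
  have hs1 : Real.sqrt P.τ ≤ 1 := Real.sqrt_le_one.2 h.tau_le
  have hq0 : 0 ≤ P.τ - P.ρ * P.τ / 2 := by nlinarith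
  have hq2 : P.q₂ ≤ 1 := (Real.sqrt_le_sqrt (sub_le_self _ (by positivity))).trans hs1
  have hsum : ∀ o, ∑ j, |P.g₂.W o j| ≤ B := fun o =>
    (h.g₂_ok.sum o).trans (mul_le_of_le_one_right hB0 hq2)
  intro p
  induction p with
  | zero =>
    intro o
    refine ⟨by simp [fwd, Expr.coef], by simp only [fwd, Expr.size]; positivity, fun i => ?_,
      by simp only [fwd, Expr.offset]; positivity, fun q hq => absurd hq (by simp [fwd, Expr.gates])⟩
    simp only [fwd, Expr.lip]
    linarith [mul_nonneg hε.le hB0]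
  | succ p ih =>
    intro o
    have hq : ∀ j, 0 ≤ P.g₂.q j ∧ P.g₂.q j ≤ 1 := fun j =>
      ⟨(h.g₂_ok.pos j).le, (h.g₂_ok.le j).trans hq2⟩
    have hr : ∀ j, P.rs (P.g₂.q j) ≤ P.τ ∧ P.ρ * P.τ / 2 ≤ P.rs (P.g₂.q j) := fun j => by
      have h1 : P.g₂.q j ^ 2 ≤ P.τ - P.ρ * P.τ / 2 := by
        rw [← Real.sq_sqrt hq0]
        exact pow_le_pow_left₀ (hq j).1 (h.g₂_ok.le j) 2
      simp only [Data.rs]
      exact ⟨sub_le_self _ (sq_nonneg _), by linarith⟩
    have harg : ∀ j (i : MIn), |P.g₂.q j| *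
        Expr.lip i (fwd P (.var MIn.ctr) (.var .seed) p (some j))
          ≤ (if MIn.seed = i then 1 else 0) + 1 := fun j i => by
      have h1 := (ih (some j)).lip_le i
      rw [abs_of_nonneg (hq j).1]
      refine (mul_le_mul (hq j).2 le_rfl ?_ zero_le_one).trans ?_
      · exact Expr.lip_nonneg i _
      · linarith
    refine ⟨?_, ?_, fun i => ?_, ?_, fun x hx => ?_⟩
    · simp [fwd, gateAt, Expr.coef, Expr.coef_fsum]
    · simp only [fwd, gateAt, Expr.size, Expr.size_fsum, zero_add]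
      refine (Finset.sum_le_sum (g := fun j => P.ε * |P.g₂.W o j| * Real.sqrt P.τ)
        fun j _ => ?_).trans ?_
      · rw [abs_neg, abs_mul, abs_of_pos hε]
        gcongr
        exact (hr j).1
      · rw [← Finset.sum_mul, ← Finset.mul_sum]
        gcongr
        exact hsum o
    · simp only [fwd, gateAt, Expr.lip, Expr.lip_fsum]
      refine add_le_add le_rfl ((Finset.sum_le_sum (g := fun j => P.ε * |P.g₂.W o j| * 3)
        fun j _ => ?_).trans ?_)
      · rw [abs_neg, abs_mul, abs_of_pos hε]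
        refine mul_le_mul_of_nonneg_left ?_ (by positivity)
        have := harg j i
        rcases i with _ | _ <;> simp at this ⊢ <;> linarith
      · rw [← Finset.sum_mul, ← Finset.mul_sum]
        calc P.ε * (∑ j, |P.g₂.W o j|) * 3 ≤ P.ε * B * 3 := by gcongr; exact hsum o
          _ = _ := by ring
    · simp only [fwd, gateAt, Expr.offset, Expr.offset_fsum, zero_add]
      refine (Finset.sum_le_sum (g := fun j => P.ε * |P.g₂.W o j| * 2) fun j _ => ?_).trans ?_
      · rw [abs_neg, abs_mul, abs_of_pos hε]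
        refine mul_le_mul_of_nonneg_left ?_ (by positivity)
        have h2 : |P.g₂.q j| * (fwd P (.var MIn.ctr) (.var .seed) p (some j)).offset ≤ 1 := by
          rw [abs_of_nonneg (hq j).1]
          calc _ ≤ 1 * (2 * P.ε * B) :=
                mul_le_mul (hq j).2 (ih (some j)).offset_le (Expr.offset_nonneg _) zero_le_one
            _ ≤ 1 := by linarith
        linarith [(Real.sqrt_le_sqrt (hr j).1).trans hs1]
      · rw [← Finset.sum_mul, ← Finset.mul_sum]
        calc P.ε * (∑ j, |P.g₂.W o j|) * 2 ≤ P.ε * B * 2 := by gcongr; exact hsum o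
          _ = _ := by ring
    · simp only [fwd, gateAt, Expr.gates, List.nil_append] at hx
      obtain ⟨j, hj⟩ := Expr.mem_gates_fsum _ hx
      simp only [Expr.gates, List.nil_append, List.mem_cons] at hj
      rcases hj with rfl | hj
      · refine ⟨by linarith [(hr j).2, mul_pos hρ hτ], (hr j).1, ?_, ?_, fun i => ?_, ?_⟩
        · simp only [Expr.size, zero_add]
          have hρτ : P.ρ * Real.sqrt P.τ ≤ Real.sqrt (P.rs (P.g₂.q j)) := by
            refine Real.le_sqrt_of_sq_le ?_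
            rw [mul_pow, Real.sq_sqrt hτ.le]
            have h3 : P.ρ ^ 2 ≤ P.ρ / 2 := by nlinarith [h.rho_le]
            nlinarith [(hr j).2]
          rw [Real.rpow_neg hρ.le, Real.rpow_two, abs_of_nonneg (hq j).1]
          calc P.g₂.q j * (fwd P (.var MIn.ctr) (.var .seed) p (some j)).size
              ≤ 1 * (P.ε * B * Real.sqrt P.τ) :=
                mul_le_mul (hq j).2 (ih (some j)).size_le (Expr.size_nonneg _) zero_le_one
            _ = P.ε * (B * P.ρ) * (P.ρ * Real.sqrt P.τ) * (P.ρ ^ 2)⁻¹ := by field_simp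
            _ ≤ P.ε * 1 * Real.sqrt (P.rs (P.g₂.q j)) * (P.ρ ^ 2)⁻¹ := by gcongr
            _ = _ := by ring
        · simp [Expr.coef, (ih (some j)).coef0]
        · have := harg j i
          simp only [Expr.lip]
          rcases i with _ | _ <;> simp at this ⊢ <;> linarith
        · simp only [Expr.offset, zero_add]
          rw [abs_of_nonneg (hq j).1]
          calc _ ≤ 1 * (2 * P.ε * B) :=
                mul_le_mul (hq j).2 (ih (some j)).offset_le (Expr.offset_nonneg _) zero_le_one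
            _ ≤ 1 := by linarith
      · exact (ih (some j)).gate_le x hj

/-- The fields of `StageShape` about the bridge mean. -/
theorem stage_shape_mean (h : Small P B) {k : ℕ} (hk : 2 ≤ k) :
    Expr.coef MIn.ctr (stage P).mean ≤ 2 ∧
    (stage P).mean.size ≤ P.ρ ^ (-(k : ℝ)) * P.ε * Real.sqrt P.τ ∧
    (∀ i, Expr.lip i (stage P).mean ≤ 2) ∧ (stage P).mean.offset ≤ 2 ∧
    ∀ p ∈ (stage P).mean.gates, P.ρ * P.τ / 8 ≤ p.1 ∧ p.1 ≤ P.τ ∧
      p.2.size ≤ P.ρ ^ (-(k : ℝ)) * P.ε * Real.sqrt p.1 ∧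
      Expr.coef MIn.ctr p.2 ≤ P.ρ ^ (-(k : ℝ)) ∧
      (∀ i, Expr.lip i p.2 ≤ P.ρ ^ (-(k : ℝ))) ∧ p.2.offset ≤ P.ρ ^ (-(k : ℝ)) := by
  have H := h.fwd_shape P.iter none
  have hρ := h.rho_pos
  have hρ1 : P.ρ ≤ 1 := h.rho_le.trans (by norm_num)
  have hτ := h.tau_pos
  have hB := h.one_le
  have hε := h.eps_pos
  have hk2 : P.ρ ^ (-(2 : ℝ)) ≤ P.ρ ^ (-(k : ℝ)) := by
    refine Real.rpow_le_rpow_of_exponent_ge hρ hρ1 ?_
    have : (2 : ℝ) ≤ k := by exact_mod_cast hk
    linarith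
  have h16 : (4 : ℝ) ≤ P.ρ ^ (-(k : ℝ)) := by
    refine le_trans ?_ hk2
    rw [Real.rpow_neg hρ.le, Real.rpow_two, le_inv_comm₀ (by norm_num) (by positivity)]
    nlinarith [h.rho_le]
  have hB1 : B * P.ρ ≤ 1 := by
    refine le_trans ?_ h.absorb
    gcongr
    exact (by linarith : B ≤ B + 2).trans (le_self_pow₀ (by linarith) (by norm_num))
  have hεB : P.ε * B ≤ 1 / 8 := by
    have h1 : P.ε ≤ P.ρ ^ 64 := by
      refine le_trans ?_ h.small
      conv_lhs => rw [← Real.rpow_one P.ε]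
      exact Real.rpow_le_rpow_of_exponent_ge hε (h.eps_le.trans (by norm_num)) (by norm_num)
    calc P.ε * B ≤ P.ρ ^ 64 * B := by gcongr
      _ = P.ρ ^ 63 * (B * P.ρ) := by ring
      _ ≤ 1 / 8 * 1 := by
          gcongr
          exact (pow_le_of_le_one hρ.le hρ1 (by norm_num)).trans (h.rho_le.trans (by norm_num))
      _ = _ := mul_one _
  have hq0 : 0 ≤ P.τ - P.ρ * P.τ / 2 := by nlinarith
  have hl0 : 0 ≤ P.lam := div_nonneg (by nlinarith) hq0
  have hl1 : P.lam ≤ 1 := div_le_one_of_le₀ (by nlinarith) hq0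
  have hq2 : 0 ≤ P.q₂ := Real.sqrt_nonneg _
  have hq21 : P.q₂ ≤ 1 :=
    (Real.sqrt_le_sqrt (sub_le_self _ (by positivity))).trans (Real.sqrt_le_one.2 h.tau_le)
  refine ⟨?_, ?_, fun i => ?_, ?_, fun p hp => ?_⟩
  · simp only [stage, Expr.coef, if_true, H.coef0, mul_zero, add_zero, mul_one,
      abs_of_nonneg hl0, abs_of_nonneg (sub_nonneg.2 hl1)]
    linarith
  · simp only [stage, Expr.size, mul_zero, zero_add, abs_of_nonneg hl0, abs_of_nonneg hq2]
    refine (mul_le_of_le_one_left (mul_nonneg hq2 (Expr.size_nonneg _)) hl1).trans ?_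
    refine ((mul_le_of_le_one_left (Expr.size_nonneg _) hq21).trans H.size_le).trans ?_
    rw [mul_comm P.ε B]
    gcongr
    refine le_trans ?_ hk2
    rw [Real.rpow_neg hρ.le, Real.rpow_two, inv_eq_one_div, le_div_iff₀ (by positivity)]
    calc B * P.ρ ^ 2 = B * P.ρ * P.ρ := by ring
      _ ≤ 1 * 1 := by gcongr
      _ = 1 := one_mul 1
  · have h1 := H.lip_le i
    have h2 : P.q₂ * Expr.lip i (fwd P (.var MIn.ctr) (.var .seed) P.iter none)
        ≤ Expr.lip i (fwd P (.var MIn.ctr) (.var .seed) P.iter none) :=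
      mul_le_of_le_one_left (Expr.lip_nonneg i _) hq21
    simp only [stage, Expr.lip, abs_of_nonneg hl0, abs_of_nonneg hq2,
      abs_of_nonneg (sub_nonneg.2 hl1)]
    have h3 : 0 ≤ P.q₂ * Expr.lip i (fwd P (.var MIn.ctr) (.var .seed) P.iter none) :=
      mul_nonneg hq2 (Expr.lip_nonneg i _)
    have h4 := mul_le_of_le_one_left h3 hl1
    rcases i with _ | _ <;> simp at h1 h2 h4 ⊢ <;> nlinarith
  · simp only [stage, Expr.offset, mul_zero, zero_add, abs_of_nonneg hl0, abs_of_nonneg hq2]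
    refine (mul_le_of_le_one_left (mul_nonneg hq2 (Expr.offset_nonneg _)) hl1).trans ?_
    refine ((mul_le_of_le_one_left (Expr.offset_nonneg _) hq21).trans H.offset_le).trans ?_
    linarith
  · simp only [stage, Expr.gates, List.nil_append] at hp
    obtain ⟨g1, g2, g3, g4, g5, g6⟩ := H.gate_le p hp
    refine ⟨g1, g2, g3.trans (by gcongr), g4.trans (by linarith), fun i => (g5 i).trans (by linarith),
      g6.trans (by linarith)⟩

end Build

end Vale.Agent.P347.Gamma0
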