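import Vale.Agent.P347.Gamma0.StepOut

/-!
P347, towards `γ_* = 0`: the step of the recursion.
-/

namespace Vale.Agent.P347.Gamma0

open MeasureTheory ProbabilityTheory

variable {d T b J na X N n : ℕ} {w₀ ε amp u μ κ τ γ : ℝ} {ι : Type} [Fintype ι]
  {arg : Expr ι} {S : Stage na N}

local instance (m : ℕ) : IsProbabilityMeasure (gam m) := by unfold gam; infer_instance

/-- A bound for `Λ`-Lipschitz tests from one for `1`-Lipschitz tests. -/
lemma abs_le_of_lip_scale {ψ : E d → ℝ} {Lam e : ℝ} (hLam : 0 ≤ Lam) (he : 0 ≤ e)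
    (A : (E d → ℝ) → ℝ) (hA : ∀ c f, A (fun x => c * f x) = c * A f)
    (hlip : ∀ a b, |ψ a - ψ b| ≤ Lam * ‖a - b‖) (h : ∀ f, Lip1 f → |A f| ≤ e) :
    |A ψ| ≤ Lam * e := by
  refine le_of_forall_pos_le_add fun η hη => ?_
  set c := Lam + η / (e + 1) with hc
  have hq : 0 < η / (e + 1) := div_pos hη (by linarith)
  have hc0 : 0 < c := by linarith
  have hl : Lip1 fun x => c⁻¹ * ψ x := LipschitzWith.of_dist_le_mul fun x y => by
    rw [Real.dist_eq, ← mul_sub, abs_mul, abs_inv, abs_of_pos hc0, NNReal.coe_one, one_mul,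
      dist_eq_norm, inv_mul_le_iff₀ hc0]
    exact (hlip x y).trans (mul_le_mul_of_nonneg_right (by linarith) (norm_nonneg _))
  have h1 := h _ hl
  rw [hA, abs_mul, abs_inv, abs_of_pos hc0, inv_mul_le_iff₀ hc0] at h1
  refine h1.trans ?_
  rw [hc, add_mul]
  have : η / (e + 1) * e ≤ η := by
    rw [div_mul_eq_mul_div, div_le_iff₀ (by linarith)]
    nlinarith
  linarith

namespace StepHyp

variable (h : StepHyp d T b J na X N n w₀ ε amp u μ κ τ γ arg S)
include h

/-- The draw from the bridge mean. -/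
lemma draw_mean {PP : ℝ} {eP : ℕ} (hPP : 0 ≤ PP)
    (hP : ∀ (κ' : Type) [Fintype κ'] (arg' : Expr κ') (τ' γ' : ℝ),
      GateInv amp (lvlM amp μ b J (n + 1 - b)) (lvlW X T (n + 1 - b)) arg' τ' γ' →
      Draws d ((X + 5) ^ eP) (gT 1 fun U g x => γ' • Gt U g ε τ' (arg'.val (Gt U g ε) x))
        fun U g x => |γ'| * Real.sqrt τ' * u ^ (n + 1 - b) * PP * gateRef κ ε arg' U g x) :
    Draws (ι := Option ι) d ((X + 5) ^ (2 * T + 5 + eP))
      (gT (S.s ^ 2) fun U g x => S.mean.val (Gt U g ε)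
        (mPoint (arg.val (Gt U g ε) fun i => x (some i)) (x none)))
      fun U g x => 9 * PP * κ * u ^ (n + 1) * Real.sqrt τ *
        (Real.sqrt d + (arg.rad (Gt U g ε) fun i => x (some i))
          + ‖arg.val (Gt U g ε) fun i => x (some i)‖ + ‖x none‖) := by
  set e := Layer.mExpr S arg with he
  have hgate : ∀ p ∈ e.tops, ∀ γ' : ℝ, |γ'| * Real.sqrt p.2.1 ≤ lvlM amp μ b J (n + 1 - b) →
      Draws d ((X + 5) ^ eP) (gT 1 fun U g x => γ' • Gt U g ε p.2.1 (p.2.2.val (Gt U g ε) x))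
        fun U g x => |γ'| * Real.sqrt p.2.1 *
          (u ^ (n + 1 - b) * PP * (Real.sqrt d + 2 * e.rad (Gt U g ε) x)) := by
    intro p hp γ' hγ'
    refine (hP _ _ _ γ' (h.mean_inv hp hγ')).mono le_rfl fun U g _ _ x φ _ => ?_
    simp only [sub_self, abs_zero, add_zero, gateRef]
    rw [mul_assoc _ (u ^ (n + 1 - b)) PP, mul_assoc _ (u ^ (n + 1 - b) * PP)]
    refine mul_le_mul_of_nonneg_left (mul_le_mul_of_nonneg_left ?_ (by
      have := h.par.u_pos; positivity)) (by positivity)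
    obtain ⟨e1, e2⟩ := Expr.le_rad (Gt U g ε) e x (Expr.mem_tops _ hp)
    have hr := Expr.rad_nonneg (Gt U g ε) p.2.2 x
    nlinarith [h.par.kappa_le, h.par.kappa_nonneg]
  have h1 := Draws.expr (ε := ε) e (s := S.s) h.s_pos _ h.mean_budget hgate
  refine h1.mono ?_ ?_
  · have h3 : e.nodes ≤ (X + 5) ^ (2 * T + 4) :=
      (h.nodes_mExpr (Nat.zero_le n)).trans (Nat.pow_le_pow_right (by omega) (by omega))
    have h4 := Nat.mul_le_mul_right ((X + 5) ^ eP) h3
    have h5 : 1 ≤ (X + 5) ^ eP := Nat.one_le_pow _ _ (by omega)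
    have h6 := Nat.mul_le_mul_left ((X + 5) ^ (2 * T + 4)) h5
    rw [← pow_add, mul_one] at *
    have h7 : 1 ≤ (X + 5) ^ (2 * T + 4 + eP) := Nat.one_le_pow _ _ (by omega)
    have h8 : 3 * (X + 5) ^ (2 * T + 4 + eP) ≤ (X + 5) ^ (2 * T + 5 + eP) := by
      rw [show 2 * T + 5 + eP = (2 * T + 4 + eP) + 1 by omega, pow_succ' _ (2 * T + 4 + eP)]
      exact Nat.mul_le_mul_right _ (by omega)
    omega
  intro U g hU hg x φ _
  simp only [gT, he, Layer.val_mExpr, sub_self, abs_zero, add_zero]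
  set v := ‖arg.val (Gt U g ε) fun i => x (some i)‖ with hv
  set R0 := arg.rad (Gt U g ε) fun i => x (some i) with hR0
  have hR : 0 ≤ R0 := Expr.rad_nonneg _ _ _
  have hrad : (Layer.mExpr S arg).rad (Gt U g ε) x
      ≤ R0 + amp * (v + ‖x none‖ + Real.sqrt d) := h.rad_mExpr_le hU hg x
  have hu := h.par.u_pos
  have hM := h.M_pos
  have hv0 : 0 ≤ v := norm_nonneg _
  have hs := Real.sqrt_nonneg (d : ℝ)
  have ha := h.par.amp_ge
  have a1 : Real.sqrt d + 2 * (Layer.mExpr S arg).rad (Gt U g ε) x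
      ≤ 3 * amp * (Real.sqrt d + R0 + v + ‖x none‖) := by
    nlinarith [norm_nonneg (x none)]
  have a2 : amp ^ 2 * lvlM amp μ b J (n + 1) * u ^ (n + 1 - b) ≤ κ * u ^ (n + 1) := by
    refine (mul_le_mul_of_nonneg_right (h.par.small_kappa 2 (n + 1) (by norm_num))
      (pow_nonneg hu.le _)).trans ?_
    rw [mul_assoc, ← pow_add]
    exact mul_le_mul_of_nonneg_left (pow_le_pow_of_le_one hu.le h.par.u_le (by omega))
      h.par.kappa_nonneg
  have hQ : 0 ≤ Real.sqrt d + R0 + v + ‖x none‖ := by positivity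
  calc (Layer.mExpr S arg).size * (u ^ (n + 1 - b) * PP
        * (Real.sqrt d + 2 * (Layer.mExpr S arg).rad (Gt U g ε) x))
      ≤ 3 * amp * lvlM amp μ b J (n + 1) * Real.sqrt τ * (u ^ (n + 1 - b) * PP
        * (3 * amp * (Real.sqrt d + R0 + v + ‖x none‖))) := by
        refine mul_le_mul h.size_mExpr_le (mul_le_mul_of_nonneg_left a1 (by positivity)) ?_
          (by positivity [h.par.amp_pos])
        have := Expr.rad_nonneg (Gt U g ε) (Layer.mExpr S arg) x
        positivity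
    _ = 9 * PP * (amp ^ 2 * lvlM amp μ b J (n + 1) * u ^ (n + 1 - b)) * Real.sqrt τ
        * (Real.sqrt d + R0 + v + ‖x none‖) := by ring
    _ ≤ 9 * PP * (κ * u ^ (n + 1)) * Real.sqrt τ * (Real.sqrt d + R0 + v + ‖x none‖) := by
        gcongr
    _ = _ := by ring

/-- One step of the recursion. -/
lemma step {PP PR : ℝ} {eP eR : ℕ} (hPP : 0 ≤ PP) (hPR : 0 ≤ PR)
    (hP : ∀ (κ' : Type) [Fintype κ'] (arg' : Expr κ') (τ' γ' : ℝ),
      GateInv amp (lvlM amp μ b J (n + 1 - b)) (lvlW X T (n + 1 - b)) arg' τ' γ' →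
      Draws d ((X + 5) ^ eP) (gT 1 fun U g x => γ' • Gt U g ε τ' (arg'.val (Gt U g ε) x))
        fun U g x => |γ'| * Real.sqrt τ' * u ^ (n + 1 - b) * PP * gateRef κ ε arg' U g x)
    (hR : ∀ (κ' : Type) [Fintype κ'] (arg' : Expr κ') (τ' γ' : ℝ),
      GateInv amp (lvlM amp μ b J n) (lvlW X T n) arg' τ' γ' →
      Draws d ((X + 5) ^ eR) (gT 1 fun U g x => γ' • Gt U g ε τ' (arg'.val (Gt U g ε) x))
        fun U g x => |γ'| * Real.sqrt τ' * u ^ n * PR * gateRef κ ε arg' U g x) :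
    Draws (ι := ι) d ((X + 5) ^ (2 * T + 6 + max eP eR))
      (gT 1 fun U g x => γ • Gt U g ε τ (arg.val (Gt U g ε) x))
      fun U g x => |γ| * Real.sqrt τ * u ^ (n + 1)
        * ((w₀ * PR * (2 * na + 5) + 3 * w₀ * PR * (5 + 18 * PP)) + 36 * w₀ * PP + 2 * w₀ + 1)
        * gateRef κ ε arg U g x := by
  have hu := h.par.u_pos
  have hw₀ : 0 ≤ w₀ := zero_le_one.trans h.par.w_ge
  have hκ := h.par.kappa_nonneg
  set cA : ℝ := w₀ * (|γ| * Real.sqrt τ) * u ^ (n + 1) * PR with hcA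
  have hcA0 : 0 ≤ cA := by positivity
  have hb := Draws.bind (ι := Option ι)
    (fun U g x => cA * ((2 * na + 5) * (Real.sqrt d + ‖arg.val (Gt U g ε) fun i => x (some i)‖
      + κ * arg.rad (Gt U g ε) fun i => x (some i))))
    (fun _ _ _ => cA * 3) (fun _ _ _ => 2 * w₀ * |γ|) (h.draw_mean hPP hP) (h.draw_out hPR hR)
    (fun U g _ _ x => ⟨by positivity, by positivity, fun C =>
      le_of_eq (by simp only [cons, Option.elim, hcA]; ring)⟩)
    (fun U g hU hg x φ hφ C C' => by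
      simpa only [cons, Option.elim] using h.outT_sub_le hU hg _ C C' _ hφ)
  have hTint : ∀ U g, Pot U g → g 0 = 0 → ∀ (x : ι → E d) φ, Lip1 φ →
      Integrable (fun w : E d => sm (S.s ^ 2)
        (fun C => outT U g ε γ (u ^ 2 * τ) S (arg.val (Gt U g ε) x) C φ)
        (S.mean.val (Gt U g ε) (mPoint (arg.val (Gt U g ε) x) w))) (gam d) := by
    intro U g hU hg x φ hφ
    set ψ := fun C => outT U g ε γ (u ^ 2 * τ) S (arg.val (Gt U g ε) x) C φ with hψ
    have hl : ∀ a a', |ψ a - ψ a'| ≤ 2 * w₀ * |γ| * ‖a - a'‖ := fun a a' => h.outT_sub_le hU hg _ a a' _ hφ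
    have hc : 0 < 2 * w₀ * |γ| + 1 := by positivity
    have hl1 : Lip1 fun C => (2 * w₀ * |γ| + 1)⁻¹ * ψ C := LipschitzWith.of_dist_le_mul fun a a' => by
      rw [Real.dist_eq, ← mul_sub, abs_mul, abs_inv, abs_of_pos hc, NNReal.coe_one, one_mul,
        dist_eq_norm, inv_mul_le_iff₀ hc]
      exact (hl a a').trans (mul_le_mul_of_nonneg_right (by linarith) (norm_nonneg _))
    have hcm : Continuous fun w : E d => S.mean.val (Gt U g ε) (mPoint (arg.val (Gt U g ε) x) w) := by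
      refine (h.continuous_outVal hU hg S.mean).comp (continuous_pi fun i => ?_)
      cases i <;> simp only [mPoint] <;> fun_prop
    have hN : Integrable (fun w : E d =>
        ‖S.mean.val (Gt U g ε) (mPoint (arg.val (Gt U g ε) x) w)‖) (gam d) := by
      refine ((integrable_const (2 * (‖arg.val (Gt U g ε) x‖ + Real.sqrt d))).add
        ((Mean.integrable_norm d).const_mul 2)).mono' hcm.norm.aestronglyMeasurable
        (ae_of_all _ fun w => ?_)
      have := h.norm_mExpr_le hU hg (cons w x)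
      simp only [Layer.val_mExpr, cons, Option.elim] at this
      simp only [Real.norm_eq_abs, abs_norm, Pi.add_apply]
      linarith
    refine ((integrable_lip (lip_sm hl1 (S.s ^ 2)) hcm.measurable hN).const_mul
      (2 * w₀ * |γ| + 1)).congr (ae_of_all _ fun w => ?_)
    simp only [sm, integral_const_mul, ← mul_assoc, mul_inv_cancel₀ hc.ne', one_mul]
  have hf := hb.fresh (ι := ι) (gam d) (AlgoRun.gen_gam d)
    (f := fun p : E d × (ι → E d) => cons p.1 p.2) measurable_cons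
    (fun U g hU hg x φ hφ => by simpa only [cons, Option.elim] using hTint U g hU hg x φ hφ) ?_
  swap
  · intro U g hU hg x
    simp only [cons, Option.elim]
    have hcm : Continuous fun w : E d =>
        ‖S.mean.val (Gt U g ε) (mPoint (arg.val (Gt U g ε) x) w)‖ := by
      refine ((h.continuous_outVal hU hg S.mean).comp (continuous_pi fun i => ?_)).norm
      cases i <;> simp only [mPoint] <;> fun_prop
    have hN : Integrable (fun w : E d =>
        ‖S.mean.val (Gt U g ε) (mPoint (arg.val (Gt U g ε) x) w)‖) (gam d) := by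
      refine ((integrable_const (2 * (‖arg.val (Gt U g ε) x‖ + Real.sqrt d))).add
        ((Mean.integrable_norm d).const_mul 2)).mono' hcm.aestronglyMeasurable
        (ae_of_all _ fun w => ?_)
      have := h.norm_mExpr_le hU hg (cons w x)
      simp only [Layer.val_mExpr, cons, Option.elim] at this
      simp only [Real.norm_eq_abs, abs_norm, Pi.add_apply]
      linarith
    have hB1 : Integrable (fun w : E d => 9 * PP * κ * u ^ (n + 1) * Real.sqrt τ *
        (Real.sqrt d + arg.rad (Gt U g ε) x + ‖arg.val (Gt U g ε) x‖ + ‖w‖)) (gam d) :=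
      ((integrable_const _).add (Mean.integrable_norm d)).const_mul _
    exact ((integrable_const _).add (((hN.add (integrable_const _)).add hB1).const_mul _)).add
      (hB1.const_mul _)
  refine hf.mono ?_ ?_
  · have h1 : (X + 5) ^ (2 * T + 5 + eP) ≤ (X + 5) ^ (2 * T + 5 + max eP eR) :=
      Nat.pow_le_pow_right (by omega) (by omega)
    have h2 : (X + 5) ^ (2 * T + 5 + eR) ≤ (X + 5) ^ (2 * T + 5 + max eP eR) :=
      Nat.pow_le_pow_right (by omega) (by omega)
    rw [show 2 * T + 6 + max eP eR = (2 * T + 5 + max eP eR) + 1 by omega,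
      pow_succ' _ (2 * T + 5 + max eP eR)]
    refine (Nat.add_le_add h1 h2).trans ?_
    nlinarith [Nat.zero_le X, Nat.zero_le ((X + 5) ^ (2 * T + 5 + max eP eR))]
  intro U g hU hg x φ hφ
  simp only [cons, Option.elim, gT, gateRef]
  set c := arg.val (Gt U g ε) x with hc
  set R0 := arg.rad (Gt U g ε) x with hR0
  set B := Real.sqrt d + ‖c‖ + κ * R0 with hB
  set L := |γ| * Real.sqrt τ with hL
  have hR : 0 ≤ R0 := Expr.rad_nonneg _ _ _
  have hB0 : 0 ≤ B := by positivity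
  have hvB : Real.sqrt d + ‖c‖ ≤ B := by rw [hB]; linarith [mul_nonneg hκ hR]
  set ψ := fun y => outT U g ε γ (u ^ 2 * τ) S c y φ with hψ
  have hl : ∀ a a', |ψ a - ψ a'| ≤ 2 * w₀ * |γ| * ‖a - a'‖ := fun a a' => h.outT_sub_le hU hg _ a a' _ hφ
  -- the accuracy of the bridge mean against the smoothed output
  have e1 : |(∫ R, sm (S.s ^ 2) ψ (S.mean.val (Gt U g ε) (mPoint c R)) ∂gam d)
      - ∫ y, ψ y ∂lawY U ε τ (u ^ 2 * τ) c| ≤ 2 * w₀ * |γ| * (Real.sqrt τ * u ^ T * (Real.sqrt d + ‖c‖)) := by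
    refine abs_le_of_lip_scale (by positivity) (by positivity)
      (fun f => (∫ R, sm (S.s ^ 2) f (S.mean.val (Gt U g ε) (mPoint c R)) ∂gam d)
        - ∫ y, f y ∂lawY U ε τ (u ^ 2 * τ) c) (fun a f => ?_) hl
      (fun f hf => h.acc.mean_acc U g hU hg c f hf)
    simp only [sm, integral_const_mul, mul_sub]
  have e2 : |(∫ y, ψ y ∂lawY U ε τ (u ^ 2 * τ) c) - sm 1 φ (γ • Gt U g ε τ c)|
      ≤ |γ| * Real.sqrt τ * u ^ T * (Real.sqrt d + ‖c‖) := by
    have e3 := h.acc.out_acc U g hU hg c φ hφ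
    simp only [Gt, h.inv.tau_pos, if_true]
    refine le_of_eq_of_le ?_ e3
    congr 2
    refine integral_congr_ae (ae_of_all _ fun y => ?_)
    simp only [hψ, outT, outLaw]
    exact integral_prod _ (h.integrable_outT hU hg c y _ hφ)
  have e4 : u ^ T ≤ u ^ (n + 1) := pow_le_pow_of_le_one hu.le h.par.u_le h.lvl
  have e5 : |(∫ R, sm (S.s ^ 2) ψ (S.mean.val (Gt U g ε) (mPoint c R)) ∂gam d)
      - sm 1 φ (γ • Gt U g ε τ c)| ≤ (2 * w₀ + 1) * L * u ^ (n + 1) * B := by
    refine ((abs_sub_le _ _ _).trans (add_le_add e1 e2)).trans ?_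
    rw [hL]
    have : |γ| * Real.sqrt τ * u ^ T * (Real.sqrt d + ‖c‖)
        ≤ |γ| * Real.sqrt τ * u ^ (n + 1) * B :=
      mul_le_mul (mul_le_mul_of_nonneg_left e4 (by positivity)) hvB (by positivity) (by positivity)
    nlinarith [mul_le_mul_of_nonneg_left this (show (0 : ℝ) ≤ 2 * w₀ by linarith [h.par.w_ge])]
  -- the mean of the errors
  have iw := Mean.integrable_norm d
  have hm : ∀ w : E d, ‖S.mean.val (Gt U g ε) (mPoint c w)‖ ≤ 2 * (‖c‖ + ‖w‖ + Real.sqrt d) := by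
    intro w
    have := h.norm_mExpr_le hU hg (cons w x)
    simpa only [Layer.val_mExpr, cons, Option.elim] using this
  have hs1 : Real.sqrt (S.s ^ 2) ≤ 1 := by
    rw [Real.sqrt_sq h.s_pos.le]
    exact h.shape.s_hi.trans (Real.sqrt_le_one.2 h.inv.tau_le)
  set D := 9 * PP * κ * u ^ (n + 1) * Real.sqrt τ with hD
  have hD0 : 0 ≤ D := by positivity
  have hsq : Real.sqrt τ ≤ 1 := Real.sqrt_le_one.2 h.inv.tau_le
  have hDB : D * (2 * Real.sqrt d + R0 + ‖c‖) ≤ 18 * PP * u ^ (n + 1) * Real.sqrt τ * B := by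
    have hk : κ * (2 * Real.sqrt d + R0 + ‖c‖) ≤ 2 * B := by
      rw [hB]
      nlinarith [h.par.kappa_le, Real.sqrt_nonneg (d : ℝ), norm_nonneg c, mul_nonneg hκ hR]
    rw [hD]
    calc 9 * PP * κ * u ^ (n + 1) * Real.sqrt τ * (2 * Real.sqrt d + R0 + ‖c‖)
        = 9 * PP * u ^ (n + 1) * Real.sqrt τ * (κ * (2 * Real.sqrt d + R0 + ‖c‖)) := by ring
      _ ≤ 9 * PP * u ^ (n + 1) * Real.sqrt τ * (2 * B) :=
          mul_le_mul_of_nonneg_left hk (by positivity)
      _ = _ := by ring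
  have hint : ∫ w, (cA * ((2 * na + 5) * B) + cA * 3 *
        (‖S.mean.val (Gt U g ε) (mPoint c w)‖ + Real.sqrt (S.s ^ 2) * Real.sqrt d
          + D * (Real.sqrt d + R0 + ‖c‖ + ‖w‖))
        + 2 * w₀ * |γ| * (D * (Real.sqrt d + R0 + ‖c‖ + ‖w‖))) ∂gam d
      ≤ cA * ((2 * na + 5) * B) + cA * 3 * (5 * B + 18 * PP * B)
        + 36 * w₀ * (L * u ^ (n + 1) * PP * B) := by
    refine (integral_mono_of_nonneg (ae_of_all _ fun w => by positivity)
      (g := fun w => (cA * ((2 * na + 5) * B) + cA * 3 * (2 * ‖c‖ + 3 * Real.sqrt d)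
        + (cA * 3 + 2 * w₀ * |γ|) * (D * (Real.sqrt d + R0 + ‖c‖)))
        + (cA * 3 * 2 + (cA * 3 + 2 * w₀ * |γ|) * D) * ‖w‖)
      ((integrable_const _).add (iw.const_mul _)) (ae_of_all _ fun w => ?_)).trans ?_
    · have h7 : cA * 3 * (‖S.mean.val (Gt U g ε) (mPoint c w)‖ + Real.sqrt (S.s ^ 2) * Real.sqrt d)
          ≤ cA * 3 * (2 * ‖c‖ + 2 * ‖w‖ + 3 * Real.sqrt d) := by
        refine mul_le_mul_of_nonneg_left ?_ (by positivity)
        linarith [hm w, mul_le_of_le_one_left (Real.sqrt_nonneg (d : ℝ)) hs1]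
      dsimp only
      linarith
    rw [integral_add (integrable_const _) (iw.const_mul _), integral_const_mul, integral_const,
      probReal_univ, one_smul]
    have h6 : (cA * 3 * 2 + (cA * 3 + 2 * w₀ * |γ|) * D) * ∫ w : E d, ‖w‖ ∂gam d
        ≤ (cA * 3 * 2 + (cA * 3 + 2 * w₀ * |γ|) * D) * Real.sqrt d :=
      mul_le_mul_of_nonneg_left (Mean.integral_norm_le d) (by positivity)
    have h8 := mul_le_mul_of_nonneg_left hDB
      (show 0 ≤ cA * 3 + 2 * w₀ * |γ| by positivity)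
    have h9 : cA * 3 * (2 * ‖c‖ + 5 * Real.sqrt d) ≤ cA * 3 * (5 * B) :=
      mul_le_mul_of_nonneg_left (by linarith [norm_nonneg c, hvB]) (by positivity)
    have h10 : cA * 3 * (18 * PP * u ^ (n + 1) * Real.sqrt τ * B) ≤ cA * 3 * (18 * PP * B) := by
      refine mul_le_mul_of_nonneg_left (mul_le_mul_of_nonneg_right ?_ hB0) (by positivity)
      rw [mul_assoc (18 * PP)]
      exact mul_le_of_le_one_right (by positivity)
        (mul_le_one₀ (h.par.u_pow_le _) (Real.sqrt_nonneg _) hsq)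
    rw [hL]
    linarith
  refine (add_le_add hint e5).trans (le_of_eq ?_)
  simp only [hcA, hL]
  ring

end StepHyp

/-- The recursion reaches every level up to `T`. -/
theorem gateDraw_step {T b J na n : ℕ} {w₀ : ℝ} (hw : 1 ≤ w₀) (hn : n + 1 ≤ T)
    (hR : GateDraw T b J na n w₀) (hP : GateDraw T b J na (n + 1 - b) w₀) :
    GateDraw T b J na (n + 1) w₀ := by
  obtain ⟨PR, eR, hPR, hR⟩ := hR
  obtain ⟨PP, eP, hPP, hP⟩ := hP
  refine ⟨(w₀ * PR * (2 * na + 5) + 3 * w₀ * PR * (5 + 18 * PP)) + 36 * w₀ * PP + 2 * w₀ + 1,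
    2 * T + 6 + max eP eR, by positivity [zero_le_one.trans hw], fun d X ε amp u μ κ hp ι _ arg τ γ hi => ?_⟩
  obtain ⟨N, S, hN, hmn, hsn, hsh, hacc⟩ := hp.stages τ γ hi.tau_pos hi.tau_le
    (hi.gain.trans (hp.lvlM_le _))
  exact StepHyp.step ⟨hp, hn, hi, hN, hmn, hsn, hsh, hacc⟩ hPP hPR
    (fun κ' _ a' t' g' h' => hP d X ε amp u μ κ hp κ' a' t' g' h')
    (fun κ' _ a' t' g' h' => hR d X ε amp u μ κ hp κ' a' t' g' h')

theorem gateDraw {T b J na : ℕ} {w₀ : ℝ} (hw : 1 ≤ w₀) (hb : 1 ≤ b) :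
    ∀ n, n ≤ T → GateDraw T b J na n w₀
  | 0, _ => gateDraw_zero T b J na w₀
  | n + 1, h => gateDraw_step hw h (gateDraw hw hb n (by omega))
      (gateDraw hw hb (n + 1 - b) (by omega))
  termination_by n => n
  decreasing_by all_goals omega

end Vale.Agent.P347.Gamma0
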