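import Vale.Agent.P347.Gamma0.Layer

/-!
P347, towards `γ_* = 0`: one stage preserves the invariant of the recursion.
-/

namespace Vale.Agent.P347.Gamma0

variable {d T b J na X N n : ℕ} {w₀ ε amp u μ κ τ γ : ℝ} {ι : Type} [Fintype ι]
  {arg : Expr ι} {S : Stage na N}

/-- The hypotheses of one step. -/
structure StepHyp (d T b J na X N n : ℕ) (w₀ ε amp u μ κ τ γ : ℝ) {ι : Type} [Fintype ι]
    (arg : Expr ι) (S : Stage na N) : Prop where
  par : Par d T b J na X w₀ ε amp u μ κ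
  lvl : n + 1 ≤ T
  inv : GateInv amp (lvlM amp μ b J (n + 1)) (lvlW X T (n + 1)) arg τ γ
  N_le : N ≤ X
  mean_nodes : S.mean.nodes ≤ X
  shift_nodes : ∀ j, (S.shift j).nodes ≤ X
  shape : StageShape S ε amp (|γ| * Real.sqrt τ) τ (u ^ 2) w₀
  acc : StageAccurate d S ε γ τ (u ^ 2) (u ^ T)

namespace StepHyp

variable (h : StepHyp d T b J na X N n w₀ ε amp u μ κ τ γ arg S)
include h

lemma M_pos : 0 < (lvlM amp μ b J (n + 1)) := h.par.lvlM_pos _

lemma eps_le_M : Real.sqrt ε ≤ (lvlM amp μ b J (n + 1)) :=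
  h.par.mu_ge.trans (le_mul_of_one_le_right h.par.mu_pos.le (one_le_pow₀ h.par.one_le_amp))

lemma inv_u_le : 1 / u ≤ amp := by
  refine (pow_le_pow_iff_left₀ (by positivity [h.par.u_pos]) h.par.amp_pos.le two_ne_zero).1 ?_
  refine le_trans ?_ h.par.rho
  rw [div_pow, one_pow]
  exact div_le_div_of_nonneg_right (by norm_num) (by positivity)

lemma scale_le {r : ℝ} (hr : u ^ 2 * τ / 8 ≤ r) : 0 < r ∧ Real.sqrt τ ≤ amp * Real.sqrt r := by
  have hu := h.par.u_pos
  have hτ := h.inv.tau_pos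
  have hr0 : 0 < r := lt_of_lt_of_le (by positivity) hr
  refine ⟨hr0, ?_⟩
  rw [← Real.sqrt_sq h.par.amp_pos.le, ← Real.sqrt_mul (sq_nonneg _)]
  refine Real.sqrt_le_sqrt ?_
  calc τ = 8 / u ^ 2 * (u ^ 2 * τ / 8) := by field_simp
    _ ≤ amp ^ 2 * r := mul_le_mul h.par.rho hr (by positivity) (sq_nonneg _)

/-- A gate of the template, with the argument substituted. -/
lemma gate_ok {r sz co : ℝ} (hr : u ^ 2 * τ / 8 ≤ r) (hr' : r ≤ τ)
    (hsz : sz ≤ amp * (2 * (lvlM amp μ b J (n + 1))) * Real.sqrt r) (hco : co ≤ amp) :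
    0 < r ∧ r ≤ 1 ∧ sz + co * arg.size ≤ amp ^ 4 * (lvlM amp μ b J (n + 1)) * Real.sqrt r := by
  obtain ⟨hr0, hs⟩ := h.scale_le hr
  refine ⟨hr0, hr'.trans h.inv.tau_le, ?_⟩
  have ha := h.par.amp_ge
  have h1 : co * arg.size ≤ amp * (amp * (lvlM amp μ b J (n + 1)) * (amp * Real.sqrt r)) :=
    mul_le_mul hco (h.inv.load.trans (mul_le_mul_of_nonneg_left hs
      (by positivity [h.par.amp_pos, h.M_pos]))) arg.size_nonneg h.par.amp_pos.le
  have h2 : (0 : ℝ) ≤ amp * (lvlM amp μ b J (n + 1)) * Real.sqrt r := by positivity [h.par.amp_pos, h.M_pos]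
  have h3 : (2 : ℝ) + amp ^ 2 ≤ amp ^ 3 := by nlinarith
  nlinarith [mul_le_mul_of_nonneg_right h3 h2]

lemma good_mExpr : Expr.Good (amp ^ 4 * (lvlM amp μ b J (n + 1))) (Layer.mExpr S arg) := by
  intro p hp
  rcases Expr.gates_subst _ _ hp with ⟨q, hq, rfl⟩ | ⟨i, hi⟩
  · obtain ⟨h1, h2, h3, h4, -, -⟩ := h.shape.mean_gates q hq
    have hsz : q.2.size ≤ amp * (2 * (lvlM amp μ b J (n + 1))) * Real.sqrt q.1 := by
      refine h3.trans (mul_le_mul_of_nonneg_right
        (mul_le_mul_of_nonneg_left ?_ h.par.amp_pos.le) (Real.sqrt_nonneg _))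
      have h5 : ε ≤ Real.sqrt ε := Real.le_sqrt_of_sq_le (by nlinarith [h.par.eps_pos, h.par.eps_le])
      linarith [h.eps_le_M, h.M_pos]
    simpa [Layer.size_mExpr] using h.gate_ok h1 h2 hsz h4
  · cases i
    · exact Layer.good_rename _ h.inv.good p hi
    · simp [Layer.mSub, Expr.gates] at hi

lemma good_rArg (j : Fin N) : Expr.Good (amp ^ 4 * (lvlM amp μ b J (n + 1))) (Layer.rArg S arg j) := by
  intro p hp
  rcases Expr.gates_subst _ _ hp with ⟨q, hq, rfl⟩ | ⟨i, hi⟩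
  · simp only [Expr.gates, List.nil_append] at hq
    obtain ⟨h1, h2, h3, h4, -, -⟩ := h.shape.shift_gates j q hq
    have hsz : q.2.size ≤ amp * (2 * (lvlM amp μ b J (n + 1))) * Real.sqrt q.1 :=
      h3.trans (mul_le_mul_of_nonneg_right
        (mul_le_mul_of_nonneg_left (by linarith [h.eps_le_M, h.inv.gain]) h.par.amp_pos.le)
        (Real.sqrt_nonneg _))
    simpa [Layer.size_oSub] using h.gate_ok h1 h2 hsz h4
  · cases i
    · exact Layer.good_rename _ h.inv.good p hi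
    all_goals simp [Layer.oSub, Expr.gates] at hi

lemma nodes_mSub (i : MIn) : (Layer.mSub arg i).nodes ≤ lvlW X T (n + 1) := by
  cases i
  · simpa [Layer.mSub, Layer.nodes_rename] using h.inv.nodes
  · exact Nat.one_le_pow _ _ (by omega)

lemma nodes_oSub (i : OIn na) : (Layer.oSub arg i).nodes ≤ lvlW X T (n + 1) := by
  cases i
  · simpa [Layer.oSub, Layer.nodes_rename] using h.inv.nodes
  all_goals exact Nat.one_le_pow _ _ (by omega)

lemma nodes_mExpr {m : ℕ} (hm : m ≤ n) : (Layer.mExpr S arg).nodes ≤ lvlW X T m :=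
  (Expr.nodes_subst _ h.nodes_mSub _).trans
    ((Nat.mul_le_mul (h.mean_nodes.trans (by omega)) (by omega)).trans (Par.lvlW_step hm h.lvl))

lemma nodes_rArg (j : Fin N) : (Layer.rArg S arg j).nodes ≤ lvlW X T n := by
  refine (Expr.nodes_subst _ h.nodes_oSub _).trans
    ((Nat.mul_le_mul ?_ (by omega)).trans (Par.lvlW_step le_rfl h.lvl))
  have := h.shift_nodes j
  simp only [Expr.nodes]
  omega

lemma nodes_oExpr : (Layer.oExpr S arg γ (u ^ 2 * τ)).nodes ≤ (X + 5) ^ (2 * T + 4) := by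
  have h1 := Layer.nodes_sum_le (M := lvlW X T n + 2)
    (fun j => Expr.smul (S.w j) (Expr.gate (u ^ 2 * τ) (Layer.rArg S arg j))) fun j => by
      have := h.nodes_rArg j
      simp only [Expr.nodes]; omega
  have h2 : N * (lvlW X T n + 3) ≤ X * (lvlW X T n + 3) := Nat.mul_le_mul_right _ h.N_le
  have h3 : 1 ≤ lvlW X T n := Nat.one_le_pow _ _ (by omega)
  have h4 : X * (lvlW X T n + 3) + 10 ≤ (X + 5) * ((X + 5) * lvlW X T n) := by
    nlinarith [Nat.mul_le_mul_left (X ^ 2 + 9 * X + 25) h3]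
  have h5 : (X + 5) * ((X + 5) * lvlW X T n) ≤ (X + 5) ^ (2 * T + 4) := by
    rw [lvlW, ← pow_succ', ← pow_succ']
    exact Nat.pow_le_pow_right (by omega) (by omega)
  simp only [Layer.oExpr, Expr.nodes]
  rw [show lvlW X T n + 2 + 1 = lvlW X T n + 3 from rfl] at h1
  omega

lemma size_mExpr_le : (Layer.mExpr S arg).size ≤ 3 * amp * (lvlM amp μ b J (n + 1)) * Real.sqrt τ := by
  have h5 : ε ≤ (lvlM amp μ b J (n + 1)) :=
    (Real.le_sqrt_of_sq_le (by nlinarith [h.par.eps_pos, h.par.eps_le])).trans h.eps_le_M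
  rw [Layer.mExpr, Layer.size_mExpr]
  have h1 := mul_le_mul h.shape.mean_coef h.inv.load arg.size_nonneg (by norm_num)
  have h2 : amp * ε * Real.sqrt τ ≤ amp * (lvlM amp μ b J (n + 1)) * Real.sqrt τ :=
    mul_le_mul_of_nonneg_right (mul_le_mul_of_nonneg_left h5 h.par.amp_pos.le) (Real.sqrt_nonneg _)
  linarith [h.shape.mean_size]

lemma s_pos : 0 < S.s :=
  lt_of_lt_of_le (by positivity [h.par.u_pos, h.inv.tau_pos]) h.shape.s_lo

/-- The top gates of the bridge mean fit `b` levels below. -/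
lemma mean_budget : (Layer.mExpr S arg).size * Real.sqrt (Layer.mExpr S arg).nodes / S.s
    ≤ lvlM amp μ b J (n + 1 - b) := by
  refine le_trans ?_ (h.par.lvlM_position h.lvl)
  have hu := h.par.u_pos
  have hs : u * Real.sqrt τ / 4 ≤ S.s := by
    simpa [Real.sqrt_mul (sq_nonneg u), Real.sqrt_sq hu.le] using h.shape.s_lo
  have hn : Real.sqrt (Layer.mExpr S arg).nodes ≤ amp := by
    rw [Real.sqrt_le_left h.par.amp_pos.le]
    refine le_trans ?_ h.par.nodes_amp
    have : (Layer.mExpr S arg).nodes ≤ (X + 5) ^ (2 * T + 6) :=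
      (h.nodes_mExpr (Nat.zero_le n)).trans (Nat.pow_le_pow_right (by omega) (by omega))
    exact_mod_cast this
  rw [div_le_iff₀ h.s_pos]
  refine le_trans (mul_le_mul h.size_mExpr_le hn (Real.sqrt_nonneg _)
    (by positivity [h.par.amp_pos, h.M_pos])) ?_
  have h1 : 1 ≤ amp * u := by
    have := h.inv_u_le
    rwa [div_le_iff₀ hu] at this
  have h2 : (0 : ℝ) ≤ amp ^ 2 * (lvlM amp μ b J (n + 1)) * Real.sqrt τ := by positivity [h.M_pos]
  calc 3 * amp * (lvlM amp μ b J (n + 1)) * Real.sqrt τ * amp = 3 * (amp ^ 2 * (lvlM amp μ b J (n + 1)) * Real.sqrt τ) := by ring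
    _ ≤ amp * (amp * u) / 4 * (amp ^ 2 * (lvlM amp μ b J (n + 1)) * Real.sqrt τ) := by
        refine mul_le_mul_of_nonneg_right ?_ h2
        nlinarith [h.par.amp_ge]
    _ = amp ^ 4 * (lvlM amp μ b J (n + 1)) * (u * Real.sqrt τ / 4) := by ring
    _ ≤ _ := mul_le_mul_of_nonneg_left hs (by positivity [h.M_pos])

/-- A top gate of the bridge mean satisfies the invariant `b` levels below. -/
lemma mean_inv {p : ℝ × ℝ × Expr (Option ι)} (hp : p ∈ (Layer.mExpr S arg).tops) {γ' : ℝ}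
    (hγ : |γ'| * Real.sqrt p.2.1 ≤ lvlM amp μ b J (n + 1 - b)) :
    GateInv amp (lvlM amp μ b J (n + 1 - b)) (lvlW X T (n + 1 - b)) p.2.2 p.2.1 γ' := by
  have hg := Expr.mem_tops _ hp
  obtain ⟨h1, h2, h3⟩ := h.good_mExpr p.2 hg
  have hpos := h.par.lvlM_position h.lvl
  have ha := h.par.one_le_amp
  have hM' := h.par.lvlM_pos (n + 1 - b)
  have hb := h.par.b_pos
  refine ⟨h1, h2, hγ, h3.trans (mul_le_mul_of_nonneg_right (hpos.trans
    (le_mul_of_one_le_left hM'.le ha)) (Real.sqrt_nonneg _)), fun q hq => ?_, ?_⟩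
  · have hq' : q ∈ (Layer.mExpr S arg).gates := by
      have : ∀ (e : Expr (Option ι)), p.2 ∈ e.gates → q ∈ e.gates := by
        intro e
        induction e with
        | var j => simp [Expr.gates]
        | zero => simp [Expr.gates]
        | add e₁ e₂ a₁ a₂ =>
          simp only [Expr.gates, List.mem_append]
          exact fun H => H.imp a₁ a₂
        | smul c e a => simpa only [Expr.gates] using a
        | gate r e a =>
          simp only [Expr.gates, List.mem_cons]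
          rintro (H | H)
          · rw [H] at hq; exact Or.inr hq
          · exact Or.inr (a H)
      exact this _ hg
    obtain ⟨g1, g2, g3⟩ := h.good_mExpr q hq'
    exact ⟨g1, g2, g3.trans (mul_le_mul_of_nonneg_right (hpos.trans
      (le_mul_of_one_le_left hM'.le (one_le_pow₀ ha))) (Real.sqrt_nonneg _))⟩
  · have := Expr.nodes_gates _ hg
    have := h.nodes_mExpr (m := n + 1 - b) (by omega)
    omega

lemma out_budget : (Layer.oExpr S arg γ (u ^ 2 * τ)).size
    * Real.sqrt (Layer.oExpr S arg γ (u ^ 2 * τ)).nodes / Real.sqrt (1 / 2)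
    ≤ lvlM amp μ b J n := by
  refine le_trans ?_ (h.inv.gain.trans (h.par.lvlM_residual n))
  have hu := h.par.u_pos
  rw [Layer.size_oExpr, Real.sqrt_mul (sq_nonneg u), Real.sqrt_sq hu.le]
  set K : ℝ := ((Layer.oExpr S arg γ (u ^ 2 * τ)).nodes : ℝ) with hK
  have hn : 2 * w₀ ^ 2 * u ^ 2 * K ≤ 1 := by
    refine le_trans (mul_le_mul_of_nonneg_left ?_ (by positivity)) h.par.nodes_rho
    rw [hK]
    exact_mod_cast h.nodes_oExpr.trans (Nat.pow_le_pow_right (by omega) (by omega))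
  have hw : 0 ≤ w₀ := zero_le_one.trans h.par.w_ge
  have h1 : w₀ * u * Real.sqrt K / Real.sqrt (1 / 2) ≤ 1 := by
    rw [div_le_iff₀ (by positivity), one_mul, show w₀ * u * Real.sqrt K
        = Real.sqrt (w₀ ^ 2 * u ^ 2 * K) by
      rw [Real.sqrt_mul (by positivity), ← mul_pow, Real.sqrt_sq (by positivity)]]
    exact Real.sqrt_le_sqrt (by linarith)
  calc |γ| * (∑ j, |S.w j|) * (u * Real.sqrt τ) * Real.sqrt K / Real.sqrt (1 / 2)
      ≤ |γ| * w₀ * (u * Real.sqrt τ) * Real.sqrt K / Real.sqrt (1 / 2) := by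
        gcongr
        exact h.shape.w_sum
    _ = |γ| * Real.sqrt τ * (w₀ * u * Real.sqrt K / Real.sqrt (1 / 2)) := by ring
    _ ≤ |γ| * Real.sqrt τ * 1 := by gcongr
    _ = _ := mul_one _

/-- A residual gate satisfies the invariant one level below. -/
lemma out_inv (j : Fin N) {γ' : ℝ}
    (hγ : |γ'| * Real.sqrt (u ^ 2 * τ) ≤ lvlM amp μ b J n) :
    GateInv amp (lvlM amp μ b J n) (lvlW X T n) (Layer.rArg S arg j) (u ^ 2 * τ) γ' := by
  have hM := h.par.lvlM_residual n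
  refine ⟨by positivity [h.par.u_pos, h.inv.tau_pos],
    mul_le_one₀ (pow_le_one₀ h.par.u_pos.le h.par.u_le) h.inv.tau_pos.le h.inv.tau_le, hγ, ?_,
    fun q hq => ?_, h.nodes_rArg j⟩
  · rw [Layer.rArg, Layer.size_oSub]
    simp only [Expr.size, Expr.coef, h.shape.shift_coef j, zero_add, reduceCtorEq, if_false,
      zero_mul, add_zero]
    refine (h.shape.shift_size j).trans (mul_le_mul_of_nonneg_right
      (mul_le_mul_of_nonneg_left (h.inv.gain.trans hM) h.par.amp_pos.le) (Real.sqrt_nonneg _))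
  · obtain ⟨g1, g2, g3⟩ := h.good_rArg j q hq
    exact ⟨g1, g2, g3.trans (mul_le_mul_of_nonneg_right
      (mul_le_mul_of_nonneg_left hM (by positivity)) (Real.sqrt_nonneg _))⟩

end StepHyp

end Vale.Agent.P347.Gamma0
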