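import Vale.Agent.P347.Gamma0.StepSem

/-!
P347, towards `γ_* = 0`: the two draws inside one stage.
-/

namespace Vale.Agent.P347.Gamma0

open MeasureTheory ProbabilityTheory

variable {d T b J na X N n : ℕ} {w₀ ε amp u μ κ τ γ : ℝ} {ι : Type} [Fintype ι]
  {arg : Expr ι} {S : Stage na N}

local instance (m : ℕ) : IsProbabilityMeasure (gam m) := by unfold gam; infer_instance

/-- The inputs of the output from the fresh vectors, the numeric point and the older inputs. -/
def outInputs {d na : ℕ} {ι : Type} (p : OutW d na × (Option (Option ι) → E d)) :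
    OIn na ⊕ ι → E d
  | Sum.inl .ctr => 0
  | Sum.inl .pt => p.2 none
  | Sum.inl .noi => p.1.1
  | Sum.inl (.aux k) => p.1.2 k
  | Sum.inr i => p.2 (some (some i))

lemma continuous_outInputs {d na : ℕ} {ι : Type} :
    Continuous (outInputs : OutW d na × (Option (Option ι) → E d) → OIn na ⊕ ι → E d) := by
  refine continuous_pi fun i => ?_
  rcases i with i | i
  · cases i <;> simp only [outInputs]
    · exact continuous_const
    · exact (continuous_apply _).comp continuous_snd
    · exact continuous_fst.comp continuous_fst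
    · exact (continuous_apply _).comp (continuous_snd.comp continuous_fst)
  · simp only [outInputs]
    exact (continuous_apply _).comp continuous_snd

/-- The smoothed output as a function of the numeric point. -/
noncomputable def outT {d na N : ℕ} (U : E d → ℝ) (g : E d → E d) (ε γ r : ℝ) (S : Stage na N)
    (c y : E d) (φ : E d → ℝ) : ℝ :=
  ∫ w : OutW d na, sm (1 / 2) φ (outMean (Gt U g ε) S γ r (oPoint c y w.1 w.2)) ∂outLaw d na

namespace StepHyp

variable (h : StepHyp d T b J na X N n w₀ ε amp u μ κ τ γ arg S)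
include h

section sem

variable {U : E d → ℝ} {g : E d → E d} (hU : Pot U g) (hg : g 0 = 0)
include hU hg

lemma continuous_outVal {κ' : Type} (e : Expr κ') :
    Continuous (e.val (Gt U g ε) : (κ' → E d) → E d) :=
  Expr.continuous_val _ (fun r => (h.par.grad.lip U g hU hg r).continuous) e

lemma outMean_sub_le (c y y' : E d) (w : OutW d na) (r : ℝ) :
    ‖outMean (Gt U g ε) S γ r (oPoint c y w.1 w.2)
      - outMean (Gt U g ε) S γ r (oPoint c y' w.1 w.2)‖ ≤ 2 * w₀ * |γ| * ‖y - y'‖ := by
  simp only [outMean, oPoint, add_sub_add_left_eq_sub, ← smul_sub, ← Finset.sum_sub_distrib,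
    norm_smul, Real.norm_eq_abs]
  have hamp : amp * (|γ| * Real.sqrt τ) ≤ 1 := by
    have := h.par.small_kappa' 1 (n + 1) (by norm_num)
    have := mul_le_mul_of_nonneg_left h.inv.gain h.par.amp_pos.le
    linarith [h.par.kappa_le, pow_one amp]
  have hj : ∀ j, ‖S.w j • (Gt U g ε r (y + (S.shift j).val (Gt U g ε) (oPoint c y w.1 w.2))
      - Gt U g ε r (y' + (S.shift j).val (Gt U g ε) (oPoint c y' w.1 w.2)))‖
      ≤ |S.w j| * (2 * ‖y - y'‖) := fun j => by
    rw [norm_smul, Real.norm_eq_abs]
    refine mul_le_mul_of_nonneg_left ?_ (abs_nonneg _)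
    have e1 := (h.par.grad.lip U g hU hg r).norm_sub_le
      (y + (S.shift j).val (Gt U g ε) (oPoint c y w.1 w.2))
      (y' + (S.shift j).val (Gt U g ε) (oPoint c y' w.1 w.2))
    rw [NNReal.coe_one, one_mul, add_sub_add_comm] at e1
    refine e1.trans ((norm_add_le _ _).trans ?_)
    have e2 := Expr.norm_val_sub_le (Gt U g ε) (h.par.grad.lip U g hU hg) (S.shift j)
      (oPoint c y w.1 w.2) (oPoint c y' w.1 w.2)
    rw [Layer.sum_OIn] at e2
    simp only [oPoint, sub_self, norm_zero, mul_zero, Finset.sum_const_zero, add_zero,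
      zero_add] at e2
    have e3 := mul_le_mul_of_nonneg_right ((h.shape.shift_lip j .pt).trans hamp)
      (norm_nonneg (y - y'))
    linarith
  calc |γ| * ‖∑ j, S.w j • (Gt U g ε r (y + (S.shift j).val (Gt U g ε) (oPoint c y w.1 w.2))
      - Gt U g ε r (y' + (S.shift j).val (Gt U g ε) (oPoint c y' w.1 w.2)))‖
      ≤ |γ| * ∑ j, |S.w j| * (2 * ‖y - y'‖) :=
        mul_le_mul_of_nonneg_left ((norm_sum_le _ _).trans (Finset.sum_le_sum fun j _ => hj j))
          (abs_nonneg _)
    _ ≤ |γ| * (w₀ * (2 * ‖y - y'‖)) := by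
        rw [← Finset.sum_mul]
        gcongr
        exact h.shape.w_sum
    _ = _ := by ring

lemma continuous_outMean (c y : E d) (r : ℝ) :
    Continuous fun w : OutW d na => outMean (Gt U g ε) S γ r (oPoint c y w.1 w.2) := by
  have hc : Continuous fun w : OutW d na => oPoint c y w.1 w.2 := by
    refine continuous_pi fun i => ?_
    cases i <;> simp only [oPoint] <;> fun_prop
  simp only [outMean]
  have h2 : ∀ i, Continuous fun w : OutW d na => oPoint c y w.1 w.2 i := fun i =>
    (continuous_apply i).comp hc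
  refine ((h2 .noi).const_smul (Real.sqrt 2)⁻¹).add ((continuous_finsetSum _ fun j _ =>
    ((h.par.grad.lip U g hU hg r).continuous.comp
      ((h2 .pt).add ((h.continuous_outVal hU hg (S.shift j)).comp hc))).const_smul (S.w j)).const_smul γ)

lemma integrable_outT (c y : E d) (r : ℝ) {φ : E d → ℝ} (hφ : Lip1 φ) :
    Integrable (fun w : OutW d na =>
      sm (1 / 2) φ (outMean (Gt U g ε) S γ r (oPoint c y w.1 w.2))) (outLaw d na) := by
  have hc := h.continuous_outMean hU hg c y r
  refine integrable_lip (lip_sm hφ _) hc.measurable ?_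
  have hb : ∀ w : OutW d na, ‖outMean (Gt U g ε) S γ r (oPoint c y w.1 w.2)‖
      ≤ ‖outMean (Gt U g ε) S γ r (oPoint c y (0 : E d) (fun _ : Fin na => (0 : E d)))‖
        + (1 + |γ| * ∑ j, |S.w j| * ∑ i, Expr.lip i (S.shift j)) * outNorm w := fun w => by
    refine (norm_le_norm_add_norm_sub' _ _).trans (add_le_add le_rfl ?_)
    have hw : ∀ i, ‖oPoint c y w.1 w.2 i - oPoint c y (0 : E d) (fun _ : Fin na => (0 : E d)) i‖ ≤ outNorm w := by
      intro i
      have hk : 0 ≤ ∑ k, ‖w.2 k‖ := by positivity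
      cases i with
      | aux k =>
        simp only [oPoint, sub_zero, outNorm]
        linarith [norm_nonneg w.1,
          Finset.single_le_sum (fun k _ => norm_nonneg (w.2 k)) (Finset.mem_univ k)]
      | _ => simp only [oPoint, sub_zero, sub_self, norm_zero, outNorm]; linarith [norm_nonneg w.1]
    rw [outMean, outMean, add_sub_add_comm, ← smul_sub, ← smul_sub, ← Finset.sum_sub_distrib,
      add_mul, one_mul, mul_assoc]
    refine (norm_add_le _ _).trans (add_le_add ?_ ?_)
    · rw [norm_smul, Real.norm_of_nonneg (by positivity)]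
      refine (mul_le_of_le_one_left (norm_nonneg _) ?_).trans (hw .noi)
      exact inv_le_one_of_one_le₀ (Real.one_le_sqrt.2 (by norm_num))
    · rw [norm_smul, Real.norm_eq_abs]
      refine mul_le_mul_of_nonneg_left ?_ (abs_nonneg _)
      rw [Finset.sum_mul]
      refine (norm_sum_le _ _).trans (Finset.sum_le_sum fun j _ => ?_)
      rw [← smul_sub, norm_smul, Real.norm_eq_abs, mul_assoc]
      refine mul_le_mul_of_nonneg_left ?_ (abs_nonneg _)
      have e1 := (h.par.grad.lip U g hU hg r).norm_sub_le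
        (oPoint c y w.1 w.2 .pt + (S.shift j).val (Gt U g ε) (oPoint c y w.1 w.2))
        (oPoint c y (0 : E d) (fun _ : Fin na => (0 : E d)) .pt
          + (S.shift j).val (Gt U g ε) (oPoint c y (0 : E d) (fun _ : Fin na => (0 : E d))))
      simp only [oPoint, add_sub_add_left_eq_sub, NNReal.coe_one, one_mul] at e1
      refine e1.trans ((Expr.norm_val_sub_le (Gt U g ε) (h.par.grad.lip U g hU hg) _ _ _).trans ?_)
      rw [Finset.sum_mul]
      exact Finset.sum_le_sum fun i _ => mul_le_mul_of_nonneg_left (hw i) (Expr.lip_nonneg i _)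
  exact ((integrable_const _).add ((integrable_outNorm d na).const_mul _)).mono'
    hc.norm.aestronglyMeasurable (ae_of_all _ fun w => by simpa using hb w)

lemma outT_sub_le (c y y' : E d) (r : ℝ) {φ : E d → ℝ} (hφ : Lip1 φ) :
    |outT U g ε γ r S c y φ - outT U g ε γ r S c y' φ| ≤ 2 * w₀ * |γ| * ‖y - y'‖ := by
  rw [outT, outT, ← integral_sub (h.integrable_outT hU hg c y r hφ)
    (h.integrable_outT hU hg c y' r hφ)]
  refine abs_integral_le_integral_abs.trans ?_
  refine (integral_mono ((h.integrable_outT hU hg c y r hφ).sub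
    (h.integrable_outT hU hg c y' r hφ)).abs (integrable_const (2 * w₀ * |γ| * ‖y - y'‖))
    fun w => ?_).trans (by simp)
  have := (lip_sm hφ (1 / 2 : ℝ)).dist_le_mul
    (outMean (Gt U g ε) S γ r (oPoint c y w.1 w.2))
    (outMean (Gt U g ε) S γ r (oPoint c y' w.1 w.2))
  rw [Real.dist_eq, dist_eq_norm, NNReal.coe_one, one_mul] at this
  exact this.trans (h.outMean_sub_le hU hg c y y' w r)

end sem

/-- The residual draw, with the fresh vectors integrated. -/
lemma draw_out {PR : ℝ} {eR : ℕ} (hPR : 0 ≤ PR)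
    (hR : ∀ (κ' : Type) [Fintype κ'] (arg' : Expr κ') (τ' γ' : ℝ),
      GateInv amp (lvlM amp μ b J n) (lvlW X T n) arg' τ' γ' →
      Draws d ((X + 5) ^ eR) (gT 1 fun U g x => γ' • Gt U g ε τ' (arg'.val (Gt U g ε) x))
        fun U g x => |γ'| * Real.sqrt τ' * u ^ n * PR * gateRef κ ε arg' U g x) :
    Draws (ι := Option (Option ι)) d ((X + 5) ^ (2 * T + 5 + eR))
      (fun U g x φ => outT U g ε γ (u ^ 2 * τ) S
        (arg.val (Gt U g ε) fun i => x (some (some i))) (x none) φ)
      fun U g x => w₀ * (|γ| * Real.sqrt τ) * u ^ (n + 1) * PR *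
        ((2 * na + 5) * (Real.sqrt d + ‖arg.val (Gt U g ε) fun i => x (some (some i))‖
          + κ * arg.rad (Gt U g ε) fun i => x (some (some i))) + 3 * ‖x none‖) := by
  set e := Layer.oExpr S arg γ (u ^ 2 * τ) with he
  set Bp : Dep d (OIn na ⊕ ι) ℝ := fun U g x => u ^ n * PR *
    (3 * Real.sqrt d + 2 * ‖arg.val (Gt U g ε) fun i => x (Sum.inr i)‖
      + 3 * ‖x (Sum.inl .pt)‖ + 2 * ‖x (Sum.inl .noi)‖ + 2 * (∑ k, ‖x (Sum.inl (.aux k))‖)
      + κ * arg.rad (Gt U g ε) fun i => x (Sum.inr i)) with hBp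
  have hgate : ∀ p ∈ e.tops, ∀ γ' : ℝ, |γ'| * Real.sqrt p.2.1 ≤ lvlM amp μ b J n →
      Draws d ((X + 5) ^ eR) (gT 1 fun U g x => γ' • Gt U g ε p.2.1 (p.2.2.val (Gt U g ε) x))
        fun U g x => |γ'| * Real.sqrt p.2.1 * Bp U g x := by
    intro p hp γ' hγ'
    obtain ⟨j, hj⟩ := Layer.mem_tops_oExpr S arg hp
    rw [hj] at hγ' ⊢
    refine (hR _ _ _ γ' (h.out_inv j hγ')).mono le_rfl fun U g hU hg x φ _ => ?_
    simp only [sub_self, abs_zero, add_zero, hBp]
    rw [← mul_assoc, ← mul_assoc]
    exact mul_le_mul_of_nonneg_left (h.rArg_ref_le hU hg x j) (by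
      have := h.par.u_pos
      positivity)
  have h1 := Draws.expr (ε := ε) e (s := Real.sqrt (1 / 2)) (by positivity) Bp h.out_budget hgate
  have h2 := h1.fresh (ι := Option (Option ι)) (outLaw d na)
    (AlgoRun.gen_prod (AlgoRun.gen_gam d) (gen_pi d na)) (f := outInputs)
    continuous_outInputs.measurable ?_ ?_
  rotate_left
  · intro U g hU hg x φ hφ
    simp only [gT, he, Layer.val_oExpr, outInputs]
    rw [Real.sq_sqrt (by norm_num)]
    exact h.integrable_outT hU hg _ _ _ hφ
  · intro U g hU hg x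
    simp only [hBp, outInputs]
    refine ((Integrable.add ?_ (integrable_const
      (κ * arg.rad (Gt U g ε) fun i => x (some (some i))))).const_mul (u ^ n * PR)).const_mul _
    refine Integrable.add (Integrable.add (integrable_const (3 * Real.sqrt d
      + 2 * ‖arg.val (Gt U g ε) fun i => x (some (some i))‖ + 3 * ‖x none‖)) ?_) ?_
    · exact ((Mean.integrable_norm d).comp_fst _).const_mul 2
    · exact (integrable_finsetSum _ fun k _ => (integrable_norm_pi d na k).comp_snd _).const_mul 2
  refine h2.mono ?_ ?_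
  · have h3 : e.nodes ≤ (X + 5) ^ (2 * T + 4) := h.nodes_oExpr
    have h4 := Nat.mul_le_mul_right ((X + 5) ^ eR) h3
    have h5 : 1 ≤ (X + 5) ^ eR := Nat.one_le_pow _ _ (by omega)
    have h6 := Nat.mul_le_mul_left ((X + 5) ^ (2 * T + 4)) h5
    rw [← pow_add, mul_one] at *
    have h7 : 1 ≤ (X + 5) ^ (2 * T + 4 + eR) := Nat.one_le_pow _ _ (by omega)
    have h8 : 3 * (X + 5) ^ (2 * T + 4 + eR) ≤ (X + 5) ^ (2 * T + 5 + eR) := by
      rw [show 2 * T + 5 + eR = (2 * T + 4 + eR) + 1 by omega, pow_succ' _ (2 * T + 4 + eR)]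
      exact Nat.mul_le_mul_right _ (by omega)
    omega
  · intro U g hU hg x φ _
    simp only [gT, he, Layer.val_oExpr, outInputs, outT]
    rw [Real.sq_sqrt (by norm_num), sub_self, abs_zero, add_zero]
    have hsz : e.size ≤ w₀ * (|γ| * Real.sqrt τ) * u := by
      rw [he, Layer.size_oExpr, Real.sqrt_mul (sq_nonneg u), Real.sqrt_sq h.par.u_pos.le]
      calc |γ| * (∑ j, |S.w j|) * (u * Real.sqrt τ) ≤ |γ| * w₀ * (u * Real.sqrt τ) := by
            gcongr
            · exact mul_nonneg h.par.u_pos.le (Real.sqrt_nonneg _)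
            · exact h.shape.w_sum
        _ = _ := by ring
    set A : ℝ := 3 * Real.sqrt d + 2 * ‖arg.val (Gt U g ε) fun i => x (some (some i))‖
      + 3 * ‖x none‖ + κ * arg.rad (Gt U g ε) fun i => x (some (some i)) with hA
    have hA0 : 0 ≤ A := by
      have := mul_nonneg h.par.kappa_nonneg
        (Expr.rad_nonneg (Gt U g ε) arg fun i => x (some (some i)))
      positivity
    have hupos := h.par.u_pos
    have hw₀ : 0 ≤ w₀ := zero_le_one.trans h.par.w_ge
    have hint : ∫ w, e.size * Bp U g (outInputs (w, x)) ∂outLaw d na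
        ≤ e.size * (u ^ n * PR * (A + 2 * ((na + 1) * Real.sqrt d))) := by
      have eq1 : ∀ w : OutW d na, Bp U g (outInputs (w, x)) = u ^ n * PR * (A + 2 * outNorm w) :=
        fun w => by simp only [hBp, outInputs, hA, outNorm]; ring
      simp only [eq1]
      rw [integral_const_mul, integral_const_mul, integral_add (integrable_const _)
        ((integrable_outNorm d na).const_mul 2), integral_const_mul]
      have := integral_outNorm_le d na
      have hk : (0 : ℝ) ≤ u ^ n * PR := by positivity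
      refine mul_le_mul_of_nonneg_left (mul_le_mul_of_nonneg_left ?_ hk) e.size_nonneg
      simp only [integral_const, probReal_univ, one_smul]
      linarith
    refine hint.trans ((mul_le_mul_of_nonneg_right hsz (by positivity)).trans (le_of_eq_of_le
      (show _ = w₀ * (|γ| * Real.sqrt τ) * u ^ (n + 1) * PR * (A + 2 * ((na + 1) * Real.sqrt d)) by
        ring) (mul_le_mul_of_nonneg_left ?_ (by positivity))))
    have h9 := norm_nonneg (arg.val (Gt U g ε) fun i => x (some (some i)))
    have h10 := mul_nonneg h.par.kappa_nonneg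
      (Expr.rad_nonneg (Gt U g ε) arg fun i => x (some (some i)))
    have h11 : (0 : ℝ) ≤ na := Nat.cast_nonneg _
    rw [hA]
    nlinarith [mul_nonneg h11 h9, mul_nonneg h11 h10, Real.sqrt_nonneg (d : ℝ)]

end StepHyp

end Vale.Agent.P347.Gamma0
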