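import Vale.Agent.P347.Gamma0.StepInv

/-!
P347, towards `γ_* = 0`: the values occurring in one stage grow linearly in the inputs, and the
two draws of a stage.
-/

namespace Vale.Agent.P347.Gamma0

open MeasureTheory ProbabilityTheory

variable {d T b J na X N n : ℕ} {w₀ ε amp u μ κ τ γ : ℝ} {ι : Type} [Fintype ι]
  {arg : Expr ι} {S : Stage na N}

local instance (m : ℕ) : IsProbabilityMeasure (gam m) := by unfold gam; infer_instance

lemma gen_pi (d : ℕ) : ∀ n : ℕ, AlgoRun.Gen (Measure.pi fun _ : Fin n => gam d)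
  | 0 => ⟨0, fun _ => Fin.elim0, measurable_const, by
      rw [Measure.map_const, measure_univ, one_smul, Measure.pi_of_empty (fun _ : Fin 0 => gam d)]
      congr 1⟩
  | n + 1 => by
    obtain ⟨m, f, hf, e⟩ := AlgoRun.gen_prod (AlgoRun.gen_gam d) (gen_pi d n)
    have hp := (measurePreserving_piFinSuccAbove (fun _ : Fin (n + 1) => gam d) 0).symm
    refine ⟨m, fun x => (MeasurableEquiv.piFinSuccAbove (fun _ : Fin (n + 1) => E d) 0).symm (f x),
      (MeasurableEquiv.measurable _).comp hf, ?_⟩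
    show _ = Measure.map ((MeasurableEquiv.piFinSuccAbove
      (fun _ : Fin (n + 1) => E d) 0).symm ∘ f) (gam m)
    rw [← Measure.map_map (g := (MeasurableEquiv.piFinSuccAbove
      (fun _ : Fin (n + 1) => E d) 0).symm) (MeasurableEquiv.measurable _) hf, ← e]
    exact hp.map_eq.symm

lemma integrable_norm_pi (d n : ℕ) (k : Fin n) :
    Integrable (fun u : Fin n → E d => ‖u k‖) (Measure.pi fun _ : Fin n => gam d) := by
  have h := (measurePreserving_eval (fun _ : Fin n => gam d) k).integrable_comp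
    (g := fun w : E d => ‖w‖) (by fun_prop)
  exact h.2 (Mean.integrable_norm d)

lemma integral_norm_pi_le (d n : ℕ) (k : Fin n) :
    ∫ u : Fin n → E d, ‖u k‖ ∂(Measure.pi fun _ : Fin n => gam d) ≤ Real.sqrt d := by
  have h := (measurePreserving_eval (fun _ : Fin n => gam d) k).map_eq
  have e : ∫ u : Fin n → E d, ‖u k‖ ∂(Measure.pi fun _ : Fin n => gam d)
      = ∫ w, ‖w‖ ∂gam d := by
    conv_rhs => rw [← h]
    exact (integral_map (measurable_pi_apply k).aemeasurable (by fun_prop)).symm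
  exact e.trans_le (Mean.integral_norm_le d)

/-- The fresh vectors of the output of a stage. -/
abbrev OutW (d na : ℕ) := E d × (Fin na → E d)

/-- Their law. -/
noncomputable def outLaw (d na : ℕ) : Measure (OutW d na) :=
  (gam d).prod (Measure.pi fun _ : Fin na => gam d)

instance (d na : ℕ) : IsProbabilityMeasure (outLaw d na) := by unfold outLaw; infer_instance

/-- The total norm of the fresh vectors. -/
noncomputable def outNorm {d na : ℕ} (w : OutW d na) : ℝ := ‖w.1‖ + ∑ k, ‖w.2 k‖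

lemma integrable_outNorm (d na : ℕ) : Integrable (outNorm : OutW d na → ℝ) (outLaw d na) :=
  ((Mean.integrable_norm d).comp_fst _).add
    (integrable_finsetSum _ fun k _ => (integrable_norm_pi d na k).comp_snd _)

lemma integral_outNorm_le (d na : ℕ) :
    ∫ w, outNorm w ∂outLaw d na ≤ (na + 1) * Real.sqrt d := by
  have h1 : Integrable (fun w : OutW d na => ‖w.1‖) (outLaw d na) :=
    (Mean.integrable_norm d).comp_fst _
  have h2 : ∀ k, Integrable (fun w : OutW d na => ‖w.2 k‖) (outLaw d na) := fun k =>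
    (integrable_norm_pi d na k).comp_snd _
  unfold outNorm
  rw [integral_add h1 (integrable_finsetSum _ fun k _ => h2 k),
    integral_finsetSum _ fun k _ => h2 k]
  have e1 : ∫ w : OutW d na, ‖w.1‖ ∂outLaw d na = ∫ z, ‖z‖ ∂gam d := by
    simp [outLaw, integral_fun_fst (fun z : E d => ‖z‖)]
  have e2 : ∀ k, ∫ w : OutW d na, ‖w.2 k‖ ∂outLaw d na ≤ Real.sqrt d := fun k => by
    refine le_trans (le_of_eq ?_) (integral_norm_pi_le d na k)
    simp [outLaw, integral_fun_snd (fun u : Fin na → E d => ‖u k‖)]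
  have e3 := Finset.sum_le_sum fun (k : Fin na) (_ : k ∈ Finset.univ) => e2 k
  simp only [Finset.sum_const, Finset.card_univ, Fintype.card_fin, nsmul_eq_mul] at e3
  linarith [e1.trans_le (Mean.integral_norm_le d)]

namespace StepHyp

variable (h : StepHyp d T b J na X N n w₀ ε amp u μ κ τ γ arg S)
include h

variable {U : E d → ℝ} {g : E d → E d} (hU : Pot U g) (hg : g 0 = 0)
include hU hg

lemma rad_mExpr_le (x : Option ι → E d) :
    (Layer.mExpr S arg).rad (Gt U g ε) x ≤ arg.rad (Gt U g ε) (fun i => x (some i))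
      + amp * (‖arg.val (Gt U g ε) fun i => x (some i)‖ + ‖x none‖ + Real.sqrt d) := by
  have hR := Expr.rad_nonneg (Gt U g ε) arg fun i => x (some i)
  have hA : 0 ≤ amp * (‖arg.val (Gt U g ε) fun i => x (some i)‖ + ‖x none‖ + Real.sqrt d) := by
    positivity [h.par.amp_pos]
  refine Expr.rad_le _ _ _ (by linarith) fun p hp => ?_
  rcases Expr.gates_subst _ _ hp with ⟨q, hq, rfl⟩ | ⟨i, hi⟩
  · obtain ⟨-, -, -, -, h5, h6⟩ := h.shape.mean_gates q hq
    have e1 := Expr.norm_val_le (Gt U g ε) (h.par.grad.lip U g hU hg) (h.par.grad.zero U g hU hg)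
      q.2 fun i => (Layer.mSub arg i).val (Gt U g ε) x
    have n1 : (Layer.mSub arg MIn.ctr).val (Gt U g ε) x
        = arg.val (Gt U g ε) fun i => x (some i) := by
      simp [Layer.mSub, Expr.val_subst, Expr.val]
    have n2 : (Layer.mSub arg MIn.seed).val (Gt U g ε) x = x none := rfl
    rw [Layer.sum_MIn, n1, n2, ← Expr.val_subst] at e1
    have a1 := mul_le_mul_of_nonneg_right (h5 MIn.ctr)
      (norm_nonneg (arg.val (Gt U g ε) fun i => x (some i)))
    have a2 := mul_le_mul_of_nonneg_right (h5 MIn.seed) (norm_nonneg (x none))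
    have a3 := mul_le_mul_of_nonneg_right h6 (Real.sqrt_nonneg d)
    linarith
  · cases i
    · have := (Expr.le_rad (Gt U g ε) _ x hi).1
      rw [Layer.mSub, Layer.rad_rename] at this
      linarith
    · simp [Layer.mSub, Expr.gates] at hi

lemma norm_mExpr_le (x : Option ι → E d) :
    ‖(Layer.mExpr S arg).val (Gt U g ε) x‖
      ≤ 2 * (‖arg.val (Gt U g ε) fun i => x (some i)‖ + ‖x none‖ + Real.sqrt d) := by
  rw [Layer.val_mExpr]
  refine (Expr.norm_val_le (Gt U g ε) (h.par.grad.lip U g hU hg) (h.par.grad.zero U g hU hg)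
    S.mean _).trans ?_
  rw [Layer.sum_MIn]
  simp only [mPoint]
  have a1 := mul_le_mul_of_nonneg_right (h.shape.mean_lip MIn.ctr)
    (norm_nonneg (arg.val (Gt U g ε) fun i => x (some i)))
  have a2 := mul_le_mul_of_nonneg_right (h.shape.mean_lip MIn.seed) (norm_nonneg (x none))
  have a3 := mul_le_mul_of_nonneg_right h.shape.mean_offset (Real.sqrt_nonneg d)
  linarith

/-- The bound for a residual argument in terms of the inputs. -/
lemma rArg_ref_le (x : OIn na ⊕ ι → E d) (j : Fin N) :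
    gateRef κ ε (Layer.rArg S arg j) U g x
      ≤ 3 * Real.sqrt d + 2 * ‖arg.val (Gt U g ε) fun i => x (Sum.inr i)‖
        + 3 * ‖x (Sum.inl .pt)‖ + 2 * ‖x (Sum.inl .noi)‖ + 2 * (∑ k, ‖x (Sum.inl (.aux k))‖)
        + κ * arg.rad (Gt U g ε) fun i => x (Sum.inr i) := by
  set c := arg.val (Gt U g ε) fun i => x (Sum.inr i) with hc
  set S' := ‖c‖ + ‖x (Sum.inl .pt)‖ + ‖x (Sum.inl .noi)‖ + (∑ k, ‖x (Sum.inl (.aux k))‖)
    + Real.sqrt d with hS
  have hS0 : 0 ≤ S' := by positivity
  have hκ := h.par.kappa_nonneg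
  have hLM := h.inv.gain
  have hampM : amp * (lvlM amp μ b J (n + 1)) ≤ 1 := by
    have := h.par.small_kappa' 1 (n + 1) (by norm_num)
    linarith [h.par.kappa_le, pow_one amp]
  have lin : ∀ (t : Expr (OIn na)) (y : OIn na → E d) (A : ℝ), (∀ i, Expr.lip i t ≤ A) →
      t.offset ≤ A → ‖y .ctr‖ = ‖c‖ → y .pt = x (Sum.inl .pt) → y .noi = x (Sum.inl .noi) →
      (∀ k, y (.aux k) = x (Sum.inl (.aux k))) →
      ‖t.val (Gt U g ε) y‖ ≤ A * S' := by
    intro t y A hA hoff h0 h1 h2 h3
    refine (Expr.norm_val_le (Gt U g ε) (h.par.grad.lip U g hU hg) (h.par.grad.zero U g hU hg)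
      t y).trans ?_
    rw [Layer.sum_OIn, h0, h1, h2]
    simp only [h3]
    have a1 := mul_le_mul_of_nonneg_right (hA .ctr) (norm_nonneg c)
    have a2 := mul_le_mul_of_nonneg_right (hA .pt) (norm_nonneg (x (Sum.inl .pt)))
    have a3 := mul_le_mul_of_nonneg_right (hA .noi) (norm_nonneg (x (Sum.inl .noi)))
    have a4 : ∑ k, Expr.lip (OIn.aux k) t * ‖x (Sum.inl (.aux k))‖
        ≤ A * ∑ k, ‖x (Sum.inl (.aux k))‖ := by
      rw [Finset.mul_sum]
      exact Finset.sum_le_sum fun k _ => mul_le_mul_of_nonneg_right (hA _) (norm_nonneg _)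
    have a5 := mul_le_mul_of_nonneg_right hoff (Real.sqrt_nonneg d)
    rw [hS, mul_add, mul_add, mul_add, mul_add]
    linarith
  have hv : ‖(Layer.rArg S arg j).val (Gt U g ε) x‖ ≤ ‖x (Sum.inl .pt)‖ + S' := by
    rw [Layer.val_rArg, ← hc]
    refine (norm_add_le _ _).trans (add_le_add le_rfl ?_)
    refine (lin (S.shift j) (oPoint c (x (Sum.inl .pt)) (x (Sum.inl .noi))
      fun k => x (Sum.inl (.aux k))) (amp * (|γ| * Real.sqrt τ)) (h.shape.shift_lip j)
      (h.shape.shift_offset j) rfl rfl rfl fun k => rfl).trans ?_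
    exact mul_le_of_le_one_left hS0
      ((mul_le_mul_of_nonneg_left hLM h.par.amp_pos.le).trans hampM)
  have hR0 := Expr.rad_nonneg (Gt U g ε) arg fun i => x (Sum.inr i)
  have hr : (Layer.rArg S arg j).rad (Gt U g ε) x
      ≤ (arg.rad (Gt U g ε) fun i => x (Sum.inr i)) + amp * S' := by
    have hA : 0 ≤ amp * S' := mul_nonneg h.par.amp_pos.le hS0
    refine Expr.rad_le _ _ _ (by linarith) fun p hp => ?_
    rcases Expr.gates_subst _ _ hp with ⟨q, hq, rfl⟩ | ⟨i, hi⟩
    · simp only [Expr.gates, List.nil_append] at hq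
      obtain ⟨-, -, -, -, h5, h6⟩ := h.shape.shift_gates j q hq
      have n0 : (Layer.oSub arg OIn.ctr).val (Gt U g ε) x = c := by
        simp [Layer.oSub, Expr.val_subst, Expr.val, hc]
      have e1 := lin q.2 (fun i => (Layer.oSub arg i).val (Gt U g ε) x) amp h5 h6
        (congrArg norm n0) rfl rfl fun k => rfl
      rw [← Expr.val_subst] at e1
      linarith
    · cases i
      · have := (Expr.le_rad (Gt U g ε) _ x hi).1
        rw [Layer.oSub, Layer.rad_rename] at this
        linarith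
      all_goals simp [Layer.oSub, Expr.gates] at hi
  have h2 : κ * amp * S' ≤ S' := mul_le_of_le_one_left hS0 h.par.kappa_amp
  simp only [gateRef]
  nlinarith [mul_le_mul_of_nonneg_left hr hκ]

end StepHyp

end Vale.Agent.P347.Gamma0
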