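import Vale.Agent.P347.Gamma0.WordVal
import Vale.Agent.P347.Gamma0.OutStage
import Vale.Agent.P347.Gamma0.HamBound
import Vale.Agent.P347.Gamma0.GqMoment

/-!
P347, towards `γ_* = 0`, piece U2: the compiled linear field is close to `k` at exact points.
The bias of the compiled estimates and the backward Picard iterates are discharged here; what is
left are bounds for the iterated Hamiltonian generator and the quadrature errors in `q`.
-/

namespace Vale.Agent.P347.Gamma0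

open MeasureTheory Set Filter
open scoped ENNReal

variable {d na : ℕ}

attribute [local irreducible] G nW psi

/-- A bound in mean square is a bound in mean. -/
lemma l1_of_ms {Ω : Type*} [MeasurableSpace Ω] {μ : Measure Ω} [IsProbabilityMeasure μ]
    {f : Ω → E d} {B : ℝ} (hB : 0 ≤ B)
    (h : ∫⁻ z, ‖f z‖ₑ ^ 2 ∂μ ≤ ENNReal.ofReal (B ^ 2)) :
    ∫⁻ z, ‖f z‖ₑ ∂μ ≤ ENNReal.ofReal B := by
  refine ENNReal.le_of_forall_pos_le_add fun η hη _ => ?_
  have hη' : 0 < (η : ℝ) := by exact_mod_cast hη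
  set B' := B + η with hB'
  have hpos : 0 < B' := by positivity
  have hpt : ∀ z, ‖f z‖ₑ ≤ ENNReal.ofReal (B' / 2)
      + ENNReal.ofReal (1 / (2 * B')) * ‖f z‖ₑ ^ 2 := fun z => by
    rw [← ofReal_norm, ← ENNReal.ofReal_pow (norm_nonneg _), ← ENNReal.ofReal_mul (by positivity),
      ← ENNReal.ofReal_add (by positivity) (by positivity)]
    refine ENNReal.ofReal_le_ofReal ?_
    field_simp
    nlinarith [sq_nonneg (‖f z‖ - B')]
  refine (lintegral_mono hpt).trans ?_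
  rw [lintegral_add_left measurable_const, lintegral_const, measure_univ, mul_one,
    lintegral_const_mul' _ _ ENNReal.ofReal_ne_top, ← ENNReal.ofReal_coe_nnreal,
    ← ENNReal.ofReal_add hB η.coe_nonneg]
  refine (add_le_add le_rfl (mul_le_mul_right h _)).trans ?_
  rw [← ENNReal.ofReal_mul (by positivity), ← ENNReal.ofReal_add (by positivity) (by positivity)]
  refine ENNReal.ofReal_le_ofReal ?_
  rw [← hB']
  field_simp
  nlinarith

namespace Words

/-- The constant gate is the exact field at a time of the interval. -/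
lemma Gt_rs (P : Build.Data na) {D : Data d} (hτ : D.τ = P.τ) {q : ℝ} (hq : q ∈ D.I) (w : E d) :
    Gt D.U D.g D.ε (P.rs q) (D.c + q • w) = D.Gq q w := by
  have : 0 < P.rs q := by rw [Build.Data.rs, ← hτ]; exact D.r_pos hq
  rw [Gt, if_pos this, Build.Data.rs, ← hτ]; rfl

lemma continuous_Gt (hP : PostFacts) (D : Data d) (r : ℝ) : Continuous (Gt D.U D.g D.ε r) := by
  unfold Gt
  rcases em (0 < r) with h | h
  · simp only [if_pos h]; exact (D.contDiff_G hP h).continuous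
  · simp only [if_neg h]; exact continuous_const

lemma lip_Gt (hP : PostFacts) (D : Data d) (r : ℝ) : LipschitzWith 1 (Gt D.U D.g D.ε r) := by
  by_cases h : 0 < r
  · have e : Gt D.U D.g D.ε r = G D.U D.g D.ε r := funext fun y => if_pos h
    rw [e]
    refine lipschitzWith_of_nnnorm_fderiv_le
      ((D.contDiff_G hP h).differentiable (by simp)) fun y => ?_
    let D' : Data d := { D with τ := r, τ0 := h, c := y }
    have h0 := ExFlow.norm_aq_le (D := D') hP D'.zero_mem 0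
    have e' : D'.aq 0 0 = fderiv ℝ (G D.U D.g D.ε r) y := by simp [D', Data.aq, Data.r]
    rw [e'] at h0
    exact h0
  · have e : Gt D.U D.g D.ε r = fun _ => (0 : E d) := funext fun y => if_neg h
    rw [e]
    exact (LipschitzWith.const _).weaken zero_le

/-- The bias of the compiled estimate, in mean, at the nodes. -/
def EstBias (d : ℕ) (P : Build.Data na) (δ : ℝ) : Prop :=
  ∀ D : Data d, D.ε = P.ε → D.τ = P.τ → ∀ j : Fin P.M₁,
    ∫⁻ p, ‖estF P (Gt D.U D.g D.ε) D.c (P.g₁.q j) p.1 p.2 - D.aq (P.g₁.q j) p.1 p.2‖ₑ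
        ∂(ExFlow.law D (P.g₁.q j)).prod (gam d)
      ≤ ENNReal.ofReal (δ * (Real.sqrt d + ‖D.c‖))

/-- The moments of the iterated generator of the oscillation at the nodes. -/
def GenMoment (d : ℕ) (P : Build.Data na) (M : ℝ) : Prop :=
  ∀ D : Data d, D.ε = P.ε → D.τ = P.τ → ∀ j : Fin P.M₁, ∀ i, 1 ≤ i → (i ≤ P.nh ∨ i = P.nr) →
    ∫⁻ p, ‖D.hamGen (P.g₁.q j) i p‖ₑ ^ 2 ∂(ExFlow.law D (P.g₁.q j)).prod (gam d)
      ≤ ENNReal.ofReal ((P.g₁.q j * (M * (Real.sqrt d + ‖D.c‖))) ^ 2)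

/-- The bias of an estimate with the constants `C` of the rules and `M` of the generator. -/
noncomputable def biasBound (P : Build.Data na) (C M : ℝ) : ℝ :=
  C * P.θ ^ (P.nr - 1) * M + 2 ^ (P.nh + 2) * C ^ 2 * P.ε * P.θ ^ P.nh * (8 + M)
    + C ^ 2 * P.ε * P.θ * (P.ε * P.θ ^ 2 * C) ^ P.iter * 8

variable (P : Build.Data na)

lemma node_mem {D : Data d} (h1 : P.q₁ ∈ D.I) {A : ℝ} (hg : Build.GridOK P.g₁ P.q₁ A)
    (j : Fin P.M₁) : P.g₁.q j ∈ D.I :=
  ⟨D.zero_mem.1.trans (hg.pos j), (hg.le j).trans_lt h1.2⟩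

lemma q₁_mem {D : Data d} (hτ : D.τ = P.τ) (hρ : 0 < P.ρ) (hρ1 : P.ρ < 1) :
    P.q₁ ∈ D.I ∧ 0 < P.q₁ := by
  have hτ0 : 0 < P.τ := hτ ▸ D.τ0
  have h1 : 0 < P.τ - P.ρ * P.τ := by nlinarith
  have h0 : 0 < P.q₁ := Real.sqrt_pos.2 h1
  refine ⟨⟨?_, ?_⟩, h0⟩
  · have := Real.sqrt_pos.2 D.τ0
    linarith
  · rw [hτ]
    exact Real.sqrt_lt_sqrt h1.le (by nlinarith)

/-- The compiled estimates have a small bias. -/
theorem estBias_of (hP : PostFacts) (hF : FlowExists) (hT : LawTransport) {C M A : ℝ}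
    (hC : Build.HamRules P.ham P.fdθ C) (hτ1 : P.τ ≤ 1) (hρ : 0 < P.ρ) (hρ1 : P.ρ < 1)
    (hg : Build.GridOK P.g₁ P.q₁ A) (hθ : 0 < P.θ) (hθ1 : P.θ ≤ 1)
    (hκ : P.ε * P.θ ^ 2 * C ≤ 1 / 2) (hnr : 1 ≤ P.nr) (hM0 : 0 ≤ M) (hM : GenMoment d P M) :
    EstBias d P (biasBound P C M) := by
  intro D hε hτ j
  obtain ⟨h1, _⟩ := q₁_mem P (D := D) hτ hρ hρ1
  have hq := node_mem P h1 hg j
  have hτ' : D.τ ≤ 1 := hτ ▸ hτ1
  have hq1 : P.g₁.q j ≤ 1 := hq.2.le.trans (Real.sqrt_le_one.2 hτ')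
  obtain ⟨X⟩ := Ham.exists_ham hP hF hq
  have := Ham.isProb_law (D := D) hP hq
  have : IsProbabilityMeasure (gam d) := by unfold gam; infer_instance
  set K := Real.sqrt d + ‖D.c‖
  have hK : 0 ≤ K := by positivity
  have h := Build.est_error P hP hT hC hε hτ hq (hg.pos j) hq1 X hθ hθ1 hκ
    (S := 8 * K) (M := M * K) (by positivity) (by positivity)
    (ms_Gq hP hT D hτ' hq (hg.pos j).le) (fun i hi hi' => hM D hε hτ j i hi hi') hnr
    (ec := Expr.var (0 : Fin 3)) (ew := Expr.var 1) (eD := Expr.var 2)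
    (R := fun z => estArgs D.c z.1 z.2) (fun z => rfl) (fun z => rfl) (fun z => rfl)
    (continuous_pi fun i => by
      fin_cases i
      · exact continuous_const
      · exact continuous_fst
      · exact continuous_snd).measurable
  have hC0 := hC.nonneg
  have hε0 : 0 ≤ P.ε := hε ▸ D.ε0
  refine l1_of_ms (by simp only [biasBound]; positivity) (h.trans (le_of_eq ?_))
  simp only [biasBound]
  congr 1
  ring

/-- The error of the grid on the field along a backward trajectory, in mean. -/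
def QuadBwd (d : ℕ) (P : Build.Data na) (δ : ℝ) : Prop :=
  ∀ D : Data d, D.ε = P.ε → D.τ = P.τ → ∀ X : ExFlow D, ∀ o : Option (Fin P.M₁),
    ∫⁻ w, ‖(∫ r in (0 : ℝ)..(P.g₁.at' P.q₁ o), D.Gq r (X.Φ P.q₁ r w))
        - ∑ j, P.g₁.W o j • D.Gq (P.g₁.q j) (X.Φ P.q₁ (P.g₁.q j) w)‖ₑ ∂ExFlow.law D P.q₁
      ≤ ENNReal.ofReal (δ * (Real.sqrt d + ‖D.c‖))

/-- The error of the grid on the linearised integrands along a backward trajectory, in mean. -/
def QuadEta (d : ℕ) (P : Build.Data na) (δ : ℝ) : Prop :=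
  ∀ D : Data d, D.ε = P.ε → D.τ = P.τ → ∀ X : ExFlow D,
    (∫⁻ z, ‖(∫ r in (0 : ℝ)..P.q₁, apath X P.q₁ z.1 r z.2)
        - ∑ j, P.g₁.W none j • apath X P.q₁ z.1 (P.g₁.q j) z.2‖ₑ
      ∂(ExFlow.law D P.q₁).prod (gam d) ≤ ENNReal.ofReal (δ * (Real.sqrt d + ‖D.c‖)))
    ∧ ∀ n k o m, n ≤ na → m ≤ n →
      ∫⁻ z, ‖(∫ r in (0 : ℝ)..(P.g₁.at' P.q₁ o), sysInt X n P.q₁ (P.t * (P.fdt n).x k) r m z)
          - ∑ j, P.g₁.W o j • sysInt X n P.q₁ (P.t * (P.fdt n).x k) (P.g₁.q j) m z‖ₑ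
        ∂(ExFlow.law D P.q₁).prod (gamB d na) ≤ ENNReal.ofReal (δ * (Real.sqrt d + ‖D.c‖))

/-- The backward iterate as a function of the point. -/
noncomputable def bwdF (Gr : ℝ → E d → E d) (c : E d) (p : ℕ) (i : Fin P.M₁) (w : E d) : E d :=
  (Build.bwd P (.var (0 : Fin 2)) (.var 1) p i).val Gr ![c, w]

lemma continuous_bwdF {Gr : ℝ → E d → E d} (hG : ∀ r, Continuous (Gr r)) (c : E d) (p : ℕ)
    (i : Fin P.M₁) : Continuous (bwdF P Gr c p i) := by
  refine (Expr.continuous_val Gr hG _).comp (continuous_pi fun k => ?_)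
  fin_cases k
  · exact continuous_const
  · exact continuous_id

/-- The compiled backward iterates against the exact trajectory. -/
theorem bwd_error (hP : PostFacts) (hT : LawTransport) {D : Data d} (hε : D.ε = P.ε)
    (hτ : D.τ = P.τ) (hτ1 : D.τ ≤ 1) (hρ : 0 < P.ρ) (hρ1 : P.ρ < 1) {A δ : ℝ}
    (hg : Build.GridOK P.g₁ P.q₁ A) (hA0 : 0 ≤ A) (hA : 2 * P.ε * (A * P.q₁) ≤ 1 / 2)
    (hδ : 0 ≤ δ) (hq : QuadBwd d P δ) (X : ExFlow D) (p : ℕ) (i : Fin P.M₁) :
    ∫⁻ w, ‖bwdF P (Gt D.U D.g D.ε) D.c p i w - X.Φ P.q₁ (P.g₁.q i) w‖ₑ ∂ExFlow.law D P.q₁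
      ≤ ENNReal.ofReal ((4 * P.ε * δ + (2 * P.ε * (A * P.q₁)) ^ p * (16 * P.ε * (A * P.q₁)))
          * (Real.sqrt d + ‖D.c‖)) := by
  have : IsProbabilityMeasure (gam d) := by unfold gam; infer_instance
  obtain ⟨h1, h10⟩ := q₁_mem P (D := D) hτ hρ hρ1
  have hq11 : P.q₁ ≤ 1 := h1.2.le.trans (Real.sqrt_le_one.2 hτ1)
  have hnode := node_mem P h1 hg
  have hεP : 0 ≤ P.ε := hε ▸ D.ε0
  have hH := nwHeat_of_post hP
  set K := Real.sqrt d + ‖D.c‖
  have hK : 0 ≤ K := by positivity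
  set A1 := A * P.q₁ with hA1
  have hA10 : 0 ≤ A1 := by positivity
  set Gr := Gt D.U D.g D.ε
  have hGm : ∀ j, Measurable (D.Gq (P.g₁.q j)) := fun j =>
    (D.contDiff_Gq hP (hnode j)).continuous.measurable
  have hΦm : ∀ j, Measurable (X.Φ P.q₁ (P.g₁.q j)) := fun j =>
    (X.continuous_Φ h1 (hnode j)).measurable
  have hS : ∀ j, ∫⁻ w, ‖D.Gq (P.g₁.q j) (X.Φ P.q₁ (P.g₁.q j) w)‖ₑ ∂ExFlow.law D P.q₁
      ≤ ENNReal.ofReal (8 * K) := fun j => by
    have := ExFlow.isProb_law hP hH hT (hnode j) X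
    rw [← lintegral_map (hGm j).enorm (hΦm j), map_law_back X hP hH hT (hnode j) h1]
    refine l1_of_ms (by positivity) ?_
    have h := ms_Gq hP hT D hτ1 (hnode j) (hg.pos j).le
    rw [lintegral_prod (fun z : E d × E d => ‖D.Gq (P.g₁.q j) z.1‖ₑ ^ 2)
      (((hGm j).comp measurable_fst).enorm.pow_const 2).aemeasurable] at h
    simpa using h
  set R := fun (o : Option (Fin P.M₁)) w =>
    (∫ r in (0 : ℝ)..(P.g₁.at' P.q₁ o), D.Gq r (X.Φ P.q₁ r w))
      - ∑ j, P.g₁.W o j • D.Gq (P.g₁.q j) (X.Φ P.q₁ (P.g₁.q j) w)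
  set Wd := fun j => P.ε * (P.g₁.W none j - P.g₁.W (some i) j)
  have hflow : ∀ t ∈ D.I, ∀ w, X.Φ P.q₁ t w = X.Φ P.q₁ 0 w
      + -(P.ε • ∫ q in (0 : ℝ)..t, D.Gq q (X.Φ P.q₁ q w)) := fun t ht w => by
    have hsub : uIcc (0 : ℝ) t ⊆ D.I := ordConnected_Ioo.uIcc_subset D.zero_mem ht
    have hcont : ContinuousOn (fun q => D.Gq q (X.Φ P.q₁ q w)) (uIcc 0 t) :=
      (D.contDiffOn_Gq hP).continuousOn.comp (f := fun q : ℝ => (q, X.Φ P.q₁ q w))
        (continuousOn_id.prodMk fun q hq =>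
          (X.flow.deriv _ h1 q (hsub hq) w).continuousAt.continuousWithinAt)
        fun q hq => ⟨hsub hq, mem_univ _⟩
    have h := intervalIntegral.integral_eq_sub_of_hasDerivAt
      (f := fun q => X.Φ P.q₁ q w) (f' := fun q => -(D.ε • D.Gq q (X.Φ P.q₁ q w)))
      (fun q hq => X.flow.deriv _ h1 q (hsub hq) w)
      ((hcont.const_smul D.ε).neg.intervalIntegrable)
    rw [intervalIntegral.integral_neg, intervalIntegral.integral_smul, hε] at h
    rw [h]; abel
  have hat : ∀ o, P.g₁.at' P.q₁ o ∈ D.I := fun o => by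
    cases o with
    | none => exact h1
    | some k => exact hnode k
  have hftc : ∀ i w, X.Φ P.q₁ (P.g₁.q i) w = w + P.ε • R none w - P.ε • R (some i) w
      + ∑ j, (P.ε * (P.g₁.W none j - P.g₁.W (some i) j))
        • D.Gq (P.g₁.q j) (X.Φ P.q₁ (P.g₁.q j) w) := by
    intro i w
    have e1 := hflow _ h1 w
    rw [X.flow.refl _ h1] at e1
    rw [hflow _ (hnode i) w]
    simp only [R, Build.Grid.at', smul_sub, Finset.smul_sum, smul_smul, mul_sub, sub_smul,
      Finset.sum_sub_distrib]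
    linear_combination (norm := abel) -(1 : ℤ) • e1
  have hRm : ∀ o, Measurable fun w => P.ε • R o w := fun o => by
    have e : (fun w => P.ε • R o w) = fun w => X.Φ P.q₁ 0 w - X.Φ P.q₁ (P.g₁.at' P.q₁ o) w
        - ∑ j, (P.ε * P.g₁.W o j) • D.Gq (P.g₁.q j) (X.Φ P.q₁ (P.g₁.q j) w) := funext fun w => by
      rw [hflow _ (hat o) w]
      simp only [R, smul_sub, Finset.smul_sum, smul_smul]
      abel
    rw [e]
    exact ((X.continuous_Φ h1 D.zero_mem).measurable.sub (X.continuous_Φ h1 (hat o)).measurable).sub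
      (Finset.measurable_sum _ fun j _ => by
        simp only [show ∀ c : ℝ, (fun w => c • D.Gq (P.g₁.q j) (X.Φ P.q₁ (P.g₁.q j) w))
            = c • (D.Gq (P.g₁.q j) ∘ X.Φ P.q₁ (P.g₁.q j)) from fun c => rfl]
        exact ((hGm j).comp (hΦm j)).const_smul (P.ε * P.g₁.W o j))
  have hsum : ∀ i, ∑ j, |P.ε * (P.g₁.W none j - P.g₁.W (some i) j)| ≤ 2 * P.ε * A1 := fun i => by
    simp only [abs_mul, abs_of_nonneg hεP, ← Finset.mul_sum]
    rw [mul_comm 2, mul_assoc]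
    refine mul_le_mul_of_nonneg_left ((Finset.sum_le_sum fun j _ => abs_sub _ _).trans ?_) hεP
    rw [Finset.sum_add_distrib]
    have := hg.sum none
    have := hg.sum (some i)
    simp only [hA1]
    linarith
  have hRb : ∀ o, ∫⁻ w, ‖P.ε • R o w‖ₑ ∂ExFlow.law D P.q₁
      ≤ ENNReal.ofReal (P.ε * δ * K) := fun o => by
    simp only [enorm_smul, Real.enorm_eq_ofReal hεP]
    rw [lintegral_const_mul' _ _ ENNReal.ofReal_ne_top, mul_assoc, ENNReal.ofReal_mul hεP]
    exact mul_le_mul_right (hq D hε hτ X o) _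
  have hbm : ∀ p j, Measurable fun w => bwdF P Gr D.c p j w := fun p j =>
    (continuous_bwdF P (continuous_Gt hP D) _ _ _).measurable
  have hlip : ∀ j w w', ‖D.Gq (P.g₁.q j) w - D.Gq (P.g₁.q j) w'‖ ≤ ‖w - w'‖ := fun j w w' => by
    refine (Ham.norm_Gq_sub_le hP (hnode j) w w').trans (mul_le_of_le_one_left (norm_nonneg _) ?_)
    rw [abs_of_pos (hg.pos j)]
    exact (hg.le j).trans hq11
  induction p generalizing i with
  | zero =>
    set F := fun j w => D.Gq (P.g₁.q j) (X.Φ P.q₁ (P.g₁.q j) w)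
    have hpt : ∀ w, ‖bwdF P Gr D.c 0 i w - X.Φ P.q₁ (P.g₁.q i) w‖ₑ
        ≤ ‖P.ε • R none w‖ₑ + ‖P.ε • R (some i) w‖ₑ
          + ∑ j, ENNReal.ofReal |Wd j| * ‖F j w‖ₑ := fun w => by
      have e : bwdF P Gr D.c 0 i w - X.Φ P.q₁ (P.g₁.q i) w
          = (P.ε • R (some i) w - P.ε • R none w) + ∑ j, (-Wd j) • F j w := by
        rw [hftc i w]
        simp only [bwdF, Build.bwd, Expr.val, Matrix.cons_val_one, Matrix.cons_val_zero, F, Wd,
          neg_smul, Finset.sum_neg_distrib]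
        abel
      rw [e]
      refine (enorm_add_le _ _).trans (add_le_add (enorm_sub_le.trans (le_of_eq (add_comm _ _)))
        ((enorm_sum_le _ _).trans (le_of_eq (Finset.sum_congr rfl fun j _ => ?_))))
      rw [enorm_smul, Real.enorm_eq_ofReal_abs, abs_neg]
    have hm : ∀ j, Measurable fun w => ENNReal.ofReal |Wd j| * ‖F j w‖ₑ := fun j =>
      measurable_const.mul ((hGm j).comp (hΦm j)).enorm
    refine (lintegral_mono hpt).trans ?_
    rw [lintegral_add_right _ (Finset.measurable_sum _ fun j _ => hm j)]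
    refine (add_le_add ?_ ?_).trans (le_of_eq_of_le (ENNReal.ofReal_add (p := 2 * P.ε * δ * K)
      (q := 2 * P.ε * A1 * (8 * K)) (by positivity) (by positivity)).symm
      (ENNReal.ofReal_le_ofReal (by nlinarith [mul_nonneg (mul_nonneg hεP hδ) hK])))
    · rw [lintegral_add_left (hRm none).enorm]
      refine (add_le_add (hRb none) (hRb (some i))).trans ?_
      rw [← ENNReal.ofReal_add (by positivity) (by positivity)]
      exact ENNReal.ofReal_le_ofReal (le_of_eq (by ring))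
    · rw [lintegral_finsetSum _ fun j _ => hm j]
      refine le_trans (Finset.sum_le_sum (g := fun j => ENNReal.ofReal (|Wd j| * (8 * K)))
        fun j _ => ?_) ?_
      · rw [lintegral_const_mul' _ _ ENNReal.ofReal_ne_top, ENNReal.ofReal_mul (abs_nonneg _)]
        exact mul_le_mul_right (hS j) _
      · rw [← ENNReal.ofReal_sum_of_nonneg fun j _ => by positivity, ← Finset.sum_mul]
        exact ENNReal.ofReal_le_ofReal (mul_le_mul_of_nonneg_right (hsum i) (by positivity))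
  | succ p ih =>
    set B := (4 * P.ε * δ + (2 * P.ε * A1) ^ p * (16 * P.ε * A1)) * K with hBdef
    have hB : 0 ≤ B := by positivity
    have hpt : ∀ w, ‖bwdF P Gr D.c (p + 1) i w - X.Φ P.q₁ (P.g₁.q i) w‖ₑ
        ≤ ‖P.ε • R none w‖ₑ + ‖P.ε • R (some i) w‖ₑ
          + ∑ j, ENNReal.ofReal |Wd j| * ‖bwdF P Gr D.c p j w - X.Φ P.q₁ (P.g₁.q j) w‖ₑ := by
      intro w
      have e : bwdF P Gr D.c (p + 1) i w - X.Φ P.q₁ (P.g₁.q i) w
          = (P.ε • R (some i) w - P.ε • R none w) + ∑ j, Wd j •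
            (D.Gq (P.g₁.q j) (bwdF P Gr D.c p j w)
              - D.Gq (P.g₁.q j) (X.Φ P.q₁ (P.g₁.q j) w)) := by
        rw [hftc i w]
        simp only [bwdF, Build.bwd, Build.gateAt, Expr.val, Expr.val_sum, Gr,
          Gt_rs P hτ (hnode _), Matrix.cons_val_one, Matrix.cons_val_zero, Wd, smul_sub,
          Finset.sum_sub_distrib]
        abel
      rw [e]
      refine (enorm_add_le _ _).trans (add_le_add (enorm_sub_le.trans (le_of_eq (add_comm _ _)))
        ((enorm_sum_le _ _).trans (Finset.sum_le_sum fun j _ => ?_)))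
      rw [enorm_smul, Real.enorm_eq_ofReal_abs]
      refine mul_le_mul_right ?_ _
      rw [← ofReal_norm, ← ofReal_norm]
      exact ENNReal.ofReal_le_ofReal (hlip j _ _)
    have hm : ∀ j, Measurable fun w => ENNReal.ofReal |Wd j|
        * ‖bwdF P Gr D.c p j w - X.Φ P.q₁ (P.g₁.q j) w‖ₑ := fun j =>
      measurable_const.mul ((hbm p j).sub (hΦm j)).enorm
    refine (lintegral_mono hpt).trans ?_
    rw [lintegral_add_right _ (Finset.measurable_sum _ fun j _ => hm j)]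
    refine (add_le_add ?_ ?_).trans (le_of_eq_of_le (ENNReal.ofReal_add (p := 2 * P.ε * δ * K)
      (q := 2 * P.ε * A1 * B) (by positivity) (by positivity)).symm
      (ENNReal.ofReal_le_ofReal ?_))
    · rw [lintegral_add_left (hRm none).enorm]
      refine (add_le_add (hRb none) (hRb (some i))).trans ?_
      rw [← ENNReal.ofReal_add (by positivity) (by positivity)]
      exact ENNReal.ofReal_le_ofReal (le_of_eq (by ring))
    · rw [lintegral_finsetSum _ fun j _ => hm j]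
      refine le_trans (Finset.sum_le_sum (g := fun j => ENNReal.ofReal (|Wd j| * B))
        fun j _ => ?_) ?_
      · rw [lintegral_const_mul' _ _ ENNReal.ofReal_ne_top, ENNReal.ofReal_mul (abs_nonneg _)]
        exact mul_le_mul_right (ih j) _
      · rw [← ENNReal.ofReal_sum_of_nonneg fun j _ => by positivity, ← Finset.sum_mul]
        exact ENNReal.ofReal_le_ofReal (mul_le_mul_of_nonneg_right (hsum i) hB)
    · have h2 : 2 * P.ε * A1 * (4 * P.ε * δ * K) ≤ 1 / 2 * (4 * P.ε * δ * K) :=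
        mul_le_mul_of_nonneg_right hA (by positivity)
      rw [hBdef, pow_succ]
      nlinarith

/-- The error of the backward iterates at the nodes, in mean. -/
def BwdPath (d : ℕ) (P : Build.Data na) (δ : ℝ) : Prop :=
  ∀ D : Data d, D.ε = P.ε → D.τ = P.τ → ∀ X : ExFlow D, ∀ j : Fin P.M₁,
    ∫⁻ w, ‖bwdF P (Gt D.U D.g D.ε) D.c P.iter j w - X.Φ P.q₁ (P.g₁.q j) w‖ₑ ∂ExFlow.law D P.q₁
      ≤ ENNReal.ofReal (δ * (Real.sqrt d + ‖D.c‖))

/-- The backward iterates are accurate. -/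
theorem bwdPath_of (hP : PostFacts) (hT : LawTransport) (hτ1 : P.τ ≤ 1) (hρ : 0 < P.ρ)
    (hρ1 : P.ρ < 1) {A δ δw : ℝ} (hg : Build.GridOK P.g₁ P.q₁ A) (hA0 : 0 ≤ A)
    (hA : 2 * P.ε * (A * P.q₁) ≤ 1 / 2) (hδ : 0 ≤ δ) (hq : QuadBwd d P δ)
    (hδw : 4 * P.ε * δ + (2 * P.ε * (A * P.q₁)) ^ P.iter * (16 * P.ε * (A * P.q₁)) ≤ δw) :
    BwdPath d P δw := fun D hε hτ X j =>
  (bwd_error P hP hT hε hτ (hτ ▸ hτ1) hρ hρ1 hg hA0 hA hδ hq X P.iter j).trans
    (ENNReal.ofReal_le_ofReal (mul_le_mul_of_nonneg_right hδw (by positivity)))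

/-- The bound for the error of the compiled linear field, in units `√d + |c|`. -/
noncomputable def etaBound (P : Build.Data na) (A C Cw δb δq δw : ℝ) : ℝ :=
  δq + A * P.q₁ * (δb + 2 * C / P.θ * δw) + 2 * (P.ε ^ na * P.q₁)
    + ∑ i : Fin (na - 1), P.ε ^ ((i : ℕ) + 1) / P.t ^ ((i : ℕ) + 2)
      * (Cw * ((2 * P.t * (A * P.q₁) * (2 * C / P.θ)) ^ P.iter * 2
        + 2 * (P.t * δq + 2 * P.t * (A * P.q₁) * (δb + 2 * C / P.θ * δw))
        + 2 * (2 * P.t * P.q₁) ^ P.nr))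

/-- The compiled linear field is close to `k` at exact points. -/
theorem etaApprox_of (hP : PostFacts) (hT : LawTransport) {A C Cw δb δq δw δe : ℝ}
    (hC : Build.HamRules P.ham P.fdθ C) (hτ1 : P.τ ≤ 1) (hρ : 0 < P.ρ) (hρ1 : P.ρ < 1)
    (hg : Build.GridOK P.g₁ P.q₁ A) (hA0 : 0 ≤ A) (hθ : 0 < P.θ)
    (hκθ : P.ε * P.θ ^ 2 * C ≤ 1 / 2)
    (ht : 0 < P.t) (ht4 : P.t ≤ 1 / 4) (hκt : 2 * P.t * (A * P.q₁) * (2 * C / P.θ) ≤ 1 / 2)
    (hna : 1 ≤ na) (hnr : na < P.nr) (hx : ∀ n k, |(P.fdt n).x k| ≤ 1)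
    (hwt : ∀ n, n ≤ na → ∑ k, |(P.fdt n).wt k| ≤ Cw) (hCw : 0 ≤ Cw)
    (hmom : ∀ n, n ≤ na → ∀ l, l < P.nr →
      ∑ k, (P.fdt n).wt k * (P.fdt n).x k ^ l = if l = n then 1 else 0)
    (hb0 : 0 ≤ δb) (hb : EstBias d P δb) (hq0 : 0 ≤ δq) (hqe : QuadEta d P δq)
    (hδw0 : 0 ≤ δw) (hw : BwdPath d P δw)
    (hδe : etaBound P A C Cw δb δq δw ≤ Real.sqrt P.τ * δe) :
    Build.EtaApprox d P δe := by
  intro D hε hτ X
  have : IsProbabilityMeasure (gam d) := by unfold gam; infer_instance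
  have hH := nwHeat_of_post hP
  obtain ⟨h1, h10⟩ := q₁_mem P (D := D) hτ hρ hρ1
  have hτD : D.τ ≤ 1 := hτ ▸ hτ1
  have := ExFlow.isProb_law hP hH hT h1 X
  have hεP : 0 ≤ P.ε := hε ▸ D.ε0
  have hq11 : P.q₁ ≤ 1 := h1.2.le.trans (Real.sqrt_le_one.2 hτD)
  set K := Real.sqrt d + ‖D.c‖
  have hK : 0 ≤ K := by positivity
  have hsd : Real.sqrt d ≤ K := le_add_of_nonneg_right (norm_nonneg _)
  set A1 := A * P.q₁
  have hA1 : 0 ≤ A1 := by positivity
  set L := 2 * C / P.θ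
  have hL : 0 ≤ L := by have := hC.nonneg; positivity
  set Gr := Gt D.U D.g D.ε
  set est := fun j : Fin P.M₁ => estF P Gr D.c (P.g₁.q j)
  set wb := bwdF P Gr D.c P.iter
  have Cp : Comp X P.q₁ P.g₁ est wb A1 L L (δb * K) (δw * K) :=
    { mem := h1
      nonneg := h10.le
      tau := hτD
      node := fun j => ⟨(hg.pos j).le, hg.le j⟩
      sum := fun o => hg.sum o
      A0 := hA1
      est_cont := fun j => continuous_estF P Gr (continuous_Gt hP D) _ _
      wb_cont := fun j => continuous_bwdF P (continuous_Gt hP D) _ _ _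
      Lw0 := hL
      LD0 := hL
      lip := fun j w w' v v' => by
        have h := Build.est_lip P (lip_Gt hP D) hC hεP hθ hκθ (hg.pos j) ((hg.le j).trans hq11)
          (.var (0 : Fin 3)) (.var 1) (.var 2) (estArgs D.c w v) (estArgs D.c w' v') rfl
        simp only [Expr.val, estArgs, Matrix.cons_val] at h
        rw [← mul_add]
        exact h
      b0 := mul_nonneg hb0 hK
      bias := fun j => hb D hε hτ j
      ew0 := mul_nonneg hδw0 hK
      path := fun j => hw D hε hτ X j }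
  obtain ⟨hq1', hq'⟩ := hqe D hε hτ X
  have h := etaV_error X hP hH hT Cp hna hnr P.fdt hx hwt hCw hmom ht ht4 (mul_nonneg hq0 hK) hκt
    hq1' hq' P.iter
  rw [← (measurePreserving_prodAssoc (ExFlow.law D P.q₁) (gam d)
    (Measure.pi fun _ : Fin na => gam d)).lintegral_comp_emb
      MeasurableEquiv.prodAssoc.measurableEmbedding] at h
  refine le_trans (le_of_eq (lintegral_congr fun z => ?_)) (h.trans (ENNReal.ofReal_le_ofReal ?_))
  · have hbw : ∀ j, (Build.bwd P (.var .ctr) (.var .pt) P.iter j).val Gr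
        (oPoint D.c z.1.1 z.1.2 z.2) = wb j z.1.1 := fun j =>
      Build.val_bwd_congr P Gr (ec := .var .ctr) (ew := .var .pt)
        (x := oPoint D.c z.1.1 z.1.2 z.2) (ec' := .var (0 : Fin 2)) (ew' := .var 1) (x' := ![D.c, z.1.1])
        rfl rfl P.iter j
    simp only [Build.etaVal, val_eta, MeasurableEquiv.prodAssoc, MeasurableEquiv.coe_mk,
      Equiv.prodAssoc_apply, Expr.val, est, hbw, ← hε]
    rfl
  · refine le_trans ?_ (mul_le_mul_of_nonneg_right hδe hK)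
    rw [etaBound, hε]
    rw [add_mul, add_mul, add_mul, Finset.sum_mul]
    refine add_le_add (add_le_add (add_le_add le_rfl (le_of_eq (by ring))) ?_)
      (Finset.sum_le_sum fun i _ => ?_)
    · exact mul_le_mul_of_nonneg_left hsd (by positivity)
    · rw [mul_assoc (P.ε ^ _ / _)]
      refine mul_le_mul_of_nonneg_left ?_ (by positivity)
      rw [mul_assoc Cw]
      refine mul_le_mul_of_nonneg_left ?_ hCw
      have e1 : (2 * P.t * A1 * L) ^ P.iter * (2 * Real.sqrt d)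
          ≤ (2 * P.t * A1 * L) ^ P.iter * (2 * K) := by gcongr
      have e2 : 2 * (2 * P.t * P.q₁) ^ P.nr * Real.sqrt d ≤ 2 * (2 * P.t * P.q₁) ^ P.nr * K := by gcongr
      linarith

end Words

end Vale.Agent.P347.Gamma0
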