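import Vale.Agent.P347.Gamma0.WordSys
import Vale.Agent.P347.Gamma0.Lift

/-!
P347, towards `γ_* = 0`, piece U2: the word system along the exact backward trajectory, the exact
law of its levels, and the expansion of `η` in ordered words.
-/

namespace Vale.Agent.P347.Gamma0.Words

open MeasureTheory ProbabilityTheory Set Filter Topology
open scoped RealInnerProductSpace ContDiff

section param

variable {Ω : Type*} [TopologicalSpace Ω] {H : Type*} [NormedAddCommGroup H]
  [InnerProductSpace ℝ H] [CompleteSpace H]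

lemma continuous_term_param {B : Ω → ℝ → H →L[ℝ] H}
    (hB : Continuous fun p : Ω × ℝ => B p.1 p.2) :
    ∀ k, Continuous fun p : Ω × ℝ => term (B p.1) k p.2
  | 0 => continuous_const
  | k + 1 => by
    have h : Continuous fun x : (Ω × ℝ) × ℝ => (B x.1.1 x.2).comp (term (B x.1.1) k x.2) :=
      (hB.comp ((continuous_fst.comp continuous_fst).prodMk continuous_snd)).clm_comp
        ((continuous_term_param hB k).comp
          ((continuous_fst.comp continuous_fst).prodMk continuous_snd))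
    exact intervalIntegral.continuous_parametric_intervalIntegral_of_continuous h continuous_snd

lemma continuous_sol_param {B : Ω → ℝ → H →L[ℝ] H} {β : ℝ}
    (hB : Continuous fun p : Ω × ℝ => B p.1 p.2) (hg : ∀ om, Gen (B om) β) (s q : ℝ) :
    Continuous fun om => sol (B om) s q :=
  continuous_tsum
    (fun k => ((continuous_term_param hB k).comp
      (continuous_id.prodMk continuous_const)).const_smul (s ^ k))
    (summable_bound (|s| * β * |q|)) fun k om => norm_smul_term_le (hg om) s q k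

end param

variable {d na : ℕ} {D : Gamma0.Data d} (X : ExFlow D)

attribute [local irreducible] G nW psi

/-- The clamped time stays in the interval. -/
lemma cl_mem_I {q₁ : ℝ} (h1 : q₁ ∈ D.I) (h0 : 0 ≤ q₁) (r : ℝ) : cl q₁ r ∈ D.I :=
  ⟨D.zero_mem.1.trans_le (cl_mem h0 r).1, (cl_mem h0 r).2.trans_lt h1.2⟩

/-- The operators along the backward trajectory through `w` at `q₁`. -/
noncomputable def apath (q₁ : ℝ) (w : E d) (r : ℝ) : E d →L[ℝ] E d :=
  D.aq (cl q₁ r) (X.Φ q₁ (cl q₁ r) w)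

/-- The exact system. -/
noncomputable def sysX (n : ℕ) (q₁ : ℝ) (w : E d) (s q : ℝ) : Blk d na →L[ℝ] Blk d na :=
  sol (gen n q₁ (apath X q₁ w)) s q

variable (hP : PostFacts) (hH : NWHeat) (hT : LawTransport)

section basic

include hP

lemma continuous_apath {q₁ : ℝ} (h1 : q₁ ∈ D.I) (h0 : 0 ≤ q₁) :
    Continuous fun p : E d × ℝ => apath X q₁ p.1 p.2 := by
  have hc : Continuous fun p : E d × ℝ => cl q₁ p.2 := (continuous_cl q₁).comp continuous_snd
  have hΦ : Continuous fun p : E d × ℝ => X.Φ q₁ (cl q₁ p.2) p.1 :=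
    X.joint.continuousOn.comp_continuous (continuous_const.prodMk (hc.prodMk continuous_fst))
      fun p => ⟨h1, cl_mem_I h1 h0 _, mem_univ _⟩
  exact (ExFlow.contDiffOn_aq hP).continuousOn.comp_continuous (hc.prodMk hΦ)
    fun p => ⟨cl_mem_I h1 h0 _, mem_univ _⟩

lemma path_apath {q₁ : ℝ} (h1 : q₁ ∈ D.I) (h0 : 0 ≤ q₁) (hτ : D.τ ≤ 1) (w : E d) :
    Path q₁ (apath X q₁ w) where
  nonneg := h0
  le_one := h1.2.le.trans (Real.sqrt_le_one.2 hτ)
  cont := (continuous_apath X hP h1 h0).comp (continuous_const.prodMk continuous_id)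
  norm_le r := ExFlow.norm_aq_le hP (cl_mem_I h1 h0 r) _
  symm r u v := D.fderiv_Gq_symm hP (cl_mem_I h1 h0 r) _ u v

lemma continuous_sysX {q₁ : ℝ} (h1 : q₁ ∈ D.I) (h0 : 0 ≤ q₁) (hτ : D.τ ≤ 1) (n : ℕ) (s q : ℝ) :
    Continuous fun w => sysX (na := na) X n q₁ w s q := by
  refine continuous_sol_param (β := 2) ?_ (fun w => gen_ok (path_apath X hP h1 h0 hτ w) n) s q
  exact continuous_gen_param n ((continuous_cl q₁).comp continuous_snd) (continuous_apath X hP h1 h0)

lemma norm_sysX {q₁ : ℝ} (h1 : q₁ ∈ D.I) (h0 : 0 ≤ q₁) (hτ : D.τ ≤ 1) (n : ℕ) (w : E d) (s q : ℝ)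
    (x : Blk d na) : ‖sysX X n q₁ w s q x‖ = ‖x‖ :=
  inner_sol (gen_ok (path_apath X hP h1 h0 hτ w) n) (gen_skew (path_apath X hP h1 h0 hτ w) n) s q x

end basic

section laws

include hP hH hT

lemma map_law_back {q q₁ : ℝ} (hq : q ∈ D.I) (h1 : q₁ ∈ D.I) :
    (ExFlow.law D q₁).map (X.Φ q₁ q) = ExFlow.law D q := by
  rw [← X.map_gam hP hH hT h1, ← X.map_gam hP hH hT hq,
    Measure.map_map (X.continuous_Φ h1 hq).measurable (X.continuous_Φ D.zero_mem h1).measurable]
  congr 1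
  exact funext fun z => X.flow.trans 0 D.zero_mem q₁ h1 q hq z

/-- A level of the system at a time has the exact law `p_q × gam`. -/
theorem levels_preserve {q₁ : ℝ} (h1 : q₁ ∈ D.I) (h0 : 0 ≤ q₁) (hτ : D.τ ≤ 1) (n : ℕ) (s : ℝ)
    {q : ℝ} (hq : q ∈ Icc 0 q₁) {m : ℕ} (hm : m ≤ na) :
    MeasurePreserving
      (fun p : E d × Blk d na => (X.Φ q₁ q p.1, lvl (sysX X n q₁ p.1 s q p.2) m))
      ((ExFlow.law D q₁).prod (gamB d na)) ((ExFlow.law D q).prod (gam d)) := by
  have hqI : q ∈ D.I := cl_eq hq ▸ cl_mem_I h1 h0 q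
  have := ExFlow.isProb_law hP hH hT h1 X
  have hf : MeasurePreserving (X.Φ q₁ q) (ExFlow.law D q₁) (ExFlow.law D q) :=
    ⟨(X.continuous_Φ h1 hqI).measurable, map_law_back X hP hH hT hqI h1⟩
  have hm' : m < na + 1 := Nat.lt_succ_of_le hm
  have hlvl : Continuous fun x : Blk d na => lvl x m := by
    simp only [lvl, dif_pos hm']
    exact PiLp.continuous_apply 2 _ _
  refine hf.skew_product (g := fun w x => lvl (sysX X n q₁ w s q x) m) ?_ (ae_of_all _ fun w => ?_)
  · exact (hlvl.comp (((continuous_sysX X hP h1 h0 hτ n s q).comp continuous_fst).clm_apply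
      continuous_snd)).measurable
  · have e : (fun x : Blk d na => lvl (sysX X n q₁ w s q x) m)
        = (fun x : Blk d na => x ⟨m, hm'⟩) ∘ ⇑(sysX (na := na) X n q₁ w s q) := funext fun x => by
      simp [lvl, hm']
    rw [e, ← Measure.map_map (PiLp.continuous_apply 2 _ _).measurable
      (sysX (na := na) X n q₁ w s q).continuous.measurable,
      map_isometry_gamB (norm_sysX X hP h1 h0 hτ n w s q), map_proj_gamB]

end laws

/-! ### `η` -/

/-- `η` at time `q`: `∫₀^q DΦ(r,q) a_r Z dr`, through time `0`. -/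
noncomputable def etaAt (q₁ : ℝ) (w Z : E d) (q : ℝ) : E d :=
  fderiv ℝ (X.Φ 0 q) (X.Φ q₁ 0 w)
    (∫ r in (0 : ℝ)..q, fderiv ℝ (X.Φ (cl q₁ r) 0) (X.Φ q₁ (cl q₁ r) w) (apath X q₁ w r Z))

section eta

include hP

lemma continuous_etaInt {q₁ : ℝ} (h1 : q₁ ∈ D.I) (h0 : 0 ≤ q₁) (w Z : E d) :
    Continuous fun r => fderiv ℝ (X.Φ (cl q₁ r) 0) (X.Φ q₁ (cl q₁ r) w) (apath X q₁ w r Z) := by
  have hΦ : Continuous fun r => X.Φ q₁ (cl q₁ r) w :=
    X.joint.continuousOn.comp_continuous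
      (continuous_const.prodMk ((continuous_cl q₁).prodMk continuous_const))
      fun r => ⟨h1, cl_mem_I h1 h0 _, mem_univ _⟩
  refine Continuous.clm_apply ?_ (((continuous_apath X hP h1 h0).comp
    (continuous_const.prodMk continuous_id)).clm_apply continuous_const)
  exact (X.contDiffOn_DΦ D.zero_mem).continuousOn.comp_continuous
    ((continuous_cl q₁).prodMk hΦ) fun r => ⟨cl_mem_I h1 h0 r, mem_univ _⟩

omit hP in
lemma fderiv_Φ_comp {r q s : ℝ} (hr : r ∈ D.I) (hq : q ∈ D.I) (hs : s ∈ D.I) (y v : E d) :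
    fderiv ℝ (X.Φ q s) (X.Φ r q y) (fderiv ℝ (X.Φ r q) y v) = fderiv ℝ (X.Φ r s) y v := by
  have e : X.Φ r s = X.Φ q s ∘ X.Φ r q :=
    funext fun z => (X.flow.trans r hr q hq s hs z).symm
  rw [e, fderiv_comp y ((X.flow.smooth q hq s hs).differentiable (by simp) _)
    ((X.flow.smooth r hr q hq).differentiable (by simp) _)]
  rfl

/-- `η' = -εq a η + a Z`. -/
theorem hasDerivAt_etaAt {q₁ : ℝ} (h1 : q₁ ∈ D.I) (h0 : 0 ≤ q₁) (w Z : E d) {q : ℝ}
    (hq : q ∈ Icc 0 q₁) :
    HasDerivAt (etaAt X q₁ w Z)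
      (-((D.ε * q) • apath X q₁ w q (etaAt X q₁ w Z q)) + apath X q₁ w q Z) q := by
  set y0 := X.Φ q₁ 0 w
  set F := fun r => fderiv ℝ (X.Φ (cl q₁ r) 0) (X.Φ q₁ (cl q₁ r) w) (apath X q₁ w r Z)
  have hc : Continuous F := continuous_etaInt X hP h1 h0 w Z
  set v : ℝ → E d := fun u => ∫ r in (0 : ℝ)..u, F r
  have hqI : q ∈ D.I := cl_eq hq ▸ cl_mem_I h1 h0 q
  have hv : HasDerivAt v (F q) q :=
    intervalIntegral.integral_hasDerivAt_right (hc.intervalIntegrable 0 q)
      (hc.stronglyMeasurableAtFilter _ _) hc.continuousAt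
  set L := fderiv ℝ (D.v q) (X.Φ 0 q y0)
  set J := fun u => fderiv ℝ (X.Φ 0 u) y0
  have hJ : ∀ h, HasDerivAt (fun u => J u h) (L (J q h)) q :=
    fun h => X.flow.variational 0 D.zero_mem q hqI y0 h
  have hexp : ∀ (A : E d →L[ℝ] E d) (x : E d), A x = ∑ i, x i • A (bv i) := fun A x => by
    conv_lhs => rw [show x = ∑ i, x i • bv i from by
      simpa [bv, EuclideanSpace.basisFun_apply] using
        ((EuclideanSpace.basisFun (Fin d) ℝ).sum_repr x).symm]
    simp
  have hsum : HasDerivAt (fun u => ∑ i, v u i • J u (bv i))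
      (∑ i, (v q i • L (J q (bv i)) + F q i • J q (bv i))) q :=
    HasDerivAt.fun_sum fun i _ =>
      ((PiLp.proj 2 (fun _ : Fin d => ℝ) i : E d →L[ℝ] ℝ).hasFDerivAt.comp_hasDerivAt q hv).smul
        (hJ (bv i))
  have e : etaAt X q₁ w Z = fun u => ∑ i, v u i • J u (bv i) :=
    funext fun u => hexp (J u) (v u)
  have e1 : X.Φ 0 q y0 = X.Φ q₁ q w := X.flow.trans q₁ h1 0 D.zero_mem q hqI w
  have e2 : J q (F q) = apath X q₁ w q Z := by
    simp only [J, F, cl_eq hq]
    rw [show y0 = X.Φ q 0 (X.Φ q₁ q w) from (X.flow.trans q₁ h1 q hqI 0 D.zero_mem w).symm,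
      fderiv_Φ_comp X hqI D.zero_mem hqI,
      show X.Φ q q = id from funext fun z => X.flow.refl q hqI z]
    simp
  have e3 : ∀ u, L u = -((D.ε * q) • apath X q₁ w q u) := fun u => by
    have hd : HasFDerivAt (D.v q) (-(D.ε • (q • D.aq q (X.Φ 0 q y0)))) (X.Φ 0 q y0) :=
      ((D.hasFDerivAt_Gq hP hqI _).const_smul D.ε).neg
    simp only [L, hd.fderiv]
    simp [apath, cl_eq hq, e1, smul_smul]
  rw [e]
  refine hsum.congr_deriv ?_
  rw [Finset.sum_add_distrib, ← hexp (J q) (F q), e2]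
  congr 1
  rw [← e3]
  simp only [map_sum, map_smul]

lemma etaAt_zero (q₁ : ℝ) (w Z : E d) : etaAt X q₁ w Z 0 = 0 := by simp [etaAt]

/-- `η (q₁) = k Z`. -/
lemma etaAt_end {q₁ : ℝ} (h1 : q₁ ∈ D.I) (h0 : 0 ≤ q₁) (w Z : E d) :
    etaAt X q₁ w Z q₁ = X.kOp q₁ w Z := by
  have hcont : ContinuousOn (fun r => X.kOpInt q₁ r w) (uIcc 0 q₁) :=
    (X.contDiffOn_kOpInt hP h1).continuousOn.comp (f := fun r : ℝ => (r, w))
      (continuous_id.prodMk continuous_const).continuousOn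
      fun r hr => ⟨ExFlow.uIcc_subset h1 hr, mem_univ w⟩
  rw [ExFlow.kOp, ContinuousLinearMap.intervalIntegral_apply hcont.intervalIntegrable, etaAt,
    ← ContinuousLinearMap.intervalIntegral_comp_comm _
      ((continuous_etaInt X hP h1 h0 w Z).intervalIntegrable 0 q₁)]
  refine intervalIntegral.integral_congr fun r hr => ?_
  rw [uIcc_of_le h0] at hr
  have hrI : r ∈ D.I := cl_eq hr ▸ cl_mem_I h1 h0 r
  simp only [cl_eq hr, apath, ExFlow.kOpInt, ContinuousLinearMap.comp_apply]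
  rw [show X.Φ q₁ 0 w = X.Φ r 0 (X.Φ q₁ r w) from (X.flow.trans q₁ h1 r hrI 0 D.zero_mem w).symm,
    fderiv_Φ_comp X hrI D.zero_mem h1]

end eta

section words

variable {q₁ : ℝ} {a : ℝ → E d →L[ℝ] E d} (hPa : Path q₁ a) (Z : E d)
include hPa

omit hP hH hT

lemma continuous_word : ∀ m, Continuous fun r => word q₁ a m r Z
  | 0 => continuous_const
  | m + 1 => intervalIntegral.continuous_primitive (fun x y =>
      (((show Continuous fun r => Build.phi m (cl q₁ r) by
        unfold Build.phi; split_ifs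
        · exact continuous_const
        · exact continuous_cl q₁).smul
        (hPa.cont.clm_apply (continuous_word m)))).intervalIntegrable x y) 0

lemma continuous_wordInt (m : ℕ) :
    Continuous fun r => Build.phi m (cl q₁ r) • a r (word q₁ a m r Z) :=
  (show Continuous fun r => Build.phi m (cl q₁ r) by
    unfold Build.phi; split_ifs
    · exact continuous_const
    · exact continuous_cl q₁).smul (hPa.cont.clm_apply (continuous_word hPa Z m))

lemma hasDerivAt_word (m : ℕ) (q : ℝ) :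
    HasDerivAt (fun u => word q₁ a (m + 1) u Z)
      (Build.phi m (cl q₁ q) • a q (word q₁ a m q Z)) q :=
  intervalIntegral.integral_hasDerivAt_right ((continuous_wordInt hPa Z m).intervalIntegrable 0 q)
    ((continuous_wordInt hPa Z m).stronglyMeasurableAtFilter _ _)
    (continuous_wordInt hPa Z m).continuousAt

lemma norm_word_le : ∀ (m : ℕ) {q : ℝ}, q ∈ Icc 0 q₁ → ‖word q₁ a m q Z‖ ≤ q ^ m * ‖Z‖
  | 0, q, _ => by simp [word]
  | m + 1, q, hq => by
    rw [word]
    refine (intervalIntegral.norm_integral_le_of_norm_le_const (C := q ^ m * ‖Z‖) fun r hr => ?_).trans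
      (le_of_eq ?_)
    · rw [uIoc_of_le hq.1] at hr
      have hr' : r ∈ Icc 0 q₁ := ⟨hr.1.le, hr.2.trans hq.2⟩
      have hφ : |Build.phi m (cl q₁ r)| ≤ 1 := by
        simp only [Build.phi, cl_eq hr']
        split_ifs <;> simp [abs_of_nonneg hr'.1, hr'.2.trans hPa.le_one]
      refine (norm_smul_le_one hφ (hPa.norm_le r) _).trans ((norm_word_le m hr').trans ?_)
      exact mul_le_mul_of_nonneg_right (pow_le_pow_left₀ hr.1.le hr.2 m) (norm_nonneg Z)
    · rw [sub_zero, abs_of_nonneg hq.1]; ring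

/-- A solution of `η' = -εqaη + aZ`, `η 0 = 0` is the alternating sum of words. -/
theorem eta_expand {ε : ℝ} (hε : 0 ≤ ε) (hε1 : ε ≤ 1) {η : ℝ → E d} (h0 : η 0 = 0)
    (hη : ∀ q ∈ Icc 0 q₁, HasDerivAt η (-((ε * q) • a q (η q)) + a q Z) q) (N : ℕ) :
    ‖η q₁ - ∑ n ∈ Finset.range (N + 1), (-ε) ^ n • word q₁ a (n + 1) q₁ Z‖
      ≤ 2 * (ε ^ (N + 1) * q₁) * ‖Z‖ := by
  set S := fun q => ∑ n ∈ Finset.range (N + 1), (-ε) ^ n • word q₁ a (n + 1) q Z
  set f := fun q => η q - S q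
  set C := ε ^ (N + 1) * q₁ * ‖Z‖
  have hq₁ := hPa.nonneg
  have hC : 0 ≤ C := by positivity
  have hd : ∀ q ∈ Icc 0 q₁, HasDerivAt f
      (-((ε * q) • a q (f q)) - (ε * q) • (-ε) ^ N • a q (word q₁ a (N + 1) q Z)) q := by
    intro q hq
    have hS : HasDerivAt S
        (∑ n ∈ Finset.range (N + 1), (-ε) ^ n • (Build.phi n (cl q₁ q) • a q (word q₁ a n q Z))) q :=
      HasDerivAt.fun_sum fun n _ => (hasDerivAt_word hPa Z n q).fun_const_smul _
    refine ((hη q hq).sub hS).congr_deriv ?_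
    rw [Finset.sum_range_succ']
    have e : ∀ n, (-ε) ^ (n + 1) • (Build.phi (n + 1) (cl q₁ q) • a q (word q₁ a (n + 1) q Z))
        = -((ε * q) • a q ((-ε) ^ n • word q₁ a (n + 1) q Z)) := fun n => by
      rw [map_smul, Build.phi, if_neg (Nat.succ_ne_zero n), cl_eq hq]
      module
    simp only [e, Finset.sum_neg_distrib, ← Finset.smul_sum, ← map_sum]
    simp only [f, S, Finset.sum_range_succ _ N, map_sub, map_add, map_smul, word, pow_zero,
      one_smul, Build.phi, if_true]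
    module
  have hb : ∀ q ∈ Icc 0 q₁,
      ‖-((ε * q) • a q (f q)) - (ε * q) • (-ε) ^ N • a q (word q₁ a (N + 1) q Z)‖
        ≤ 1 * ‖f q‖ + C := by
    intro q hq
    have hq1 : q ≤ 1 := hq.2.trans hPa.le_one
    have hεq : |ε * q| ≤ 1 := by
      rw [abs_of_nonneg (mul_nonneg hε hq.1)]; exact mul_le_one₀ hε1 hq.1 hq1
    refine (norm_sub_le _ _).trans (add_le_add ?_ ?_)
    · rw [norm_neg, one_mul]; exact norm_smul_le_one hεq (hPa.norm_le q) _
    · have h2 : ‖a q (word q₁ a (N + 1) q Z)‖ ≤ 1 * ‖Z‖ := by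
        refine ((a q).le_of_opNorm_le (hPa.norm_le q) _).trans
          (mul_le_mul_of_nonneg_left ((norm_word_le hPa Z (N + 1) hq).trans ?_) zero_le_one)
        exact mul_le_of_le_one_left (norm_nonneg Z) (pow_le_one₀ hq.1 hq1)
      rw [norm_smul, norm_smul, Real.norm_eq_abs, norm_pow, norm_neg, Real.norm_eq_abs,
        abs_of_nonneg hε, abs_of_nonneg (mul_nonneg hε hq.1)]
      calc ε * q * (ε ^ N * ‖a q (word q₁ a (N + 1) q Z)‖) ≤ ε * q₁ * (ε ^ N * (1 * ‖Z‖)) := by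
            gcongr; exact hq.2
        _ = C := by simp only [C, pow_succ]; ring
  have hf0 : f 0 = 0 := by
    simp [f, S, h0, word, intervalIntegral.integral_same]
  have := norm_le_gronwallBound_of_norm_deriv_right_le (f := f)
    (f' := fun q => -((ε * q) • a q (f q)) - (ε * q) • (-ε) ^ N • a q (word q₁ a (N + 1) q Z))
    (δ := 0) (K := 1) (ε := C) (a := 0) (b := q₁)
    (fun t ht => (hd t ht).continuousAt.continuousWithinAt)
    (fun t ht => (hd t ⟨ht.1, ht.2.le⟩).hasDerivWithinAt) (by simp [hf0])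
    (fun t ht => hb t ⟨ht.1, ht.2.le⟩) q₁ ⟨hPa.nonneg, le_rfl⟩
  simp only [gronwallBound_of_K_ne_0 one_ne_zero, sub_zero, one_mul, div_one, zero_mul, zero_add] at this
  refine this.trans ?_
  have he : Real.exp q₁ - 1 ≤ 2 := by
    have := Real.exp_le_exp.2 hPa.le_one
    linarith [Real.exp_one_lt_three]
  calc C * (Real.exp q₁ - 1) ≤ C * 2 := mul_le_mul_of_nonneg_left he hC
    _ = _ := by simp only [C]; ring

end words

include hP

/-- `k Z` is the alternating sum of ordered words. -/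
theorem kOp_expand {q₁ : ℝ} (h1 : q₁ ∈ D.I) (h0 : 0 ≤ q₁) (hτ : D.τ ≤ 1) (w Z : E d) (N : ℕ) :
    ‖X.kOp q₁ w Z - ∑ n ∈ Finset.range (N + 1), (-D.ε) ^ n • word q₁ (apath X q₁ w) (n + 1) q₁ Z‖
      ≤ 2 * (D.ε ^ (N + 1) * q₁) * ‖Z‖ := by
  rw [← etaAt_end X hP h1 h0 w Z]
  exact eta_expand (path_apath X hP h1 h0 hτ w) Z D.ε0 D.ε1 (etaAt_zero X hP q₁ w Z)
    (fun q hq => hasDerivAt_etaAt X hP h1 h0 w Z hq) N

end Vale.Agent.P347.Gamma0.Words
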