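import Mathlib

/-!
P347, towards `γ_* = 0`, piece U2: the series solution `∑ s^k T_k(q)` of a linear equation
`X' = s B(q) X`, `X(0) = 1`, its truncation error, and the isometry for skew `B`.
-/

namespace Vale.Agent.P347.Gamma0.Words

open MeasureTheory Filter Topology
open scoped RealInnerProductSpace

variable {H : Type*} [NormedAddCommGroup H] [InnerProductSpace ℝ H] [CompleteSpace H]

/-- The coefficient of `s^k`: iterated ordered integrals. -/
noncomputable def term (B : ℝ → H →L[ℝ] H) : ℕ → ℝ → H →L[ℝ] H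
  | 0, _ => ContinuousLinearMap.id ℝ H
  | k + 1, q => ∫ r in (0 : ℝ)..q, (B r).comp (term B k r)

/-- The solution. -/
noncomputable def sol (B : ℝ → H →L[ℝ] H) (s q : ℝ) : H →L[ℝ] H := ∑' k, s ^ k • term B k q

/-- A family of continuous operators bounded by `β`. -/
structure Gen (B : ℝ → H →L[ℝ] H) (β : ℝ) : Prop where
  cont : Continuous B
  nonneg : 0 ≤ β
  le : ∀ r, ‖B r‖ ≤ β

variable {B : ℝ → H →L[ℝ] H} {β : ℝ}

lemma abs_integral_pow (q : ℝ) (k : ℕ) :
    |∫ r in (0 : ℝ)..q, |r| ^ k| = |q| ^ (k + 1) / (k + 1) := by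
  have key : ∀ {x : ℝ}, 0 ≤ x → ∫ r in (0 : ℝ)..x, |r| ^ k = x ^ (k + 1) / (k + 1) := by
    intro x hx
    rw [intervalIntegral.integral_congr (g := fun r => r ^ k) fun r hr => by
      rw [Set.uIcc_of_le hx] at hr
      simp only [abs_of_nonneg hr.1]]
    simp
  rcases le_total 0 q with h | h
  · rw [key h, abs_of_nonneg h, abs_of_nonneg (by positivity)]
  · have e := intervalIntegral.integral_comp_neg (a := (0 : ℝ)) (b := q) fun r : ℝ => |r| ^ k
    simp only [abs_neg, neg_zero] at e
    rw [e, intervalIntegral.integral_symm, abs_neg, key (neg_nonneg.2 h), abs_of_nonpos h,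
      abs_of_nonneg (div_nonneg (pow_nonneg (neg_nonneg.2 h) _) (by positivity))]

lemma continuous_term (hB : Gen B β) : ∀ k, Continuous (term B k)
  | 0 => continuous_const
  | k + 1 => intervalIntegral.continuous_primitive
      (fun a b => ((hB.cont.clm_comp (continuous_term hB k)).intervalIntegrable a b)) 0

lemma norm_term_le (hB : Gen B β) : ∀ (k : ℕ) (q : ℝ),
    ‖term B k q‖ ≤ (β * |q|) ^ k / k.factorial
  | 0, q => by simpa [term] using ContinuousLinearMap.norm_id_le
  | k + 1, q => by
    have hβ := hB.nonneg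
    have h : ∀ r, ‖(B r).comp (term B k r)‖ ≤ β ^ (k + 1) / k.factorial * |r| ^ k := fun r => by
      refine (ContinuousLinearMap.opNorm_comp_le _ _).trans ?_
      refine (mul_le_mul (hB.le r) (norm_term_le hB k r) (norm_nonneg _) hβ).trans (le_of_eq ?_)
      rw [mul_pow, pow_succ]; ring
    rw [term]
    refine (intervalIntegral.norm_integral_le_abs_of_norm_le (Eventually.of_forall fun r => h r)
      ((continuous_const.mul (continuous_abs.pow k)).intervalIntegrable 0 q)).trans (le_of_eq ?_)
    rw [intervalIntegral.integral_const_mul, abs_mul, abs_integral_pow,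
      abs_of_nonneg (by positivity), Nat.factorial_succ, mul_pow]
    push_cast
    field_simp

lemma hasDerivAt_term (hB : Gen B β) (k : ℕ) (q : ℝ) :
    HasDerivAt (term B (k + 1)) ((B q).comp (term B k q)) q :=
  intervalIntegral.integral_hasDerivAt_right
    ((hB.cont.clm_comp (continuous_term hB k)).intervalIntegrable 0 q)
    ((hB.cont.clm_comp (continuous_term hB k)).stronglyMeasurableAtFilter _ _)
    (hB.cont.clm_comp (continuous_term hB k)).continuousAt

lemma summable_bound (x : ℝ) : Summable fun k : ℕ => x ^ k / k.factorial :=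
  Real.summable_pow_div_factorial x

lemma norm_smul_term_le (hB : Gen B β) (s q : ℝ) (k : ℕ) :
    ‖s ^ k • term B k q‖ ≤ (|s| * β * |q|) ^ k / k.factorial := by
  rw [norm_smul, norm_pow, Real.norm_eq_abs, mul_assoc, mul_pow, mul_div_assoc]
  exact mul_le_mul_of_nonneg_left (norm_term_le hB k q) (by positivity)

lemma summable_sol (hB : Gen B β) (s q : ℝ) : Summable fun k => s ^ k • term B k q :=
  Summable.of_norm_bounded (summable_bound _) fun k => norm_smul_term_le hB s q k

lemma term_succ_zero (k : ℕ) : term B (k + 1) 0 = 0 := by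
  rw [term, intervalIntegral.integral_same]

lemma sol_zero (s : ℝ) : sol B s 0 = ContinuousLinearMap.id ℝ H := by
  rw [sol, tsum_eq_single 0 fun k hk => by
    obtain ⟨j, rfl⟩ := Nat.exists_eq_succ_of_ne_zero hk
    simp [term_succ_zero]]
  simp [term]

lemma hasDerivAt_sol (hB : Gen B β) (s q : ℝ) :
    HasDerivAt (sol B s) (s • (B q).comp (sol B s q)) q := by
  set R := |q| + 1 with hR
  have hR0 : 0 ≤ R := by positivity
  have hq : q ∈ Set.Ioo (-R) R := abs_lt.1 (lt_add_one _)
  set g : ℕ → ℝ → H →L[ℝ] H := fun k r => s ^ (k + 1) • term B (k + 1) r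
  set g' : ℕ → ℝ → H →L[ℝ] H := fun k r => s ^ (k + 1) • (B r).comp (term B k r)
  have hb : ∀ k, ∀ r ∈ Set.Ioo (-R) R, ‖g' k r‖ ≤ |s| * β * ((|s| * β * R) ^ k / k.factorial) := by
    intro k r hr
    have hβ := hB.nonneg
    have hrR : |r| ≤ R := (abs_lt.2 hr).le
    simp only [g']
    rw [norm_smul, norm_pow, Real.norm_eq_abs]
    have ht : ‖term B k r‖ ≤ (β * R) ^ k / k.factorial :=
      (norm_term_le hB k r).trans (by gcongr)
    refine (mul_le_mul_of_nonneg_left ((ContinuousLinearMap.opNorm_comp_le _ _).trans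
      (mul_le_mul (hB.le r) ht (norm_nonneg _) hβ))
      (by positivity)).trans (le_of_eq ?_)
    rw [pow_succ, mul_pow, mul_pow (|s| * β), mul_pow]
    ring
  have h0 : Summable fun k => g k q := (summable_sol hB s q).comp_injective Nat.succ_injective
  have h := hasDerivAt_tsum_of_isPreconnected ((summable_bound (|s| * β * R)).mul_left (|s| * β))
    isOpen_Ioo isPreconnected_Ioo (g := g) (g' := g')
    (fun k r _ => (hasDerivAt_term hB k r).const_smul (s ^ (k + 1))) hb hq h0 hq
  have e : sol B s = fun r => ContinuousLinearMap.id ℝ H + ∑' k, g k r := funext fun r => by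
    rw [sol, (summable_sol hB s r).tsum_eq_zero_add]
    simp [g, term]
  have e' : s • (B q).comp (sol B s q) = ∑' k, g' k q := by
    rw [sol]
    have hL := (ContinuousLinearMap.compL ℝ H H H (B q)).map_tsum (summable_sol hB s q)
    simp only [ContinuousLinearMap.compL_apply] at hL
    rw [hL, ← (Summable.of_norm_bounded ?_ ?_).tsum_const_smul s]
    · exact tsum_congr fun k => by simp [g', smul_smul, pow_succ, mul_comm]
    · exact fun k => ‖B q‖ * ((|s| * β * |q|) ^ k / k.factorial)
    · exact (summable_bound _).mul_left _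
    · intro k
      refine (ContinuousLinearMap.opNorm_comp_le _ _).trans ?_
      exact mul_le_mul_of_nonneg_left (norm_smul_term_le hB s q k) (norm_nonneg _)
  rw [e', e]
  exact h.const_add _

/-- The truncation error. -/
lemma norm_sol_sub_le (hB : Gen B β) (s q : ℝ) (N : ℕ) (hz : |s| * β * |q| ≤ 1 / 2) :
    ‖sol B s q - ∑ k ∈ Finset.range N, s ^ k • term B k q‖ ≤ 2 * (|s| * β * |q|) ^ N := by
  set z := |s| * β * |q| with hzdef
  have hz0 : 0 ≤ z := by have := hB.nonneg; positivity
  rw [sol, ← (summable_sol hB s q).sum_add_tsum_nat_add N, add_sub_cancel_left]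
  have hgeo : Summable fun k : ℕ => z ^ N * z ^ k :=
    (summable_geometric_of_lt_one hz0 (by linarith)).mul_left _
  refine (tsum_of_norm_bounded hgeo.hasSum fun k => ?_).trans ?_
  · refine (norm_smul_term_le hB s q (k + N)).trans ?_
    rw [← hzdef, ← pow_add, add_comm N k]
    exact div_le_self (by positivity) (by exact_mod_cast (k + N).factorial_pos)
  · rw [tsum_mul_left, tsum_geometric_of_lt_one hz0 (by linarith), mul_comm (2 : ℝ)]
    refine mul_le_mul_of_nonneg_left ?_ (by positivity)
    rw [inv_le_comm₀ (by linarith) two_pos]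
    linarith

/-- For skew `B` the solution is an isometry. -/
lemma inner_sol (hB : Gen B β) (hskew : ∀ r x, ⟪x, B r x⟫ = 0) (s q : ℝ) (x : H) :
    ‖sol B s q x‖ = ‖x‖ := by
  set f : ℝ → H := fun r => sol B s r x
  have hd : ∀ r, HasDerivAt (fun u => ‖f u‖ ^ 2) 0 r := by
    intro r
    have h : HasDerivAt f (s • B r (f r)) r := by
      have := (ContinuousLinearMap.apply ℝ H x).hasFDerivAt.comp_hasDerivAt r
        (hasDerivAt_sol hB s r)
      exact this
    have := h.norm_sq
    simpa [real_inner_smul_right, hskew] using this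
  have hc := is_const_of_deriv_eq_zero (fun r => (hd r).differentiableAt) (fun r => (hd r).deriv) q 0
  have : ‖f q‖ = ‖f 0‖ := (pow_left_inj₀ (norm_nonneg _) (norm_nonneg _) two_ne_zero).1 hc
  simpa [f, sol_zero] using this

end Vale.Agent.P347.Gamma0.Words
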